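/-
Row 269: MAXIMAL PASSAGE and KONTINUITAETSSATZ FOR PASSAGES.   Owner: helper149.   Imports only `Shape.lean`; usable by Sections 6, 7, 8, 9.

These two facts replace every "coherence of germs reached vertically", "filling of a moving graph" (P1 Lemma 9.7) and "analytic-disc" argument.

PROOFS (this file: K1-K4 = LEAF PACKAGE LF-S9k-max; K5 is in KontiSeries.lean, K6 in Konti.lean).
(K1) `s9k_eq_lift`: let `z = (x+iτ, t) ∈ R ∩ T`.  `attached` gives `η ≤ τ` with the vertical segment in `R`, base point in `T`, `S = lift` near the base point.  The fibre of the tube `T` over `(x,t)` is an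
     interval, so the segment lies in the open set `R ∩ T`.  `y ↦ S (y,t)` and `y ↦ lift (y,t)` are analytic at every point of the segment (one variable: `DifferentiableOn.analyticAt`), the segment is preconnected:
     `AnalyticOnNhd.eqOn_of_preconnected_of_eventuallyEq`.
     `s9k_eqOn`: `z ∈ R₁ ∩ R₂`, bases `η₁ ≤ η₂` (say).  The base point `b₂` lies in the open set `R₁ ∩ T`, where `S₁ = lift` by the first part; so `S₁ = S₂` near `b₂`; the segment `[η₂, τ]` lies in `R₁ ∩ R₂`; identity theorem.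
(K2) `s9k_tube`: `T` is open by `lsc_X` (and continuity of `conj`), the rest is `lift_diff`, `lift_mem`; `attached` with `η = Im z.1`.
(K3) `s9k_max`: union of all passages, `Smax z = S z` for any passage containing `z`.
(K4) `s9k_fibre`: vertical fibres of `Rmax` are order-connected: from both points go down to the tube (its fibre is an interval, and `T ⊆ Rmax`).
(K5) `s9k_series` (PURE SCV, no `Shape`).  `a_k t = (∂_y^k S)(γ t, t)/k!` is continuous on `closure Ω` and holomorphic in `Ω` (`S` is analytic on `R`: SCV library, differentiable => analytic on open sets of `ℂ × ℂ`).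
     For `t ∈ frontier Ω` the fibre function `w ↦ S (γ t + w, t)` is holomorphic on `ball 0 r₀` with `|Im| < H`: `Complex.borelCaratheodory_zero` gives `|S - S(γ t,t)| ≤ 4H` on `ball 0 (r₀/2)`... [apply it to `±i (S - S(γ t, t))`, whose real part is `≤ 2H`],
     Cauchy: `|a_k t| ≤ 4H (2/r₀)^k... ` for `k ≥ 1`.  Maximum modulus on the bounded open set `Ω` (`Complex.norm_le_of_forall_mem_frontier_norm_le`): the same bound on `closure Ω`.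
     `A (y,t) = ∑ a_k t (y - γ t)^k` converges uniformly on `|y - γ t| ≤ r < r₀/2`, `t ∈ closure Ω`; jointly holomorphic (Osgood from the SCV library, or `hasFDerivAt_tsum_of_isPreconnected`).  It equals `S` near `(γ t, t)` (Taylor series of the fibre function).
     For fixed `w`, `t ↦ A (γ t + w, t)` is continuous on `closure Ω`, equals `S (γ t + w, t)` on the frontier, where `|Im| < H`; compactness gives `|Im| ≤ H' < H` there, and the maximum modulus principle for `exp (∓ i A)` gives `|Im A| ≤ H'` in `Ω`.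
(K6) `s9k_konti`.  Downward induction on the level `σ = s₀ - j r₀/4`: assume `(g t - σ i, t) ∈ Rmax` for all `t ∈ closure Ω`.  This compact set has a `2ε`-neighbourhood in `Rmax`.  `s9k_series` with `γ = g - σ i`.
     `Rnew = {(y,t) : t ∈ Ω, |Re w| < ε, -ε < Im w < r₀/4}`, `w = y - γ t` (`ε ≤ r₀/8`), `Snew = A`.  `Snew = Smax` on `Rnew ∩ {|w| < 2ε}`; on `Rnew ∩ Rmax` by (K4) + identity theorem along the vertical segment from `Im w = -ε/2`.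
     So `Rmax ∪ Rnew` carries a passage (`attached`: go down to `Im w = -ε/2`, then use `attached` of `Rmax`); by maximality `Rnew ⊆ Rmax`.  Frontier points are covered by `hbd`.
-/
import Claimed.Agent.R269.Shape

set_option autoImplicit false

namespace Claimed.Agent.R269

open Complex Filter Topology Set Metric
open scoped ENNReal Real

namespace Shape

variable (Sh : Shape)

/-- identity theorem along a vertical segment with fixed parameter. -/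
theorem s9k_vert {R : Set (ℂ × ℂ)} (hR : IsOpen R) {S₁ S₂ : ℂ × ℂ → ℂ} (h₁ : DifferentiableOn ℂ S₁ R)
    (h₂ : DifferentiableOn ℂ S₂ R) (x η τ₀ : ℝ) (t : ℂ) (hητ : η ≤ τ₀)
    (hseg : ∀ τ ∈ Icc η τ₀, ((⟨x, τ⟩ : ℂ), t) ∈ R) (heq : S₁ =ᶠ[𝓝 ((⟨x, η⟩ : ℂ), t)] S₂) :
    ∀ τ ∈ Icc η τ₀, S₁ ((⟨x, τ⟩ : ℂ), t) = S₂ ((⟨x, τ⟩ : ℂ), t) := by
  set ι : ℂ → ℂ × ℂ := fun w => (w, t) with hι
  have hιc : Continuous ι := by fun_prop
  have hιd : Differentiable ℂ ι := by fun_prop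
  set U : Set ℂ := ι ⁻¹' R with hU
  have hUo : IsOpen U := hR.preimage hιc
  have hF₁ : DifferentiableOn ℂ (S₁ ∘ ι) U := h₁.comp hιd.differentiableOn (fun w hw => hw)
  have hF₂ : DifferentiableOn ℂ (S₂ ∘ ι) U := h₂.comp hιd.differentiableOn (fun w hw => hw)
  set σ : Set ℂ := (fun τ : ℝ => (⟨x, τ⟩ : ℂ)) '' Icc η τ₀ with hσ
  have hcont : Continuous (fun τ : ℝ => (⟨x, τ⟩ : ℂ)) := by
    have : (fun τ : ℝ => (⟨x, τ⟩ : ℂ)) = fun τ : ℝ => (x : ℂ) + τ * I := by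
      funext τ; apply Complex.ext <;> simp
    rw [this]; fun_prop
  have hσU : σ ⊆ U := by
    rintro _ ⟨τ, hτ, rfl⟩; exact hseg τ hτ
  have hσc : IsPreconnected σ := isPreconnected_Icc.image _ hcont.continuousOn
  have hA₁ : AnalyticOnNhd ℂ (S₁ ∘ ι) σ := (hF₁.analyticOnNhd hUo).mono hσU
  have hA₂ : AnalyticOnNhd ℂ (S₂ ∘ ι) σ := (hF₂.analyticOnNhd hUo).mono hσU
  have hbase : (⟨x, η⟩ : ℂ) ∈ σ := ⟨η, ⟨le_rfl, hητ⟩, rfl⟩
  have hev : (S₁ ∘ ι) =ᶠ[𝓝 (⟨x, η⟩ : ℂ)] (S₂ ∘ ι) :=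
    (hιc.tendsto (⟨x, η⟩ : ℂ)).eventually heq
  have := hA₁.eqOn_of_preconnected_of_eventuallyEq hA₂ hσc hbase hev
  intro τ hτ
  exact this ⟨τ, hτ, rfl⟩

/-- vertical fibres of the tube are intervals. -/
theorem s9k_T_fibre {x τ₁ τ₂ τ : ℝ} {t : ℂ} (h₁ : ((⟨x, τ₁⟩ : ℂ), t) ∈ Sh.T)
    (h₂ : ((⟨x, τ₂⟩ : ℂ), t) ∈ Sh.T) (hτ : τ ∈ Icc τ₁ τ₂) : ((⟨x, τ⟩ : ℂ), t) ∈ Sh.T := by
  refine ⟨h₁.1, ?_, ?_⟩
  · exact lt_of_le_of_lt (ENNReal.ofReal_le_ofReal hτ.2) h₂.2.1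
  · exact lt_of_le_of_lt (ENNReal.ofReal_le_ofReal (neg_le_neg hτ.1)) h₁.2.2

theorem s9k_T_open : IsOpen Sh.T := by
  rw [isOpen_iff_mem_nhds]
  rintro ⟨y, t⟩ ⟨ht, h1, h2⟩
  simp only at ht h1 h2
  obtain ⟨a, ha1, ha2⟩ := exists_between h1
  obtain ⟨b, hb1, hb2⟩ := exists_between h2
  have hct : (starRingEnd ℂ) t ∈ ball (0 : ℂ) Sh.ρ := by
    simpa [mem_ball_zero_iff] using ht
  have e1 : ∀ᶠ s in 𝓝 t, a < Sh.G.hX s := by
    have := Sh.lsc_X t ht a ha2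
    rwa [isOpen_ball.nhdsWithin_eq ht] at this
  have e2 : ∀ᶠ s in 𝓝 ((starRingEnd ℂ) t), b < Sh.G.hX s := by
    have := Sh.lsc_X _ hct b hb2
    rwa [isOpen_ball.nhdsWithin_eq hct] at this
  have e2' : ∀ᶠ s in 𝓝 t, b < Sh.G.hX ((starRingEnd ℂ) s) :=
    (Complex.continuous_conj.tendsto t).eventually e2
  have e3 : ∀ᶠ s in 𝓝 t, s ∈ ball (0 : ℂ) Sh.ρ := isOpen_ball.mem_nhds ht
  have c1 : Continuous fun w : ℂ => ENNReal.ofReal w.im :=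
    ENNReal.continuous_ofReal.comp Complex.continuous_im
  have c2 : Continuous fun w : ℂ => ENNReal.ofReal (-w.im) :=
    ENNReal.continuous_ofReal.comp Complex.continuous_im.neg
  have e4 : ∀ᶠ w in 𝓝 y, ENNReal.ofReal w.im < a := (c1.tendsto y).eventually (gt_mem_nhds ha1)
  have e5 : ∀ᶠ w in 𝓝 y, ENNReal.ofReal (-w.im) < b := (c2.tendsto y).eventually (gt_mem_nhds hb1)
  rw [nhds_prod_eq]
  have := (e4.and e5).prod_mk (e1.and (e2'.and e3))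
  filter_upwards [this] with z hz
  exact ⟨hz.2.2.2, hz.1.1.trans hz.2.1, hz.1.2.trans hz.2.2.1⟩

/-- LEAF K2: the tube with the lift is a passage. -/
theorem s9k_tube : Sh.IsPassage Sh.T Sh.lift where
  isOpen := Sh.s9k_T_open
  diff := Sh.lift_diff
  mem := Sh.lift_mem
  param := fun z hz => hz.1
  attached := fun z hz => by
    refine ⟨z.1.im, le_rfl, fun τ hτ => ?_, ?_, EventuallyEq.rfl⟩
    · have : τ = z.1.im := le_antisymm hτ.2 hτ.1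
      subst this
      simpa using hz
    · simpa using hz

/-- LEAF K1a: a passage coincides with the lift on the tube. -/
theorem s9k_eq_lift {R : Set (ℂ × ℂ)} {S : ℂ × ℂ → ℂ} (h : Sh.IsPassage R S) :
    EqOn S Sh.lift (R ∩ Sh.T) := by
  rintro ⟨y, t⟩ ⟨hzR, hzT⟩
  obtain ⟨η, hη, hseg, hbT, hev⟩ := h.attached _ hzR
  simp only at hη hseg hbT hev
  have hyT : ((⟨y.re, y.im⟩ : ℂ), t) ∈ Sh.T := by simpa using hzT
  have := s9k_vert (h.isOpen.inter Sh.s9k_T_open) (h.diff.mono inter_subset_left)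
    (Sh.lift_diff.mono inter_subset_right) y.re η y.im t hη
    (fun τ hτ => ⟨hseg τ hτ, Sh.s9k_T_fibre hbT hyT hτ⟩) hev y.im ⟨hη, le_rfl⟩
  simpa using this

theorem s9k_eqOn_aux {R₁ R₂ : Set (ℂ × ℂ)} {S₁ S₂ : ℂ × ℂ → ℂ} (h₁ : Sh.IsPassage R₁ S₁)
    (h₂ : Sh.IsPassage R₂ S₂) (y t : ℂ) (η₁ η₂ : ℝ) (h12 : η₁ ≤ η₂) (hη₂ : η₂ ≤ y.im)
    (hseg₁ : ∀ τ ∈ Icc η₁ y.im, ((⟨y.re, τ⟩ : ℂ), t) ∈ R₁)
    (hseg₂ : ∀ τ ∈ Icc η₂ y.im, ((⟨y.re, τ⟩ : ℂ), t) ∈ R₂)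
    (hbT₂ : ((⟨y.re, η₂⟩ : ℂ), t) ∈ Sh.T) (hev₂ : S₂ =ᶠ[𝓝 ((⟨y.re, η₂⟩ : ℂ), t)] Sh.lift) :
    S₁ (y, t) = S₂ (y, t) := by
  have hb1 : ((⟨y.re, η₂⟩ : ℂ), t) ∈ R₁ ∩ Sh.T := ⟨hseg₁ η₂ ⟨h12, hη₂⟩, hbT₂⟩
  have hev₁ : S₁ =ᶠ[𝓝 ((⟨y.re, η₂⟩ : ℂ), t)] Sh.lift := by
    filter_upwards [(h₁.isOpen.inter Sh.s9k_T_open).mem_nhds hb1] with z hz
    exact Sh.s9k_eq_lift h₁ hz
  have := s9k_vert (h₁.isOpen.inter h₂.isOpen) (h₁.diff.mono inter_subset_left)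
    (h₂.diff.mono inter_subset_right) y.re η₂ y.im t hη₂
    (fun τ hτ => ⟨hseg₁ τ ⟨h12.trans hτ.1, hτ.2⟩, hseg₂ τ hτ⟩) (hev₁.trans hev₂.symm) y.im ⟨hη₂, le_rfl⟩
  simpa using this

/-- LEAF K1b: two passages coincide on their intersection. -/
theorem s9k_eqOn {R₁ R₂ : Set (ℂ × ℂ)} {S₁ S₂ : ℂ × ℂ → ℂ} (h₁ : Sh.IsPassage R₁ S₁)
    (h₂ : Sh.IsPassage R₂ S₂) : EqOn S₁ S₂ (R₁ ∩ R₂) := by
  rintro ⟨y, t⟩ ⟨hz₁, hz₂⟩
  obtain ⟨η₁, hη₁, hseg₁, hbT₁, hev₁⟩ := h₁.attached _ hz₁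
  obtain ⟨η₂, hη₂, hseg₂, hbT₂, hev₂⟩ := h₂.attached _ hz₂
  simp only at hη₁ hseg₁ hbT₁ hev₁ hη₂ hseg₂ hbT₂ hev₂
  rcases le_total η₁ η₂ with h12 | h12
  · exact Sh.s9k_eqOn_aux h₁ h₂ y t η₁ η₂ h12 hη₂ hseg₁ hseg₂ hbT₂ hev₂
  · exact (Sh.s9k_eqOn_aux h₂ h₁ y t η₂ η₁ h12 hη₁ hseg₂ hseg₁ hbT₁ hev₁).symm

/-- the domain of the maximal passage. -/
def s9Rmax : Set (ℂ × ℂ) := {z | ∃ (R : Set (ℂ × ℂ)) (S : ℂ × ℂ → ℂ), Sh.IsPassage R S ∧ z ∈ R}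

open Classical in
/-- the maximal passage. -/
noncomputable def s9Smax (z : ℂ × ℂ) : ℂ :=
  if h : ∃ (R : Set (ℂ × ℂ)) (S : ℂ × ℂ → ℂ), Sh.IsPassage R S ∧ z ∈ R then h.choose_spec.choose z else 0

/-- LEAF K3': maximality. -/
theorem s9k_max_spec {R : Set (ℂ × ℂ)} {S : ℂ × ℂ → ℂ} (h : Sh.IsPassage R S) :
    R ⊆ Sh.s9Rmax ∧ EqOn S Sh.s9Smax R := by
  refine ⟨fun z hz => ⟨R, S, h, hz⟩, fun z hz => ?_⟩
  have hex : ∃ (R : Set (ℂ × ℂ)) (S : ℂ × ℂ → ℂ), Sh.IsPassage R S ∧ z ∈ R := ⟨R, S, h, hz⟩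
  unfold s9Smax
  rw [dif_pos hex]
  exact Sh.s9k_eqOn h hex.choose_spec.choose_spec.1 ⟨hz, hex.choose_spec.choose_spec.2⟩

/-- LEAF K3: the union of all passages is a passage. -/
theorem s9k_max : Sh.IsPassage Sh.s9Rmax Sh.s9Smax where
  isOpen := by
    rw [isOpen_iff_forall_mem_open]
    rintro z ⟨R, S, h, hz⟩
    exact ⟨R, (Sh.s9k_max_spec h).1, h.isOpen, hz⟩
  diff := by
    rintro z ⟨R, S, h, hz⟩
    have h1 : DifferentiableAt ℂ S z := (h.diff z hz).differentiableAt (h.isOpen.mem_nhds hz)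
    have h2 : Sh.s9Smax =ᶠ[𝓝 z] S := by
      filter_upwards [h.isOpen.mem_nhds hz] with w hw
      exact ((Sh.s9k_max_spec h).2 hw).symm
    exact (h2.differentiableAt_iff.2 h1).differentiableWithinAt
  mem := by
    rintro z ⟨R, S, h, hz⟩
    rw [← (Sh.s9k_max_spec h).2 hz]
    exact h.mem z hz
  param := by
    rintro z ⟨R, S, h, hz⟩
    exact h.param z hz
  attached := by
    rintro z ⟨R, S, h, hz⟩
    obtain ⟨η, hη, hseg, hbT, hev⟩ := h.attached z hz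
    refine ⟨η, hη, fun τ hτ => (Sh.s9k_max_spec h).1 (hseg τ hτ), hbT, ?_⟩
    have h2 : Sh.s9Smax =ᶠ[𝓝 ((⟨z.1.re, η⟩ : ℂ), z.2)] S := by
      filter_upwards [h.isOpen.mem_nhds (hseg η ⟨le_rfl, hη⟩)] with w hw
      exact ((Sh.s9k_max_spec h).2 hw).symm
    exact h2.trans hev

/-- LEAF K4: vertical fibres of the maximal passage are intervals. -/
theorem s9k_fibre (x τ₁ τ₂ τ : ℝ) (t : ℂ) (h₁ : ((⟨x, τ₁⟩ : ℂ), t) ∈ Sh.s9Rmax)
    (h₂ : ((⟨x, τ₂⟩ : ℂ), t) ∈ Sh.s9Rmax) (hτ : τ ∈ Icc τ₁ τ₂) : ((⟨x, τ⟩ : ℂ), t) ∈ Sh.s9Rmax := by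
  obtain ⟨η₁, hη₁, -, hbT₁, -⟩ := Sh.s9k_max.attached _ h₁
  obtain ⟨η₂, hη₂, hseg₂, hbT₂, -⟩ := Sh.s9k_max.attached _ h₂
  simp only at hη₁ hbT₁ hη₂ hseg₂ hbT₂
  rcases le_total η₂ τ with h | h
  · exact hseg₂ τ ⟨h, hτ.2⟩
  · exact (Sh.s9k_max_spec Sh.s9k_tube).1 (Sh.s9k_T_fibre hbT₁ hbT₂ ⟨hη₁.trans hτ.1, h⟩)

end Shape

end Claimed.Agent.R269
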