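/-
Row 269: LEAF PACKAGE LF-S9k-series (pure SCV, no paper, no `Shape`).   Blueprint: helper149.   The proof sketch is item (K5) in the header of `S9/PassageMax.lean`.
SCV facts (differentiable on an open subset of `ℂ × ℂ` => analytic; Osgood) : ask helper270 (R269/Lib/SCV*.lean).
-/
import Claimed.Agent.R269.Lib.SCV

set_option autoImplicit false

namespace Claimed.Agent.R269

open Complex Filter Topology Set Metric
open scoped ENNReal Real

/-- partial derivative in the first variable. -/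
noncomputable def s9k_dy (f : ℂ × ℂ → ℂ) (z : ℂ × ℂ) : ℂ := fderiv ℂ f z (1, 0)

theorem s9k_dy_analytic {f : ℂ × ℂ → ℂ} {R : Set (ℂ × ℂ)} (hf : AnalyticOnNhd ℂ f R) :
    AnalyticOnNhd ℂ (s9k_dy f) R :=
  (ContinuousLinearMap.apply ℂ ℂ ((1 : ℂ), (0 : ℂ))).comp_analyticOnNhd hf.fderiv

theorem s9k_dy_hasDerivAt {f : ℂ × ℂ → ℂ} {y t : ℂ} (hf : DifferentiableAt ℂ f (y, t)) :
    HasDerivAt (fun y' => f (y', t)) (s9k_dy f (y, t)) y := by
  have h1 : HasDerivAt (fun y' : ℂ => (y', t)) ((1 : ℂ), (0 : ℂ)) y :=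
    (hasDerivAt_id y).prodMk (hasDerivAt_const y t)
  exact hf.hasFDerivAt.comp_hasDerivAt y h1

theorem s9k_iter_analytic {S : ℂ × ℂ → ℂ} {R : Set (ℂ × ℂ)} (hS : AnalyticOnNhd ℂ S R) (k : ℕ) :
    AnalyticOnNhd ℂ (s9k_dy^[k] S) R := by
  induction k with
  | zero => exact hS
  | succ k ih =>
    rw [Function.iterate_succ_apply']
    exact s9k_dy_analytic ih

theorem s9k_iteratedDeriv {S : ℂ × ℂ → ℂ} {R : Set (ℂ × ℂ)} (hR : IsOpen R)
    (hS : AnalyticOnNhd ℂ S R) (t : ℂ) (k : ℕ) :
    ∀ y : ℂ, (y, t) ∈ R → iteratedDeriv k (fun y' => S (y', t)) y = (s9k_dy^[k] S) (y, t) := by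
  induction k with
  | zero => intro y _; simp
  | succ k ih =>
    intro y hy
    rw [iteratedDeriv_succ, Function.iterate_succ_apply']
    have hcont : Continuous (fun y' : ℂ => (y', t)) := by fun_prop
    have hev : iteratedDeriv k (fun y' => S (y', t)) =ᶠ[𝓝 y] fun y' => (s9k_dy^[k] S) (y', t) := by
      filter_upwards [(hR.preimage hcont).mem_nhds hy] with y' hy'
      exact ih y' hy'
    rw [hev.deriv_eq]
    exact (s9k_dy_hasDerivAt ((s9k_iter_analytic hS k) _ hy).differentiableAt).deriv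

theorem s9k_iteratedDeriv_sub_const (f : ℂ → ℂ) (c : ℂ) (k : ℕ) (y : ℂ) :
    iteratedDeriv (k + 1) (fun y' => f y' - c) y = iteratedDeriv (k + 1) f y := by
  rw [iteratedDeriv_succ', iteratedDeriv_succ']
  congr 1
  funext x
  exact deriv_sub_const c

/-- Cauchy estimate for a function with bounded imaginary part. -/
theorem s9k_cauchy_im {f : ℂ → ℂ} {c : ℂ} {r₀ H : ℝ} (hr₀ : 0 < r₀)
    (hf : DifferentiableOn ℂ f (ball c r₀)) (hH : ∀ y ∈ ball c r₀, |(f y).im| < H) (k : ℕ) :
    ‖iteratedDeriv (k + 1) f c‖ ≤ (k + 1).factorial * (4 * H) / (r₀ / 2) ^ (k + 1) := by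
  have hc : c ∈ ball c r₀ := mem_ball_self hr₀
  have hHpos : 0 < H := lt_of_le_of_lt (abs_nonneg _) (hH c hc)
  rw [← s9k_iteratedDeriv_sub_const f (f c)]
  have hsub : closedBall c (r₀ / 2) ⊆ ball c r₀ := closedBall_subset_ball (by linarith)
  apply Complex.norm_iteratedDeriv_le_of_forall_mem_sphere_norm_le (k + 1) (by positivity)
  · have : DifferentiableOn ℂ (fun y' => f y' - f c) (closedBall c (r₀ / 2)) :=
      (hf.mono hsub).sub_const _
    exact this.diffContOnCl_ball subset_rfl
  · intro z hz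
    -- Borel-Caratheodory
    set g : ℂ → ℂ := fun w => -I * (f (c + w) - f c) with hg
    have hmaps : MapsTo (fun w : ℂ => c + w) (ball (0 : ℂ) r₀) (ball c r₀) := by
      intro w hw
      rw [mem_ball_zero_iff] at hw
      rw [mem_ball, dist_eq_norm]
      simpa using hw
    have hgd : DifferentiableOn ℂ g (ball 0 r₀) := by
      apply DifferentiableOn.const_mul
      apply DifferentiableOn.sub_const
      exact hf.comp (by fun_prop) hmaps
    have hgre : MapsTo g (ball 0 r₀) {z | z.re ≤ 2 * H} := by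
      intro w hw
      have h1 := hH _ (hmaps hw)
      have h2 := hH c hc
      have h3 : (g w).re = (f (c + w)).im - (f c).im := by
        simp [hg]
      show (g w).re ≤ 2 * H
      rw [h3]
      have := abs_lt.mp h1
      have := abs_lt.mp h2
      linarith
    have hzn : ‖z - c‖ = r₀ / 2 := by rwa [mem_sphere, dist_eq_norm] at hz
    have hzb : z - c ∈ ball (0 : ℂ) r₀ := by
      rw [mem_ball_zero_iff, hzn]; linarith
    have hBC := Complex.borelCaratheodory_zero (by positivity) hgd hgre hr₀ hzb (by simp [hg])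
    have e1 : ‖g (z - c)‖ = ‖f z - f c‖ := by
      simp [hg]
    rw [e1, hzn] at hBC
    refine hBC.trans (le_of_eq ?_)
    field_simp
    ring

/-- maximum principle for the imaginary part, with strict inequality. -/
theorem s9k_im_lt {Ω : Set ℂ} (hΩb : Bornology.IsBounded Ω) {B : ℂ → ℂ} (hB : DiffContOnCl ℂ B Ω)
    {H : ℝ} (hfr : ∀ t ∈ frontier Ω, |(B t).im| < H) : ∀ t ∈ closure Ω, |(B t).im| < H := by
  have hcomp : IsCompact (frontier Ω) :=
    Metric.isCompact_of_isClosed_isBounded isClosed_frontier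
      (hΩb.closure.subset frontier_subset_closure)
  have hcont : ContinuousOn (fun t => |(B t).im|) (frontier Ω) :=
    (Complex.continuous_im.comp_continuousOn
      (hB.continuousOn.mono frontier_subset_closure)).abs
  obtain ⟨H', hH', hle⟩ : ∃ H' < H, ∀ t ∈ frontier Ω, |(B t).im| ≤ H' := by
    rcases (frontier Ω).eq_empty_or_nonempty with he | hne
    · exact ⟨H - 1, by linarith, by simp [he]⟩
    · obtain ⟨t₀, ht₀, hmax⟩ := hcomp.exists_isMaxOn hne hcont
      exact ⟨_, hfr t₀ ht₀, fun t ht => hmax ht⟩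
  intro t ht
  have h1 : DiffContOnCl ℂ (fun t => Complex.exp (-I * B t)) Ω :=
    Complex.differentiable_exp.comp_diffContOnCl (hB.const_smul (-I))
  have h2 : DiffContOnCl ℂ (fun t => Complex.exp (I * B t)) Ω :=
    Complex.differentiable_exp.comp_diffContOnCl (hB.const_smul I)
  have n1 : ∀ s, ‖Complex.exp (-I * B s)‖ = Real.exp (B s).im := by
    intro s; rw [Complex.norm_exp]; simp
  have n2 : ∀ s, ‖Complex.exp (I * B s)‖ = Real.exp (-(B s).im) := by
    intro s; rw [Complex.norm_exp]; simp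
  have b1 := Complex.norm_le_of_forall_mem_frontier_norm_le hΩb h1 (C := Real.exp H')
    (fun s hs => by
      rw [n1]; exact Real.exp_le_exp.mpr ((le_abs_self _).trans (hle s hs))) ht
  have b2 := Complex.norm_le_of_forall_mem_frontier_norm_le hΩb h2 (C := Real.exp H')
    (fun s hs => by
      rw [n2]; exact Real.exp_le_exp.mpr ((neg_le_abs _).trans (hle s hs))) ht
  rw [n1] at b1
  rw [n2] at b2
  have c1 := Real.exp_le_exp.mp b1
  have c2 := Real.exp_le_exp.mp b2
  rw [abs_lt]
  constructor <;> linarith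

/-- LEAF K5 (pure SCV): extension of a holomorphic function with bounded imaginary part along an analytic disc, by Cauchy estimates on the boundary of the disc and the maximum
principle for the Taylor coefficients. -/
theorem s9k_series (R : Set (ℂ × ℂ)) (hR : IsOpen R) (S : ℂ × ℂ → ℂ) (hS : DifferentiableOn ℂ S R)
    (H : ℝ) (hSH : ∀ z ∈ R, |(S z).im| < H) (Ω : Set ℂ) (hΩ : IsOpen Ω) (hΩb : Bornology.IsBounded Ω)
    (γ : ℂ → ℂ) (hγ : DiffContOnCl ℂ γ Ω) (r₀ : ℝ) (hr₀ : 0 < r₀)
    (hin : ∀ t ∈ closure Ω, (γ t, t) ∈ R)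
    (hbd : ∀ t ∈ frontier Ω, ∀ y ∈ ball (γ t) r₀, (y, t) ∈ R) :
    ∃ A : ℂ × ℂ → ℂ, DifferentiableOn ℂ A {z | z.2 ∈ Ω ∧ z.1 ∈ ball (γ z.2) (r₀ / 2)} ∧
      (∀ z : ℂ × ℂ, z.2 ∈ Ω → z.1 ∈ ball (γ z.2) (r₀ / 2) → |(A z).im| < H) ∧
      ∀ t ∈ Ω, A =ᶠ[𝓝 (γ t, t)] S := by
  have hSa : AnalyticOnNhd ℂ S R := analyticOnNhd_of_differentiableOn₂ hR hS
  set a : ℕ → ℂ → ℂ := fun k t => ((k.factorial : ℂ))⁻¹ * (s9k_dy^[k] S) (γ t, t) with ha
  have hgc : ContinuousOn (fun t => (γ t, t)) (closure Ω) := hγ.continuousOn.prodMk continuousOn_id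
  have hgd : DifferentiableOn ℂ (fun t => (γ t, t)) Ω :=
    hγ.differentiableOn.prodMk differentiableOn_id
  have ha_dc : ∀ k, DiffContOnCl ℂ (a k) Ω := by
    intro k
    constructor
    · apply DifferentiableOn.const_mul
      exact ((s9k_iter_analytic hSa k).differentiableOn).comp hgd
        (fun t ht => hin t (subset_closure ht))
    · apply ContinuousOn.mul continuousOn_const
      exact ((s9k_iter_analytic hSa k).continuousOn).comp hgc (fun t ht => hin t ht)
  have hslice : ∀ (t : ℂ) (ρ : ℝ), (∀ y ∈ ball (γ t) ρ, (y, t) ∈ R) →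
      DifferentiableOn ℂ (fun y' => S (y', t)) (ball (γ t) ρ) := by
    intro t ρ hρ
    exact hS.comp (by fun_prop) (fun y hy => hρ y hy)
  -- the Taylor series of the fibre functions
  have hT : ∀ t ∈ closure Ω, ∀ ρ : ℝ, (∀ y ∈ ball (γ t) ρ, (y, t) ∈ R) →
      ∀ y ∈ ball (γ t) ρ, ∑' k, a k t * (y - γ t) ^ k = S (y, t) := by
    intro t ht ρ hρ y hy
    have := Complex.taylorSeries_eq_on_ball' hy (hslice t ρ hρ)
    rw [← this]
    refine tsum_congr (fun k => ?_)
    rw [s9k_iteratedDeriv hR hSa t k (γ t) (hin t ht)]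
  -- bounds of the coefficients
  have hK : IsCompact (closure Ω) := hΩb.isCompact_closure
  obtain ⟨C₀, hC₀⟩ := hK.exists_bound_of_continuousOn (ha_dc 0).continuousOn
  set C : ℝ := max C₀ 0 + 4 * |H| with hC
  have hC0 : 0 ≤ C := by positivity
  have hbound : ∀ k, ∀ t ∈ closure Ω, ‖a k t‖ ≤ C * (2 / r₀) ^ k := by
    intro k
    cases k with
    | zero =>
      intro t ht
      rw [pow_zero, mul_one]
      have h1 := hC₀ t ht
      have h2 := le_max_left C₀ 0
      have h3 := abs_nonneg H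
      linarith
    | succ k =>
      intro t ht
      apply Complex.norm_le_of_forall_mem_frontier_norm_le hΩb (ha_dc (k + 1)) _ ht
      intro s hs
      have hs' : s ∈ closure Ω := frontier_subset_closure hs
      have hc := s9k_cauchy_im hr₀ (hslice s r₀ (hbd s hs)) (fun y hy => hSH _ (hbd s hs y hy)) k
      rw [s9k_iteratedDeriv hR hSa s (k + 1) (γ s) (hin s hs')] at hc
      have hfac : (0 : ℝ) < ((k + 1).factorial : ℝ) := by exact_mod_cast Nat.factorial_pos _
      have e1 : ‖a (k + 1) s‖ = ((k + 1).factorial : ℝ)⁻¹ * ‖(s9k_dy^[k + 1] S) (γ s, s)‖ := by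
        simp only [ha, norm_mul, norm_inv, Complex.norm_natCast]
      rw [e1]
      calc ((k + 1).factorial : ℝ)⁻¹ * ‖(s9k_dy^[k + 1] S) (γ s, s)‖
          ≤ ((k + 1).factorial : ℝ)⁻¹ * ((k + 1).factorial * (4 * H) / (r₀ / 2) ^ (k + 1)) := by
            gcongr
        _ = 4 * H * (2 / r₀) ^ (k + 1) := by
            rw [div_pow, div_pow]; field_simp
        _ ≤ C * (2 / r₀) ^ (k + 1) := by
            have h2 := le_max_right C₀ 0
            have h3 := le_abs_self H
            gcongr
            linarith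
  set A : ℂ × ℂ → ℂ := fun z => ∑' k, a k z.2 * (z.1 - γ z.2) ^ k with hA
  set F : ℕ → ℂ × ℂ → ℂ := fun N z => ∑ k ∈ Finset.range N, a k z.2 * (z.1 - γ z.2) ^ k with hF
  have hunif : ∀ r : ℝ, 0 ≤ r → r < r₀ / 2 →
      TendstoUniformlyOn F A atTop {z | z.2 ∈ closure Ω ∧ ‖z.1 - γ z.2‖ ≤ r} := by
    intro r hr0 hr
    have hq : 2 / r₀ * r < 1 := by
      rw [div_mul_eq_mul_div, div_lt_one hr₀]; linarith
    have hsum : Summable (fun k : ℕ => C * (2 / r₀ * r) ^ k) :=
      (summable_geometric_of_lt_one (by positivity) hq).mul_left C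
    apply tendstoUniformlyOn_tsum_nat hsum
    intro k z hz
    rw [norm_mul, norm_pow, mul_pow, ← mul_assoc]
    exact mul_le_mul (hbound k z.2 hz.1) (pow_le_pow_left₀ (norm_nonneg _) hz.2 k)
      (by positivity) (by positivity)
  -- continuity of the partial sums
  have hFc : ∀ N, ContinuousOn (F N) {z | z.2 ∈ closure Ω} := by
    intro N
    apply continuousOn_finsetSum
    intro k _
    apply ContinuousOn.mul
    · exact (ha_dc k).continuousOn.comp continuousOn_snd (fun z hz => hz)
    · apply ContinuousOn.pow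
      exact continuousOn_fst.sub (hγ.continuousOn.comp continuousOn_snd (fun z hz => hz))
  have hAc : ∀ r : ℝ, 0 ≤ r → r < r₀ / 2 →
      ContinuousOn A {z | z.2 ∈ closure Ω ∧ ‖z.1 - γ z.2‖ ≤ r} := by
    intro r hr0 hr
    exact (hunif r hr0 hr).continuousOn
      (Filter.Frequently.of_forall (fun N => (hFc N).mono (fun z hz => hz.1)))
  have hDo : ∀ r : ℝ, IsOpen {z : ℂ × ℂ | z.2 ∈ Ω ∧ z.1 ∈ ball (γ z.2) r} := by
    intro r
    have h1 : IsOpen {z : ℂ × ℂ | z.2 ∈ Ω} := hΩ.preimage continuous_snd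
    have h2 : ContinuousOn (fun z : ℂ × ℂ => dist z.1 (γ z.2)) {z : ℂ × ℂ | z.2 ∈ Ω} :=
      continuous_dist.comp_continuousOn (ContinuousOn.prodMk continuousOn_fst
        ((hγ.continuousOn.mono subset_closure).comp continuousOn_snd (fun z hz => hz)))
    exact h2.isOpen_inter_preimage h1 isOpen_Iio
  have hAd : DifferentiableOn ℂ A {z | z.2 ∈ Ω ∧ z.1 ∈ ball (γ z.2) (r₀ / 2)} := by
    refine (osgood (hDo _) ?_ ?_ ?_).differentiableOn
    · rintro z ⟨hz1, hz2⟩
      rw [mem_ball, dist_eq_norm] at hz2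
      obtain ⟨r, hr1, hr2⟩ := exists_between hz2
      have hr0 : 0 ≤ r := (norm_nonneg _).trans hr1.le
      have hsub : {z : ℂ × ℂ | z.2 ∈ Ω ∧ z.1 ∈ ball (γ z.2) r} ⊆
          {z | z.2 ∈ closure Ω ∧ ‖z.1 - γ z.2‖ ≤ r} := by
        rintro w ⟨hw1, hw2⟩
        rw [mem_ball, dist_eq_norm] at hw2
        exact ⟨subset_closure hw1, hw2.le⟩
      have hz' : z ∈ {z : ℂ × ℂ | z.2 ∈ Ω ∧ z.1 ∈ ball (γ z.2) r} :=
        ⟨hz1, by rw [mem_ball, dist_eq_norm]; exact hr1⟩
      exact (((hAc r hr0 hr2).mono hsub).continuousAt ((hDo r).mem_nhds hz')).continuousWithinAt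
    · rintro z ⟨hz1, hz2⟩
      rw [mem_ball, dist_eq_norm] at hz2
      obtain ⟨r, hr1, hr2⟩ := exists_between hz2
      have hr0 : 0 ≤ r := (norm_nonneg _).trans hr1.le
      have hu := ((hunif r hr0 hr2).comp (fun y : ℂ => (y, z.2))).mono
        (show ball (γ z.2) r ⊆ _ from fun y hy => by
          rw [mem_ball, dist_eq_norm] at hy
          exact ⟨subset_closure hz1, hy.le⟩)
      have hd := hu.tendstoLocallyUniformlyOn.differentiableOn
        (Filter.Eventually.of_forall (fun N => by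
          show DifferentiableOn ℂ (fun y : ℂ => F N (y, z.2)) _
          simp only [hF]
          fun_prop)) isOpen_ball
      exact hd.differentiableAt (isOpen_ball.mem_nhds (by rw [mem_ball, dist_eq_norm]; exact hr1))
    · rintro z ⟨hz1, hz2⟩
      rw [mem_ball, dist_eq_norm] at hz2
      obtain ⟨r, hr1, hr2⟩ := exists_between hz2
      have hr0 : 0 ≤ r := (norm_nonneg _).trans hr1.le
      have hVo : IsOpen (Ω ∩ (fun t => dist z.1 (γ t)) ⁻¹' Iio r) :=
        (continuous_dist.comp_continuousOn (ContinuousOn.prodMk continuousOn_const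
          (hγ.continuousOn.mono subset_closure))).isOpen_inter_preimage hΩ isOpen_Iio
      have hu := ((hunif r hr0 hr2).comp (fun t : ℂ => (z.1, t))).mono
        (show Ω ∩ (fun t => dist z.1 (γ t)) ⁻¹' Iio r ⊆ _ from fun t ht => by
          have h2 : dist z.1 (γ t) < r := ht.2
          rw [dist_eq_norm] at h2
          exact ⟨subset_closure ht.1, h2.le⟩)
      have hd := hu.tendstoLocallyUniformlyOn.differentiableOn
        (Filter.Eventually.of_forall (fun N => by
          show DifferentiableOn ℂ (fun t : ℂ => F N (z.1, t)) _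
          simp only [hF]
          apply DifferentiableOn.fun_sum
          intro k _
          apply DifferentiableOn.mul
          · exact (ha_dc k).differentiableOn.mono inter_subset_left
          · apply DifferentiableOn.pow
            exact (differentiableOn_const _).sub (hγ.differentiableOn.mono inter_subset_left)))
        hVo
      exact hd.differentiableAt (hVo.mem_nhds ⟨hz1, by
        show dist z.1 (γ z.2) < r
        rw [dist_eq_norm]; exact hr1⟩)
  refine ⟨A, hAd, ?_, ?_⟩
  · -- the imaginary part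
    intro z hz1 hz2
    set w : ℂ := z.1 - γ z.2 with hw
    have hwn : ‖w‖ < r₀ / 2 := by rwa [mem_ball, dist_eq_norm] at hz2
    have hB : DiffContOnCl ℂ (fun t => A (γ t + w, t)) Ω := by
      constructor
      · refine hAd.comp ((hγ.differentiableOn.add_const w).prodMk differentiableOn_id) ?_
        intro t ht
        refine ⟨ht, ?_⟩
        rw [mem_ball, dist_eq_norm]
        simpa using hwn
      · refine (hAc ‖w‖ (norm_nonneg _) hwn).comp
          ((hγ.continuousOn.add continuousOn_const).prodMk continuousOn_id) ?_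
        intro t ht
        refine ⟨ht, ?_⟩
        simp
    have hfr : ∀ t ∈ frontier Ω, |((fun t => A (γ t + w, t)) t).im| < H := by
      intro t ht
      have hy : γ t + w ∈ ball (γ t) r₀ := by
        rw [mem_ball, dist_eq_norm]
        have : γ t + w - γ t = w := by ring
        rw [this]; linarith
      have := hT t (frontier_subset_closure ht) r₀ (hbd t ht) _ hy
      show |(A (γ t + w, t)).im| < H
      rw [show A (γ t + w, t) = S (γ t + w, t) from this]
      exact hSH _ (hbd t ht _ hy)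
    have := s9k_im_lt hΩb hB hfr z.2 (subset_closure hz1)
    have e : (γ z.2 + w, z.2) = z := by
      rw [hw]; ext <;> simp
    simp only [e] at this
    exact this
  · -- the germ on the graph
    intro t₀ ht₀
    obtain ⟨δ, hδ, hball⟩ := Metric.isOpen_iff.mp hR _ (hin t₀ (subset_closure ht₀))
    have hγc : ContinuousAt γ t₀ :=
      (hγ.differentiableOn.differentiableAt (hΩ.mem_nhds ht₀)).continuousAt
    have e1 : ∀ᶠ t in 𝓝 t₀, t ∈ Ω := hΩ.mem_nhds ht₀
    have e2 : ∀ᶠ t in 𝓝 t₀, dist t t₀ < δ := ball_mem_nhds t₀ hδ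
    have e3 : ∀ᶠ t in 𝓝 t₀, dist (γ t) (γ t₀) < δ / 4 :=
      hγc.eventually (ball_mem_nhds _ (by positivity))
    have e4 : ∀ᶠ y in 𝓝 (γ t₀), dist y (γ t₀) < δ / 4 := ball_mem_nhds _ (by positivity)
    rw [nhds_prod_eq]
    filter_upwards [e4.prod_mk (e1.and (e2.and e3))] with z hz
    obtain ⟨h4, h1, h2, h3⟩ := hz
    refine hT z.2 (subset_closure h1) (δ / 2) ?_ z.1 ?_
    · intro y hy
      apply hball
      rw [mem_ball, Prod.dist_eq, max_lt_iff]
      refine ⟨?_, h2⟩
      have := dist_triangle y (γ z.2) (γ t₀)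
      rw [mem_ball] at hy
      show dist y (γ t₀) < δ
      linarith
    · rw [mem_ball]
      have := dist_triangle_right z.1 (γ z.2) (γ t₀)
      linarith

end Claimed.Agent.R269
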