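/-
Row 269: LEAF PACKAGE LF-S9k-konti.   Blueprint: helper149.   The proof sketch is item (K6) in the header of `S9/PassageMax.lean`; K1-K5 are black boxes.
-/
import Claimed.Agent.R269.S9.PassageMax
import Claimed.Agent.R269.S9.KontiSeries

set_option autoImplicit false

namespace Claimed.Agent.R269

open Complex Filter Topology Set Metric
open scoped ENNReal Real

/-- one step of the Kontinuitaetssatz: the disc can be pushed up by any amount `< r₀ / 4`. -/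
theorem Shape.s9k_konti_step (Sh : Shape) (hH : Sh.H ≠ ⊤) (Ω : Set ℂ) (hΩ : IsOpen Ω)
    (hΩρ : closure Ω ⊆ ball (0 : ℂ) Sh.ρ) (γ : ℂ → ℂ) (hγ : DiffContOnCl ℂ γ Ω) (r₀ : ℝ)
    (hr₀ : 0 < r₀) (hin : ∀ t ∈ closure Ω, (γ t, t) ∈ Sh.s9Rmax)
    (hbd : ∀ t ∈ frontier Ω, ∀ y ∈ ball (γ t) r₀, (y, t) ∈ Sh.s9Rmax) :
    ∀ t ∈ Ω, ∀ s ∈ Ico (0 : ℝ) (r₀ / 4), (γ t + (s : ℂ) * I, t) ∈ Sh.s9Rmax := by
  classical
  have hmax := Sh.s9k_max
  have hΩb : Bornology.IsBounded Ω := (isBounded_ball.subset hΩρ).subset subset_closure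
  have hK : IsCompact (closure Ω) := hΩb.isCompact_closure
  have hIm : ∀ z ∈ Sh.s9Rmax, |(Sh.s9Smax z).im| < Sh.Hr := by
    intro z hz
    exact (ENNReal.ofReal_lt_iff_lt_toReal (abs_nonneg _) hH).mp (hmax.mem z hz)
  obtain ⟨A, hAd, hAim, hAgerm⟩ := s9k_series Sh.s9Rmax hmax.isOpen Sh.s9Smax hmax.diff Sh.Hr hIm
    Ω hΩ hΩb γ hγ r₀ hr₀ hin hbd
  -- a uniform neighbourhood of the graph
  have hKc : IsCompact ((fun t => (γ t, t)) '' closure Ω) :=
    hK.image_of_continuousOn (hγ.continuousOn.prodMk continuousOn_id)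
  obtain ⟨ε', hε', hthick⟩ := hKc.exists_thickening_subset_open hmax.isOpen
    (by rintro _ ⟨t, ht, rfl⟩; exact hin t ht)
  obtain ⟨ε, hεdef⟩ : ∃ ε : ℝ, ε = min ε' (r₀ / 4) / 2 := ⟨_, rfl⟩
  have hε : 0 < ε := by
    rw [hεdef]; have : 0 < min ε' (r₀ / 4) := lt_min hε' (by positivity)
    positivity
  have hε1 : 2 * ε ≤ ε' := by rw [hεdef]; linarith [min_le_left ε' (r₀ / 4)]
  have hε2 : 2 * ε ≤ r₀ / 4 := by rw [hεdef]; linarith [min_le_right ε' (r₀ / 4)]
  have hnear : ∀ t ∈ closure Ω, ∀ y : ℂ, ‖y - γ t‖ < 2 * ε → (y, t) ∈ Sh.s9Rmax := by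
    intro t ht y hy
    apply hthick
    rw [mem_thickening_iff]
    refine ⟨(γ t, t), ⟨t, ht, rfl⟩, ?_⟩
    rw [Prod.dist_eq, dist_self, dist_eq_norm, max_eq_left (norm_nonneg _)]
    linarith
  have hwc : ContinuousOn (fun z : ℂ × ℂ => z.1 - γ z.2) {z : ℂ × ℂ | z.2 ∈ Ω} :=
    continuousOn_fst.sub ((hγ.continuousOn.mono subset_closure).comp continuousOn_snd
      (fun z hz => hz))
  have hΩo : IsOpen {z : ℂ × ℂ | z.2 ∈ Ω} := hΩ.preimage continuous_snd
  -- the domain of `A`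
  set D : Set (ℂ × ℂ) := {z | z.2 ∈ Ω ∧ z.1 ∈ ball (γ z.2) (r₀ / 2)} with hD
  have hDo : IsOpen D := by
    have : D = {z : ℂ × ℂ | z.2 ∈ Ω} ∩ (fun z : ℂ × ℂ => z.1 - γ z.2) ⁻¹' ball 0 (r₀ / 2) := by
      ext z
      simp only [hD, mem_setOf_eq, mem_inter_iff, mem_preimage, mem_ball, dist_eq_norm, sub_zero]
    rw [this]
    exact hwc.isOpen_inter_preimage hΩo isOpen_ball
  -- the small neighbourhood of the graph
  set N : Set (ℂ × ℂ) := {z | z.2 ∈ Ω ∧ ‖z.1 - γ z.2‖ < 2 * ε} with hN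
  have hNo : IsOpen N := by
    have : N = {z : ℂ × ℂ | z.2 ∈ Ω} ∩ (fun z : ℂ × ℂ => z.1 - γ z.2) ⁻¹' ball 0 (2 * ε) := by
      ext z
      simp only [hN, mem_setOf_eq, mem_inter_iff, mem_preimage, mem_ball, dist_eq_norm, sub_zero]
    rw [this]
    exact hwc.isOpen_inter_preimage hΩo isOpen_ball
  have hNmax : N ⊆ Sh.s9Rmax := fun z hz => hnear z.2 (subset_closure hz.1) z.1 hz.2
  have hE1 : ∀ z ∈ N, A z = Sh.s9Smax z := by
    rintro ⟨y, t⟩ ⟨ht, hy⟩
    have ht' : t ∈ Ω := ht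
    have hy' : ‖y - γ t‖ < 2 * ε := hy
    have hcont : Continuous (fun y' : ℂ => (y', t)) := by fun_prop
    have hd1 : DifferentiableOn ℂ (fun y' : ℂ => A (y', t)) (ball (γ t) (2 * ε)) :=
      hAd.comp (by fun_prop) (fun y' hy' => ⟨ht', ball_subset_ball (by linarith) hy'⟩)
    have hd2 : DifferentiableOn ℂ (fun y' : ℂ => Sh.s9Smax (y', t)) (ball (γ t) (2 * ε)) :=
      hmax.diff.comp (by fun_prop) (fun y' hy' => hnear t (subset_closure ht') y'
        (by rwa [mem_ball, dist_eq_norm] at hy'))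
    have hev : (fun y' : ℂ => A (y', t)) =ᶠ[𝓝 (γ t)] fun y' : ℂ => Sh.s9Smax (y', t) :=
      hcont.continuousAt.eventually (hAgerm t ht')
    exact (hd1.analyticOnNhd isOpen_ball).eqOn_of_preconnected_of_eventuallyEq
      (hd2.analyticOnNhd isOpen_ball) (convex_ball _ _).isPreconnected
      (mem_ball_self (by positivity)) hev (by rwa [mem_ball, dist_eq_norm])
  -- the new piece
  set Rn : Set (ℂ × ℂ) := {z | z.2 ∈ Ω ∧ |(z.1 - γ z.2).re| < ε ∧ -ε < (z.1 - γ z.2).im ∧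
    (z.1 - γ z.2).im < r₀ / 4} with hRn
  have hRno : IsOpen Rn := by
    have hbox : IsOpen {w : ℂ | |w.re| < ε ∧ -ε < w.im ∧ w.im < r₀ / 4} :=
      (isOpen_lt (continuous_abs.comp Complex.continuous_re) continuous_const).inter
        ((isOpen_lt continuous_const Complex.continuous_im).inter
          (isOpen_lt Complex.continuous_im continuous_const))
    have : Rn = {z : ℂ × ℂ | z.2 ∈ Ω} ∩ (fun z : ℂ × ℂ => z.1 - γ z.2) ⁻¹'
        {w : ℂ | |w.re| < ε ∧ -ε < w.im ∧ w.im < r₀ / 4} := by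
      ext z
      simp only [hRn, mem_setOf_eq, mem_inter_iff, mem_preimage]
    rw [this]
    exact hwc.isOpen_inter_preimage hΩo hbox
  have hRnD : Rn ⊆ D := by
    rintro z ⟨h1, h2, h3, h4⟩
    refine ⟨h1, ?_⟩
    rw [mem_ball, dist_eq_norm]
    have hn := Complex.norm_le_abs_re_add_abs_im (z.1 - γ z.2)
    have : |(z.1 - γ z.2).im| < r₀ / 4 := by
      rw [abs_lt]; constructor <;> linarith
    linarith
  -- points of the new piece below the graph level are in `N`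
  have hlow : ∀ z ∈ Rn, (z.1 - γ z.2).im < 0 → z ∈ N := by
    rintro z ⟨h1, h2, h3, _⟩ hneg
    refine ⟨h1, ?_⟩
    have hn := Complex.norm_le_abs_re_add_abs_im (z.1 - γ z.2)
    have : |(z.1 - γ z.2).im| < ε := by
      rw [abs_lt]; constructor <;> linarith
    linarith
  -- vertical segments from the graph level
  have hsegRn : ∀ (y t : ℂ), (y, t) ∈ Rn → ∀ τ ∈ Icc (γ t).im y.im, ((⟨y.re, τ⟩ : ℂ), t) ∈ Rn := by
    rintro y t ⟨h1, h2, h3, h4⟩ τ hτ
    have h2' : |(y - γ t).re| < ε := h2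
    have h4' : (y - γ t).im < r₀ / 4 := h4
    rw [Complex.sub_im] at h4'
    refine ⟨h1, ?_, ?_, ?_⟩
    · show |((⟨y.re, τ⟩ : ℂ) - γ t).re| < ε
      rw [Complex.sub_re] at h2' ⊢
      exact h2'
    · show -ε < ((⟨y.re, τ⟩ : ℂ) - γ t).im
      rw [Complex.sub_im]
      show -ε < τ - (γ t).im
      linarith [hτ.1]
    · show ((⟨y.re, τ⟩ : ℂ) - γ t).im < r₀ / 4
      rw [Complex.sub_im]
      show τ - (γ t).im < r₀ / 4
      linarith [hτ.2]
  have hbaseN : ∀ (y t : ℂ), (y, t) ∈ Rn → ((⟨y.re, (γ t).im⟩ : ℂ), t) ∈ N := by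
    rintro y t ⟨h1, h2, _, _⟩
    have h2' : |(y - γ t).re| < ε := h2
    refine ⟨h1, ?_⟩
    show ‖(⟨y.re, (γ t).im⟩ : ℂ) - γ t‖ < 2 * ε
    have hn := Complex.norm_le_abs_re_add_abs_im ((⟨y.re, (γ t).im⟩ : ℂ) - γ t)
    rw [Complex.sub_re, Complex.sub_im] at hn
    rw [Complex.sub_re] at h2'
    have e1 : (⟨y.re, (γ t).im⟩ : ℂ).re = y.re := rfl
    have e2 : (⟨y.re, (γ t).im⟩ : ℂ).im = (γ t).im := rfl
    rw [e1, e2, sub_self, abs_zero, add_zero] at hn
    linarith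
  -- consistency
  have hE2 : ∀ z ∈ Rn, z ∈ Sh.s9Rmax → A z = Sh.s9Smax z := by
    rintro ⟨y, t⟩ hzn hzm
    rcases lt_or_ge (y - γ t).im 0 with hneg | hpos
    · exact hE1 _ (hlow _ hzn hneg)
    · rw [Complex.sub_im] at hpos
      have hητ : (γ t).im ≤ y.im := by linarith
      have hb := hbaseN y t hzn
      have hzm' : ((⟨y.re, y.im⟩ : ℂ), t) ∈ Sh.s9Rmax := by rw [Complex.eta]; exact hzm
      have := Shape.s9k_vert (hRno.inter hmax.isOpen) (hAd.mono (inter_subset_left.trans hRnD))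
        (hmax.diff.mono inter_subset_right) y.re (γ t).im y.im t hητ
        (fun τ hτ => ⟨hsegRn y t hzn τ hτ, Sh.s9k_fibre y.re _ _ τ t (hNmax hb) hzm' hτ⟩)
        (by filter_upwards [hNo.mem_nhds hb] with z hz using hE1 z hz) y.im ⟨hητ, le_rfl⟩
      rwa [Complex.eta] at this
  -- the glued function
  set S' : ℂ × ℂ → ℂ := fun z => if z ∈ Sh.s9Rmax then Sh.s9Smax z else A z with hS'
  have hS1 : ∀ z ∈ Sh.s9Rmax, S' z = Sh.s9Smax z := fun z hz => by simp only [hS', if_pos hz]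
  have hS2 : ∀ z ∈ Rn, S' z = A z := by
    intro z hz
    by_cases hm : z ∈ Sh.s9Rmax
    · rw [hS1 z hm, hE2 z hz hm]
    · simp only [hS', if_neg hm]
  have hpass : Sh.IsPassage (Sh.s9Rmax ∪ Rn) S' := by
    refine ⟨hmax.isOpen.union hRno, ?_, ?_, ?_, ?_⟩
    · rintro z (hz | hz)
      · refine DifferentiableAt.differentiableWithinAt ?_
        refine (hmax.diff.differentiableAt (hmax.isOpen.mem_nhds hz)).congr_of_eventuallyEq ?_
        filter_upwards [hmax.isOpen.mem_nhds hz] with w hw using hS1 w hw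
      · refine DifferentiableAt.differentiableWithinAt ?_
        refine (hAd.differentiableAt (hDo.mem_nhds (hRnD hz))).congr_of_eventuallyEq ?_
        filter_upwards [hRno.mem_nhds hz] with w hw using hS2 w hw
    · rintro z (hz | hz)
      · rw [hS1 z hz]; exact hmax.mem z hz
      · rw [hS2 z hz]
        exact (ENNReal.ofReal_lt_iff_lt_toReal (abs_nonneg _) hH).mpr
          (hAim z (hRnD hz).1 (hRnD hz).2)
    · rintro z (hz | hz)
      · exact hmax.param z hz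
      · exact hΩρ (subset_closure hz.1)
    · have hatt : ∀ z ∈ Sh.s9Rmax, ∃ η : ℝ, η ≤ z.1.im ∧
          (∀ τ ∈ Set.Icc η z.1.im, ((⟨z.1.re, τ⟩ : ℂ), z.2) ∈ Sh.s9Rmax) ∧
          ((⟨z.1.re, η⟩ : ℂ), z.2) ∈ Sh.T ∧ S' =ᶠ[𝓝 ((⟨z.1.re, η⟩ : ℂ), z.2)] Sh.lift := by
        intro z hz
        obtain ⟨η, hη, hseg, hbase, hev⟩ := hmax.attached z hz
        refine ⟨η, hη, hseg, hbase, ?_⟩
        have h1 : S' =ᶠ[𝓝 ((⟨z.1.re, η⟩ : ℂ), z.2)] Sh.s9Smax := by
          filter_upwards [hmax.isOpen.mem_nhds (hseg η ⟨le_rfl, hη⟩)] with w hw using hS1 w hw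
        exact h1.trans hev
      rintro ⟨y, t⟩ hz
      by_cases hm : (y, t) ∈ Sh.s9Rmax
      · obtain ⟨η, hη, hseg, hbase, hev⟩ := hatt _ hm
        exact ⟨η, hη, fun τ hτ => Or.inl (hseg τ hτ), hbase, hev⟩
      · have hzn : (y, t) ∈ Rn := hz.resolve_left hm
        have hpos : 0 ≤ (y - γ t).im := by
          by_contra hneg
          exact hm (hNmax (hlow _ hzn (not_le.mp hneg)))
        rw [Complex.sub_im] at hpos
        obtain ⟨η, hη, hseg, hbase, hev⟩ := hatt _ (hNmax (hbaseN y t hzn))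
        have hη' : η ≤ (γ t).im := hη
        refine ⟨η, by show η ≤ y.im; linarith, ?_, hbase, hev⟩
        intro τ hτ
        rcases le_total τ (γ t).im with hle | hle
        · exact Or.inl (hseg τ ⟨hτ.1, hle⟩)
        · exact Or.inr (hsegRn y t hzn τ ⟨hle, hτ.2⟩)
  have hsub := (Sh.s9k_max_spec hpass).1
  intro t ht s hs
  apply hsub
  refine Or.inr ⟨ht, ?_, ?_, ?_⟩
  · show |(γ t + (s : ℂ) * I - γ t).re| < ε
    simp [hε]
  · show -ε < (γ t + (s : ℂ) * I - γ t).im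
    simp; linarith [hs.1]
  · show (γ t + (s : ℂ) * I - γ t).im < r₀ / 4
    simp; exact hs.2

/-- LEAF K6: **Kontinuitaetssatz for passages**.  An analytic disc `t ↦ (g t, t)` over a bounded open `Ω`: if its lowest vertical translate (by `s₀`) lies in the maximal passage and all translates of its
boundary lie there with a fibrewise margin `r₀`, then all translates of the disc lie in the maximal passage. -/
theorem Shape.s9k_konti (Sh : Shape) (hH : Sh.H ≠ ⊤) (Ω : Set ℂ) (hΩ : IsOpen Ω)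
    (hΩρ : closure Ω ⊆ ball (0 : ℂ) Sh.ρ) (g : ℂ → ℂ) (hg : DiffContOnCl ℂ g Ω) (s₀ r₀ : ℝ)
    (hs₀ : 0 ≤ s₀) (hr₀ : 0 < r₀)
    (hdeep : ∀ t ∈ closure Ω, (g t - (s₀ : ℂ) * I, t) ∈ Sh.s9Rmax)
    (hbd : ∀ t ∈ frontier Ω, ∀ s ∈ Icc 0 s₀, ∀ y ∈ ball (g t - (s : ℂ) * I) r₀, (y, t) ∈ Sh.s9Rmax) :
    ∀ t ∈ Ω, ∀ s ∈ Icc 0 s₀, (g t - (s : ℂ) * I, t) ∈ Sh.s9Rmax := by
  have hcl : ∀ t ∈ closure Ω, t ∈ Ω ∨ t ∈ frontier Ω := by
    intro t ht
    by_cases h : t ∈ Ω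
    · exact Or.inl h
    · exact Or.inr ⟨ht, by rwa [hΩ.interior_eq]⟩
  have key : ∀ j : ℕ, ∀ s ∈ Icc 0 s₀, s₀ - j * (r₀ / 8) ≤ s →
      ∀ t ∈ closure Ω, (g t - (s : ℂ) * I, t) ∈ Sh.s9Rmax := by
    intro j
    induction j with
    | zero =>
      intro s hs hle t ht
      have : s = s₀ := le_antisymm hs.2 (by simpa using hle)
      rw [this]; exact hdeep t ht
    | succ j ih =>
      intro s hs hle t ht
      rcases le_or_gt (s₀ - j * (r₀ / 8)) s with h1 | h1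
      · exact ih s hs h1 t ht
      · rcases hcl t ht with hto | htf
        · set σ : ℝ := s₀ - j * (r₀ / 8) with hσ
          have hσ0 : σ ∈ Icc 0 s₀ := ⟨by linarith [hs.1], by
            have : 0 ≤ (j : ℝ) * (r₀ / 8) := by positivity
            linarith⟩
          have hstep := Sh.s9k_konti_step hH Ω hΩ hΩρ (fun t => g t - (σ : ℂ) * I)
            (hg.sub diffContOnCl_const) r₀ hr₀ (ih σ hσ0 le_rfl) (fun t ht => hbd t ht σ hσ0)
            t hto (σ - s) ⟨by linarith, by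
              push_cast at hle
              linarith⟩
          have e : g t - (σ : ℂ) * I + ((σ - s : ℝ) : ℂ) * I = g t - (s : ℂ) * I := by
            push_cast; ring
          rwa [e] at hstep
        · exact hbd t htf s hs _ (mem_ball_self hr₀)
  intro t ht s hs
  obtain ⟨j, hj⟩ := exists_nat_ge (s₀ / (r₀ / 8))
  refine key j s hs ?_ t (subset_closure ht)
  rw [div_le_iff₀ (by positivity)] at hj
  linarith [hs.1]

end Claimed.Agent.R269
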