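/-
Row 269, P1 Section 9.5: Theorem 9.11 (high-modulus mesh contradiction).  Units BP-S9f / BP-S9g.
Owner of this file: helper149.

SHARED DEFINITIONS of the mesh package (self-contained: only Mathlib).

Conventions.  `depth` of `z` is `-Im z > 0`; `s9f_pt x δ = x - i δ`.
Tiles.  `r = 401/400`, `d k = r^(-k)` (`k : ℤ`), layer `k` = depths in `[d (k+1), d k]`, its thickness is
`ρ k = d k - d (k+1) = d k / 401 = d (k+1) / 400`.  The tile `(k,a)` is the closed square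
`[a ρ k, (a+1) ρ k] × (depth in [d (k+1), d k])`.  So every tile has depth/side in `[400,401]`.
-/
import Mathlib

set_option autoImplicit false

namespace Claimed.Agent.R269

open Set Metric

/-- the lower half plane `ℍ₋`. -/
def s9f_LH : Set ℂ := {z | z.im < 0}

/-- the point `x - i δ` (depth `δ`). -/
def s9f_pt (x δ : ℝ) : ℂ := ⟨x, -δ⟩

/-- hypotheses on `F` in P1 Theorem 9.11: `F ≢ 0` holomorphic in `ℍ₋`, `F''/F = q` holomorphic. -/
structure S9fMesh (F q : ℂ → ℂ) : Prop where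
  F_diff : DifferentiableOn ℂ F s9f_LH
  q_diff : DifferentiableOn ℂ q s9f_LH
  ode : ∀ z ∈ s9f_LH, deriv (deriv F) z = q z * F z
  ne_zero : ∃ z ∈ s9f_LH, F z ≠ 0

/-- depth of the lower edge of layer `k`: `d k = (401/400)^(-k)`. -/
noncomputable def s9f_d (k : ℤ) : ℝ := (401 / 400 : ℝ) ^ (-k)

/-- side of the tiles of layer `k`. -/
noncomputable def s9f_rho (k : ℤ) : ℝ := s9f_d k / 401

/-- tiles `(layer, horizontal index)`. -/
abbrev S9fTile := ℤ × ℤ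

/-- left end of the projection of a tile. -/
noncomputable def s9f_lo (T : S9fTile) : ℝ := (T.2 : ℝ) * s9f_rho T.1

/-- right end of the projection of a tile. -/
noncomputable def s9f_hi (T : S9fTile) : ℝ := ((T.2 : ℝ) + 1) * s9f_rho T.1

/-- the closed square of a tile. -/
def s9f_sq (T : S9fTile) : Set ℂ :=
  {z | z.re ∈ Icc (s9f_lo T) (s9f_hi T) ∧ -z.im ∈ Icc (s9f_d (T.1 + 1)) (s9f_d T.1)}

/-- centre of a tile. -/
noncomputable def s9f_ctr (T : S9fTile) : ℂ :=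
  s9f_pt (((T.2 : ℝ) + 1 / 2) * s9f_rho T.1) (s9f_d (T.1 + 1) + s9f_rho T.1 / 2)

/-- the tile of layer `k` over the abscissa `c`. -/
noncomputable def s9f_over (k : ℤ) (c : ℝ) : S9fTile := (k, ⌊c / s9f_rho k⌋)

/-- a tile is good at level `L` if `|F|` reaches `L` somewhere on it. -/
def S9fGood (F : ℂ → ℂ) (L : ℝ) (T : S9fTile) : Prop := ∃ ζ ∈ s9f_sq T, L ≤ ‖F ζ‖

/-- the closed squares of two tiles meet (reflexive and symmetric). -/
def s9f_touch (T T' : S9fTile) : Prop :=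
  |T.1 - T'.1| ≤ 1 ∧ s9f_lo T ≤ s9f_hi T' ∧ s9f_lo T' ≤ s9f_hi T

/-- the touching graph on the tiles with property `P`. -/
def s9f_graph (P : S9fTile → Prop) : SimpleGraph S9fTile where
  Adj T T' := T ≠ T' ∧ P T ∧ P T' ∧ s9f_touch T T'
  symm := ⟨by
    rintro T T' ⟨h1, h2, h3, h4, h5, h6⟩
    exact ⟨h1.symm, h3, h2, by rw [abs_sub_comm]; exact h4, h6, h5⟩⟩
  loopless := ⟨fun T h => h.1 rfl⟩

/-- an injective chain of touching tiles with property `P`, from `T` to `T'`. -/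
structure S9fChain (P : S9fTile → Prop) (T T' : S9fTile) (n : ℕ) (τ : ℕ → S9fTile) : Prop where
  head : τ 0 = T
  last : τ n = T'
  touch : ∀ i < n, s9f_touch (τ i) (τ (i + 1))
  mem : ∀ i ≤ n, P (τ i)
  inj : Set.InjOn τ (Set.Iic n)

/-- What one cone witness of scale `≈ 2 d ℓ` near `x` gives (consequence of the shadow lemma):
the whole row of layer `ℓ` over `[x - 4 d ℓ, x + 4 d ℓ]` is good, and every subinterval of length
`2 d ℓ` contains an abscissa whose column is good from layer `ℓ` up to layer `k₁`. -/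
structure S9fLoc (Good : S9fTile → Prop) (k₁ : ℤ) (x : ℝ) (ℓ : ℤ) : Prop where
  row : ∀ a : ℤ, x - 4 * s9f_d ℓ ≤ s9f_hi (ℓ, a) → s9f_lo (ℓ, a) ≤ x + 4 * s9f_d ℓ → Good (ℓ, a)
  col : ∀ y : ℝ, x - 4 * s9f_d ℓ ≤ y → y + 2 * s9f_d ℓ ≤ x + 4 * s9f_d ℓ →
    ∃ c ∈ Icc y (y + 2 * s9f_d ℓ), ∀ k : ℤ, ℓ ≤ k → k ≤ k₁ → Good (s9f_over k c)

/-- the "lines" property of a tile: off two small exceptional sets of abscissae / ordinates, `|F|` is at
least `L` on the vertical / horizontal lines through the ball of radius `10 ρ` about the centre. -/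
def S9fLines (F : ℂ → ℂ) (L : ℝ) (T : S9fTile) : Prop :=
  ∃ X Y : Set ℝ, MeasureTheory.volume X ≤ ENNReal.ofReal (s9f_rho T.1 / 20) ∧
    MeasureTheory.volume Y ≤ ENNReal.ofReal (s9f_rho T.1 / 20) ∧
    ∀ ζ ∈ ball (s9f_ctr T) (10 * s9f_rho T.1), (ζ.re ∉ X ∨ ζ.im ∉ Y) → L ≤ ‖F ζ‖

/-- The core hypotheses (epochs eliminated, interval `[-5,5]`, all `o(v)` written as `ε v`):
upper bound `|F(x - i e^{-v})| ≤ e^{(λ+ε) v}` and cone witnesses at EVERY large scale `v`. -/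
structure S9gCore (F : ℂ → ℂ) (lam A : ℝ) : Prop where
  upper : ∀ ε > 0, ∃ v₀ : ℝ, ∀ v ≥ v₀, ∀ x ∈ Icc (-5 : ℝ) 5,
    ‖F (s9f_pt x (Real.exp (-v)))‖ ≤ Real.exp ((lam + ε) * v)
  wit : ∀ ε > 0, ∃ v₀ : ℝ, ∀ v ≥ v₀, ∀ x ∈ Icc (-5 : ℝ) 5,
    ∃ p δ : ℝ, 0 < δ ∧ |p - x| ≤ A * δ ∧ |-Real.log δ - v| ≤ ε * v ∧
      Real.exp ((lam - ε) * v) ≤ ‖F (s9f_pt p δ)‖

/-- `G₀` is a second solution: holomorphic in `ℍ₋` with Wronskian `F G₀' - F' G₀ = 1`. -/
structure S9gSecond (F G₀ : ℂ → ℂ) : Prop where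
  diff : DifferentiableOn ℂ G₀ s9f_LH
  wronskian : ∀ z ∈ s9f_LH, F z * deriv G₀ z - deriv F z * G₀ z = 1

/-- the conclusion of one stage: on the window `[-1,1] × {e^{-v} : u ≤ v ≤ (1+κ) u}` some combination
`G₀ - c F` is at most `e^{-λ u / 2}`. -/
def S9gStage (F G₀ : ℂ → ℂ) (lam κ u : ℝ) : Prop :=
  ∃ c : ℂ, ∀ x ∈ Icc (-1 : ℝ) 1, ∀ v ∈ Icc u ((1 + κ) * u),
    ‖G₀ (s9f_pt x (Real.exp (-v))) - c * F (s9f_pt x (Real.exp (-v)))‖ ≤ Real.exp (-(lam * u / 2))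

/-- `g → 0` uniformly at the boundary interval `[-1,1]`. -/
def S9gVanish (g : ℂ → ℂ) : Prop :=
  ∀ ε > 0, ∃ δ₀ > 0, ∀ x ∈ Icc (-1 : ℝ) 1, ∀ δ ∈ Ioo (0 : ℝ) δ₀, ‖g (s9f_pt x δ)‖ ≤ ε

/-! ### elementary facts (proved) -/

theorem s9f_d_pos (k : ℤ) : 0 < s9f_d k := by
  unfold s9f_d; positivity

theorem s9f_rho_pos (k : ℤ) : 0 < s9f_rho k := by
  unfold s9f_rho; have := s9f_d_pos k; positivity

theorem s9f_d_succ (k : ℤ) : s9f_d (k + 1) = s9f_d k * (400 / 401) := by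
  unfold s9f_d
  rw [neg_add, zpow_add₀ (by norm_num), zpow_neg_one]
  norm_num

theorem s9f_d_succ_eq (k : ℤ) : s9f_d (k + 1) = 400 * s9f_rho k := by
  rw [s9f_d_succ]; unfold s9f_rho; ring

theorem s9f_d_sub (k : ℤ) : s9f_d k - s9f_d (k + 1) = s9f_rho k := by
  rw [s9f_d_succ]; unfold s9f_rho; ring

theorem s9f_d_anti : Antitone s9f_d := by
  intro a b hab
  unfold s9f_d
  exact zpow_le_zpow_right₀ (by norm_num) (by omega)

theorem s9f_rho_anti : Antitone s9f_rho := by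
  intro a b hab
  unfold s9f_rho
  have := s9f_d_anti hab
  linarith

theorem s9f_rho_succ (k : ℤ) : s9f_rho (k + 1) = s9f_rho k * (400 / 401) := by
  unfold s9f_rho; rw [s9f_d_succ]; ring

theorem s9f_lo_le_hi (T : S9fTile) : s9f_lo T ≤ s9f_hi T := by
  unfold s9f_lo s9f_hi; have := s9f_rho_pos T.1; nlinarith

theorem s9f_hi_sub_lo (T : S9fTile) : s9f_hi T - s9f_lo T = s9f_rho T.1 := by
  unfold s9f_lo s9f_hi; ring

theorem s9f_over_mem (k : ℤ) (c : ℝ) : c ∈ Icc (s9f_lo (s9f_over k c)) (s9f_hi (s9f_over k c)) := by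
  have hρ := s9f_rho_pos k
  unfold s9f_lo s9f_hi s9f_over
  constructor
  · have := Int.floor_le (c / s9f_rho k)
    calc (⌊c / s9f_rho k⌋ : ℝ) * s9f_rho k ≤ c / s9f_rho k * s9f_rho k := by gcongr
      _ = c := by field_simp
  · have := Int.lt_floor_add_one (c / s9f_rho k)
    calc c = c / s9f_rho k * s9f_rho k := by field_simp
      _ ≤ ((⌊c / s9f_rho k⌋ : ℝ) + 1) * s9f_rho k := by gcongr

theorem s9f_touch_refl (T : S9fTile) : s9f_touch T T :=
  ⟨by simp, s9f_lo_le_hi T, s9f_lo_le_hi T⟩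

theorem s9f_touch_symm {T T' : S9fTile} (h : s9f_touch T T') : s9f_touch T' T :=
  ⟨by rw [abs_sub_comm]; exact h.1, h.2.2, h.2.1⟩

theorem s9f_pt_mem_LH {x δ : ℝ} (hδ : 0 < δ) : s9f_pt x δ ∈ s9f_LH := by
  simp [s9f_pt, s9f_LH, hδ]

theorem s9f_isOpen_LH : IsOpen s9f_LH :=
  isOpen_lt Complex.continuous_im continuous_const

theorem s9f_convex_LH : Convex ℝ s9f_LH := by
  have : s9f_LH = Complex.imCLM ⁻¹' (Iio 0) := rfl
  rw [this]
  exact (convex_Iio 0).is_linear_preimage Complex.imCLM.toLinearMap.isLinear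

end Claimed.Agent.R269
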