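/-
Row 269, P1 Sections 8-9: SHARED CONTEXT of the critical case (owner: helper149, sub-captain of Section 9).

Contains the definitions needed to STATE P1 Definition 8.7 (prohibited sequence) and the theorems of Sections 5-8 which Section 9 uses.
All names carry the prefix `s9`.  Notation of the paper:  `d_k = e^{-k}`, depth `δ_s = H - Im s`, `M = max(|f|, |q|^{1/2})`,
`μ(k) = d_k (E(|f|²+|q|))^{1/2}` on the row of depth `d_k` (`Shape.μ`), `Δ(t) = H - h_X(t)` (`Shape.Δ`).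
-/
import Claimed.Agent.R269.Shape
import Claimed.Agent.R269.S9.MeshDefs

set_option autoImplicit false

namespace Claimed.Agent.R269

open Complex Filter Topology MeasureTheory Set
open scoped ENNReal Real

/-- the exponential envelope `N(l) = N₀ exp(β (K-l)₊ + a (l-K)₊)` centred at the level `K`
(P1 Definition 8.1 holds for it with `C_N = 1`). -/
noncomputable def s9env (N₀ β a K l : ℝ) : ℝ :=
  N₀ * Real.exp (β * max (K - l) 0 + a * max (l - K) 0)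

/-- distance to `2πℤ`. -/
noncomputable def s9per (u : ℝ) : ℝ := |u - 2 * π * round (u / (2 * π))|

/-- the model ancestor kernel `d / (d² + |u|²_per)` of P1 (8.22). -/
noncomputable def s9ker (d u : ℝ) : ℝ := d / (d ^ 2 + s9per u ^ 2)

/-- `ω` is a probability on the circle `[0,2π)` and `ν` a probability on `[0,2π)` whose density is comparable (constants `cK, CK`) with
`K_{d_a} * ω`  (P1 Section 8.3; only this comparability is ever used). -/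
structure S9Weight (da cK CK : ℝ) (ω ν : Measure ℝ) : Prop where
  ω_prob : IsProbabilityMeasure ω
  ν_prob : IsProbabilityMeasure ν
  ω_supp : ω (Ico 0 (2 * π))ᶜ = 0
  dens : ∃ g : ℝ → ℝ≥0∞, Measurable g ∧ ν = (volume.restrict (Ico 0 (2 * π))).withDensity g ∧
    ∀ x ∈ Ico (0 : ℝ) (2 * π),
      ENNReal.ofReal cK * ∫⁻ x', ENNReal.ofReal (s9ker da (x - x')) ∂ω ≤ g x ∧
      g x ≤ ENNReal.ofReal CK * ∫⁻ x', ENNReal.ofReal (s9ker da (x - x')) ∂ω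

namespace Shape

variable (Sh : Shape)

/-- the base level `k₀ ≥ 1`, `e^{-k₀} < H/10`. -/
noncomputable def s9k0 : ℝ := max 1 (1 - Real.log (Sh.Hr / 10))

/-- the fixed cutoff depth `δ_b < e^{-k₀} < H/2`. -/
noncomputable def s9db : ℝ := Real.exp (-(Sh.s9k0 + 3))

/-- depth below the upper edge. -/
noncomputable def s9dep (s : ℂ) : ℝ := Sh.Hr - s.im

/-- the first displacement coefficient: `𝔰(y,t) = y + t² V(y) + O(t⁴)`. -/
noncomputable def s9V (y : ℂ) : ℂ := deriv (deriv fun t : ℂ => Sh.lift (y, t)) 0 / 2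

/-- `P = - Im V`. -/
noncomputable def s9P (y : ℂ) : ℝ := -(Sh.s9V y).im

/-- the mean `⟨W⟩`. -/
noncomputable def s9Wm : ℂ := (2 * π : ℂ)⁻¹ * ∫ x in (0 : ℝ)..(2 * π), Sh.W (x : ℂ)

/-- the tile `𝒯_A(k,x)` of P1 (8.8), intersected with the upper half of the strip. -/
def s9tile (A k x : ℝ) : Set ℂ :=
  {s | Real.exp (-A) * Real.exp (-k) ≤ Sh.s9dep s ∧ Sh.s9dep s ≤ Real.exp A * Real.exp (-k) ∧
    |s.re - x| ≤ A * Sh.s9dep s ∧ 0 ≤ s.im}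

/-- the truncated cone `{lo ≤ δ_s ≤ hi, |Re s - x| ≤ L δ_s}`. -/
def s9cone (L x lo hi : ℝ) : Set ℂ :=
  {s | lo ≤ Sh.s9dep s ∧ Sh.s9dep s ≤ hi ∧ |s.re - x| ≤ L * Sh.s9dep s}

/-- `‖ sup_{s ∈ 𝒯_A(j,x)} d_j M(s) ‖_{L²(ν)} ≤ b`, in majorant form (no measurability question for the supremum). -/
def s9TileL2 (ν : Measure ℝ) (A j b : ℝ) : Prop :=
  ∃ Z : ℝ → ℝ≥0∞, Measurable Z ∧
    (∀ x, ∀ s ∈ Sh.s9tile A j x, ENNReal.ofReal (Real.exp (-j) * Sh.M s) ≤ Z x) ∧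
    ∫⁻ x, Z x ^ 2 ∂ν ≤ ENNReal.ofReal (b ^ 2)

/-- the rescaled first field `F(S) = (d/B) f(ξ + iH + d S)`, `d = e^{-K}`, `B = μ(K)`. -/
noncomputable def s9F (K ξ : ℝ) (S : ℂ) : ℂ :=
  (Real.exp (-K) / Sh.μ K : ℝ) * Sh.f ((ξ : ℂ) + I * Sh.Hr + (Real.exp (-K) : ℝ) * S)

/-- the rescaled potential `Q(S) = (d/B)² q(ξ + iH + d S)`. -/
noncomputable def s9Q (K ξ : ℝ) (S : ℂ) : ℂ :=
  ((Real.exp (-K) / Sh.μ K) ^ 2 : ℝ) * Sh.q ((ξ : ℂ) + I * Sh.Hr + (Real.exp (-K) : ℝ) * S)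

end Shape

/-- **P1 Definition 8.7**: a prohibited sequence.  `k n` = levels, `B_n = μ (k n)`, `sa n = s_n`, ancestors `k n - sa n`. -/
structure S9Prohibited (Sh : Shape) where
  k : ℕ → ℝ
  eps : ℕ → ℝ
  sa : ℕ → ℝ
  ω : ℕ → Measure ℝ
  ν : ℕ → Measure ℝ
  cK : ℝ
  CK : ℝ
  cK_pos : 0 < cK
  k_tendsto : Tendsto k atTop atTop
  B_tendsto : Tendsto (fun n => Sh.μ (k n)) atTop atTop
  eps_nonneg : ∀ n, 0 ≤ eps n
  eps_tendsto : Tendsto eps atTop (𝓝 0)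
  /-- (8.27) primary normality -/
  normal : ∀ n, ∀ j ≥ Sh.s9k0, Sh.μ j ≤ Sh.μ (k n) * Real.exp (eps n * |j - k n|)
  ka_tendsto : Tendsto (fun n => k n - sa n) atTop atTop
  sa_tendsto : Tendsto sa atTop atTop
  weight : ∀ n, S9Weight (Real.exp (-(k n - sa n))) cK CK (ω n) (ν n)
  /-- (8.28) -/
  coarse : ∀ β ∈ Ioo (0 : ℝ) (1 / 2), ∀ A ≥ (1 : ℝ), ∃ C : ℝ, ∀ᶠ n in atTop,
    ∀ j ∈ Icc Sh.s9k0 (k n - sa n + 3),
      Sh.s9TileL2 (ν n) A j (C * Sh.μ (k n) * Real.exp (β * (k n - j)))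
  /-- (8.29) -/
  anchor : ∀ β ∈ Ioo (0 : ℝ) (1 / 2), ∃ C : ℝ, ∀ᶠ n in atTop,
    ∫⁻ x, ENNReal.ofReal |Sh.s9P ⟨x, Sh.Hr - Real.exp (-(k n - sa n))⟩| ∂(ω n) ≤
      ENNReal.ofReal (C * Sh.μ (k n) ^ 2 * Real.exp (2 * β * sa n) / Real.exp (-(k n - sa n)))
  /-- (8.30) -/
  qsmall : ∀ 𝒦 : Set ℂ, IsCompact 𝒦 → 𝒦 ⊆ s9f_LH → ∀ η > (0 : ℝ),
    Tendsto (fun n => ν n {x | ∃ S ∈ 𝒦, η < ‖Sh.s9Q (k n) x S‖}) atTop (𝓝 0)

end Claimed.Agent.R269
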