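/-
Row 269, P1 Section 9: WHAT SECTION 9 USES FROM SECTIONS 5-8.   Owner of the statements (until Sections 6, 7, 8 have owners): helper149.

Every `sorry` here is an EXPORT of another section; its owner replaces the `sorry` by a call of his theorem (or tells helper149 which change of the
statement he needs).  Section 9 uses nothing else from Sections 5-8: in particular NOT the kernel division, the exact recurrence, the frozen actions.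

All "fix ..., then for sufficiently small ..." of the paper are written with explicit quantifiers.
-/
import Claimed.Agent.R269.S9.Ctx
import Claimed.Agent.R269.S5.Zeros
import Claimed.Agent.R269.S6.Width
import Claimed.Agent.R269.S6.Cone
import Claimed.Agent.R269.S7.Thm71
import Claimed.Agent.R269.S8.Main

set_option autoImplicit false

namespace Claimed.Agent.R269

open Complex Filter Topology MeasureTheory Set
open scoped ENNReal Real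

namespace Shape

variable (Sh : Shape)

/-- IMPORT (Section 5, Prop 5.6, (5.24)): `V' = (W - ⟨W⟩)/120` on the shape strip. -/
theorem s9i_V_deriv : ∀ y ∈ Sh.D, HasDerivAt Sh.s9V ((Sh.W y - Sh.s9Wm) / 120) y :=
  Sh.V_deriv

/-- IMPORT (Section 6.4, "real no-patch transfer"; same statement as `Shape.passage_width` of Stage3.lean). -/
theorem s9i_passage_width {R : Set (ℂ × ℂ)} {S : ℂ × ℂ → ℂ} (hP : Sh.IsPassage R S) (t₀ : ℝ) (y : ℂ)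
    (hy : (y, (t₀ : ℂ)) ∈ R) : ENNReal.ofReal y.im < Sh.G.hX t₀ :=
  Sh.s6_passage_width hP t₀ y hy

/-- IMPORT (Section 6, **Theorem 6.3, cone passage**).  `α` exponent, `m₀` target aperture, `L` input aperture, `K` bound of `r/d`. -/
theorem s9i_cone (hH : Sh.H ≠ ⊤) (α m₀ δb : ℝ) (hα : 1 / 2 < α) (hα' : α < 1) (hm₀ : 0 < m₀)
    (hδb : 0 < δb) (hδb' : δb < Sh.Hr / 2) :
    ∃ L : ℝ, 0 < L ∧ ∀ K : ℝ, 0 < K → ∃ ε₀ d₀ δs C : ℝ, 0 < ε₀ ∧ 0 < d₀ ∧ 0 < δs ∧ 0 < C ∧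
      ∀ ε d r x₀ : ℝ, 0 < ε → ε ≤ ε₀ → 0 < d → d ≤ d₀ → 0 < r → r ≤ K * d →
        (∀ s ∈ Sh.s9cone L x₀ (d / 10) δb, r * Sh.M s ≤ ε * (d / Sh.s9dep s) ^ α) →
        ∃ (R : Set (ℂ × ℂ)) (S : ℂ × ℂ → ℂ), Sh.IsPassage R S ∧
          ∀ (y t : ℂ), d < Sh.s9dep y → Sh.s9dep y < δs → |y.re - x₀| < m₀ * Sh.s9dep y →
            ‖t‖ < r * (Sh.s9dep y / d) ^ α →
            (y, t) ∈ R ∧
              ‖S (y, t) - y‖ ≤ C * (1 + ε / r * d ^ α) ^ 2 * ‖t‖ ^ 2 * Sh.s9dep y ^ (1 - 2 * α) :=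
  Sh.s6_cone_s9 hH α m₀ δb hα hα' hm₀ hδb hδb'

/-- IMPORT (Section 7, **Theorem 7.1, exponential-profile obstruction**, case `H < ∞`).
`x n + i h n` centres, `ℓ n` length scales, `m n` field scales; `fst = true`: first profile `(c₀ e^{-iS}, 0)`, else `(0, c₀² e^{-2iS})`. -/
theorem s9i_exp_obstruction (hH : Sh.H ≠ ⊤) (x h ℓ m : ℕ → ℝ) (c₀ : ℂ) (hc₀ : c₀ ≠ 0) (α₀ δb : ℝ)
    (hpos : ∀ n, 0 < ℓ n ∧ 0 < m n ∧ |h n| < Sh.Hr)
    (hb : Tendsto (fun n => ℓ n * m n) atTop atTop)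
    (hh : Tendsto h atTop (𝓝 Sh.Hr)) (hℓ : Tendsto ℓ atTop (𝓝 0))
    (hex : Tendsto (fun n => (Sh.Hr - h n) / ℓ n) atTop atTop)
    (hlim :
      (TendstoLocallyUniformly (fun n S => Sh.f (⟨x n, h n⟩ + (ℓ n : ℂ) * S) / (m n : ℂ))
          (fun S => c₀ * Complex.exp (-(I * S))) atTop ∧
        TendstoLocallyUniformly (fun n S => Sh.q (⟨x n, h n⟩ + (ℓ n : ℂ) * S) / (m n : ℂ) ^ 2)
          (fun _ => 0) atTop) ∨
      (TendstoLocallyUniformly (fun n S => Sh.f (⟨x n, h n⟩ + (ℓ n : ℂ) * S) / (m n : ℂ))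
          (fun _ => 0) atTop ∧
        TendstoLocallyUniformly (fun n S => Sh.q (⟨x n, h n⟩ + (ℓ n : ℂ) * S) / (m n : ℂ) ^ 2)
          (fun S => c₀ ^ 2 * Complex.exp (-(2 * I * S))) atTop))
    (hα₀ : 1 / 2 < α₀) (hα₀' : α₀ < 1) (hδb : 0 < δb) (hδb' : δb < Sh.Hr / 2)
    (hcone : ∀ L : ℝ, ∃ C : ℝ, ∀ᶠ n in atTop, ∀ s : ℂ, ℓ n ≤ h n - s.im → h n - s.im ≤ δb →
      |s.re - x n| ≤ L * (h n - s.im) → Sh.M s ≤ C * m n * (ℓ n / (h n - s.im)) ^ α₀) : False :=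
  Sh.s7_exp_obstruction hH x h ℓ m c₀ hc₀ α₀ δb hpos hb hh hℓ hex hlim hα₀ hα₀' hδb hδb' hcone

/-- IMPORT (Section 8, Lemma 8.2, **(8.14) basic width**) for the exponential envelopes `s9env N₀ β a k`:
if `μ ≤ N` on all rows then `Δ(t) ≤ d_k` for real `|t| ≤ c d_k / N(k)`. -/
theorem s9i_basic_width (hH : Sh.H ≠ ⊤) (ho : Sh.order = 1) (β a : ℝ) (hβ : 0 ≤ β) (hβ' : β < 1 / 2)
    (ha : 0 < a) :
    ∃ c k₁ : ℝ, 0 < c ∧ ∀ k ≥ k₁, ∀ N₀ ≥ (1 : ℝ), (∀ l ≥ Sh.s9k0, Sh.μ l ≤ s9env N₀ β a k l) →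
      ∀ t : ℝ, |t| ≤ c * Real.exp (-k) / N₀ → Sh.Δ (t : ℂ) ≤ Real.exp (-k) :=
  Sh.s8_basic_width_env hH ho β a hβ hβ' ha

/-- IMPORT (Section 8, **Proposition 8.5, weighted bootstrap**) for the exponential envelopes.  `A'` = "the fixed tile enlargement needed" (tiles are monotone in `A`, so ONE enlargement suffices; it must not
depend on the constants `Cc`, `Can`, because in Lemma 9.5 the coarse bounds for `A'` hold only eventually, with a threshold depending on `A'`), `Cc` = the coarse constant for `A'`, `Can` = the anchor constant. -/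
theorem s9i_weighted_bootstrap (hH : Sh.H ≠ ⊤) (ho : Sh.order = 1) (β a cK CK : ℝ)
    (hβ : 0 ≤ β) (hβ' : β < 1 / 2) (ha : 0 < a) (hcK : 0 < cK) (A : ℝ) (hA : 1 ≤ A) :
    ∃ A' : ℝ, 1 ≤ A' ∧ ∀ Can Cc : ℝ, ∃ C' ka₀ : ℝ, ∀ (K N₀ ka : ℝ) (ω ν : Measure ℝ), 1 ≤ N₀ → ka₀ ≤ ka →
      S9Weight (Real.exp (-ka)) cK CK ω ν →
      (∀ l ≥ Sh.s9k0, Sh.μ l ≤ s9env N₀ β a K l) →
      (∀ j ∈ Icc Sh.s9k0 (ka + 3), Sh.s9TileL2 ν A' j (Cc * s9env N₀ β a K j)) →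
      (∫⁻ x, ENNReal.ofReal |Sh.s9P ⟨x, Sh.Hr - Real.exp (-ka)⟩| ∂ω ≤
        ENNReal.ofReal (Can * s9env N₀ β a K ka ^ 2 / Real.exp (-ka))) →
      ∀ j ≥ Sh.s9k0, Sh.s9TileL2 ν A j (C' * s9env N₀ β a K j) :=
  Sh.s8_weighted_bootstrap hH ho β a cK CK hβ hβ' ha hcK A hA

/-- IMPORT (Section 8, **Theorem 8.6, no vanishing profile at one centre**, quiet-cone form (8.24)) for the exponential envelopes. -/
theorem s9i_no_quiet_cone (hH : Sh.H ≠ ⊤) (ho : Sh.order = 1) (α β a C δb : ℝ) (hα : 1 / 2 < α)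
    (hα' : α < 1) (hβ : 0 ≤ β) (hβ' : β < 1 / 2) (ha : 0 < a) (hδb : 0 < δb)
    (hδb' : δb < Sh.Hr / 2) :
    ∃ L : ℝ, 0 < L ∧ ∀ k x : ℕ → ℝ, Tendsto k atTop atTop →
      Tendsto (fun n => Sh.μ (k n)) atTop atTop →
      (∀ᶠ n in atTop, ∀ l ≥ Sh.s9k0, Sh.μ l ≤ s9env (C * Sh.μ (k n)) β a (k n) l) →
      (∀ c > (0 : ℝ), ∀ η > (0 : ℝ), ∀ᶠ n in atTop,
        ∀ s ∈ Sh.s9cone L (x n) (c * Real.exp (-k n)) δb,
          Real.exp (-k n) * Sh.M s / Sh.μ (k n) * (Sh.s9dep s / Real.exp (-k n)) ^ α ≤ η) →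
      False :=
  Sh.s8_no_quiet_cone hH ho α β a C δb hα hα' hβ hβ' ha hδb hδb'

end Shape

end Claimed.Agent.R269
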