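/-
Row 269: LEAF PACKAGE LF-S9-montel (HOST-FREE library: only Mathlib).   Blueprint: helper149.

MONTEL'S THEOREM for sequences whose domains exhaust an open set.

PROOF SKETCH.  (1) Local equicontinuity: if `F n` is holomorphic and bounded by `C` on `ball z r`, then it is `2C/r`-Lipschitz on `ball z (r/2)` (Cauchy estimate `Complex.norm_deriv_le_of_forall_mem_sphere_norm_le` +
mean value inequality, or `Complex.dist_le_div_mul_dist_of_mapsTo_ball`-type Schwarz lemma).
(2) `U` is second countable: choose a countable dense subset `{q_i}` of `U`.  The sequences `n ↦ F n q_i` are eventually bounded; diagonal extraction gives `φ` with `F (φ n) q_i` convergent for all `i`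
(e.g. iterate `tendsto_subseq_of_bounded`, or compactness of a countable product of closed balls).
(3) Equicontinuity + convergence on a dense set => `F (φ n)` is uniformly Cauchy on a neighbourhood of every point of `U`; define `G` as the pointwise limit (`limUnder`); conclude `TendstoLocallyUniformlyOn`
(`tendstoLocallyUniformlyOn_iff_forall_tendsto` / the `∀ x ∈ U, ∃ t ∈ 𝓝[U] x, TendstoUniformlyOn` characterisation).
(4) `G` is holomorphic on `U`: locally it is a uniform limit of functions that are eventually holomorphic on a ball (`TendstoLocallyUniformlyOn.differentiableOn` on that ball with `∀ᶠ`).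
-/
import Claimed.Agent.R269.Lib.CAMontel

set_option autoImplicit false

namespace Claimed.Agent.R269

open Filter Topology Set Metric

/-- LEAF: Montel's theorem. -/
theorem s9_montel (U : Set ℂ) (hU : IsOpen U) (F : ℕ → ℂ → ℂ)
    (hF : ∀ z ∈ U, ∃ r > 0, ∃ C : ℝ, ∀ᶠ n in atTop,
      DifferentiableOn ℂ (F n) (ball z r) ∧ ∀ w ∈ ball z r, ‖F n w‖ ≤ C) :
    ∃ (φ : ℕ → ℕ) (G : ℂ → ℂ), StrictMono φ ∧ DifferentiableOn ℂ G U ∧
      TendstoLocallyUniformlyOn (fun n => F (φ n)) G atTop U :=
  ca_montel_exhaust U hU F hF

end Claimed.Agent.R269
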