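/-
Row 269, P1 Section 9: DEFINITIONS used in the exports of the units S9a-S9e.   Owner: helper149 (sub-captain of Section 9).

Fixed numerical choices (the paper allows any `c ∈ (1/2,1)`, `β ∈ (1-c,1/2)`, `α ∈ (1/2,1-β)`, `α₀ ∈ (1/2,c)`):
   `c = 3/4`,  `β = 3/8`,  `α = 9/16`,  `α₀ = 5/8`.
-/
import Claimed.Agent.R269.S9.Ctx

set_option autoImplicit false

namespace Claimed.Agent.R269

open Complex Filter Topology MeasureTheory Set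
open scoped ENNReal Real

/-- the limiting moment law, written as `lm D = log m(D)` (P1 Lemma 9.2, (9.4)). -/
structure S9aLaw (lm : ℝ → ℝ) : Prop where
  convex : ConvexOn ℝ (Ioi 0) lm
  one : lm 1 = 0
  le : ∀ D > 0, lm D ≤ -Real.log D

/-- `log m_n(D)`, `m_n(D) = μ(k - log D)/(B D)`, `B = μ(k)` (P1 (9.3)). -/
noncomputable def Shape.s9lm (Sh : Shape) (k D : ℝ) : ℝ :=
  Real.log (Sh.μ (k - Real.log D) / (Sh.μ k * D))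

/-- locally uniform convergence on `(0,∞)` of the moment laws along the levels `k n`. -/
def S9aConv (Sh : Shape) (k : ℕ → ℝ) (lm : ℝ → ℝ) : Prop :=
  ∀ a b : ℝ, 0 < a → a ≤ b → ∀ η > (0 : ℝ), ∀ᶠ n in atTop, ∀ D ∈ Icc a b, |Sh.s9lm (k n) D - lm D| ≤ η

/-- alternative (i) of P1 Lemma 9.3 (steep contacts), `α₀ = 5/8`. -/
def S9aSteep (lm : ℝ → ℝ) : Prop :=
  ∃ (D P : ℕ → ℝ) (C : ℝ), (∀ j, 0 < D j ∧ 1 ≤ P j) ∧ Tendsto D atTop atTop ∧ Tendsto P atTop atTop ∧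
    (∀ U > (0 : ℝ), ∀ η > (0 : ℝ), ∀ᶠ j in atTop, ∀ u ∈ Icc (-U) U,
      |lm (D j * (1 - u / P j)) - lm (D j) - u| ≤ η) ∧
    ∀ j, ∀ v ≥ (1 : ℝ), lm (D j * (1 + v / P j)) - lm (D j) ≤ C - 5 / 8 * Real.log (1 + v)

/-- alternative (ii) of P1 Lemma 9.3 (bounded slopes), `c = 3/4`; only the FINE end of `ρ_*` is recorded:
`L v = log m_*(e^{-v}) = lim (lm (e^{x_j - v}) - lm (e^{x_j}))`, `v ≥ 0`. -/
structure S9aFlat (lm : ℝ → ℝ) (x : ℕ → ℝ) (L : ℝ → ℝ) (lam C P' : ℝ) : Prop where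
  x_tendsto : Tendsto x atTop atTop
  lam_ge : 1 ≤ lam
  L_cont : ContinuousOn L (Ici 0)
  L_zero : L 0 = 0
  L_lim : ∀ V > (0 : ℝ), ∀ η > (0 : ℝ), ∀ᶠ j in atTop, ∀ v ∈ Icc 0 V,
    |lm (Real.exp (x j - v)) - lm (Real.exp (x j)) - L v| ≤ η
  L_slope : ∀ η > (0 : ℝ), ∃ v₀ : ℝ, ∀ v ≥ v₀, |L v - lam * v| ≤ η * v
  /-- (9.12) -/
  coarse : ∀ j, ∀ v ≥ x j, lm (Real.exp v) ≤ lm (Real.exp (x j)) - 3 / 4 * (v - x j)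
  /-- (9.13) -/
  fine : ∀ j, ∀ v ≤ x j, lm (Real.exp v) ≤ lm (Real.exp (x j)) + P' * (x j - v) + C
  size : ∀ j, -lm (Real.exp (x j)) ≤ C * (1 + x j)

/-- The output of P1 Lemma 9.5 (the second scale): levels `K n`, centres `ξ n`, limit field `F ≢ 0`, `qF = F''/F`,
fine moment law `L`, global envelope (`β = 3/8`), cone bounds (`α = 9/16`). -/
structure S9Scale (Sh : Shape) where
  K : ℕ → ℝ
  ξ : ℕ → ℝ
  F : ℂ → ℂ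
  qF : ℂ → ℂ
  L : ℝ → ℝ
  lam : ℝ
  a : ℝ
  Cenv : ℝ
  K_tendsto : Tendsto K atTop atTop
  B_tendsto : Tendsto (fun n => Sh.μ (K n)) atTop atTop
  mesh : S9fMesh F qF
  F_lim : TendstoLocallyUniformlyOn (fun n => Sh.s9F (K n) (ξ n)) F atTop s9f_LH
  Q_lim : TendstoLocallyUniformlyOn (fun n => Sh.s9Q (K n) (ξ n)) (fun _ => 0) atTop s9f_LH
  lam_ge : 1 ≤ lam
  a_pos : 0 < a
  L_cont : ContinuousOn L (Ici 0)
  L_zero : L 0 = 0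
  L_slope : ∀ η > (0 : ℝ), ∃ v₀ : ℝ, ∀ v ≥ v₀, |L v - lam * v| ≤ η * v
  /-- `M_n(v) = e^v μ(K+v)/μ(K) → e^{L(v)}` locally uniformly on `v ≥ 0` -/
  moment : ∀ V > (0 : ℝ), ∀ η > (0 : ℝ), ∀ᶠ n in atTop, ∀ v ∈ Icc 0 V,
    |Real.log (Real.exp v * Sh.μ (K n + v) / Sh.μ (K n)) - L v| ≤ η
  /-- (9.21) -/
  env : ∀ n, ∀ l ≥ Sh.s9k0, Sh.μ l ≤ s9env (Cenv * Sh.μ (K n)) (3 / 8) a (K n) l
  /-- (9.22) -/
  cones : ∀ A > (0 : ℝ), ∃ C : ℝ, ∀ᶠ n in atTop, ∀ S : ℂ, 1 ≤ -S.im →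
    -S.im ≤ Sh.s9db / Real.exp (-K n) → |S.re| ≤ A * (-S.im) →
    max ‖Sh.s9F (K n) (ξ n) S‖ (Real.sqrt ‖Sh.s9Q (K n) (ξ n) S‖) ≤ C * (-S.im) ^ (-(9 / 16 : ℝ))

end Claimed.Agent.R269
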