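/-
Row 269, P1 Section 9: elementary identities for the rescaled fields `s9F`, `s9Q` (PROVED).   Owner: helper149.
-/
import Claimed.Agent.R269.S9.Units

set_option autoImplicit false

namespace Claimed.Agent.R269

open Complex Filter Topology MeasureTheory Set Metric
open scoped ENNReal Real

/-- `max(|F|, √|Q|) = (d'/B') M(s)`, `s = ξ + iH + d' S`. -/
theorem Shape.s9_max_FQ (Sh : Shape) (K ξ : ℝ) (S : ℂ) (hB : 0 < Sh.μ K) :
    max ‖Sh.s9F K ξ S‖ (Real.sqrt ‖Sh.s9Q K ξ S‖) =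
      Real.exp (-K) / Sh.μ K * Sh.M ((ξ : ℂ) + I * Sh.Hr + (Real.exp (-K) : ℝ) * S) := by
  have hc : 0 < Real.exp (-K) / Sh.μ K := div_pos (Real.exp_pos _) hB
  unfold Shape.s9F Shape.s9Q Shape.M
  rw [norm_mul, norm_mul, Complex.norm_real, Complex.norm_real, Real.norm_eq_abs, Real.norm_eq_abs,
    abs_of_pos hc, abs_of_pos (by positivity), Real.sqrt_mul (by positivity), Real.sqrt_sq hc.le,
    mul_max_of_nonneg _ _ hc.le]

theorem Shape.s9_mem_D (Sh : Shape) (hH : Sh.H ≠ ⊤) (y : ℂ) : y ∈ Sh.D ↔ |y.im| < Sh.Hr := by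
  unfold Shape.D estrip Shape.Hr
  exact ENNReal.ofReal_lt_iff_lt_toReal (abs_nonneg _) hH

theorem Shape.s9_Hr_pos (Sh : Shape) (hH : Sh.H ≠ ⊤) : 0 < Sh.Hr := by
  by_contra hcon
  push Not at hcon
  apply Sh.noncircular
  refine ⟨0, fun s hs => ?_⟩
  have := (Sh.s9_mem_D hH s).1 hs
  exact absurd (lt_of_le_of_lt (abs_nonneg _) this) (not_lt.2 hcon)

end Claimed.Agent.R269
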