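/-
Row 269, UNIT S9cd (growth of the limiting field): definitions.   Owner: helper149.
Scaled variables at the level `K`, centre `ξ`:  `y = ξ + iH + d' Y`,  `t = T d'/B'`,  `d' = e^{-K}`, `B' = μ K`.
-/
import Claimed.Agent.R269.S9.Units
import Claimed.Agent.R269.S9.Imports
import Claimed.Agent.R269.S9.Konti
import Claimed.Agent.R269.S9.Scale

set_option autoImplicit false

namespace Claimed.Agent.R269

open Complex Filter Topology MeasureTheory Set Metric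
open scoped ENNReal Real

/-- physical phase point of the scaled point `Y`. -/
noncomputable def Shape.s9y (Sh : Shape) (K ξ : ℝ) (Y : ℂ) : ℂ :=
  (ξ : ℂ) + I * Sh.Hr + (Real.exp (-K) : ℝ) * Y

/-- physical parameter of the scaled parameter `T`. -/
noncomputable def Shape.s9t (Sh : Shape) (K : ℝ) (T : ℂ) : ℂ := T * ((Real.exp (-K) / Sh.μ K : ℝ) : ℂ)

/-- the graph function `G(T) = -i C (η - iσT)^r` of P1 (9.36) (`σ = 1`: upper half disc, `σ = -1`: lower half disc). -/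
noncomputable def s9c_G (C η r σ : ℝ) (T : ℂ) : ℂ := -I * C * ((η : ℂ) - I * σ * T) ^ (r : ℂ)

theorem Shape.s9_zero_mem_T (Sh : Shape) (hH : Sh.H ≠ ⊤) (y : ℂ) (hy : |y.im| < Sh.Hr) :
    (y, (0 : ℂ)) ∈ Sh.T := by
  have h0 : (0:ℝ) ≤ Sh.Hr := (abs_nonneg _).trans hy.le
  have hpos : 0 < Sh.Hr := lt_of_le_of_lt (abs_nonneg _) hy
  refine ⟨by simpa using Sh.ρ_pos, ?_, ?_⟩
  · show ENNReal.ofReal y.im < Sh.G.hX 0
    have : ENNReal.ofReal y.im ≤ ENNReal.ofReal |y.im| := ENNReal.ofReal_le_ofReal (le_abs_self _)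
    exact lt_of_le_of_lt this ((Sh.s9_mem_D hH y).2 hy)
  · show ENNReal.ofReal (-y.im) < Sh.G.hX ((starRingEnd ℂ) 0)
    rw [map_zero]
    have : ENNReal.ofReal (-y.im) ≤ ENNReal.ofReal |y.im| := ENNReal.ofReal_le_ofReal (neg_le_abs _)
    exact lt_of_le_of_lt this ((Sh.s9_mem_D hH y).2 hy)

theorem Shape.s9y_re (Sh : Shape) (K ξ : ℝ) (Y : ℂ) : (Sh.s9y K ξ Y).re = ξ + Real.exp (-K) * Y.re := by
  unfold Shape.s9y
  rw [Complex.add_re, Complex.add_re, Complex.re_ofReal_mul]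
  simp

theorem Shape.s9y_im (Sh : Shape) (K ξ : ℝ) (Y : ℂ) : (Sh.s9y K ξ Y).im = Sh.Hr + Real.exp (-K) * Y.im := by
  unfold Shape.s9y
  rw [Complex.add_im, Complex.add_im, Complex.im_ofReal_mul]
  simp

theorem Shape.s9y_dep (Sh : Shape) (K ξ : ℝ) (Y : ℂ) : Sh.s9dep (Sh.s9y K ξ Y) = Real.exp (-K) * (-Y.im) := by
  unfold Shape.s9dep; rw [Sh.s9y_im]; ring

theorem Shape.s9y_inv (Sh : Shape) (K ξ : ℝ) (y : ℂ) :
    Sh.s9y K ξ ((y - (ξ : ℂ) - I * Sh.Hr) / ((Real.exp (-K) : ℝ) : ℂ)) = y := by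
  have h : ((Real.exp (-K) : ℝ) : ℂ) ≠ 0 := by exact_mod_cast (Real.exp_pos _).ne'
  unfold Shape.s9y
  field_simp
  ring

theorem Shape.s9t_norm (Sh : Shape) (K : ℝ) (T : ℂ) (hB : 0 < Sh.μ K) :
    ‖Sh.s9t K T‖ = ‖T‖ * (Real.exp (-K) / Sh.μ K) := by
  unfold Shape.s9t
  rw [norm_mul, Complex.norm_real, Real.norm_eq_abs, abs_of_pos (div_pos (Real.exp_pos _) hB)]

theorem Shape.s9_db_pos (Sh : Shape) : 0 < Sh.s9db := Real.exp_pos _

theorem Shape.s9_db_lt_half (Sh : Shape) (hH : Sh.H ≠ ⊤) : Sh.s9db < Sh.Hr / 2 := by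
  have hHr := Sh.s9_Hr_pos hH
  have h1 : Sh.s9k0 ≥ 1 - Real.log (Sh.Hr / 10) := le_max_right _ _
  have h2 : Sh.s9db ≤ Real.exp (Real.log (Sh.Hr / 10)) := by
    unfold Shape.s9db
    apply Real.exp_le_exp.2
    linarith
  rw [Real.exp_log (by positivity)] at h2
  linarith

end Claimed.Agent.R269
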