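/-
Row 269, UNIT S9cd, LEAF PACKAGE LF-S9c-coef (step E4).   Blueprint: helper149.   No paper reading needed (this is P1 l.996-1020, and also the end of the proof of Thm 8.4).

COEFFICIENT ESTIMATE: a full parameter disc of radius `ϱ` in the maximal passage over a depth-sized neighbourhood of `y₀` bounds `W = f² + 8q` at `y₀`.

PROOF.  `δ₀ = dep y₀`.  Let `y ∈ closedBall y₀ (δ₀/2)`; it lies in the strip (`δ₀ ≤ H`), `dep y ≤ 3δ₀/2`.  `u t = s9Smax (y,t)` is holomorphic on `ball 0 ϱ` (`Shape.s9k_max`.diff composed with `t ↦ (y,t)`), `Im u < H` (`.mem`),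
and `u = lift (y, ·)` near `0` (`(y,0)` is in the open tube; `s9k_tube`, `s9k_max_spec`), `u 0 = y` (`lift_zero`).
`h t = -i (u t - y)`: `h 0 = 0`, `Re h = Im u - Im y < dep y ≤ 3δ₀/2`.  `Complex.borelCaratheodory_zero`: `‖h t‖ ≤ 3δ₀` for `‖t‖ ≤ ϱ/2`.
Cauchy estimate for the second derivative (`Complex.norm_iteratedDeriv_le_of_forall_mem_sphere_norm_le`, `n = 2`, radius `ϱ/2`): `‖u''(0)‖ ≤ 2 · 3δ₀/(ϱ/2)²`, so `‖s9V y‖ ≤ 12 δ₀/ϱ²`.
`s9V` is holomorphic on the strip with derivative `(W - ⟨W⟩)/120` (`Shape.s9i_V_deriv`).  Cauchy estimate on the circle of radius `δ₀/2` about `y₀` (`Complex.norm_deriv_le_of_forall_mem_sphere_norm_le`):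
`‖W y₀ - ⟨W⟩‖/120 ≤ (12 δ₀/ϱ²)/(δ₀/2) = 24/ϱ²`.
-/
import Claimed.Agent.R269.S9.GrowthDefs

set_option autoImplicit false

namespace Claimed.Agent.R269

open Complex Filter Topology MeasureTheory Set Metric
open scoped ENNReal Real

/-- bound of the first displacement coefficient by a parameter disc in the maximal passage. -/
theorem Shape.s9c_V_bound (Sh : Shape) (hH : Sh.H ≠ ⊤) (y : ℂ) (ϱ M : ℝ) (hϱ : 0 < ϱ) (hM : 0 < M)
    (hy : |y.im| < Sh.Hr) (hyM : Sh.Hr - y.im ≤ M)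
    (hin : ∀ t ∈ ball (0 : ℂ) ϱ, (y, t) ∈ Sh.s9Rmax) : ‖Sh.s9V y‖ ≤ 8 * M / ϱ ^ 2 := by
  set u : ℂ → ℂ := fun t => Sh.s9Smax (y, t) with hu
  have hιd : Differentiable ℂ (fun t : ℂ => (y, t)) := by fun_prop
  have hud : DifferentiableOn ℂ u (ball 0 ϱ) :=
    Sh.s9k_max.diff.comp hιd.differentiableOn (fun t ht => hin t ht)
  have hT : (y, (0 : ℂ)) ∈ Sh.T := Sh.s9_zero_mem_T hH y hy
  have hev : u =ᶠ[𝓝 0] fun t => Sh.lift (y, t) := by
    have h1 : ∀ᶠ z in 𝓝 (y, (0 : ℂ)), z ∈ Sh.T := Sh.s9k_T_open.mem_nhds hT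
    have h2 : Tendsto (fun t : ℂ => (y, t)) (𝓝 0) (𝓝 (y, (0 : ℂ))) := hιd.continuous.tendsto 0
    filter_upwards [h2.eventually h1] with t ht
    exact ((Sh.s9k_max_spec Sh.s9k_tube).2 ht).symm
  have hu0 : u 0 = y := by
    rw [hev.eq_of_nhds]
    exact Sh.lift_zero y ((Sh.s9_mem_D hH y).2 hy)
  have hV : Sh.s9V y = deriv (deriv u) 0 / 2 := by
    unfold Shape.s9V
    rw [hev.deriv.deriv_eq]
  set h : ℂ → ℂ := fun t => -I * (u t - y) with hh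
  have hhd : DifferentiableOn ℂ h (ball 0 ϱ) := (hud.sub_const y).const_mul _
  have hh0 : h 0 = 0 := by simp [hh, hu0]
  have hre : MapsTo h (ball 0 ϱ) {z | z.re ≤ M} := by
    intro t ht
    have h1 : |(u t).im| < Sh.Hr := (Sh.s9_mem_D hH _).1 (Sh.s9k_max.mem _ (hin t ht))
    have h2 : (h t).re = (u t).im - y.im := by simp [hh]
    show (h t).re ≤ M
    rw [h2]
    have := (abs_lt.1 h1).2
    linarith
  have hbd : ∀ t ∈ sphere (0 : ℂ) (ϱ / 2), ‖h t‖ ≤ 2 * M := by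
    intro t ht
    have htn : ‖t‖ = ϱ / 2 := by simpa using ht
    have htb : t ∈ ball (0 : ℂ) ϱ := by rw [mem_ball_zero_iff, htn]; linarith
    have := Complex.borelCaratheodory_zero hM hhd hre hϱ htb hh0
    rw [htn] at this
    have h3 : 2 * M * (ϱ / 2) / (ϱ - ϱ / 2) = 2 * M := by field_simp; ring
    linarith
  have hdc : DiffContOnCl ℂ h (ball 0 (ϱ / 2)) := by
    apply DifferentiableOn.diffContOnCl
    rw [closure_ball _ (by positivity)]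
    exact hhd.mono (closedBall_subset_ball (by linarith))
  have hc := Complex.norm_iteratedDeriv_le_of_forall_mem_sphere_norm_le 2 (by positivity) hdc hbd
  have hit : iteratedDeriv 2 h 0 = -I * deriv (deriv u) 0 := by
    rw [iteratedDeriv_succ, iteratedDeriv_one]
    have hball : ball (0 : ℂ) ϱ ∈ 𝓝 (0 : ℂ) := ball_mem_nhds _ hϱ
    have h4 : deriv h =ᶠ[𝓝 0] fun t => -I * deriv u t := by
      filter_upwards [isOpen_ball.mem_nhds (mem_ball_self hϱ)] with t ht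
      have hut : DifferentiableAt ℂ u t := (hud t ht).differentiableAt (isOpen_ball.mem_nhds ht)
      have : HasDerivAt h (-I * (deriv u t)) t := (hut.hasDerivAt.sub_const y).const_mul _
      exact this.deriv
    rw [h4.deriv_eq]
    have hdu : DifferentiableAt ℂ (deriv u) 0 :=
      ((hud.deriv isOpen_ball) 0 (mem_ball_self hϱ)).differentiableAt hball
    exact (hdu.hasDerivAt.const_mul _).deriv
  rw [hit] at hc
  have hn : ‖-I * deriv (deriv u) 0‖ = ‖deriv (deriv u) 0‖ := by simp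
  rw [hn] at hc
  rw [hV, norm_div]
  have h5 : ((2 : ℕ).factorial : ℝ) * (2 * M) / (ϱ / 2) ^ 2 = 16 * M / ϱ ^ 2 := by
    simp [Nat.factorial]; field_simp; ring
  rw [h5] at hc
  have h6 : ‖(2 : ℂ)‖ = 2 := by simp
  rw [h6, div_le_iff₀ (by norm_num)]
  calc ‖deriv (deriv u) 0‖ ≤ 16 * M / ϱ ^ 2 := hc
    _ = 8 * M / ϱ ^ 2 * 2 := by ring

/-- LEAF E4. -/
theorem Shape.s9c_coef (Sh : Shape) (hH : Sh.H ≠ ⊤) (y₀ : ℂ) (ϱ : ℝ) (hϱ : 0 < ϱ)
    (hdep : 0 < Sh.s9dep y₀) (hdep' : Sh.s9dep y₀ ≤ Sh.Hr)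
    (hin : ∀ y ∈ closedBall y₀ (Sh.s9dep y₀ / 2), ∀ t ∈ ball (0 : ℂ) ϱ, (y, t) ∈ Sh.s9Rmax) :
    ‖Sh.W y₀ - Sh.s9Wm‖ ≤ 2880 / ϱ ^ 2 := by
  set δ₀ := Sh.s9dep y₀ with hδ₀
  have hδ : δ₀ = Sh.Hr - y₀.im := rfl
  have hstrip : ∀ y ∈ closedBall y₀ (δ₀ / 2), |y.im| < Sh.Hr ∧ Sh.Hr - y.im ≤ 3 * δ₀ / 2 := by
    intro y hy
    have h1 : |y.im - y₀.im| ≤ δ₀ / 2 := by
      have : ‖y - y₀‖ ≤ δ₀ / 2 := by simpa [dist_eq_norm] using hy
      calc |y.im - y₀.im| = |(y - y₀).im| := by simp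
        _ ≤ ‖y - y₀‖ := Complex.abs_im_le_norm _
        _ ≤ δ₀ / 2 := this
    obtain ⟨h2, h3⟩ := abs_le.1 h1
    refine ⟨abs_lt.2 ⟨by linarith, by linarith⟩, by linarith⟩
  have hVb : ∀ y ∈ sphere y₀ (δ₀ / 2), ‖Sh.s9V y‖ ≤ 12 * δ₀ / ϱ ^ 2 := by
    intro y hy
    have hy' := sphere_subset_closedBall hy
    have := Sh.s9c_V_bound hH y ϱ (3 * δ₀ / 2) hϱ (by positivity) (hstrip y hy').1 (hstrip y hy').2
      (hin y hy')
    calc ‖Sh.s9V y‖ ≤ 8 * (3 * δ₀ / 2) / ϱ ^ 2 := this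
      _ = 12 * δ₀ / ϱ ^ 2 := by ring
  have hVd : DiffContOnCl ℂ Sh.s9V (ball y₀ (δ₀ / 2)) := by
    apply DifferentiableOn.diffContOnCl
    rw [closure_ball _ (by positivity)]
    intro y hy
    exact (Sh.s9i_V_deriv y ((Sh.s9_mem_D hH y).2 (hstrip y hy).1)).differentiableAt.differentiableWithinAt
  have hc := Complex.norm_deriv_le_of_forall_mem_sphere_norm_le (by positivity) hVd hVb
  have hy₀ : y₀ ∈ closedBall y₀ (δ₀ / 2) := mem_closedBall_self (by positivity)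
  rw [(Sh.s9i_V_deriv y₀ ((Sh.s9_mem_D hH y₀).2 (hstrip y₀ hy₀).1)).deriv, norm_div] at hc
  have h7 : ‖(120 : ℂ)‖ = 120 := by simp
  rw [h7, div_le_iff₀ (by norm_num)] at hc
  calc ‖Sh.W y₀ - Sh.s9Wm‖ ≤ 12 * δ₀ / ϱ ^ 2 / (δ₀ / 2) * 120 := hc
    _ = 2880 / ϱ ^ 2 := by field_simp; ring

end Claimed.Agent.R269
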