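/-
Row 269, UNIT S9cd, LEAF PACKAGE LF-S9c-graph (step E3a).   Blueprint: helper149.   Proof: helper175.   HOST-FREE (complex powers only).

PROOF.  `ζ = η - iσT` has `Re ζ = η + σ Im T ≥ η > 0`, so `ζ ∈ slitPlane`, `|arg ζ| < π/2`, `ζ^r = |ζ|^r e^{i r arg ζ}` (`Complex.cpow_def_of_ne_zero`, `Complex.norm_cpow_eq_rpow_re_of_pos`...), `|r arg ζ| < π r/2 < π/2`.
`-Im G = C Re ζ^r = C |ζ|^r cos (r arg ζ) ≥ C |ζ|^r cos (π r/2)`;  `Re G = C Im ζ^r`, `|Im ζ^r| = |ζ|^r |sin (r arg ζ)| ≤ tan (π r/2) Re ζ^r` (`tan` is increasing on `[0,π/2)`).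
`|ζ|² = (η + σ Im T)² + (Re T)² ≥ |T|²`, `|ζ| ≤ η + |T|`.
-/
import Claimed.Agent.R269.S9.GrowthDefs

set_option autoImplicit false

namespace Claimed.Agent.R269

open Complex Filter Topology MeasureTheory Set Metric
open scoped ENNReal Real

/-- LEAF E3a: properties of the graph function on the closed half plane `σ Im T ≥ 0`. -/
theorem s9c_G_props (C η r σ : ℝ) (hC : 0 < C) (hη : 0 < η) (hr : 0 < r) (hr' : r < 1)
    (hσ : σ = 1 ∨ σ = -1) (T : ℂ) (hT : 0 ≤ σ * T.im) :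
    DifferentiableAt ℂ (s9c_G C η r σ) T ∧
      C * Real.cos (π * r / 2) * ‖T‖ ^ r ≤ -(s9c_G C η r σ T).im ∧
      |(s9c_G C η r σ T).re| ≤ Real.tan (π * r / 2) * (-(s9c_G C η r σ T).im) ∧
      ‖s9c_G C η r σ T‖ ≤ C * (η + ‖T‖) ^ r := by
  have hσ2 : σ ^ 2 = 1 := by rcases hσ with h | h <;> rw [h] <;> norm_num
  obtain ⟨ζ, hζ⟩ : ∃ ζ : ℂ, ζ = (η : ℂ) - I * σ * T := ⟨_, rfl⟩
  have hre : ζ.re = η + σ * T.im := by rw [hζ]; simp
  have him : ζ.im = -(σ * T.re) := by rw [hζ]; simp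
  have hrepos : 0 < ζ.re := by rw [hre]; linarith
  have hslit : ζ ∈ slitPlane := Or.inl hrepos
  have hG : s9c_G C η r σ T = -I * C * ζ ^ (r : ℂ) := by rw [hζ]; rfl
  have hGre : (s9c_G C η r σ T).re = C * (‖ζ‖ ^ r * Real.sin (arg ζ * r)) := by
    rw [hG, ← cpow_ofReal_im]; simp
  have hGim : (s9c_G C η r σ T).im = -(C * (‖ζ‖ ^ r * Real.cos (arg ζ * r))) := by
    rw [hG, ← cpow_ofReal_re]; simp
  have hπ := Real.pi_pos
  obtain ⟨y, hy⟩ : ∃ y : ℝ, y = π * r / 2 := ⟨_, rfl⟩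
  have hy0 : 0 < y := by rw [hy]; positivity
  have hy1 : y < π / 2 := by rw [hy]; nlinarith
  obtain ⟨x, hx⟩ : ∃ x : ℝ, x = |arg ζ * r| := ⟨_, rfl⟩
  have hx0 : 0 ≤ x := by rw [hx]; exact abs_nonneg _
  have hxy : x ≤ y := by
    have h1 : |arg ζ| < π / 2 := abs_arg_lt_pi_div_two_iff.2 (Or.inl hrepos)
    rw [hx, hy, abs_mul, abs_of_pos hr]
    nlinarith
  have hcosx : Real.cos (arg ζ * r) = Real.cos x := by rw [hx, Real.cos_abs]
  have hsinx : |Real.sin (arg ζ * r)| = Real.sin x := by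
    rw [hx]
    rcases le_total 0 (arg ζ * r) with h | h
    · rw [abs_of_nonneg h] at hx ⊢
      exact abs_of_nonneg (Real.sin_nonneg_of_nonneg_of_le_pi h (by rw [← hx]; linarith))
    · rw [abs_of_nonpos h] at hx ⊢
      rw [Real.sin_neg]
      exact abs_of_nonpos (Real.sin_nonpos_of_nonpos_of_neg_pi_le h (by linarith))
  have hcosy : 0 < Real.cos y := Real.cos_pos_of_mem_Ioo ⟨by linarith, hy1⟩
  have hcos_le : Real.cos y ≤ Real.cos x :=
    Real.cos_le_cos_of_nonneg_of_le_pi hx0 (by linarith) hxy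
  have hnT : ‖T‖ ≤ ‖ζ‖ := by
    rw [← pow_le_pow_iff_left₀ (norm_nonneg _) (norm_nonneg _) two_ne_zero, Complex.sq_norm,
      Complex.sq_norm, normSq_apply, normSq_apply, hre, him]
    have e1 : σ * T.re * (σ * T.re) = T.re * T.re := by
      calc σ * T.re * (σ * T.re) = σ ^ 2 * (T.re * T.re) := by ring
        _ = T.re * T.re := by rw [hσ2, one_mul]
    have e2 : σ * T.im * (σ * T.im) = T.im * T.im := by
      calc σ * T.im * (σ * T.im) = σ ^ 2 * (T.im * T.im) := by ring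
        _ = T.im * T.im := by rw [hσ2, one_mul]
    nlinarith
  have hnζ : ‖ζ‖ ≤ η + ‖T‖ := by
    rw [hζ]
    calc ‖(η : ℂ) - I * σ * T‖ ≤ ‖(η : ℂ)‖ + ‖I * σ * T‖ := norm_sub_le _ _
      _ = η + ‖T‖ := by
        have : |σ| = 1 := by rcases hσ with h | h <;> rw [h] <;> norm_num
        rw [norm_mul, norm_mul, norm_I, Complex.norm_real, Complex.norm_real, Real.norm_eq_abs,
          Real.norm_eq_abs, this, abs_of_pos hη]
        ring
  have hpow0 : 0 ≤ ‖ζ‖ ^ r := Real.rpow_nonneg (norm_nonneg _) _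
  refine ⟨?_, ?_, ?_, ?_⟩
  · unfold s9c_G
    refine DifferentiableAt.const_mul ?_ _
    refine DifferentiableAt.cpow ?_ (differentiableAt_const _) (by rw [← hζ]; exact hslit)
    exact (differentiableAt_const _).sub (differentiableAt_id.const_mul _)
  · rw [hGim, neg_neg, hcosx, ← hy, mul_assoc]
    refine mul_le_mul_of_nonneg_left ?_ hC.le
    rw [mul_comm]
    exact mul_le_mul (Real.rpow_le_rpow (norm_nonneg _) hnT hr.le) hcos_le hcosy.le hpow0
  · rw [hGre, hGim, neg_neg, hcosx, ← hy, abs_mul, abs_mul, abs_of_pos hC, abs_of_nonneg hpow0, hsinx,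
      Real.tan_eq_sin_div_cos]
    have h1 : 0 ≤ Real.sin (y - x) :=
      Real.sin_nonneg_of_nonneg_of_le_pi (by linarith) (by linarith)
    rw [Real.sin_sub] at h1
    have h2 : Real.sin x ≤ Real.sin y / Real.cos y * Real.cos x := by
      rw [div_mul_eq_mul_div, le_div_iff₀ hcosy]
      linarith
    calc C * (‖ζ‖ ^ r * Real.sin x) ≤ C * (‖ζ‖ ^ r * (Real.sin y / Real.cos y * Real.cos x)) :=
          mul_le_mul_of_nonneg_left (mul_le_mul_of_nonneg_left h2 hpow0) hC.le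
      _ = Real.sin y / Real.cos y * (C * (‖ζ‖ ^ r * Real.cos x)) := by ring
  · rw [hG, norm_mul, norm_mul, norm_neg, norm_I, one_mul, Complex.norm_real, Real.norm_eq_abs,
      abs_of_pos hC, norm_cpow_real]
    exact mul_le_mul_of_nonneg_left (Real.rpow_le_rpow (norm_nonneg _) hnζ hr.le) hC.le

end Claimed.Agent.R269
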