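/-
Row 269, UNIT S9cd, LEAF PACKAGE LF-S9c-width (step E1).   Blueprint: helper149.   No paper reading needed.

REAL WIDTH BOUND (P1 (9.32)) in a form uniform in `T`.

PROOF.  Put `λ = 𝒮.lam`, `a'' = max 𝒮.a (λ+ε) + 1`, `(c₀, k₁)` from `Shape.s9i_basic_width` with `β = 3/8`, `a''`.
`C_L`: `L v ≤ (λ + ε/2) v + C_L` for all `v ≥ 0` (`L_slope` beyond `v₀`, continuity on `[0,v₀]`).   `C_ε = max 𝒮.Cenv (e^{1 + C_L})`, `c = min 1 (c₀/C_ε)`.
STEP 1 (fixed `D ∈ (0,1]`, `u = -log D ≥ 0`): eventually in `n`, with `k = K_n + u`, `N₀ = C_ε B' D^{1-λ-ε}` (`≥ 1` as `B' → ∞`): `μ l ≤ s9env N₀ (3/8) a'' k l` for all `l ≥ k₀`.   Write `l = K_n + v`.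
  (1) `v ≤ 0`: `env`, and `D^{1-λ-ε-3/8} ≥ 1`.
  (2) `0 ≤ v ≤ u` and (3) `u ≤ v ≤ V := a'' u`: `moment` with `η = 1` on `[0, V+1]` gives `μ l ≤ B' e^{-v} e^{1 + L v} ≤ B' e^{1+C_L} e^{(λ+ε/2-1) v}`; compare exponents (`λ + ε/2 - 1 ≥ 0`, `≤ a''`).
  (4) `v ≥ V`: `env`: `a v ≤ a'' (v - u)` because `(a'' - a) v ≥ v ≥ a'' u`.
  Hence `Δ(t) ≤ d' D` for real `|t| ≤ c₀ d' D/N₀ = (c₀/C_ε)(d'/B') D^{λ+ε}`.
STEP 2 (dyadic union).  Given `D₀`, apply step 1 to `D_i = 2^{-i}`, `0 ≤ i ≤ i₁`, `2^{-i₁} ≤ D₀` (finite intersection of eventual sets).  For `|T| ≤ c` let `i ≤ i₁` be the largest index with `|T| ≤ c D_i^{λ+ε}` (`i = 0` is admissible).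
  If `i = i₁`: `Δ ≤ d' D₀`.  Otherwise `|T| > c (D_i/2)^{λ+ε}`, i.e. `D_i < 2 (|T|/c)^{1/(λ+ε)}`.
-/
import Claimed.Agent.R269.S9.GrowthDefs

set_option autoImplicit false

namespace Claimed.Agent.R269

open Complex Filter Topology MeasureTheory Set Metric
open scoped ENNReal Real

theorem Shape.s9_mu_nonneg (Sh : Shape) (k : ℝ) : 0 ≤ Sh.μ k := by
  unfold Shape.μ; positivity

/-- affine upper bound for the fine moment law. -/
theorem s9c_L_upper {Sh : Shape} (𝒮 : S9Scale Sh) (ε : ℝ) (hε : 0 < ε) :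
    ∃ CL : ℝ, 0 ≤ CL ∧ ∀ v ≥ (0 : ℝ), 𝒮.L v ≤ (𝒮.lam + ε) * v + CL := by
  obtain ⟨v₀, hv₀⟩ := 𝒮.L_slope ε hε
  have hc : ContinuousOn 𝒮.L (Icc 0 (max v₀ 0)) := 𝒮.L_cont.mono fun v hv => hv.1
  obtain ⟨M, hM⟩ := isCompact_Icc.bddAbove_image hc
  refine ⟨max M 0, le_max_right _ _, fun v hv => ?_⟩
  have hlam : 0 ≤ 𝒮.lam + ε := by linarith [𝒮.lam_ge]
  rcases le_total v (max v₀ 0) with h | h
  · have h1 : 𝒮.L v ≤ M := hM ⟨v, ⟨hv, h⟩, rfl⟩
    have h2 : 0 ≤ (𝒮.lam + ε) * v := mul_nonneg hlam hv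
    linarith [le_max_left M 0]
  · have h1 := (abs_le.1 (hv₀ v ((le_max_left _ _).trans h))).2
    nlinarith [le_max_right M 0]

/-- the envelope centred at the finer level `K n + u`. -/
theorem s9c_env_shift {Sh : Shape} (𝒮 : S9Scale Sh) (ε CL u : ℝ) (hε : 0 < ε)
    (hCL : ∀ v ≥ (0 : ℝ), 𝒮.L v ≤ (𝒮.lam + ε / 2) * v + CL) (hu : 0 ≤ u) :
    ∀ᶠ n in atTop, ∀ l ≥ Sh.s9k0,
      Sh.μ l ≤ s9env (max 𝒮.Cenv (Real.exp (1 + CL)) * Sh.μ (𝒮.K n) * Real.exp ((𝒮.lam + ε - 1) * u))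
        (3 / 8) (max 𝒮.a (𝒮.lam + ε) + 1) (𝒮.K n + u) l := by
  set a'' : ℝ := max 𝒮.a (𝒮.lam + ε) + 1 with ha''
  set Cε : ℝ := max 𝒮.Cenv (Real.exp (1 + CL)) with hCε
  have hlam := 𝒮.lam_ge
  have ha1 : 𝒮.a + 1 ≤ a'' := by rw [ha'']; linarith [le_max_left 𝒮.a (𝒮.lam + ε)]
  have ha2 : 𝒮.lam + ε + 1 ≤ a'' := by rw [ha'']; linarith [le_max_right 𝒮.a (𝒮.lam + ε)]
  have ha0 : 0 < a'' := by linarith
  have hCε0 : 0 < Cε := lt_of_lt_of_le (Real.exp_pos _) (le_max_right _ _)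
  have hV : 0 < a'' * u + 1 := by positivity
  filter_upwards [𝒮.moment (a'' * u + 1) hV 1 one_pos, 𝒮.B_tendsto.eventually_gt_atTop 0] with n hmom hB l hl
  set B' := Sh.μ (𝒮.K n) with hB'
  set K := 𝒮.K n with hK
  -- it suffices to bound by `Cε B' exp X` with `X` below the target exponent
  have key : ∀ X : ℝ, Sh.μ l ≤ Cε * B' * Real.exp X →
      X ≤ (𝒮.lam + ε - 1) * u + (3 / 8 * max (K + u - l) 0 + a'' * max (l - (K + u)) 0) →
      Sh.μ l ≤ s9env (Cε * B' * Real.exp ((𝒮.lam + ε - 1) * u)) (3 / 8) a'' (K + u) l := by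
    intro X h1 h2
    unfold s9env
    rw [mul_assoc (Cε * B'), ← Real.exp_add]
    refine h1.trans ?_
    have : Real.exp X ≤ Real.exp ((𝒮.lam + ε - 1) * u + (3 / 8 * max (K + u - l) 0 + a'' * max (l - (K + u)) 0)) :=
      Real.exp_le_exp.2 h2
    have hpos : 0 ≤ Cε * B' := by positivity
    exact mul_le_mul_of_nonneg_left this hpos
  have henv := 𝒮.env n l hl
  unfold s9env at henv
  have henv' : Sh.μ l ≤ Cε * B' * Real.exp (3 / 8 * max (K - l) 0 + 𝒮.a * max (l - K) 0) := by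
    refine henv.trans ?_
    have : 𝒮.Cenv * B' ≤ Cε * B' := mul_le_mul_of_nonneg_right (le_max_left _ _) hB.le
    exact mul_le_mul_of_nonneg_right this (Real.exp_pos _).le
  -- the bound from the moment law
  have hmomb : ∀ v ∈ Icc 0 (a'' * u + 1), l = K + v →
      Sh.μ l ≤ Cε * B' * Real.exp ((𝒮.lam + ε / 2 - 1) * v) := by
    intro v hv hlv
    have h1 := (abs_le.1 (hmom v hv)).2
    have hx0 : 0 ≤ Real.exp v * Sh.μ (K + v) / B' := by
      have := Sh.s9_mu_nonneg (K + v); positivity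
    have h2 : Real.exp v * Sh.μ (K + v) / B' ≤ Real.exp (1 + 𝒮.L v) := by
      rcases hx0.eq_or_lt with h0 | h0
      · rw [← h0]; exact (Real.exp_pos _).le
      · rw [← Real.exp_log h0]; exact Real.exp_le_exp.2 (by linarith)
    have h3 : Real.exp (1 + 𝒮.L v) ≤ Real.exp (1 + CL) * Real.exp ((𝒮.lam + ε / 2) * v) := by
      rw [← Real.exp_add]; exact Real.exp_le_exp.2 (by linarith [hCL v hv.1])
    have h4 : Sh.μ (K + v) ≤ B' * (Real.exp (1 + CL) * Real.exp ((𝒮.lam + ε / 2) * v)) * Real.exp (-v) := by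
      have h5 := h2.trans h3
      rw [div_le_iff₀ hB] at h5
      have h6 : Sh.μ (K + v) = Real.exp v * Sh.μ (K + v) * Real.exp (-v) := by
        rw [mul_comm (Real.exp v), mul_assoc, ← Real.exp_add]; simp
      rw [h6]
      have := (Real.exp_pos (-v)).le
      nlinarith
    rw [hlv]
    refine h4.trans ?_
    have h7 : B' * (Real.exp (1 + CL) * Real.exp ((𝒮.lam + ε / 2) * v)) * Real.exp (-v) =
        Real.exp (1 + CL) * B' * Real.exp ((𝒮.lam + ε / 2 - 1) * v) := by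
      have : Real.exp ((𝒮.lam + ε / 2 - 1) * v) = Real.exp ((𝒮.lam + ε / 2) * v) * Real.exp (-v) := by
        rw [← Real.exp_add]; ring_nf
      rw [this]; ring
    rw [h7]
    have : Real.exp (1 + CL) * B' ≤ Cε * B' := mul_le_mul_of_nonneg_right (le_max_right _ _) hB.le
    exact mul_le_mul_of_nonneg_right this (Real.exp_pos _).le
  set v := l - K with hv
  have hlv : l = K + v := by rw [hv]; ring
  rcases le_total v 0 with hv0 | hv0
  · -- coarse side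
    refine key _ henv' ?_
    have e1 : max (K - l) 0 = -v := by rw [max_eq_left (by linarith)]; rw [hv]; ring
    have e2 : max (l - K) 0 = 0 := max_eq_right (by linarith)
    have e3 : max (K + u - l) 0 = u - v := by rw [max_eq_left (by linarith)]; rw [hv]; ring
    have e4 : max (l - (K + u)) 0 = 0 := max_eq_right (by linarith)
    rw [e1, e2, e3, e4]
    have : 0 ≤ (𝒮.lam + ε - 1) * u := mul_nonneg (by linarith) hu
    linarith
  · rcases le_total v u with hvu | hvu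
    · refine key _ (hmomb v ⟨hv0, by nlinarith⟩ hlv) ?_
      have e3 : max (K + u - l) 0 = u - v := by rw [max_eq_left (by linarith)]; rw [hv]; ring
      have e4 : max (l - (K + u)) 0 = 0 := max_eq_right (by linarith)
      rw [e3, e4]
      have h1 : (𝒮.lam + ε / 2 - 1) * v ≤ (𝒮.lam + ε / 2 - 1) * u :=
        mul_le_mul_of_nonneg_left hvu (by linarith)
      nlinarith
    · have e3 : max (K + u - l) 0 = 0 := max_eq_right (by linarith)
      have e4 : max (l - (K + u)) 0 = v - u := by rw [max_eq_left (by linarith)]; rw [hv]; ring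
      rcases le_total v (a'' * u + 1) with hvV | hvV
      · refine key _ (hmomb v ⟨hv0, hvV⟩ hlv) ?_
        rw [e3, e4]
        have h1 : (𝒮.lam + ε / 2 - 1) * (v - u) ≤ a'' * (v - u) :=
          mul_le_mul_of_nonneg_right (by linarith) (by linarith)
        nlinarith
      · refine key _ henv' ?_
        have e1 : max (K - l) 0 = 0 := max_eq_right (by linarith)
        have e2 : max (l - K) 0 = v := max_eq_left (by linarith)
        rw [e1, e2, e3, e4]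
        have h1 : 0 ≤ (𝒮.lam + ε - 1) * u := mul_nonneg (by linarith) hu
        have h2 : (𝒮.a + 1) * v ≤ a'' * v := mul_le_mul_of_nonneg_right ha1 hv0
        nlinarith

/-- STEP 1: the width bound at one scale `D`. -/
theorem s9c_width_one (Sh : Shape) (hH : Sh.H ≠ ⊤) (ho : Sh.order = 1) (𝒮 : S9Scale Sh) (ε : ℝ)
    (hε : 0 < ε) :
    ∃ c : ℝ, 0 < c ∧ c ≤ 1 ∧ ∀ D ∈ Ioc (0 : ℝ) 1, ∀ᶠ n in atTop, ∀ T : ℝ, |T| ≤ c * D ^ (𝒮.lam + ε) →
      Sh.Δ (Sh.s9t (𝒮.K n) (T : ℂ)) ≤ Real.exp (-𝒮.K n) * D := by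
  obtain ⟨CL, -, hCL⟩ := s9c_L_upper 𝒮 (ε / 2) (by positivity)
  set a'' : ℝ := max 𝒮.a (𝒮.lam + ε) + 1 with ha''
  set Cε : ℝ := max 𝒮.Cenv (Real.exp (1 + CL)) with hCε
  have hlam := 𝒮.lam_ge
  have ha0 : 0 < a'' := by rw [ha'']; linarith [le_max_right 𝒮.a (𝒮.lam + ε)]
  have hCε0 : 0 < Cε := lt_of_lt_of_le (Real.exp_pos _) (le_max_right _ _)
  obtain ⟨c₀, k₁, hc₀, hw⟩ := Sh.s9i_basic_width hH ho (3 / 8) a'' (by norm_num) (by norm_num) ha0
  refine ⟨min 1 (c₀ / Cε), lt_min one_pos (by positivity), min_le_left _ _, ?_⟩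
  rintro D ⟨hD0, hD1⟩
  set u : ℝ := -Real.log D with hu
  have hu0 : 0 ≤ u := by rw [hu]; linarith [Real.log_nonpos hD0.le hD1]
  have hDu : Real.exp (-u) = D := by rw [hu, neg_neg, Real.exp_log hD0]
  have e1 : ∀ᶠ n in atTop, k₁ ≤ 𝒮.K n := 𝒮.K_tendsto.eventually_ge_atTop _
  have e2 : ∀ᶠ n in atTop, max 1 (1 / Cε) ≤ Sh.μ (𝒮.K n) := 𝒮.B_tendsto.eventually_ge_atTop _
  filter_upwards [s9c_env_shift 𝒮 ε CL u hε hCL hu0, e1, e2] with n henv hk hB T hT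
  set B' := Sh.μ (𝒮.K n) with hB'
  set d' := Real.exp (-𝒮.K n) with hd'
  have hd'0 : 0 < d' := Real.exp_pos _
  have hB0 : 0 < B' := lt_of_lt_of_le one_pos ((le_max_left _ _).trans hB)
  have hCB : 1 ≤ Cε * B' := by
    have : 1 / Cε ≤ B' := (le_max_right _ _).trans hB
    rw [div_le_iff₀ hCε0] at this
    linarith
  set E := Real.exp ((𝒮.lam + ε - 1) * u) with hE
  have hE1 : 1 ≤ E := Real.one_le_exp (mul_nonneg (by linarith) hu0)
  have hN : 1 ≤ Cε * B' * E := by nlinarith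
  have hcast : Sh.s9t (𝒮.K n) (T : ℂ) = ((T * (d' / B') : ℝ) : ℂ) := by
    unfold Shape.s9t; rw [← hd', ← hB', Complex.ofReal_mul]
  have hexp : Real.exp (-(𝒮.K n + u)) = d' * D := by
    rw [neg_add, Real.exp_add, hDu]
  have hDp : D ^ (𝒮.lam + ε) = D / E := by
    have h1 : D / E = Real.exp (-u - (𝒮.lam + ε - 1) * u) := by rw [Real.exp_sub, hDu]
    rw [Real.rpow_def_of_pos hD0, h1]
    congr 1
    rw [hu]; ring
  have := hw (𝒮.K n + u) (by linarith) (Cε * B' * E) hN henv (T * (d' / B')) (by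
    rw [hexp, abs_mul, abs_of_pos (by positivity : 0 < d' / B')]
    have h1 : |T| ≤ c₀ / Cε * (D / E) := by
      rw [← hDp]
      refine hT.trans ?_
      exact mul_le_mul_of_nonneg_right (min_le_right _ _) (Real.rpow_nonneg hD0.le _)
    calc |T| * (d' / B') ≤ c₀ / Cε * (D / E) * (d' / B') := by gcongr
      _ = c₀ * (d' * D) / (Cε * B' * E) := by field_simp)
  rw [hcast]
  rw [hexp] at this
  exact this

/-- LEAF E1. -/
theorem s9c_width (Sh : Shape) (hH : Sh.H ≠ ⊤) (ho : Sh.order = 1) (𝒮 : S9Scale Sh) (ε : ℝ)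
    (hε : 0 < ε) :
    ∃ c : ℝ, 0 < c ∧ c ≤ 1 ∧ ∀ D₀ ∈ Ioc (0 : ℝ) 1, ∀ᶠ n in atTop, ∀ T : ℝ, |T| ≤ c →
      Sh.Δ (Sh.s9t (𝒮.K n) (T : ℂ)) ≤
        Real.exp (-𝒮.K n) * (D₀ + 2 * (|T| / c) ^ (1 / (𝒮.lam + ε))) := by
  obtain ⟨c, hc0, hc1, hone⟩ := s9c_width_one Sh hH ho 𝒮 ε hε
  refine ⟨c, hc0, hc1, ?_⟩
  rintro D₀ ⟨hD0, hD1⟩
  set p : ℝ := 𝒮.lam + ε with hp
  have hp0 : 0 < p := by rw [hp]; linarith [𝒮.lam_ge]
  obtain ⟨i₁, hi₁⟩ := exists_pow_lt_of_lt_one hD0 (by norm_num : (1 / 2 : ℝ) < 1)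
  have hall : ∀ᶠ n in atTop, ∀ i ∈ Finset.range (i₁ + 1), ∀ T : ℝ, |T| ≤ c * ((1 / 2 : ℝ) ^ i) ^ p →
      Sh.Δ (Sh.s9t (𝒮.K n) (T : ℂ)) ≤ Real.exp (-𝒮.K n) * (1 / 2 : ℝ) ^ i := by
    rw [Filter.eventually_all_finset]
    intro i _
    exact hone _ ⟨by positivity, pow_le_one₀ (by norm_num) (by norm_num)⟩
  filter_upwards [hall] with n hn T hT
  set d' := Real.exp (-𝒮.K n) with hd'
  have hd'0 : 0 < d' := Real.exp_pos _
  set X : ℝ := (|T| / c) ^ (1 / p) with hX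
  have hX0 : 0 ≤ X := Real.rpow_nonneg (by positivity) _
  have hind : ∀ i ≤ i₁, Sh.Δ (Sh.s9t (𝒮.K n) (T : ℂ)) ≤ d' * (2 * X) ∨ |T| ≤ c * ((1 / 2 : ℝ) ^ i) ^ p := by
    intro i
    induction i with
    | zero => intro _; right; simpa using hT
    | succ i ih =>
      intro hi
      rcases ih (by omega) with h | h
      · exact Or.inl h
      · by_cases h2 : |T| ≤ c * ((1 / 2 : ℝ) ^ (i + 1)) ^ p
        · exact Or.inr h2
        · left
          push Not at h2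
          have h3 := hn i (Finset.mem_range.2 (by omega)) T h
          refine h3.trans ?_
          have h4 : ((1 / 2 : ℝ) ^ (i + 1)) ^ p < |T| / c := by rw [lt_div_iff₀ hc0]; linarith
          have h5 : (1 / 2 : ℝ) ^ (i + 1) < X := by
            have h6 : (((1 / 2 : ℝ) ^ (i + 1)) ^ p) ^ (1 / p) = (1 / 2 : ℝ) ^ (i + 1) := by
              rw [← Real.rpow_mul (by positivity)]
              rw [mul_one_div_cancel hp0.ne', Real.rpow_one]
            rw [← h6, hX]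
            exact Real.rpow_lt_rpow (by positivity) h4 (by positivity)
          have h7 : (1 / 2 : ℝ) ^ i = 2 * (1 / 2 : ℝ) ^ (i + 1) := by rw [pow_succ]; ring
          rw [h7]
          gcongr
  rcases hind i₁ le_rfl with h | h
  · refine h.trans ?_
    gcongr
    linarith
  · have h3 := hn i₁ (Finset.mem_range.2 (by omega)) T h
    refine h3.trans ?_
    gcongr
    linarith

end Claimed.Agent.R269
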