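/-
Row 269, UNIT S9cd, LEAF PACKAGE LF-S9c-fill (step E3b).   Blueprint: helper149.   No paper reading needed (this replaces P1 l.867-995).

FILLING: the maximal passage contains a full complex parameter disc of scaled radius `c_* D^{λ+ε}` over the points of scaled depth `≈ D`.

CONSTANTS (in this order).  `r = 1/(λ+ε) ∈ (0,1)`;  `c` from `s9c_width ε`;  `T₁ = c/2`;  `m₀ = tan (π r/2) + 1`;  `(Dd, δs)` from `s9c_deep m₀ c`;  `D₁ = max Dd (RI + 2)`;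
`C_*` with `C_* cos (π r/2) ≥ 2 c^{-r}` and `C_* cos (π r/2) T₁^r ≥ D₁ + 1`;   `c_* ≤ T₁/2` with `C_* (2 c_*)^r ≤ 1/8` and `2 c^{-r} c_*^r ≤ 1/8`.
Fix `D ∈ (0,1]`, `η₀ = c_* D^{1/r}`, and `n` so large that `s9c_width` holds with `D₀ = D/8`, `s9c_deep` holds, `d' (2 + C_* (1 + T₁)^r + D₁ + 2) < min δs H`, and `T₁ d'/B' < ρ`.
Let `Y, T_c` be as in the statement.
CASE `T_c` real: `Δ(t_c)/d' ≤ D/8 + 2 (|T_c|/c)^r ≤ D/4 < D/2 ≤ -Im Y`, so the point is in the tube `⊆ s9Rmax` (`Shape.s9k_tube`, `s9k_max_spec`;  `Δ t = H - (hX t).toReal`, `hX t ≤ H < ∞`).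
CASE `σ Im T_c > 0`, `σ = ±1`: apply `Shape.s9k_konti` to `Ω = {t = T d'/B' : ‖T‖ < T₁, σ Im T > 0}`, `g t = y(Y + G T - G T_c)`, `G = s9c_G C_* η₀ r σ`, `s₀ = d' D₁`, `r₀ = d' D/16`.
  scaled depth of `Y + G T - G T_c - i s`:  `≥ D/2 - |G T_c| + C_* cos (π r/2) ‖T‖^r + s ≥ 3D/8 + C_* cos (π r/2) ‖T‖^r + s`     (`|G T_c| ≤ C_* (2 c_* D^{1/r})^r ≤ D/8`).
  frontier `⊆` diameter `∪` semicircle.
  DIAMETER (`T` real, `|T| ≤ T₁`): depth `- D/16 > D/8 + 2 (|T|/c)^r ≥ Δ(t)/d'`: the fibre ball lies in the tube (imaginary parts are positive since `d' · depth < H`).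
  SEMICIRCLE (`‖T‖ = T₁`): depth `- D/16 > D₁ ≥ Dd`;  `|Re| ≤ RI + 1 + tan (π r/2) (-Im G T) < m₀ · (depth - D/16)` because `-Im G T ≥ D₁ + 1 ≥ RI + 3`: `s9c_deep`.
  DEEP TRANSLATE (`s = D₁`, all `T` in the closed half disc): depth `> D₁`, `|Re| ≤ RI + 1 + tan (π r/2)(-Im G T) < m₀ · depth`: `s9c_deep`.
  Conclusion at `t = t_c`, `s = 0`: `g t_c = y(Y)`.
-/
import Claimed.Agent.R269.S9.GrowthWidth
import Claimed.Agent.R269.S9.GrowthDeep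
import Claimed.Agent.R269.S9.GrowthGraph

set_option autoImplicit false

namespace Claimed.Agent.R269

open Complex Filter Topology MeasureTheory Set Metric
open scoped ENNReal Real

/-- the constants of the filling argument. -/
structure S9cConst (c r T₁ m₀ Dd D₁ RI Cs cst : ℝ) : Prop where
  r_pos : 0 < r
  r_lt : r < 1
  c_pos : 0 < c
  c_le : c ≤ 1
  T₁_eq : T₁ = c / 2
  m₀_eq : m₀ = Real.tan (π * r / 2) + 1
  Dd_le : Dd ≤ D₁
  RI_pos : 0 < RI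
  RI_le : RI + 2 ≤ D₁
  Cs_pos : 0 < Cs
  Cs1 : 2 * c ^ (-r) ≤ Cs * Real.cos (π * r / 2)
  Cs2 : D₁ + 1 ≤ Cs * Real.cos (π * r / 2) * T₁ ^ r
  cst_pos : 0 < cst
  cst_le : cst ≤ T₁ / 2
  cst1 : Cs * (2 * cst) ^ r ≤ 1 / 8
  cst2 : 2 * c ^ (-r) * cst ^ r ≤ 1 / 8

/-- the half disc. -/
def s9c_half (T₁ σ : ℝ) : Set ℂ := {T | ‖T‖ < T₁ ∧ 0 < σ * T.im}

theorem s9c_half_open (T₁ σ : ℝ) : IsOpen (s9c_half T₁ σ) :=
  (isOpen_lt continuous_norm continuous_const).inter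
    (isOpen_lt continuous_const (continuous_const.mul Complex.continuous_im))

theorem s9c_half_closure (T₁ σ : ℝ) : closure (s9c_half T₁ σ) ⊆ {T | ‖T‖ ≤ T₁ ∧ 0 ≤ σ * T.im} := by
  apply closure_minimal
  · intro T hT; exact ⟨hT.1.le, hT.2.le⟩
  · exact (isClosed_le continuous_norm continuous_const).inter
      (isClosed_le continuous_const (continuous_const.mul Complex.continuous_im))

theorem s9c_half_frontier (T₁ σ : ℝ) (T : ℂ) (hT : T ∈ frontier (s9c_half T₁ σ)) :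
    (‖T‖ ≤ T₁ ∧ 0 ≤ σ * T.im) ∧ (‖T‖ = T₁ ∨ σ * T.im = 0) := by
  rw [(s9c_half_open T₁ σ).frontier_eq] at hT
  have h1 := s9c_half_closure T₁ σ hT.1
  refine ⟨h1, ?_⟩
  by_contra hcon
  push Not at hcon
  exact hT.2 ⟨lt_of_le_of_ne h1.1 hcon.1, lt_of_le_of_ne h1.2 (Ne.symm hcon.2)⟩

/-- what the filling argument uses about the maximal passage, in scaled variables. -/
structure S9cPass (P : ℂ → ℂ → Prop) (c r T₁ m₀ Dd D Dmax : ℝ) : Prop where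
  real : ∀ (Y : ℂ) (T : ℝ), |T| ≤ T₁ → D / 8 + 2 * (|T| / c) ^ r < -Y.im → -Y.im ≤ Dmax → P Y (T : ℂ)
  deep : ∀ Y T : ℂ, ‖T‖ < c → Dd < -Y.im → -Y.im ≤ Dmax → |Y.re| < m₀ * (-Y.im) → P Y T
  konti : ∀ Ω : Set ℂ, IsOpen Ω → (∀ T ∈ closure Ω, ‖T‖ ≤ T₁) → ∀ Γ : ℂ → ℂ, DiffContOnCl ℂ Γ Ω →
    ∀ s₀ r₀ : ℝ, 0 ≤ s₀ → 0 < r₀ → (∀ T ∈ closure Ω, P (Γ T - (s₀ : ℂ) * I) T) →
    (∀ T ∈ frontier Ω, ∀ s ∈ Icc 0 s₀, ∀ Y ∈ ball (Γ T - (s : ℂ) * I) r₀, P Y T) →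
    ∀ T ∈ Ω, ∀ s ∈ Icc 0 s₀, P (Γ T - (s : ℂ) * I) T

theorem s9c_fill_geom_side {P : ℂ → ℂ → Prop} {c r T₁ m₀ Dd D₁ RI Cs cst D : ℝ}
    (hK : S9cConst c r T₁ m₀ Dd D₁ RI Cs cst) (hD : D ∈ Ioc (0 : ℝ) 1)
    (hP : S9cPass P c r T₁ m₀ Dd D (2 + Cs * (1 + T₁) ^ r + D₁ + 2))
    (σ : ℝ) (hσ : σ = 1 ∨ σ = -1) (Y Tc : ℂ) (hYre : |Y.re| ≤ RI) (hY1 : D / 2 ≤ -Y.im)
    (hY2 : -Y.im ≤ 2 * D) (hTc : ‖Tc‖ ≤ cst * D ^ (1 / r)) (hσT : 0 < σ * Tc.im) : P Y Tc := by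
  obtain ⟨hD0, hD1⟩ := hD
  have hr := hK.r_pos
  have hr' := hK.r_lt
  have hc := hK.c_pos
  have hCs := hK.Cs_pos
  have hcst := hK.cst_pos
  have hT₁ : 0 < T₁ := by rw [hK.T₁_eq]; positivity
  set η₀ : ℝ := cst * D ^ (1 / r) with hη₀
  have hDr : 0 < D ^ (1 / r) := Real.rpow_pos_of_pos hD0 _
  have hDr1 : D ^ (1 / r) ≤ 1 := Real.rpow_le_one hD0.le hD1 (by positivity)
  have hη₀pos : 0 < η₀ := by positivity
  have hη₀le : η₀ ≤ cst := by rw [hη₀]; nlinarith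
  have hcstT : cst ≤ T₁ / 2 := hK.cst_le
  have hT₁1 : T₁ ≤ 1 / 2 := by rw [hK.T₁_eq]; linarith [hK.c_le]
  have hη₀1 : η₀ ≤ 1 := by linarith
  have hDrr : (D ^ (1 / r)) ^ r = D := by
    rw [← Real.rpow_mul hD0.le, one_div_mul_cancel hr.ne', Real.rpow_one]
  set G : ℂ → ℂ := s9c_G Cs η₀ r σ with hG
  have props := fun T hT => s9c_G_props Cs η₀ r σ hCs hη₀pos hr hr' hσ T hT
  have hcos : 0 < Real.cos (π * r / 2) := by
    apply Real.cos_pos_of_mem_Ioo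
    constructor
    · have : 0 < π * r / 2 := by positivity
      linarith [Real.pi_pos]
    · have : π * r < π * 1 := by gcongr
      linarith
  have htan : 0 ≤ Real.tan (π * r / 2) := by
    apply Real.tan_nonneg_of_nonneg_of_le_pi_div_two (by positivity)
    have : π * r ≤ π * 1 := by gcongr
    linarith
  -- size of `G Tc`
  have hGTc : ‖G Tc‖ ≤ D / 8 := by
    have h1 := (props Tc hσT.le).2.2.2
    have h2 : (η₀ + ‖Tc‖) ^ r ≤ (2 * cst) ^ r * D := by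
      calc (η₀ + ‖Tc‖) ^ r ≤ (2 * cst * D ^ (1 / r)) ^ r := by
            apply Real.rpow_le_rpow (by positivity) _ hr.le
            rw [hη₀]; linarith
        _ = (2 * cst) ^ r * D := by rw [Real.mul_rpow (by positivity) hDr.le, hDrr]
    calc ‖G Tc‖ ≤ Cs * (η₀ + ‖Tc‖) ^ r := h1
      _ ≤ Cs * ((2 * cst) ^ r * D) := by gcongr
      _ = Cs * (2 * cst) ^ r * D := by ring
      _ ≤ 1 / 8 * D := by gcongr; exact hK.cst1
      _ = D / 8 := by ring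
  set Γ : ℂ → ℂ := fun T => Y + G T - G Tc with hΓ
  set Ω := s9c_half T₁ σ with hΩ
  have hcl := s9c_half_closure T₁ σ
  have hΓd : DiffContOnCl ℂ Γ Ω := by
    apply DifferentiableOn.diffContOnCl
    intro T hT
    have := (props T (hcl hT).2).1
    exact ((this.const_add Y).sub_const (G Tc)).differentiableWithinAt
  -- estimates for the points of the translated discs
  have him : ∀ (T : ℂ) (s : ℝ), (Γ T - (s : ℂ) * I).im = Y.im + (G T).im - (G Tc).im - s := by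
    intro T s; simp [hΓ]
  have hre : ∀ (T : ℂ) (s : ℝ), (Γ T - (s : ℂ) * I).re = Y.re + (G T).re - (G Tc).re := by
    intro T s; simp [hΓ]
  have hTcim := abs_le.1 ((Complex.abs_im_le_norm (G Tc)).trans hGTc)
  have hTcre := abs_le.1 ((Complex.abs_re_le_norm (G Tc)).trans hGTc)
  have hGup : ∀ T : ℂ, ‖T‖ ≤ T₁ → 0 ≤ σ * T.im → ‖G T‖ ≤ Cs * (1 + T₁) ^ r := by
    intro T hT1 hT2
    refine (props T hT2).2.2.2.trans ?_
    gcongr
  -- a point near a translated disc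
  have near : ∀ (T : ℂ) (s : ℝ) (Y' : ℂ), ‖T‖ ≤ T₁ → 0 ≤ σ * T.im → 0 ≤ s → s ≤ D₁ →
      ‖Y' - (Γ T - (s : ℂ) * I)‖ ≤ D / 16 →
      5 * D / 16 + (-(G T).im) + s ≤ -Y'.im ∧ -Y'.im ≤ 2 + Cs * (1 + T₁) ^ r + D₁ + 2 ∧
        |Y'.re| ≤ RI + Real.tan (π * r / 2) * (-(G T).im) + 3 * D / 16 := by
    intro T s Y' hT1 hT2 hs0 hs1 hY'
    have h1 := abs_le.1 ((Complex.abs_im_le_norm _).trans hY')
    have h2 := abs_le.1 ((Complex.abs_re_le_norm _).trans hY')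
    rw [Complex.sub_im, him] at h1
    rw [Complex.sub_re, hre] at h2
    have h3 := abs_le.1 ((Complex.abs_im_le_norm (G T)).trans (hGup T hT1 hT2))
    have h4 := abs_le.1 (props T hT2).2.2.1
    have h5 := abs_le.1 hYre
    refine ⟨by linarith, by linarith, ?_⟩
    rw [abs_le]; constructor <;> linarith
  have hm₀ : ∀ (T : ℂ) (Y' : ℂ) (x : ℝ), 0 ≤ σ * T.im → (-(G T).im) + x ≤ -Y'.im → RI + 1 ≤ x →
      |Y'.re| ≤ RI + Real.tan (π * r / 2) * (-(G T).im) + 3 * D / 16 → |Y'.re| < m₀ * (-Y'.im) := by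
    intro T Y' x hT2 h1 h2 h3
    rw [hK.m₀_eq]
    have h4 : 0 ≤ -(G T).im := by
      have := (props T hT2).2.1
      have h5 : 0 ≤ Cs * Real.cos (π * r / 2) * ‖T‖ ^ r := by positivity
      linarith
    have h6 : Real.tan (π * r / 2) * (-(G T).im) ≤ Real.tan (π * r / 2) * (-Y'.im) := by
      apply mul_le_mul_of_nonneg_left _ htan
      linarith [hK.RI_pos]
    nlinarith [hK.RI_pos]
  have hres := hP.konti Ω (s9c_half_open T₁ σ) (fun T hT => (hcl hT).1) Γ hΓd D₁ (D / 16)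
    (by linarith [hK.RI_le, hK.RI_pos]) (by positivity) ?_ ?_ Tc
    ⟨by linarith, hσT⟩ 0 ⟨le_rfl, by linarith [hK.RI_le, hK.RI_pos]⟩
  · have : Γ Tc - ((0 : ℝ) : ℂ) * I = Y := by simp [hΓ]
    rwa [this] at hres
  · -- deep translate
    intro T hT
    obtain ⟨hT1, hT2⟩ := hcl hT
    obtain ⟨n1, n2, n3⟩ := near T D₁ (Γ T - (D₁ : ℂ) * I) hT1 hT2
      (by linarith [hK.RI_le, hK.RI_pos]) le_rfl (by simp; positivity)
    have h4 : 0 ≤ -(G T).im := by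
      have := (props T hT2).2.1
      have h5 : 0 ≤ Cs * Real.cos (π * r / 2) * ‖T‖ ^ r := by positivity
      linarith
    refine hP.deep _ _ (by rw [hK.T₁_eq] at hT1; linarith) (by linarith [hK.Dd_le]) n2 ?_
    exact hm₀ T _ D₁ hT2 (by linarith) (by linarith [hK.RI_le]) n3
  · -- the boundary
    intro T hT s hs Y' hY'
    obtain ⟨⟨hT1, hT2⟩, hcase⟩ := s9c_half_frontier T₁ σ T hT
    have hY'' : ‖Y' - (Γ T - (s : ℂ) * I)‖ ≤ D / 16 := by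
      have := mem_ball.1 hY'; rw [dist_eq_norm] at this; exact this.le
    obtain ⟨n1, n2, n3⟩ := near T s Y' hT1 hT2 hs.1 hs.2 hY''
    rcases hcase with hc1 | hc2
    · -- semicircle
      have h5 : D₁ + 1 ≤ -(G T).im := by
        have := (props T hT2).2.1
        rw [hc1] at this
        linarith [hK.Cs2]
      refine hP.deep _ _ (by rw [hc1, hK.T₁_eq]; linarith) (by linarith [hK.Dd_le, hs.1]) n2 ?_
      -- here `-(G T).im` itself is large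
      rw [hK.m₀_eq]
      have h6 : Real.tan (π * r / 2) * (-(G T).im) ≤ Real.tan (π * r / 2) * (-Y'.im) := by
        apply mul_le_mul_of_nonneg_left _ htan
        linarith [hs.1]
      nlinarith [hK.RI_le, hs.1]
    · -- diameter
      have him0 : T.im = 0 := by
        rcases hσ with h | h <;> rw [h] at hc2 <;> linarith
      have hTreal : T = ((T.re : ℝ) : ℂ) := by
        apply Complex.ext <;> simp [him0]
      have hnorm : ‖T‖ = |T.re| := by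
        conv_lhs => rw [hTreal]
        rw [Complex.norm_real, Real.norm_eq_abs]
      rw [hTreal]
      refine hP.real Y' T.re (by rw [← hnorm]; exact hT1) ?_ n2
      have h7 := (props T hT2).2.1
      have h8 : 2 * (|T.re| / c) ^ r ≤ Cs * Real.cos (π * r / 2) * ‖T‖ ^ r := by
        rw [hnorm, Real.div_rpow (abs_nonneg _) hc.le, div_eq_mul_inv, ← Real.rpow_neg hc.le]
        calc 2 * (|T.re| ^ r * c ^ (-r)) = 2 * c ^ (-r) * |T.re| ^ r := by ring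
          _ ≤ Cs * Real.cos (π * r / 2) * |T.re| ^ r := by
            apply mul_le_mul_of_nonneg_right hK.Cs1 (Real.rpow_nonneg (abs_nonneg _) _)
      linarith [hs.1]

theorem s9c_const_exists (c r Dd RI : ℝ) (hr : 0 < r) (hr' : r < 1) (hc : 0 < c) (hc' : c ≤ 1)
    (hRI : 0 < RI) :
    ∃ Cs cst : ℝ, S9cConst c r (c / 2) (Real.tan (π * r / 2) + 1) Dd (max Dd (RI + 2)) RI Cs cst := by
  have hcos : 0 < Real.cos (π * r / 2) := by
    apply Real.cos_pos_of_mem_Ioo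
    constructor
    · have : 0 < π * r / 2 := by positivity
      linarith [Real.pi_pos]
    · have : π * r < π * 1 := by gcongr
      linarith
  set D₁ : ℝ := max Dd (RI + 2) with hD₁
  set cr := Real.cos (π * r / 2) with hcr
  have hT : 0 < (c / 2) ^ r := by positivity
  have hcr' : 0 < c ^ (-r) := by positivity
  set Cs : ℝ := max (2 * c ^ (-r) / cr) ((D₁ + 1) / (cr * (c / 2) ^ r)) with hCs
  have hCs0 : 0 < Cs := lt_of_lt_of_le (by positivity) (le_max_left _ _)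
  set cst : ℝ := min (c / 2 / 2) (min ((1 / (8 * Cs)) ^ (1 / r) / 2) (c * (1 / 16 : ℝ) ^ (1 / r))) with hcst
  have hcst0 : 0 < cst := by
    rw [hcst]
    refine lt_min (by positivity) (lt_min (by positivity) (by positivity))
  refine ⟨Cs, cst, hr, hr', hc, hc', rfl, rfl, le_max_left _ _, hRI, le_max_right _ _, hCs0, ?_, ?_,
    hcst0, min_le_left _ _, ?_, ?_⟩
  · have : 2 * c ^ (-r) / cr ≤ Cs := le_max_left _ _
    rwa [div_le_iff₀ hcos] at this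
  · have : (D₁ + 1) / (cr * (c / 2) ^ r) ≤ Cs := le_max_right _ _
    rw [div_le_iff₀ (by positivity)] at this
    linarith
  · have h1 : 2 * cst ≤ (1 / (8 * Cs)) ^ (1 / r) := by
      have : cst ≤ (1 / (8 * Cs)) ^ (1 / r) / 2 := (min_le_right _ _).trans (min_le_left _ _)
      linarith
    have h2 : (2 * cst) ^ r ≤ 1 / (8 * Cs) := by
      calc (2 * cst) ^ r ≤ ((1 / (8 * Cs)) ^ (1 / r)) ^ r := Real.rpow_le_rpow (by positivity) h1 hr.le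
        _ = 1 / (8 * Cs) := by
          rw [← Real.rpow_mul (by positivity), one_div_mul_cancel hr.ne', Real.rpow_one]
    calc Cs * (2 * cst) ^ r ≤ Cs * (1 / (8 * Cs)) := by gcongr
      _ = 1 / 8 := by field_simp
  · have h1 : cst ≤ c * (1 / 16 : ℝ) ^ (1 / r) := (min_le_right _ _).trans (min_le_right _ _)
    have h2 : cst ^ r ≤ c ^ r * (1 / 16) := by
      calc cst ^ r ≤ (c * (1 / 16 : ℝ) ^ (1 / r)) ^ r := Real.rpow_le_rpow hcst0.le h1 hr.le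
        _ = c ^ r * (1 / 16) := by
          rw [Real.mul_rpow hc.le (by positivity), ← Real.rpow_mul (by positivity),
            one_div_mul_cancel hr.ne', Real.rpow_one]
    calc 2 * c ^ (-r) * cst ^ r ≤ 2 * c ^ (-r) * (c ^ r * (1 / 16)) := by gcongr
      _ = 2 * (c ^ (-r) * c ^ r) * (1 / 16) := by ring
      _ = 1 / 8 := by
        rw [← Real.rpow_add hc]; norm_num

theorem s9c_fill_geom {P : ℂ → ℂ → Prop} {c r T₁ m₀ Dd D₁ RI Cs cst D : ℝ}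
    (hK : S9cConst c r T₁ m₀ Dd D₁ RI Cs cst) (hD : D ∈ Ioc (0 : ℝ) 1)
    (hP : S9cPass P c r T₁ m₀ Dd D (2 + Cs * (1 + T₁) ^ r + D₁ + 2))
    (Y Tc : ℂ) (hYre : |Y.re| ≤ RI) (hY1 : D / 2 ≤ -Y.im)
    (hY2 : -Y.im ≤ 2 * D) (hTc : ‖Tc‖ ≤ cst * D ^ (1 / r)) : P Y Tc := by
  rcases lt_trichotomy Tc.im 0 with h | h | h
  · exact s9c_fill_geom_side hK hD hP (-1) (Or.inr rfl) Y Tc hYre hY1 hY2 hTc (by linarith)
  · obtain ⟨hD0, hD1⟩ := hD
    have hr := hK.r_pos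
    have hc := hK.c_pos
    have hcst := hK.cst_pos
    have hT₁ : 0 < T₁ := by rw [hK.T₁_eq]; positivity
    have hDr : 0 < D ^ (1 / r) := Real.rpow_pos_of_pos hD0 _
    have hDr1 : D ^ (1 / r) ≤ 1 := Real.rpow_le_one hD0.le hD1 (by positivity)
    have hDrr : (D ^ (1 / r)) ^ r = D := by
      rw [← Real.rpow_mul hD0.le, one_div_mul_cancel hr.ne', Real.rpow_one]
    have hTreal : Tc = ((Tc.re : ℝ) : ℂ) := by
      apply Complex.ext <;> simp [h]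
    have hnorm : ‖Tc‖ = |Tc.re| := by
      conv_lhs => rw [hTreal]
      rw [Complex.norm_real, Real.norm_eq_abs]
    rw [hnorm] at hTc
    rw [hTreal]
    refine hP.real Y Tc.re ?_ ?_ ?_
    · have := hK.cst_le
      nlinarith
    · have h1 : 2 * (|Tc.re| / c) ^ r ≤ D / 8 := by
        rw [Real.div_rpow (abs_nonneg _) hc.le, div_eq_mul_inv, ← Real.rpow_neg hc.le]
        have h2 : |Tc.re| ^ r ≤ cst ^ r * D := by
          calc |Tc.re| ^ r ≤ (cst * D ^ (1 / r)) ^ r := Real.rpow_le_rpow (abs_nonneg _) hTc hr.le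
            _ = cst ^ r * D := by rw [Real.mul_rpow hcst.le hDr.le, hDrr]
        have h3 : 0 < c ^ (-r) := by positivity
        calc 2 * (|Tc.re| ^ r * c ^ (-r)) ≤ 2 * (cst ^ r * D * c ^ (-r)) := by gcongr
          _ = 2 * c ^ (-r) * cst ^ r * D := by ring
          _ ≤ 1 / 8 * D := by gcongr; exact hK.cst2
          _ = D / 8 := by ring
      linarith
    · have h1 : 0 ≤ Cs * (1 + T₁) ^ r := by have := hK.Cs_pos; positivity
      linarith [hK.RI_le, hK.RI_pos]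
  · exact s9c_fill_geom_side hK hD hP 1 (Or.inl rfl) Y Tc hYre hY1 hY2 hTc (by linarith)

/-- real parameters: points deeper than the width deficit are in the tube. -/
theorem Shape.s9c_real_in (Sh : Shape) (hH : Sh.H ≠ ⊤) (K ξ : ℝ) (hB : 0 < Sh.μ K) (Y : ℂ) (T w : ℝ)
    (hΔ : Sh.Δ (Sh.s9t K (T : ℂ)) ≤ Real.exp (-K) * w) (hw : w < -Y.im)
    (hY : Real.exp (-K) * (-Y.im) ≤ Sh.Hr) (hρ : |T| * (Real.exp (-K) / Sh.μ K) < Sh.ρ) :
    (Sh.s9y K ξ Y, Sh.s9t K (T : ℂ)) ∈ Sh.s9Rmax := by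
  apply (Sh.s9k_max_spec Sh.s9k_tube).1
  set t : ℂ := Sh.s9t K (T : ℂ) with ht
  have hd' : 0 < Real.exp (-K) := Real.exp_pos _
  have htreal : t = ((T * (Real.exp (-K) / Sh.μ K) : ℝ) : ℂ) := by
    rw [ht]; unfold Shape.s9t; rw [Complex.ofReal_mul]
  have htball : t ∈ ball (0 : ℂ) Sh.ρ := by
    rw [mem_ball_zero_iff, ht, Sh.s9t_norm _ _ hB, Complex.norm_real, Real.norm_eq_abs]
    exact hρ
  have hne : Sh.G.hX t ≠ ⊤ := ne_top_of_le_ne_top hH (Sh.hX_le t htball)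
  have him : (Sh.s9y K ξ Y).im = Sh.Hr - Real.exp (-K) * (-Y.im) := by rw [Sh.s9y_im]; ring
  have him0 : 0 ≤ (Sh.s9y K ξ Y).im := by rw [him]; linarith
  have hlt : (Sh.s9y K ξ Y).im < (Sh.G.hX t).toReal := by
    unfold Shape.Δ at hΔ
    rw [him]
    have : Real.exp (-K) * w < Real.exp (-K) * (-Y.im) := by gcongr
    linarith
  refine ⟨htball, ?_, ?_⟩
  · exact (ENNReal.ofReal_lt_iff_lt_toReal him0 hne).2 hlt
  · show ENNReal.ofReal (-(Sh.s9y K ξ Y).im) < Sh.G.hX ((starRingEnd ℂ) t)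
    have hconj : (starRingEnd ℂ) t = t := by rw [htreal, Complex.conj_ofReal]
    rw [hconj, ENNReal.ofReal_of_nonpos (by linarith)]
    have : 0 < (Sh.G.hX t).toReal := lt_of_le_of_lt him0 hlt
    exact (ENNReal.toReal_pos_iff.1 this).1

/-- the Kontinuitaetssatz in scaled variables. -/
theorem Shape.s9c_konti_scaled (Sh : Shape) (hH : Sh.H ≠ ⊤) (K ξ : ℝ) (hB : 0 < Sh.μ K) (Ω : Set ℂ)
    (hΩ : IsOpen Ω) (hΩρ : ∀ T ∈ closure Ω, ‖T‖ * (Real.exp (-K) / Sh.μ K) < Sh.ρ) (Γ : ℂ → ℂ)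
    (hΓ : DiffContOnCl ℂ Γ Ω) (s₀ r₀ : ℝ) (hs₀ : 0 ≤ s₀) (hr₀ : 0 < r₀)
    (hdeep : ∀ T ∈ closure Ω, (Sh.s9y K ξ (Γ T - (s₀ : ℂ) * I), Sh.s9t K T) ∈ Sh.s9Rmax)
    (hbd : ∀ T ∈ frontier Ω, ∀ s ∈ Icc 0 s₀, ∀ Y ∈ ball (Γ T - (s : ℂ) * I) r₀,
      (Sh.s9y K ξ Y, Sh.s9t K T) ∈ Sh.s9Rmax) :
    ∀ T ∈ Ω, ∀ s ∈ Icc 0 s₀, (Sh.s9y K ξ (Γ T - (s : ℂ) * I), Sh.s9t K T) ∈ Sh.s9Rmax := by
  set d' : ℝ := Real.exp (-K) with hd'
  have hd'0 : 0 < d' := Real.exp_pos _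
  set κ : ℝ := d' / Sh.μ K with hκ
  have hκ0 : 0 < κ := by positivity
  have hκc : (κ : ℂ) ≠ 0 := by exact_mod_cast hκ0.ne'
  set e : ℂ ≃ₜ ℂ := Homeomorph.mulRight₀ (κ : ℂ) hκc with he
  have het : ∀ T, e T = Sh.s9t K T := fun T => rfl
  have hinv : ∀ T, e T / (κ : ℂ) = T := fun T => by
    show T * (κ : ℂ) / (κ : ℂ) = T
    field_simp
  set g : ℂ → ℂ := fun t => Sh.s9y K ξ (Γ (t / (κ : ℂ))) with hg
  have hshift : ∀ (Y : ℂ) (s : ℝ), Sh.s9y K ξ (Y - (s : ℂ) * I) = Sh.s9y K ξ Y - ((d' * s : ℝ) : ℂ) * I := by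
    intro Y s
    unfold Shape.s9y
    rw [← hd']
    push_cast
    ring
  have hgd : DiffContOnCl ℂ g (e '' Ω) := by
    have h1 : DiffContOnCl ℂ (fun t : ℂ => t / (κ : ℂ)) (e '' Ω) :=
      (differentiable_id.div_const _).diffContOnCl
    have h2 : MapsTo (fun t : ℂ => t / (κ : ℂ)) (e '' Ω) Ω := by
      rintro _ ⟨T, hT, rfl⟩
      show e T / (κ : ℂ) ∈ Ω
      rw [hinv]; exact hT
    have h3 : DiffContOnCl ℂ (Γ ∘ fun t : ℂ => t / (κ : ℂ)) (e '' Ω) := hΓ.comp h1 h2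
    have h4 : Differentiable ℂ (Sh.s9y K ξ) := by unfold Shape.s9y; fun_prop
    exact h4.comp_diffContOnCl h3
  have hres := Sh.s9k_konti hH (e '' Ω) (e.isOpenMap _ hΩ) (by
      rw [← e.image_closure]
      rintro _ ⟨T, hT, rfl⟩
      rw [mem_ball_zero_iff, het, Sh.s9t_norm _ _ hB]
      exact hΩρ T hT) g hgd (d' * s₀) (d' * r₀) (by positivity) (by positivity) (by
      rw [← e.image_closure]
      rintro _ ⟨T, hT, rfl⟩
      simp only [hg, hinv]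
      rw [← hshift]
      exact hdeep T hT) (by
      rw [← e.image_frontier]
      rintro _ ⟨T, hT, rfl⟩ s hs y hy
      simp only [hg, hinv] at hy
      have hs' : s / d' ∈ Icc 0 s₀ := by
        refine ⟨by have := hs.1; positivity, ?_⟩
        rw [div_le_iff₀ hd'0]; linarith [hs.2]
      have hss : d' * (s / d') = s := by field_simp
      rw [← hss, ← hshift] at hy
      rw [← Sh.s9y_inv K ξ y] at hy ⊢
      refine hbd T hT (s / d') hs' _ ?_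
      rw [mem_ball, dist_eq_norm] at hy ⊢
      have h5 : ∀ Y₁ Y₂ : ℂ, Sh.s9y K ξ Y₁ - Sh.s9y K ξ Y₂ = (d' : ℂ) * (Y₁ - Y₂) := by
        intro Y₁ Y₂; unfold Shape.s9y; rw [← hd']; ring
      rw [h5, norm_mul, Complex.norm_real, Real.norm_eq_abs, abs_of_pos hd'0] at hy
      exact lt_of_mul_lt_mul_left hy hd'0.le)
  intro T hT s hs
  have := hres (e T) ⟨T, hT, rfl⟩ (d' * s) ⟨by have := hs.1; positivity, by gcongr; exact hs.2⟩
  simp only [hg, hinv] at this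
  rw [← hshift] at this
  exact this

/-- LEAF E3b. -/
theorem s9c_fill (Sh : Shape) (hH : Sh.H ≠ ⊤) (ho : Sh.order = 1) (𝒮 : S9Scale Sh) (ε RI : ℝ)
    (hε : 0 < ε) (hRI : 0 < RI) :
    ∃ cs : ℝ, 0 < cs ∧ ∀ D ∈ Ioc (0 : ℝ) 1, ∀ᶠ n in atTop, ∀ Y T : ℂ, |Y.re| ≤ RI → D / 2 ≤ -Y.im →
      -Y.im ≤ 2 * D → ‖T‖ ≤ cs * D ^ (𝒮.lam + ε) →
      (Sh.s9y (𝒮.K n) (𝒮.ξ n) Y, Sh.s9t (𝒮.K n) T) ∈ Sh.s9Rmax := by
  have hlam := 𝒮.lam_ge
  set r : ℝ := 1 / (𝒮.lam + ε) with hr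
  have hr0 : 0 < r := by rw [hr]; positivity
  have hr1 : r < 1 := by rw [hr, div_lt_one (by linarith)]; linarith
  have hrinv : 1 / r = 𝒮.lam + ε := by rw [hr, one_div_one_div]
  obtain ⟨c, hc0, hc1, hwidth⟩ := s9c_width Sh hH ho 𝒮 ε hε
  set m₀ : ℝ := Real.tan (π * r / 2) + 1 with hm₀
  have htan : 0 ≤ Real.tan (π * r / 2) := by
    apply Real.tan_nonneg_of_nonneg_of_le_pi_div_two (by positivity)
    have : π * r ≤ π * 1 := by gcongr
    linarith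
  obtain ⟨Dd, δs, -, hδs, hdeep⟩ := s9c_deep Sh hH ho 𝒮 m₀ c (by positivity) hc0
  obtain ⟨Cs, cst, hK⟩ := s9c_const_exists c r Dd RI hr0 hr1 hc0 hc1 hRI
  refine ⟨cst, hK.cst_pos, ?_⟩
  intro D hD
  set D₁ : ℝ := max Dd (RI + 2) with hD₁
  set Dmax : ℝ := 2 + Cs * (1 + c / 2) ^ r + D₁ + 2 with hDmax
  have hDmax0 : 0 < Dmax := by
    have h1 : 0 ≤ Cs * (1 + c / 2) ^ r := by have := hK.Cs_pos; positivity
    have := hK.RI_le
    rw [hDmax]; linarith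
  have hHr := Sh.s9_Hr_pos hH
  have hd : Tendsto (fun n => Real.exp (-𝒮.K n)) atTop (𝓝 0) :=
    Real.tendsto_exp_atBot.comp (tendsto_neg_atTop_atBot.comp 𝒮.K_tendsto)
  have e1 : ∀ᶠ n in atTop, Real.exp (-𝒮.K n) * Dmax < min δs Sh.Hr := by
    have : Tendsto (fun n => Real.exp (-𝒮.K n) * Dmax) atTop (𝓝 0) := by simpa using hd.mul_const Dmax
    exact this.eventually (gt_mem_nhds (lt_min hδs hHr))
  have e2 : ∀ᶠ n in atTop, 0 < Sh.μ (𝒮.K n) := 𝒮.B_tendsto.eventually_gt_atTop 0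
  have e3 : ∀ᶠ n in atTop, c / 2 * (Real.exp (-𝒮.K n) / Sh.μ (𝒮.K n)) < Sh.ρ := by
    have hBinv : Tendsto (fun n => (Sh.μ (𝒮.K n))⁻¹) atTop (𝓝 0) :=
      tendsto_inv_atTop_zero.comp 𝒮.B_tendsto
    have : Tendsto (fun n => c / 2 * (Real.exp (-𝒮.K n) / Sh.μ (𝒮.K n))) atTop (𝓝 0) := by
      simpa [div_eq_mul_inv] using (hd.mul hBinv).const_mul (c / 2)
    exact this.eventually (gt_mem_nhds Sh.ρ_pos)
  have hD8 : D / 8 ∈ Ioc (0 : ℝ) 1 := ⟨by have := hD.1; positivity, by linarith [hD.2]⟩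
  filter_upwards [hwidth (D / 8) hD8, hdeep, e1, e2, e3] with n hw hdp hsm hB hρ Y T hY0 hY1 hY2 hT
  have hd'0 : 0 < Real.exp (-𝒮.K n) := Real.exp_pos _
  have hκ0 : 0 < Real.exp (-𝒮.K n) / Sh.μ (𝒮.K n) := by positivity
  have hP : S9cPass (fun Y T => (Sh.s9y (𝒮.K n) (𝒮.ξ n) Y, Sh.s9t (𝒮.K n) T) ∈ Sh.s9Rmax) c r (c / 2) m₀ Dd D
      Dmax := by
    refine ⟨?_, ?_, ?_⟩
    · intro Y T hT1 hY3 hY4
      refine Sh.s9c_real_in hH _ _ hB Y T _ (hw T (by linarith)) hY3 ?_ ?_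
      · have : Real.exp (-𝒮.K n) * (-Y.im) ≤ Real.exp (-𝒮.K n) * Dmax := by gcongr
        linarith [min_le_right δs Sh.Hr]
      · have : |T| * (Real.exp (-𝒮.K n) / Sh.μ (𝒮.K n)) ≤ c / 2 * (Real.exp (-𝒮.K n) / Sh.μ (𝒮.K n)) := by
          gcongr
        linarith
    · intro Y T hT1 hY3 hY4 hY5
      refine hdp Y T hT1 hY3 ?_ hY5
      rw [lt_div_iff₀ hd'0]
      have : Real.exp (-𝒮.K n) * (-Y.im) ≤ Real.exp (-𝒮.K n) * Dmax := by gcongr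
      linarith [min_le_left δs Sh.Hr]
    · intro Ω hΩ hΩT Γ hΓ s₀ r₀ hs₀ hr₀ h1 h2
      refine Sh.s9c_konti_scaled hH _ _ hB Ω hΩ ?_ Γ hΓ s₀ r₀ hs₀ hr₀ h1 h2
      intro T hT
      have : ‖T‖ * (Real.exp (-𝒮.K n) / Sh.μ (𝒮.K n)) ≤ c / 2 * (Real.exp (-𝒮.K n) / Sh.μ (𝒮.K n)) := by
        gcongr
        exact hΩT T hT
      linarith
  exact s9c_fill_geom hK hD hP Y T hY0 hY1 hY2 (by rw [hrinv]; exact hT)

end Claimed.Agent.R269
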