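/-
Row 269, P1 Sections 9.4-9.5, UNIT S9cd (09-model.tex l.613-1035): growth of the limiting first field (Prop 9.8).   EXPORT (statement by helper149).

NEW ROUTE: Prop 9.6 (pure model) and Lemma 9.7 (moving graph) are NOT used; everything is done on the ACTUAL lift, for each large `n`.
Fix `ε`, `r = 1/(λ+ε) ∈ (0,1)`, `I = [-R,R]`.  Scaled variables `Y = (y - ξ_n - iH)/d'`, `T = B' t/d'`, `d' = e^{-K_n}`, `B' = μ(K_n)`.
(E0) MAXIMAL PASSAGE: the union of all passages is a passage `(Rmax, Smax)`, it contains the upper part of the tube, `Smax = lift` there.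
(E1) REAL WIDTH: there is `c_ε > 0` such that for every `D ∈ (0,1]`, eventually in `n`:  `Δ(T d'/B') ≤ d' D` for real `|T| ≤ c_ε D^{λ+ε}`.
     [`Shape.s9i_basic_width` at the level `k = K_n - log D` with `N₀ = C_ε B' D^{1-λ-ε}`, coarse exponent `3/8`, fine exponent `a'' > max a λ`; envelope from `moment`, `L_slope`, `env`.]
(E2) DEEP COMPLEX DATA: for `T₀ = c_ε` and the aperture `m₀` there is `D_deep` such that, eventually, `Rmax` contains all `(Y,T)` with `|T| < T₀`, `D_deep < -Im Y < δ_*/d'`, `|Re Y| < m₀ (-Im Y)`.   [`Shape.s9i_cone` with `cones`.]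
(E3) KONTINUITAETSSATZ FOR PASSAGES (file `S9/Konti*.lean`), discs `T ↦ (Y + G(T) - G(T_c), T)` over the upper / lower half disc `|T| < T₀'`, `G(T) = -i C_* (η₀ ∓ iT)^r` as in the paper l.905-935:
     `(Y, T_c) ∈ Rmax` for all `|T_c| ≤ ρ_D := c_* D^{1/r}`, `Re Y ∈ [-R-1, R+1]`, `D/2 ≤ -Im Y ≤ 2D`.
(E4) `T ↦ Smax` maps the disc `|T| < ρ_D` to the half plane below the upper edge, equals `Y` at `T = 0`: `Complex.borelCaratheodory_zero` + Cauchy: `|(d'/B'²) V(y)| ≤ 16 D/ρ_D²`; Cauchy in `y` and `Shape.s9i_V_deriv`: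
     `|F_n² + 8 Q_n - (d'/B')² ⟨W⟩| ≤ C/ρ_D²` at `Y`.  Let `n → ∞`: `|F(Y)| ≤ C D^{-1/r}`.

THE UNIT IS CUT:  E0 = PassageMax.lean, E1 = GrowthWidth.lean, E2 = GrowthDeep.lean, E3 = Konti.lean + GrowthGraph.lean + GrowthFill.lean, E4 = GrowthCoef.lean.
THIS FILE = LEAF PACKAGE LF-S9c-glue (E5).  PROOF.  `RI = |R| + 1`, `cs` from `s9c_fill (ε/2) RI`.  Fix `x ∈ [-R,R]`, `D ∈ (0,1]`, `Y₀ = s9f_pt x D`.  Eventually in `n`: `y₀ = s9y Y₀` has `dep y₀ = d' D ≤ H`;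
`ϱ = cs D^{λ+ε/2} d'/B'`;  every `y ∈ closedBall y₀ (d' D/2)` is `s9y Y` with `|Re Y| ≤ RI`, `D/2 ≤ -Im Y ≤ 2D`, every `t ∈ ball 0 ϱ` is `s9t T` with `‖T‖ < cs D^{λ+ε/2}`.  `Shape.s9c_coef`, multiplied by `(d'/B')²`:
`‖s9F Y₀ ^ 2 + 8 s9Q Y₀ - (d'/B')² ⟨W⟩‖ ≤ 2880/(cs D^{λ+ε/2})²`.  `F_lim`, `Q_lim` at the point `Y₀`, `d'/B' → 0`, `le_of_tendsto`:  `‖F Y₀‖ ≤ C D^{-(λ+ε/2)}`, `C = √2880/cs`.
With `D = e^{-v}`, `v ≥ max 0 (2 log C/ε)`: `C e^{(λ+ε/2) v} ≤ e^{(λ+ε) v}`.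
-/
import Claimed.Agent.R269.S9.GrowthFill
import Claimed.Agent.R269.S9.GrowthCoef

set_option autoImplicit false

namespace Claimed.Agent.R269

open Complex Filter Topology MeasureTheory Set
open scoped ENNReal Real

/-- the pointwise bound behind Prop 9.8. -/
theorem s9c_growth_pt (Sh : Shape) (hH : Sh.H ≠ ⊤) (𝒮 : S9Scale Sh) (p RI cs : ℝ) (hcs : 0 < cs)
    (hfill : ∀ D ∈ Ioc (0 : ℝ) 1, ∀ᶠ n in atTop, ∀ Y T : ℂ, |Y.re| ≤ RI → D / 2 ≤ -Y.im →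
      -Y.im ≤ 2 * D → ‖T‖ ≤ cs * D ^ p →
      (Sh.s9y (𝒮.K n) (𝒮.ξ n) Y, Sh.s9t (𝒮.K n) T) ∈ Sh.s9Rmax)
    (x D : ℝ) (hx : |x| + 1 ≤ RI) (hD : D ∈ Ioc (0 : ℝ) 1) :
    ‖𝒮.F (s9f_pt x D)‖ ^ 2 ≤ 2880 / (cs * D ^ p) ^ 2 := by
  obtain ⟨hD0, hD1⟩ := hD
  set Y₀ : ℂ := s9f_pt x D with hY₀
  have hY₀re : Y₀.re = x := rfl
  have hY₀im : Y₀.im = -D := rfl
  have hY₀LH : Y₀ ∈ s9f_LH := by show Y₀.im < 0; rw [hY₀im]; linarith
  have hDp : 0 < D ^ p := Real.rpow_pos_of_pos hD0 _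
  -- limits
  have hd : Tendsto (fun n => Real.exp (-𝒮.K n)) atTop (𝓝 0) :=
    Real.tendsto_exp_atBot.comp (tendsto_neg_atTop_atBot.comp 𝒮.K_tendsto)
  have hBinv : Tendsto (fun n => (Sh.μ (𝒮.K n))⁻¹) atTop (𝓝 0) := tendsto_inv_atTop_zero.comp 𝒮.B_tendsto
  have hq : Tendsto (fun n => Real.exp (-𝒮.K n) / Sh.μ (𝒮.K n)) atTop (𝓝 0) := by
    simpa [div_eq_mul_inv] using hd.mul hBinv
  have hF := 𝒮.F_lim.tendsto_at hY₀LH
  have hQ := 𝒮.Q_lim.tendsto_at hY₀LH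
  have hlim : Tendsto (fun n => Sh.s9F (𝒮.K n) (𝒮.ξ n) Y₀ ^ 2 + 8 * Sh.s9Q (𝒮.K n) (𝒮.ξ n) Y₀ -
      (((Real.exp (-𝒮.K n) / Sh.μ (𝒮.K n)) ^ 2 : ℝ) : ℂ) * Sh.s9Wm) atTop (𝓝 (𝒮.F Y₀ ^ 2)) := by
    have h1 : Tendsto (fun n => (((Real.exp (-𝒮.K n) / Sh.μ (𝒮.K n)) ^ 2 : ℝ) : ℂ)) atTop (𝓝 0) := by
      have := (hq.pow 2)
      simp only [ne_eq, OfNat.ofNat_ne_zero, not_false_eq_true, zero_pow] at this
      exact_mod_cast (Complex.continuous_ofReal.tendsto 0).comp this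
    have := ((hF.pow 2).add (hQ.const_mul 8)).sub (h1.mul_const Sh.s9Wm)
    simpa using this
  have hlimn := hlim.norm
  rw [norm_pow] at hlimn
  refine le_of_tendsto hlimn ?_
  have hdH : ∀ᶠ n in atTop, Real.exp (-𝒮.K n) * D ≤ Sh.Hr := by
    have hHr : 0 < Sh.Hr := by
      by_contra hcon
      push Not at hcon
      apply Sh.noncircular
      refine ⟨0, fun s hs => ?_⟩
      have := (Sh.s9_mem_D hH s).1 hs
      exact absurd (lt_of_le_of_lt (abs_nonneg _) this) (not_lt.2 hcon)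
    have : Tendsto (fun n => Real.exp (-𝒮.K n) * D) atTop (𝓝 0) := by simpa using hd.mul_const D
    exact (this.eventually (gt_mem_nhds hHr)).mono fun n hn => hn.le
  have hBpos : ∀ᶠ n in atTop, 0 < Sh.μ (𝒮.K n) := 𝒮.B_tendsto.eventually_gt_atTop 0
  filter_upwards [hfill D ⟨hD0, hD1⟩, hdH, hBpos] with n hn hdn hBn
  set d' := Real.exp (-𝒮.K n) with hd'
  set B' := Sh.μ (𝒮.K n) with hB'
  have hd'0 : 0 < d' := Real.exp_pos _
  set y₀ : ℂ := Sh.s9y (𝒮.K n) (𝒮.ξ n) Y₀ with hy₀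
  have hy₀im : y₀.im = Sh.Hr - d' * D := by
    simp [hy₀, Shape.s9y, hY₀im, ← hd']; ring
  have hdep : Sh.s9dep y₀ = d' * D := by unfold Shape.s9dep; rw [hy₀im]; ring
  set ϱ : ℝ := cs * D ^ p * (d' / B') with hϱ
  have hϱ0 : 0 < ϱ := by positivity
  have hd'c : (d' : ℂ) ≠ 0 := by exact_mod_cast hd'0.ne'
  have hB'c : (B' : ℂ) ≠ 0 := by exact_mod_cast hBn.ne'
  have hcoef := Sh.s9c_coef hH y₀ ϱ hϱ0 (by rw [hdep]; positivity) (by rw [hdep]; exact hdn) (by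
    intro y hy t ht
    rw [hdep] at hy
    set Y : ℂ := (y - (𝒮.ξ n : ℂ) - I * Sh.Hr) / (d' : ℂ) with hY
    set T : ℂ := t * ((B' / d' : ℝ) : ℂ) with hT
    have hyY : Sh.s9y (𝒮.K n) (𝒮.ξ n) Y = y := by
      simp only [Shape.s9y, ← hd', hY]; field_simp; ring
    have htT : Sh.s9t (𝒮.K n) T = t := by
      simp only [Shape.s9t, ← hd', ← hB', hT]; push_cast; field_simp
    have hYY : ‖Y - Y₀‖ ≤ D / 2 := by
      have h1 : y - y₀ = (d' : ℂ) * (Y - Y₀) := by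
        rw [← hyY, hy₀]; simp only [Shape.s9y, ← hd']; ring
      have h2 : ‖y - y₀‖ ≤ d' * D / 2 := by simpa [dist_eq_norm] using hy
      rw [h1, norm_mul, Complex.norm_real, Real.norm_eq_abs, abs_of_pos hd'0] at h2
      have : d' * ‖Y - Y₀‖ ≤ d' * (D / 2) := by linarith
      exact le_of_mul_le_mul_left this hd'0
    have hre : |Y.re - x| ≤ D / 2 := by
      have : |(Y - Y₀).re| ≤ ‖Y - Y₀‖ := Complex.abs_re_le_norm _
      simp only [Complex.sub_re, hY₀re] at this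
      linarith
    have him : |Y.im + D| ≤ D / 2 := by
      have : |(Y - Y₀).im| ≤ ‖Y - Y₀‖ := Complex.abs_im_le_norm _
      simp only [Complex.sub_im, hY₀im, sub_neg_eq_add] at this
      linarith
    obtain ⟨hr1, hr2⟩ := abs_le.1 hre
    obtain ⟨hi1, hi2⟩ := abs_le.1 him
    have hxx := abs_le.1 (le_refl |x|)
    rw [← hyY, ← htT]
    refine hn Y T ?_ (by linarith) (by linarith) ?_
    · rw [abs_le]; constructor <;> linarith [neg_abs_le x, le_abs_self x]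
    · have h3 : ‖t‖ < ϱ := by simpa using ht
      rw [hT, norm_mul, Complex.norm_real, Real.norm_eq_abs, abs_of_pos (by positivity)]
      have h4 : ‖t‖ * (B' / d') < ϱ * (B' / d') := mul_lt_mul_of_pos_right h3 (by positivity)
      have h5 : ϱ * (B' / d') = cs * D ^ p := by rw [hϱ]; field_simp
      linarith)
  have hW : Sh.s9F (𝒮.K n) (𝒮.ξ n) Y₀ ^ 2 + 8 * Sh.s9Q (𝒮.K n) (𝒮.ξ n) Y₀ -
      (((d' / B') ^ 2 : ℝ) : ℂ) * Sh.s9Wm = (((d' / B') ^ 2 : ℝ) : ℂ) * (Sh.W y₀ - Sh.s9Wm) := by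
    simp only [Shape.s9F, Shape.s9Q, Shape.W, hy₀, Shape.s9y, ← hd', ← hB']
    push_cast; ring
  rw [hW, norm_mul, Complex.norm_real, Real.norm_eq_abs, abs_of_nonneg (by positivity)]
  calc (d' / B') ^ 2 * ‖Sh.W y₀ - Sh.s9Wm‖ ≤ (d' / B') ^ 2 * (2880 / ϱ ^ 2) := by gcongr
    _ = 2880 / (cs * D ^ p) ^ 2 := by rw [hϱ]; field_simp

/-- EXPORT S9cd = P1 Proposition 9.8, in the form (i) of Theorem 9.11. -/
theorem s9c_growth (Sh : Shape) (hH : Sh.H ≠ ⊤) (ho : Sh.order = 1) (𝒮 : S9Scale Sh) :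
    ∀ R : ℝ, ∀ ε > 0, ∃ v₀ : ℝ, ∀ v ≥ v₀, ∀ x ∈ Icc (-R) R,
      ‖𝒮.F (s9f_pt x (Real.exp (-v)))‖ ≤ Real.exp ((𝒮.lam + ε) * v) := by
  intro R ε hε
  obtain ⟨cs, hcs, hfill⟩ := s9c_fill Sh hH ho 𝒮 (ε / 2) (|R| + 1) (by positivity) (by positivity)
  set C : ℝ := Real.sqrt 2880 / cs with hC
  have hC0 : 0 < C := by positivity
  refine ⟨max 0 (2 * Real.log C / ε), fun v hv x hx => ?_⟩
  have hv0 : 0 ≤ v := (le_max_left _ _).trans hv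
  have hv1 : 2 * Real.log C / ε ≤ v := (le_max_right _ _).trans hv
  set D := Real.exp (-v) with hD
  have hD0 : 0 < D := Real.exp_pos _
  have hD1 : D ≤ 1 := by rw [hD]; exact Real.exp_le_one_iff.2 (by linarith)
  have hxR : |x| + 1 ≤ |R| + 1 := by
    have : |x| ≤ |R| := by
      rw [abs_le]; constructor
      · linarith [hx.1, le_abs_self R]
      · linarith [hx.2, le_abs_self R]
    linarith
  have h1 := s9c_growth_pt Sh hH 𝒮 (𝒮.lam + ε / 2) (|R| + 1) cs hcs hfill x D hxR ⟨hD0, hD1⟩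
  have hDp : D ^ (𝒮.lam + ε / 2) = Real.exp (-((𝒮.lam + ε / 2) * v)) := by
    rw [hD, ← Real.exp_mul]; ring_nf
  have h2 : ‖𝒮.F (s9f_pt x D)‖ ≤ C * Real.exp ((𝒮.lam + ε / 2) * v) := by
    apply abs_le_of_sq_le_sq' _ (by positivity) |>.2
    calc ‖𝒮.F (s9f_pt x D)‖ ^ 2 ≤ 2880 / (cs * D ^ (𝒮.lam + ε / 2)) ^ 2 := h1
      _ = (C * Real.exp ((𝒮.lam + ε / 2) * v)) ^ 2 := by
        have hs : Real.sqrt 2880 ^ 2 = 2880 := Real.sq_sqrt (by norm_num)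
        rw [hDp, hC, Real.exp_neg]
        field_simp
        rw [hs]
  have h3 : C ≤ Real.exp (ε / 2 * v) := by
    rw [← Real.exp_log hC0]
    apply Real.exp_le_exp.2
    rw [div_le_iff₀ hε] at hv1
    linarith
  calc ‖𝒮.F (s9f_pt x D)‖ ≤ C * Real.exp ((𝒮.lam + ε / 2) * v) := h2
    _ ≤ Real.exp (ε / 2 * v) * Real.exp ((𝒮.lam + ε / 2) * v) := by gcongr
    _ = Real.exp ((𝒮.lam + ε) * v) := by rw [← Real.exp_add]; ring_nf

end Claimed.Agent.R269
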