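/-
Row 269, UNIT S9cd, LEAF PACKAGE LF-S9c-deep (step E2).   Blueprint: helper149.   No paper reading needed.

DEEP COMPLEX DATA at the selected centres.

PROOF.  `Shape.s9i_cone` with `α = 9/16`, `m₀`, `δb = Sh.s9db` (`0 < s9db < H/2`: `e^{-k₀} < H/10`) gives `L`; with `K := 1` it gives `ε₀, d₀, δs, C`.  `𝒮.cones L` gives `C_L` (WLOG `> 0`).
Choose `Dd ≥ 10` with `ε := T₀ C_L Dd^{-α} ≤ ε₀`.  For large `n`: `d := d' Dd ≤ d₀`, `r := T₀ d'/B' ≤ d`.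
For `s = ξ_n + iH + d' S` in the cone `s9cone L ξ_n (d/10) δb`: `-Im S = dep s/d' ∈ [1, δb/d']`, `|Re S| ≤ L (-Im S)`, and `(d'/B') M s = max ‖F_n S‖ (√‖Q_n S‖) ≤ C_L (dep s/d')^{-α}`,
so `r M s ≤ T₀ C_L Dd^{-α} (d/dep s)^α`.  The passage obtained is contained in `s9Rmax` (`Shape.s9k_max_spec`) and contains all `(y,t)` with `d < dep y < δs`, `|Re y - ξ_n| < m₀ dep y`, `‖t‖ < r ≤ r (dep y/d)^α`.
-/
import Claimed.Agent.R269.S9.GrowthDefs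

set_option autoImplicit false

namespace Claimed.Agent.R269

open Complex Filter Topology MeasureTheory Set Metric
open scoped ENNReal Real

/-- LEAF E2. -/
theorem s9c_deep (Sh : Shape) (hH : Sh.H ≠ ⊤) (ho : Sh.order = 1) (𝒮 : S9Scale Sh) (m₀ T₀ : ℝ)
    (hm₀ : 0 < m₀) (hT₀ : 0 < T₀) :
    ∃ Dd δs : ℝ, 10 ≤ Dd ∧ 0 < δs ∧ ∀ᶠ n in atTop, ∀ Y T : ℂ, ‖T‖ < T₀ → Dd < -Y.im →
      -Y.im < δs / Real.exp (-𝒮.K n) → |Y.re| < m₀ * (-Y.im) →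
      (Sh.s9y (𝒮.K n) (𝒮.ξ n) Y, Sh.s9t (𝒮.K n) T) ∈ Sh.s9Rmax := by
  obtain ⟨L, hL, hcone⟩ := Sh.s9i_cone hH (9 / 16) m₀ Sh.s9db (by norm_num) (by norm_num) hm₀
    Sh.s9_db_pos (Sh.s9_db_lt_half hH)
  obtain ⟨ε₀, d₀, δs, C, hε₀, hd₀, hδs, -, hpass⟩ := hcone 1 one_pos
  obtain ⟨CL₀, hCL₀⟩ := 𝒮.cones L hL
  set CL : ℝ := max CL₀ 1 with hCL
  have hCLpos : 0 < CL := lt_of_lt_of_le one_pos (le_max_right _ _)
  set Dd : ℝ := max 10 ((T₀ * CL / ε₀) ^ (16 / 9 : ℝ)) with hDd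
  have hDd10 : 10 ≤ Dd := le_max_left _ _
  have hDd0 : 0 < Dd := by linarith
  set ε : ℝ := T₀ * CL * Dd ^ (-(9 / 16) : ℝ) with hε
  have hεpos : 0 < ε := by positivity
  have hεle : ε ≤ ε₀ := by
    have h1 : (T₀ * CL / ε₀) ^ (16 / 9 : ℝ) ≤ Dd := le_max_right _ _
    have h2 : T₀ * CL / ε₀ ≤ Dd ^ (9 / 16 : ℝ) := by
      have h3 : ((T₀ * CL / ε₀) ^ (16 / 9 : ℝ)) ^ (9 / 16 : ℝ) = T₀ * CL / ε₀ := by
        rw [← Real.rpow_mul (by positivity)]; norm_num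
      rw [← h3]
      exact Real.rpow_le_rpow (by positivity) h1 (by norm_num)
    rw [hε, Real.rpow_neg hDd0.le]
    rw [div_le_iff₀ hε₀] at h2
    rw [← div_eq_mul_inv, div_le_iff₀ (by positivity)]
    linarith
  refine ⟨Dd, δs, hDd10, hδs, ?_⟩
  have hd : Tendsto (fun n => Real.exp (-𝒮.K n)) atTop (𝓝 0) :=
    Real.tendsto_exp_atBot.comp (tendsto_neg_atTop_atBot.comp 𝒮.K_tendsto)
  have e1 : ∀ᶠ n in atTop, Real.exp (-𝒮.K n) * Dd ≤ d₀ := by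
    have : Tendsto (fun n => Real.exp (-𝒮.K n) * Dd) atTop (𝓝 0) := by simpa using hd.mul_const Dd
    exact (this.eventually (gt_mem_nhds hd₀)).mono fun n hn => hn.le
  have e2 : ∀ᶠ n in atTop, max 1 T₀ ≤ Sh.μ (𝒮.K n) := 𝒮.B_tendsto.eventually_ge_atTop _
  filter_upwards [hCL₀, e1, e2] with n hn hdn hBn Y T hT hY1 hY2 hY3
  set d' := Real.exp (-𝒮.K n) with hd'
  set B' := Sh.μ (𝒮.K n) with hB'
  have hd'0 : 0 < d' := Real.exp_pos _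
  have hB'0 : 0 < B' := lt_of_lt_of_le one_pos ((le_max_left _ _).trans hBn)
  have hB'T : T₀ ≤ B' := (le_max_right _ _).trans hBn
  set d : ℝ := d' * Dd with hdd
  set r : ℝ := T₀ * (d' / B') with hr
  have hd0 : 0 < d := by positivity
  have hr0 : 0 < r := by positivity
  have hrd : r ≤ 1 * d := by
    rw [hr, hdd, one_mul]
    have : T₀ * (d' / B') = d' * (T₀ / B') := by ring
    rw [this]
    have h1 : T₀ / B' ≤ 1 := (div_le_one hB'0).2 hB'T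
    have : T₀ / B' ≤ Dd := by linarith
    gcongr
  obtain ⟨R, S, hRS, hin⟩ := hpass ε d r (𝒮.ξ n) hεpos hεle hd0 hdn hr0 hrd (by
    rintro s ⟨hs1, hs2, hs3⟩
    set S' : ℂ := (s - (𝒮.ξ n : ℂ) - I * Sh.Hr) / ((d' : ℝ) : ℂ) with hS'
    have hsS : Sh.s9y (𝒮.K n) (𝒮.ξ n) S' = s := Sh.s9y_inv _ _ s
    have hdepS : Sh.s9dep s = d' * (-S'.im) := by rw [← hsS, Sh.s9y_dep]
    have hreS : s.re = 𝒮.ξ n + d' * S'.re := by rw [← hsS, Sh.s9y_re]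
    have hdep0 : 0 < Sh.s9dep s := lt_of_lt_of_le (by positivity) hs1
    have hD : -S'.im = Sh.s9dep s / d' := by rw [hdepS]; field_simp
    have hD1 : 1 ≤ -S'.im := by
      rw [hD, le_div_iff₀ hd'0]
      have : d' * Dd / 10 ≤ Sh.s9dep s := hs1
      nlinarith
    have h1 := hn S' hD1 (by rw [hD]; gcongr) (by
      have : |s.re - 𝒮.ξ n| = d' * |S'.re| := by
        rw [hreS, add_sub_cancel_left, abs_mul, abs_of_pos hd'0]
      rw [this, hdepS] at hs3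
      have : d' * |S'.re| ≤ d' * (L * (-S'.im)) := by linarith
      exact le_of_mul_le_mul_left this hd'0)
    rw [Sh.s9_max_FQ _ _ _ hB'0] at h1
    have hsS' : (𝒮.ξ n : ℂ) + I * Sh.Hr + ((Real.exp (-𝒮.K n) : ℝ) : ℂ) * S' = s := hsS
    rw [hsS'] at h1
    have hpw : (-S'.im) ^ (-(9 / 16) : ℝ) = Dd ^ (-(9 / 16) : ℝ) * (d / Sh.s9dep s) ^ (9 / 16 : ℝ) := by
      have h2 : -S'.im = Dd * (d / Sh.s9dep s)⁻¹ := by rw [hD, hdd]; field_simp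
      have h3 : 0 < d / Sh.s9dep s := by positivity
      rw [h2, Real.mul_rpow hDd0.le (by positivity), Real.inv_rpow h3.le,
        Real.rpow_neg h3.le (9 / 16), inv_inv]
    have hpos : 0 ≤ (-S'.im) ^ (-(9 / 16) : ℝ) := Real.rpow_nonneg (by linarith) _
    calc r * Sh.M s = T₀ * (d' / B' * Sh.M s) := by rw [hr]; ring
      _ ≤ T₀ * (CL₀ * (-S'.im) ^ (-(9 / 16) : ℝ)) := by gcongr
      _ ≤ T₀ * (CL * (-S'.im) ^ (-(9 / 16) : ℝ)) := by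
          gcongr
          exact le_max_left _ _
      _ = ε * (d / Sh.s9dep s) ^ (9 / 16 : ℝ) := by rw [hpw, hε]; ring)
  have hdepY := Sh.s9y_dep (𝒮.K n) (𝒮.ξ n) Y
  rw [← hd'] at hdepY
  have hdY : d < Sh.s9dep (Sh.s9y (𝒮.K n) (𝒮.ξ n) Y) := by
    rw [hdepY, hdd]; gcongr
  refine (Sh.s9k_max_spec hRS).1 (hin _ _ hdY ?_ ?_ ?_).1
  · rw [hdepY]
    rw [lt_div_iff₀ hd'0] at hY2
    linarith
  · rw [hdepY, Sh.s9y_re, add_sub_cancel_left, ← hd', abs_mul, abs_of_pos hd'0]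
    have : d' * |Y.re| < d' * (m₀ * (-Y.im)) := by gcongr
    linarith
  · rw [Sh.s9t_norm _ _ hB'0, ← hd', ← hB']
    have h1 : ‖T‖ * (d' / B') < r := by rw [hr]; gcongr
    have h2 : 1 ≤ (Sh.s9dep (Sh.s9y (𝒮.K n) (𝒮.ξ n) Y) / d) ^ (9 / 16 : ℝ) := by
      apply Real.one_le_rpow _ (by norm_num)
      rw [le_div_iff₀ hd0]; linarith
    nlinarith

end Claimed.Agent.R269
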