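/-
Row 269: LEAF PACKAGE LF-S9-odelimit (HOST-FREE library over `Lib/CAMontel.lean`).   Blueprint: helper149.      (P1 Lemma 9.5, l.604-612.)

LIMITS OF `F'' = q F`.   If `F n → F∞ ≢ 0` locally uniformly and `F n'' = q n · F n` with holomorphic `q n`, then a subsequence of `q n` converges locally uniformly to a holomorphic `q∞`, and `F∞'' = q∞ F∞`.

PROOF.  `F∞` is holomorphic on `U` (locally a uniform limit of eventually holomorphic functions, as in `ca_montel_exhaust`), analytic, `≢ 0` on the connected `U`: its zeros are isolated (`AnalyticOnNhd.eqOn_zero_of_preconnected_of_eventuallyEq_zero`,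
 `AnalyticAt.eventually_eq_zero_or_eventually_ne_zero`).   Fix `z₀ ∈ U`, `r` from `hhol`.  Choose `0 < ρ < r` with `closedBall z₀ ρ ⊆ U` and `F∞ ≠ 0` on `sphere z₀ ρ`.
 On the compact sphere `‖F∞‖ ≥ 2c > 0`; `F n → F∞` and `F n'' → F∞''` uniformly there (`ca_montel_deriv` twice, `tendstoLocallyUniformlyOn_iff_forall_isCompact`), so for large `n`: `‖F n‖ ≥ c`, `‖F n''‖ ≤ C`, `‖q n‖ = ‖F n''‖/‖F n‖ ≤ C/c` on the sphere,
 hence on `ball z₀ ρ` by the maximum modulus principle (`Complex.norm_le_of_forall_mem_frontier_norm_le`).     `s9_montel` gives `ψ`, `q∞`.     Pointwise limit in `F (ψ n)'' z = q (ψ n) z · F (ψ n) z`.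
-/
import Claimed.Agent.R269.S9.LibMontel

set_option autoImplicit false

namespace Claimed.Agent.R269

open Filter Topology Set Metric

/-- LEAF: compactness of the potentials. -/
theorem s9_ode_limit (U : Set ℂ) (hU : IsOpen U) (hUc : IsPreconnected U) (F q : ℕ → ℂ → ℂ) (F' : ℂ → ℂ)
    (hhol : ∀ z ∈ U, ∃ r > 0, ∀ᶠ n in atTop, DifferentiableOn ℂ (F n) (ball z r) ∧
      DifferentiableOn ℂ (q n) (ball z r) ∧ ∀ w ∈ ball z r, deriv (deriv (F n)) w = q n w * F n w)
    (hlim : TendstoLocallyUniformlyOn F F' atTop U) (hne : ∃ z ∈ U, F' z ≠ 0) :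
    ∃ (ψ : ℕ → ℕ) (q' : ℂ → ℂ), StrictMono ψ ∧ DifferentiableOn ℂ q' U ∧
      TendstoLocallyUniformlyOn (fun n => q (ψ n)) q' atTop U ∧
      ∀ z ∈ U, deriv (deriv F') z = q' z * F' z := by
  have hF1 : ∀ z ∈ U, ∃ r > 0, ∀ᶠ n in atTop, DifferentiableOn ℂ (F n) (ball z r) := by
    intro z hz
    obtain ⟨r, hr, h⟩ := hhol z hz
    exact ⟨r, hr, h.mono fun n hn => hn.1⟩
  have hF2 : ∀ z ∈ U, ∃ r > 0, ∀ᶠ n in atTop, DifferentiableOn ℂ (deriv (F n)) (ball z r) := by
    intro z hz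
    obtain ⟨r, hr, h⟩ := hhol z hz
    exact ⟨r, hr, h.mono fun n hn => hn.1.deriv isOpen_ball⟩
  have hdF : DifferentiableOn ℂ F' U := by
    intro z hz
    obtain ⟨r, hr, h⟩ := hF1 z hz
    have hop : IsOpen (U ∩ ball z r) := hU.inter isOpen_ball
    have h1 : DifferentiableOn ℂ F' (U ∩ ball z r) :=
      (hlim.mono inter_subset_left).differentiableOn (h.mono fun n hn => hn.mono inter_subset_right) hop
    exact ((h1 z ⟨hz, mem_ball_self hr⟩).differentiableAt
      (hop.mem_nhds ⟨hz, mem_ball_self hr⟩)).differentiableWithinAt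
  have D1 : TendstoLocallyUniformlyOn (fun n => deriv (F n)) (deriv F') atTop U :=
    ca_montel_deriv hU hF1 hlim
  have D2 : TendstoLocallyUniformlyOn (fun n => deriv (deriv (F n))) (deriv (deriv F')) atTop U :=
    ca_montel_deriv hU hF2 D1
  have hd2 : DifferentiableOn ℂ (deriv (deriv F')) U := (hdF.deriv hU).deriv hU
  have han : AnalyticOnNhd ℂ F' U := hdF.analyticOnNhd hU
  obtain ⟨x, hxU, hx⟩ := hne
  have hbd : ∀ z ∈ U, ∃ r > 0, ∃ C : ℝ, ∀ᶠ n in atTop,
      DifferentiableOn ℂ (q n) (ball z r) ∧ ∀ w ∈ ball z r, ‖q n w‖ ≤ C := by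
    intro z₀ hz₀
    obtain ⟨r, hr, hev⟩ := hhol z₀ hz₀
    have hiso : ∀ᶠ z in 𝓝[≠] z₀, F' z ≠ 0 := by
      rcases (han z₀ hz₀).eventually_eq_zero_or_eventually_ne_zero with h | h
      · exact absurd (han.eqOn_zero_of_preconnected_of_eventuallyEq_zero hUc hz₀ h hxU) hx
      · exact h
    rw [eventually_nhdsWithin_iff] at hiso
    obtain ⟨δ, hδ, hδs⟩ := Metric.mem_nhds_iff.1 (Filter.inter_mem hiso (hU.mem_nhds hz₀))
    obtain ⟨ρ, hρdef⟩ : ∃ ρ, ρ = min δ r / 2 := ⟨_, rfl⟩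
    have hρ : 0 < ρ := by rw [hρdef]; have := lt_min hδ hr; linarith
    have hρδ : ρ < δ := by rw [hρdef]; have := min_le_left δ r; have := lt_min hδ hr; linarith
    have hρr : ρ < r := by rw [hρdef]; have := min_le_right δ r; have := lt_min hδ hr; linarith
    have hSU : sphere z₀ ρ ⊆ U := fun w hw =>
      (hδs (mem_ball.2 (by rw [mem_sphere.1 hw]; exact hρδ))).2
    have hSne : ∀ w ∈ sphere z₀ ρ, F' w ≠ 0 := by
      intro w hw
      refine (hδs (mem_ball.2 (by rw [mem_sphere.1 hw]; exact hρδ))).1 ?_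
      intro h
      rw [mem_singleton_iff] at h
      rw [h, mem_sphere, dist_self] at hw
      exact hρ.ne hw
    have hSc : IsCompact (sphere z₀ ρ) := isCompact_sphere z₀ ρ
    have hSn : (sphere z₀ ρ).Nonempty := NormedSpace.sphere_nonempty.2 hρ.le
    obtain ⟨w₀, hw₀, hmin⟩ := hSc.exists_isMinOn hSn ((hdF.continuousOn.mono hSU).norm)
    obtain ⟨c, hcdef⟩ : ∃ c, c = ‖F' w₀‖ / 2 := ⟨_, rfl⟩
    have hc : 0 < c := by rw [hcdef]; have := norm_pos_iff.2 (hSne w₀ hw₀); linarith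
    have hlow : ∀ w ∈ sphere z₀ ρ, 2 * c ≤ ‖F' w‖ := by
      intro w hw
      have : ‖F' w₀‖ ≤ ‖F' w‖ := hmin hw
      rw [hcdef]; linarith
    obtain ⟨C₀, hC₀⟩ := hSc.exists_bound_of_continuousOn (hd2.continuousOn.mono hSU)
    have u1 := Metric.tendstoUniformlyOn_iff.1
      ((tendstoLocallyUniformlyOn_iff_forall_isCompact hU).1 hlim _ hSU hSc) c hc
    have u2 := Metric.tendstoUniformlyOn_iff.1
      ((tendstoLocallyUniformlyOn_iff_forall_isCompact hU).1 D2 _ hSU hSc) 1 one_pos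
    refine ⟨ρ, hρ, (C₀ + 1) / c, ?_⟩
    filter_upwards [hev, u1, u2] with n hn h1 h2
    have hsubr : closedBall z₀ ρ ⊆ ball z₀ r := closedBall_subset_ball hρr
    refine ⟨hn.2.1.mono (ball_subset_closedBall.trans hsubr), ?_⟩
    intro w hw
    refine Complex.norm_le_of_forall_mem_frontier_norm_le isBounded_ball
      (hn.2.1.diffContOnCl_ball hsubr) ?_ (subset_closure hw)
    intro y hy
    rw [frontier_ball z₀ hρ.ne'] at hy
    have e := hn.2.2 y (hsubr (sphere_subset_closedBall hy))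
    have a1 : c ≤ ‖F n y‖ := by
      have := h1 y hy
      rw [dist_eq_norm] at this
      have t := norm_sub_norm_le (F' y) (F n y)
      have := hlow y hy
      linarith
    have a2 : ‖deriv (deriv (F n)) y‖ ≤ C₀ + 1 := by
      have := h2 y hy
      rw [dist_eq_norm, norm_sub_rev] at this
      have t := norm_sub_norm_le (deriv (deriv (F n)) y) (deriv (deriv F') y)
      have := hC₀ y hy
      linarith
    rw [e, norm_mul] at a2
    rw [le_div_iff₀ hc]
    calc ‖q n y‖ * c ≤ ‖q n y‖ * ‖F n y‖ := by gcongr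
      _ ≤ C₀ + 1 := a2
  obtain ⟨ψ, q', hψ, hq', hconv⟩ := s9_montel U hU q hbd
  refine ⟨ψ, q', hψ, hq', hconv, ?_⟩
  intro z hz
  obtain ⟨r, hr, hev⟩ := hhol z hz
  have t1 : Tendsto (fun n => deriv (deriv (F (ψ n))) z) atTop (𝓝 (deriv (deriv F') z)) :=
    (D2.tendsto_at hz).comp hψ.tendsto_atTop
  have t2 : Tendsto (fun n => q (ψ n) z * F (ψ n) z) atTop (𝓝 (q' z * F' z)) :=
    (hconv.tendsto_at hz).mul ((hlim.tendsto_at hz).comp hψ.tendsto_atTop)
  refine tendsto_nhds_unique t1 (t2.congr' ?_)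
  filter_upwards [hψ.tendsto_atTop.eventually hev] with n hn
  exact (hn.2.2 z (mem_ball_self hr)).symm

end Claimed.Agent.R269
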