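/-
Row 269: LEAF PACKAGE LF-S9-select (HOST-FREE library: only Mathlib).   Blueprint: helper149.   Proof: helper175.

SELECTION OF DETERMINISTIC POINTS ("assign summable failure probabilities ...", P1 l.425-436 and l.590-595).

`s9_select`.  For every `n` a probability space `(ℝ, P n)`; countably many nonnegative measurable variables `Z i n` with `∫ Z i n ≤ a i n` for `n ≥ N i`.
Then there are points `x n` with `Z i n (x n) ≤ 2^{i+2} a i n` for all `i` and all `n ≥ N i`.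
PROOF.  Markov (`MeasureTheory.mul_meas_ge_le_lintegral`): if `a i n ≠ 0, ∞`, `P n {Z i n > 2^{i+2} a i n} ≤ 2^{-(i+2)}`; if `a i n = 0` the variable vanishes a.e.; if `a i n = ∞` nothing to prove.
The union over `i` of the bad events has measure `≤ ∑ 2^{-(i+2)} = 1/2 < 1`, so its complement is nonempty.
(Uses: bounded expectations => fixed constants `2^{i+2} a i`; vanishing expectations `a i n → 0` => `Z i n (x n) → 0`; events: take indicator functions.)
-/
import Mathlib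

set_option autoImplicit false

namespace Claimed.Agent.R269

open Filter Topology Set MeasureTheory
open scoped ENNReal

/-- Markov's inequality with a strict inequality and no side condition on the bound -/
theorem s9sel_markov (μ : Measure ℝ) (Z : ℝ → ℝ≥0∞) (hZ : Measurable Z) (a : ℝ≥0∞) (k : ℕ)
    (hint : ∫⁻ x, Z x ∂μ ≤ a) : μ {x | 2 ^ k * a < Z x} ≤ (2⁻¹ : ℝ≥0∞) ^ k := by
  rcases eq_or_ne a 0 with h0 | h0
  · have h1 : ∫⁻ x, Z x ∂μ = 0 := le_antisymm (hint.trans (le_of_eq h0)) zero_le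
    rw [lintegral_eq_zero_iff hZ] at h1
    have h2 : μ {x | 2 ^ k * a < Z x} = 0 := by
      refine measure_mono_null (fun x hx => ?_) (ae_iff.1 h1)
      have hx' : 2 ^ k * a < Z x := hx
      rw [h0, mul_zero] at hx'
      exact hx'.ne'
    rw [h2]
    exact zero_le
  · rcases eq_or_ne a ⊤ with ht | ht
    · have : {x | 2 ^ k * a < Z x} = ∅ := by
        ext x
        have h2 : (2 : ℝ≥0∞) ^ k ≠ 0 := pow_ne_zero _ (by norm_num)
        simp [ht, ENNReal.mul_top h2]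
      rw [this, measure_empty]
      exact zero_le
    · have hc0 : (2 : ℝ≥0∞) ^ k ≠ 0 := pow_ne_zero _ (by norm_num)
      have hct : (2 : ℝ≥0∞) ^ k ≠ ⊤ := ENNReal.pow_ne_top (by norm_num)
      calc μ {x | 2 ^ k * a < Z x} ≤ μ {x | 2 ^ k * a ≤ Z x} := measure_mono fun x (hx : 2 ^ k * a < Z x) => (show 2 ^ k * a ≤ Z x from hx.le)
        _ ≤ (∫⁻ x, Z x ∂μ) / (2 ^ k * a) :=
            meas_ge_le_lintegral_div hZ.aemeasurable (mul_ne_zero hc0 h0) (ENNReal.mul_ne_top hct ht)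
        _ ≤ a / (2 ^ k * a) := ENNReal.div_le_div_right hint _
        _ = (2⁻¹ : ℝ≥0∞) ^ k := by
            rw [ENNReal.div_eq_inv_mul, ENNReal.mul_inv (Or.inl hc0) (Or.inl hct), mul_assoc,
              ENNReal.inv_mul_cancel h0 ht, mul_one, ENNReal.inv_pow]

theorem s9sel_tsum : ∑' i : ℕ, (2⁻¹ : ℝ≥0∞) ^ (i + 2) = 2⁻¹ := by
  have e : ∀ i : ℕ, (2⁻¹ : ℝ≥0∞) ^ (i + 2) = 2⁻¹ ^ 2 * 2⁻¹ ^ i := fun i => by rw [pow_add, mul_comm]
  rw [tsum_congr e, ENNReal.tsum_mul_left, ENNReal.tsum_geometric, ENNReal.one_sub_inv_two, inv_inv, pow_two, mul_assoc,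
    ENNReal.inv_mul_cancel (by norm_num) (by norm_num), mul_one]

/-- LEAF: simultaneous Markov selection. -/
theorem s9_select (P : ℕ → Measure ℝ) (hP : ∀ n, IsProbabilityMeasure (P n))
    (Z : ℕ → ℕ → ℝ → ℝ≥0∞) (hZ : ∀ i n, Measurable (Z i n)) (a : ℕ → ℕ → ℝ≥0∞) (N : ℕ → ℕ)
    (hint : ∀ i n, N i ≤ n → ∫⁻ x, Z i n x ∂(P n) ≤ a i n) :
    ∃ x : ℕ → ℝ, ∀ i n, N i ≤ n → Z i n (x n) ≤ 2 ^ (i + 2) * a i n := by
  have key : ∀ n, ∃ x : ℝ, ∀ i, N i ≤ n → Z i n x ≤ 2 ^ (i + 2) * a i n := by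
    intro n
    have := hP n
    by_contra hcon
    push Not at hcon
    set E : ℕ → Set ℝ := fun i => {x | N i ≤ n ∧ 2 ^ (i + 2) * a i n < Z i n x} with hE
    have hEi : ∀ i, P n (E i) ≤ (2⁻¹ : ℝ≥0∞) ^ (i + 2) := by
      intro i
      by_cases hi : N i ≤ n
      · exact (measure_mono fun x hx => hx.2).trans
          (s9sel_markov (P n) (Z i n) (hZ i n) (a i n) (i + 2) (hint i n hi))
      · have : E i = ∅ := by
          ext x
          simp [hE, hi]
        rw [this, measure_empty]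
        exact zero_le
    have huniv : (⋃ i, E i) = univ := by
      refine eq_univ_of_forall fun x => ?_
      obtain ⟨i, hi1, hi2⟩ := hcon x
      exact mem_iUnion.2 ⟨i, hi1, hi2⟩
    have h1 : (1 : ℝ≥0∞) ≤ 2⁻¹ := by
      calc (1 : ℝ≥0∞) = P n univ := measure_univ.symm
        _ = P n (⋃ i, E i) := by rw [huniv]
        _ ≤ ∑' i, P n (E i) := measure_iUnion_le _
        _ ≤ ∑' i : ℕ, (2⁻¹ : ℝ≥0∞) ^ (i + 2) := ENNReal.tsum_le_tsum hEi
        _ = 2⁻¹ := s9sel_tsum
    exact absurd h1 (not_le.2 ENNReal.one_half_lt_one)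
  choose x hx using key
  exact ⟨x, fun i n hi => hx n i hi⟩

end Claimed.Agent.R269
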