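/-
Row 269, mesh package (P1 Thm 9.11).  LEAF FILE `LF-S9g-limit`.   Blueprint: helper149.   Proof: helper175.

Passage to the limit over the stages (paper: "the constants c_j converge").  No complex analysis: `F, G₀` are arbitrary
functions here.

PROOF SKETCH.  Put `ε = κ/8`.  Let `u₁ ≥ u₀` be so large that `upper ε`, `wit ε` hold from `u₁` on, `κ u₁ / 2 ≥ 1`,
`A e^{-u₁} ≤ 1`.  `u_j = (1 + κ/2)^j u₁`, `c_j` = the constant of stage `u_j`.
The windows `[u_j, (1+κ) u_j]` and `[u_{j+1}, (1+κ) u_{j+1}]` overlap in `[(1+κ/2) u_j, (1+κ) u_j]`.  The witness `w = p - iδ` for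
`x = 0` at the scale `v = (1 + 3κ/4) u_j` has `-log δ ∈ [v - εv, v + εv] ⊆` overlap (`ε (1+3κ/4) ≤ κ/4`), `|p| ≤ A δ ≤ 1` and
`|F w| ≥ e^{(λ-ε) v}`.  Both stages apply at `w` (write `δ = e^{-(-log δ)}`):
  `|c_j - c_{j+1}| |F w| ≤ 2 e^{-λ u_j/2}`, so `|c_j - c_{j+1}| ≤ 2 exp(-(λ/2 + (λ-ε)(1+3κ/4)) u_j) =: 2 e^{-a u_j}`, `a ≥ 1`.
`u_i ≥ u_j + (i - j)` (Bernoulli and `κ u₁/2 ≥ 1`), so `c_j` is Cauchy, `c_j → c_*`, `|c_j - c_*| ≤ 4 e^{-a u_j}`.
For `x ∈ [-1,1]`, `v ∈ [u_j, (1+κ) u_j]`: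
  `|G₀ - c_* F| ≤ e^{-λ u_j/2} + 4 e^{-a u_j} e^{(λ+ε)(1+κ) u_j} ≤ 5 e^{-λ u_j/4}`
because `-λ/2 - (λ-ε)(1+3κ/4) + (λ+ε)(1+κ) = -λ/2 + λκ/4 + ε(2+7κ/4) ≤ -27λ/64`.
Every `v ≥ u₁` lies in some window, with `u_j ≥ v/(1+κ) ≥ v/2`; hence `|G₀ - c_* F|(x - i e^{-v}) ≤ 5 e^{-λ v/8} → 0`.
-/
import Claimed.Agent.R269.S9.MeshDefs

set_option autoImplicit false

namespace Claimed.Agent.R269

open Set Metric

/-- comparison of the constants of two overlapping stages, through a cone witness in the overlap. -/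
theorem s9gl_step {F G₀ : ℂ → ℂ} {lam A κ : ℝ} (hlam : 1 ≤ lam) (hκ : 0 < κ)
    (hκ' : κ ≤ 1 / 8) {u u' : ℝ} {c c' : ℂ} (hu : 0 < u) (hAu : A ≤ u) (huu' : u ≤ u')
    (hu'u : u' ≤ (1 + κ / 2) * u)
    (hwit : ∃ p δ : ℝ, 0 < δ ∧ |p - 0| ≤ A * δ ∧
      |-Real.log δ - (1 + 3 * κ / 4) * u| ≤ κ / 8 * ((1 + 3 * κ / 4) * u) ∧
      Real.exp ((lam - κ / 8) * ((1 + 3 * κ / 4) * u)) ≤ ‖F (s9f_pt p δ)‖)
    (hc : ∀ x ∈ Icc (-1 : ℝ) 1, ∀ v ∈ Icc u ((1 + κ) * u),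
      ‖G₀ (s9f_pt x (Real.exp (-v))) - c * F (s9f_pt x (Real.exp (-v)))‖ ≤ Real.exp (-(lam * u / 2)))
    (hc' : ∀ x ∈ Icc (-1 : ℝ) 1, ∀ v ∈ Icc u' ((1 + κ) * u'),
      ‖G₀ (s9f_pt x (Real.exp (-v))) - c' * F (s9f_pt x (Real.exp (-v)))‖ ≤
        Real.exp (-(lam * u' / 2))) :
    ‖c - c'‖ ≤ 2 * Real.exp (-((lam / 2 + (lam - κ / 8) * (1 + 3 * κ / 4)) * u)) := by
  obtain ⟨p, δ, hδ, hp, hlog, hF⟩ := hwit
  obtain ⟨v, hv⟩ : ∃ v : ℝ, v = -Real.log δ := ⟨_, rfl⟩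
  rw [← hv] at hlog
  have hδv : δ = Real.exp (-v) := by rw [hv, neg_neg, Real.exp_log hδ]
  have habs := abs_le.1 hlog
  have hpos : 0 ≤ u * κ * (1 / 8 - 3 * κ / 32) :=
    mul_nonneg (mul_nonneg hu.le hκ.le) (by linarith)
  have hκu : 0 ≤ κ * u := mul_nonneg hκ.le hu.le
  have hv1 : (1 + κ / 2) * u ≤ v := by nlinarith [habs.1]
  have hv2 : v ≤ (1 + κ) * u := by nlinarith [habs.2]
  have hv3 : v ≤ (1 + κ) * u' := hv2.trans (mul_le_mul_of_nonneg_left huu' (by linarith))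
  have huv : u ≤ v := by nlinarith
  have hδ1 : A * δ ≤ 1 := by
    have h1 : δ ≤ Real.exp (-u) := by
      rw [hδv]; exact Real.exp_le_exp.2 (by linarith)
    have h2 : u ≤ Real.exp u := by linarith [Real.add_one_le_exp u]
    calc A * δ ≤ Real.exp u * Real.exp (-u) :=
          mul_le_mul (hAu.trans h2) h1 hδ.le (Real.exp_pos _).le
      _ = 1 := by rw [← Real.exp_add]; simp
  have hp1 : p ∈ Icc (-1 : ℝ) 1 := by
    rw [sub_zero] at hp
    have := abs_le.1 (hp.trans hδ1)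
    exact ⟨this.1, this.2⟩
  have e1 := hc p hp1 v ⟨huv, hv2⟩
  have e2 := hc' p hp1 v ⟨hu'u.trans hv1, hv3⟩
  rw [← hδv] at e1 e2
  set w := s9f_pt p δ with hw
  have e3 : Real.exp (-(lam * u' / 2)) ≤ Real.exp (-(lam * u / 2)) := by
    apply Real.exp_le_exp.2
    have : lam * u ≤ lam * u' := mul_le_mul_of_nonneg_left huu' (by linarith)
    linarith
  have h1 : ‖c - c'‖ * ‖F w‖ ≤ 2 * Real.exp (-(lam * u / 2)) := by
    have : (c - c') * F w = (G₀ w - c' * F w) - (G₀ w - c * F w) := by ring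
    rw [← norm_mul, this]
    calc ‖(G₀ w - c' * F w) - (G₀ w - c * F w)‖ ≤ ‖G₀ w - c' * F w‖ + ‖G₀ w - c * F w‖ :=
          norm_sub_le _ _
      _ ≤ 2 * Real.exp (-(lam * u / 2)) := by linarith
  have h2 : ‖c - c'‖ * Real.exp ((lam - κ / 8) * ((1 + 3 * κ / 4) * u)) ≤
      2 * Real.exp (-(lam * u / 2)) :=
    (mul_le_mul_of_nonneg_left hF (norm_nonneg _)).trans h1
  calc ‖c - c'‖ = ‖c - c'‖ * Real.exp ((lam - κ / 8) * ((1 + 3 * κ / 4) * u)) *
        Real.exp (-((lam - κ / 8) * ((1 + 3 * κ / 4) * u))) := by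
        rw [mul_assoc, ← Real.exp_add]; simp
    _ ≤ 2 * Real.exp (-(lam * u / 2)) * Real.exp (-((lam - κ / 8) * ((1 + 3 * κ / 4) * u))) :=
        mul_le_mul_of_nonneg_right h2 (Real.exp_pos _).le
    _ = 2 * Real.exp (-((lam / 2 + (lam - κ / 8) * (1 + 3 * κ / 4)) * u)) := by
        rw [mul_assoc, ← Real.exp_add]; congr 2; ring

/-- a sequence in `ℂ` whose steps are bounded by a sequence that halves at each step converges, with the rate `2 b`. -/
theorem s9gl_cauchy (d : ℕ → ℂ) (b : ℕ → ℝ) (hstep : ∀ j, ‖d j - d (j + 1)‖ ≤ b j)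
    (hhalf : ∀ j, b (j + 1) ≤ b j / 2) : ∃ cs : ℂ, ∀ j, ‖d j - cs‖ ≤ 2 * b j := by
  have hpow : ∀ j i, b (j + i) ≤ b j / 2 ^ i := by
    intro j i
    induction i with
    | zero => simp
    | succ i ih =>
      calc b (j + (i + 1)) ≤ b (j + i) / 2 := hhalf (j + i)
        _ ≤ b j / 2 ^ i / 2 := by linarith
        _ = b j / 2 ^ (i + 1) := by rw [pow_succ, div_div]
  have hgeo : ∀ j i, dist (d (j + i)) (d (j + i + 1)) ≤ 2 * b j / 2 / 2 ^ i := by
    intro j i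
    rw [dist_eq_norm]
    calc ‖d (j + i) - d (j + i + 1)‖ ≤ b (j + i) := hstep _
      _ ≤ b j / 2 ^ i := hpow j i
      _ = 2 * b j / 2 / 2 ^ i := by rw [mul_div_cancel_left₀ _ (two_ne_zero)]
  have hcau : CauchySeq d := by
    refine cauchySeq_of_le_geometric_two (C := 2 * b 0) fun i => ?_
    have := hgeo 0 i
    simpa using this
  obtain ⟨cs, hcs⟩ := cauchySeq_tendsto_of_complete hcau
  refine ⟨cs, fun j => ?_⟩
  have ht : Filter.Tendsto (fun i => d (j + i)) Filter.atTop (nhds cs) := by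
    have := (Filter.tendsto_add_atTop_iff_nat j).2 hcs
    simpa [add_comm] using this
  have := dist_le_of_le_geometric_two_of_tendsto₀ (f := fun i => d (j + i)) (C := 2 * b j)
    (fun i => hgeo j i) ht
  simpa [dist_eq_norm] using this

/-- LEAF: the stage constants converge and the limit combination vanishes at `[-1,1]`. -/
theorem s9g_limit {F G₀ : ℂ → ℂ} {lam A κ u₀ : ℝ} (hlam : 1 ≤ lam) (hA : 0 ≤ A)
    (hc : S9gCore F lam A) (hκ : 0 < κ) (hκ' : κ ≤ 1 / 8)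
    (hst : ∀ u ≥ u₀, S9gStage F G₀ lam κ u) :
    ∃ c : ℂ, S9gVanish (fun z => G₀ z - c * F z) := by
  obtain ⟨v₁, hup⟩ := hc.upper (κ / 8) (by positivity)
  obtain ⟨v₂, hwit⟩ := hc.wit (κ / 8) (by positivity)
  unfold S9gStage at hst
  choose! c hcst using hst
  obtain ⟨u₁, h10, h11, h12, h1A, h1κ⟩ :
      ∃ u₁ : ℝ, u₀ ≤ u₁ ∧ v₁ ≤ u₁ ∧ v₂ ≤ u₁ ∧ A ≤ u₁ ∧ 2 / κ ≤ u₁ :=
    ⟨max (max u₀ v₁) (max (max v₂ A) (2 / κ)),
      (le_max_left _ _).trans (le_max_left _ _), (le_max_right _ _).trans (le_max_left _ _),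
      ((le_max_left _ _).trans (le_max_left _ _)).trans (le_max_right _ _),
      ((le_max_right _ _).trans (le_max_left _ _)).trans (le_max_right _ _),
      (le_max_right _ _).trans (le_max_right _ _)⟩
  have hu1pos : 0 < u₁ := lt_of_lt_of_le (by positivity) h1κ
  have hκu1 : 1 ≤ κ / 2 * u₁ := by
    have := mul_le_mul_of_nonneg_left h1κ (by positivity : (0 : ℝ) ≤ κ / 2)
    have e : κ / 2 * (2 / κ) = 1 := by field_simp
    linarith
  obtain ⟨q, hq⟩ : ∃ q : ℝ, q = 1 + κ / 2 := ⟨_, rfl⟩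
  have hq1 : 1 < q := by rw [hq]; linarith
  obtain ⟨a, ha⟩ : ∃ a : ℝ, a = lam / 2 + (lam - κ / 8) * (1 + 3 * κ / 4) := ⟨_, rfl⟩
  have ha1 : 1 ≤ a := by
    rw [ha]
    have : (1 - 1 / 64 : ℝ) * 1 ≤ (lam - κ / 8) * (1 + 3 * κ / 4) :=
      mul_le_mul (by linarith) (by linarith) (by norm_num) (by linarith)
    linarith
  set U : ℕ → ℝ := fun j => q ^ j * u₁ with hU
  have hU_ge : ∀ j, u₁ ≤ U j := fun j => by
    have : 1 ≤ q ^ j := one_le_pow₀ hq1.le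
    calc u₁ = 1 * u₁ := (one_mul _).symm
      _ ≤ q ^ j * u₁ := mul_le_mul_of_nonneg_right this hu1pos.le
  have hU_succ : ∀ j, U (j + 1) = q * U j := fun j => by
    simp only [hU]; rw [pow_succ]; ring
  have hU_step : ∀ j, U j + 1 ≤ U (j + 1) := fun j => by
    rw [hU_succ, hq]
    have : κ / 2 * u₁ ≤ κ / 2 * U j := mul_le_mul_of_nonneg_left (hU_ge j) (by positivity)
    linarith
  have hstep : ∀ j, ‖c (U j) - c (U (j + 1))‖ ≤ 2 * Real.exp (-(a * U j)) := by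
    intro j
    have hj := hU_ge j
    have hj' := hU_ge (j + 1)
    rw [ha]
    refine s9gl_step hlam hκ hκ' (hu1pos.trans_le hj) (h1A.trans hj)
      (by linarith [hU_step j]) (by rw [hU_succ, hq]) ?_ (hcst _ (h10.trans hj))
      (hcst _ (h10.trans hj'))
    refine hwit _ ?_ 0 ⟨by norm_num, by norm_num⟩
    have : 0 ≤ 3 * κ / 4 * U j := mul_nonneg (by positivity) (hu1pos.trans_le hj).le
    show v₂ ≤ (1 + 3 * κ / 4) * U j
    linarith
  have hhalf : ∀ j, 2 * Real.exp (-(a * U (j + 1))) ≤ 2 * Real.exp (-(a * U j)) / 2 := by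
    intro j
    have h1 : -(a * U (j + 1)) ≤ -(a * U j) + -1 := by
      have : a * (U j + 1) ≤ a * U (j + 1) := mul_le_mul_of_nonneg_left (hU_step j) (by linarith)
      linarith
    have h2 : Real.exp (-1) ≤ 1 / 2 := by
      rw [Real.exp_neg, one_div]
      exact inv_anti₀ (by norm_num) (by linarith [Real.add_one_le_exp (1 : ℝ)])
    calc 2 * Real.exp (-(a * U (j + 1))) ≤ 2 * (Real.exp (-(a * U j)) * Real.exp (-1)) := by
          rw [← Real.exp_add]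
          exact mul_le_mul_of_nonneg_left (Real.exp_le_exp.2 h1) (by norm_num)
      _ ≤ 2 * (Real.exp (-(a * U j)) * (1 / 2)) := by
          have := mul_le_mul_of_nonneg_left h2 (Real.exp_pos (-(a * U j))).le
          linarith
      _ = 2 * Real.exp (-(a * U j)) / 2 := by ring
  obtain ⟨cs, hcs⟩ := s9gl_cauchy (fun j => c (U j)) (fun j => 2 * Real.exp (-(a * U j))) hstep hhalf
  -- the quantitative bound
  have hmain : ∀ x ∈ Icc (-1 : ℝ) 1, ∀ v : ℝ, u₁ ≤ v →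
      ‖G₀ (s9f_pt x (Real.exp (-v))) - cs * F (s9f_pt x (Real.exp (-v)))‖ ≤
        5 * Real.exp (-(v / 8)) := by
    intro x hx v hv
    obtain ⟨j, hj1, hj2⟩ := exists_nat_pow_near (x := v / u₁) ((one_le_div hu1pos).2 hv) hq1
    have hj1' : U j ≤ v := (le_div_iff₀ hu1pos).1 hj1
    have hj2' : v < U (j + 1) := (div_lt_iff₀ hu1pos).1 hj2
    have hUj := hU_ge j
    have hUpos : 0 < U j := hu1pos.trans_le hUj
    rw [hU_succ, hq] at hj2'
    have hκU : 0 ≤ κ * U j := mul_nonneg hκ.le hUpos.le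
    have hv2 : v ≤ (1 + κ) * U j := by nlinarith
    set w := s9f_pt x (Real.exp (-v)) with hw
    have e1 : ‖G₀ w - c (U j) * F w‖ ≤ Real.exp (-(lam * U j / 2)) :=
      hcst _ (h10.trans hUj) x hx v ⟨hj1', hv2⟩
    have e2 : ‖F w‖ ≤ Real.exp ((lam + κ / 8) * v) :=
      hup v (h11.trans hv) x ⟨by linarith [hx.1], by linarith [hx.2]⟩
    have e3 : ‖c (U j) - cs‖ ≤ 2 * (2 * Real.exp (-(a * U j))) := hcs j
    have hlamU : U j ≤ lam * U j := by
      have := mul_le_mul_of_nonneg_right hlam hUpos.le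
      linarith
    have hvU : v / 8 ≤ U j / 4 := by nlinarith
    have e4 : Real.exp (-(lam * U j / 2)) ≤ Real.exp (-(v / 8)) :=
      Real.exp_le_exp.2 (by linarith)
    have e5 : Real.exp (-(a * U j)) * Real.exp ((lam + κ / 8) * v) ≤ Real.exp (-(v / 8)) := by
      rw [← Real.exp_add]
      apply Real.exp_le_exp.2
      have h1 : (lam + κ / 8) * v ≤ (lam + κ / 8) * ((1 + κ) * U j) :=
        mul_le_mul_of_nonneg_left hv2 (by linarith)
      have h2 : -(a * U j) + (lam + κ / 8) * ((1 + κ) * U j) =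
          (-(lam / 2) + lam * κ / 4 + κ / 8 * (2 + 7 * κ / 4)) * U j := by
        rw [ha]; ring
      have h3 : -(lam / 2) + lam * κ / 4 + κ / 8 * (2 + 7 * κ / 4) ≤ -(1 / 4) := by
        have h4 : lam * κ ≤ lam * (1 / 8) := mul_le_mul_of_nonneg_left hκ' (by linarith)
        have h5 : κ / 8 * (2 + 7 * κ / 4) ≤ 1 / 64 * 3 :=
          mul_le_mul (by linarith) (by linarith) (by positivity) (by norm_num)
        linarith
      have h6 := mul_le_mul_of_nonneg_right h3 hUpos.le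
      linarith
    have : G₀ w - cs * F w = (G₀ w - c (U j) * F w) + (c (U j) - cs) * F w := by ring
    rw [this]
    calc ‖(G₀ w - c (U j) * F w) + (c (U j) - cs) * F w‖
        ≤ ‖G₀ w - c (U j) * F w‖ + ‖c (U j) - cs‖ * ‖F w‖ := by
          rw [← norm_mul]; exact norm_add_le _ _
      _ ≤ Real.exp (-(v / 8)) +
          2 * (2 * Real.exp (-(a * U j))) * Real.exp ((lam + κ / 8) * v) :=
          add_le_add (e1.trans e4) (mul_le_mul e3 e2 (norm_nonneg _) (by positivity))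
      _ ≤ 5 * Real.exp (-(v / 8)) := by nlinarith
  refine ⟨cs, fun ε hε => ?_⟩
  refine ⟨Real.exp (-(max u₁ (8 * Real.log (5 / ε)))), Real.exp_pos _, fun x hx δ hδ => ?_⟩
  obtain ⟨v, hv⟩ : ∃ v : ℝ, v = -Real.log δ := ⟨_, rfl⟩
  have hδv : δ = Real.exp (-v) := by rw [hv, neg_neg, Real.exp_log hδ.1]
  have hlt : max u₁ (8 * Real.log (5 / ε)) < v := by
    have := hδ.2
    rw [hδv] at this
    have := Real.exp_lt_exp.1 this
    linarith
  have hv1 : u₁ ≤ v := (le_max_left _ _).trans hlt.le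
  have hv2 : 8 * Real.log (5 / ε) ≤ v := (le_max_right _ _).trans hlt.le
  have := hmain x hx v hv1
  rw [← hδv] at this
  refine this.trans ?_
  have h1 : Real.exp (-(v / 8)) ≤ Real.exp (-Real.log (5 / ε)) :=
    Real.exp_le_exp.2 (by linarith)
  rw [Real.exp_neg (Real.log (5 / ε)), Real.exp_log (by positivity)] at h1
  calc 5 * Real.exp (-(v / 8)) ≤ 5 * (5 / ε)⁻¹ := by linarith
    _ = ε := by field_simp

end Claimed.Agent.R269
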