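/-
Row 269, mesh package (P1 Thm 9.11).   Owner: helper149.   PROVED.

Primitives of holomorphic functions on the lower half plane (Mathlib: `Convex.exists_forall_hasDerivWithinAt`).
-/
import Claimed.Agent.R269.S9.MeshDefs

set_option autoImplicit false

namespace Claimed.Agent.R269

open Set Metric

/-- every holomorphic function on `ℍ₋` has a primitive there. -/
theorem s9g_primitive_LH (h : ℂ → ℂ) (hh : DifferentiableOn ℂ h s9f_LH) :
    ∃ Φ : ℂ → ℂ, ∀ z ∈ s9f_LH, HasDerivAt Φ (h z) z := by
  obtain ⟨g, hg⟩ := s9f_convex_LH.exists_forall_hasDerivWithinAt hh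
  exact ⟨g, fun z hz => (hg z hz).hasDerivAt (s9f_isOpen_LH.mem_nhds hz)⟩

end Claimed.Agent.R269
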