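/-
Row 269, mesh package (P1 Thm 9.11).  LEAF FILE `LF-S9g-ode`.   Blueprint: helper149.

Existence of a second solution of `y'' = q y` in `ℍ₋` with Wronskian `1` against `F`.
(The paper takes `G = F ∫ F^{-2}` and checks that the residues vanish; the ODE route below needs no
residue calculus.)

PROOF SKETCH.
(1) `s9g_ode_solve`: Picard iteration with the primitives of `s9g_primitive_LH`.  For holomorphic `h` let
    `I h` be the primitive vanishing at `z₀`.  `y₀ = a + b (z - z₀)`, `y_{n+1} = y₀ + I (I (q y_n))`.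
    On a compact convex `K ⊆ ℍ₋` containing `z₀` (e.g. `[-j,j] × [-j,-1/j]`), with `Q = sup_K |q|`,
    `C₀ = sup_K |y₀|`:  `|y_{n+1} - y_n|(z) ≤ C₀ Q^{n+1} |z - z₀|^{2n+2} / (2n+2)!` on `K`, by induction, applying the
    mean value comparison `image_norm_le_of_norm_deriv_right_le_deriv_boundary` to `t ↦ (I h)(z₀ + t (z - z₀))`
    (or, cheaper, a weighted sup norm `sup_K e^{-μ|z - z₀|}|h|`, on which `I` has norm `≤ 1/μ`).
    Hence `y_n` converges locally uniformly on `ℍ₋`; the limit `y` is holomorphic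
    (`TendstoLocallyUniformlyOn.differentiableOn`), derivatives converge (`TendstoLocallyUniformlyOn.deriv`),
    and `y_{n+1}'' = q y_n` gives `y'' = q y`; `y z₀ = a`, `y' z₀ = b`.
(2) Take `z₀` with `F z₀ ≠ 0`, `a = 0`, `b = 1 / F z₀`.  `W = F y' - F' y` has `W' = F y'' - F'' y = 0` on the convex
    set `ℍ₋`, so `W ≡ W z₀ = 1`.
-/
import Claimed.Agent.R269.S9.MeshPrim
import Claimed.Agent.R269.Lib.CAOde

set_option autoImplicit false

namespace Claimed.Agent.R269

open Set Metric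

/-- LEAF: the linear ODE `y'' = q y` with holomorphic coefficient is solvable in `ℍ₋`. -/
theorem s9g_ode_solve (q : ℂ → ℂ) (hq : DifferentiableOn ℂ q s9f_LH) (z₀ : ℂ) (hz₀ : z₀ ∈ s9f_LH)
    (a b : ℂ) :
    ∃ y : ℂ → ℂ, DifferentiableOn ℂ y s9f_LH ∧ (∀ z ∈ s9f_LH, deriv (deriv y) z = q z * y z) ∧
      y z₀ = a ∧ deriv y z₀ = b :=
  ca_ode2_solve s9f_isOpen_LH s9f_convex_LH hq hz₀ a b

/-- LEAF (short, from `s9g_ode_solve`): a second solution with Wronskian `1`. -/
theorem s9g_second_solution {F q : ℂ → ℂ} (h : S9fMesh F q) : ∃ G₀ : ℂ → ℂ, S9gSecond F G₀ := by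
  obtain ⟨z₀, hz₀, hF₀⟩ := h.ne_zero
  obtain ⟨y, v, hy0, hv0, hy, hv⟩ :=
    ca_ode2_hasDeriv s9f_isOpen_LH s9f_convex_LH h.q_diff hz₀ 0 (1 / F z₀)
  have hF : ∀ z ∈ s9f_LH, HasDerivAt F (deriv F z) z := fun z hz =>
    ((h.F_diff z hz).differentiableAt (s9f_isOpen_LH.mem_nhds hz)).hasDerivAt
  have hF' : ∀ z ∈ s9f_LH, HasDerivAt (deriv F) (q z * F z) z := fun z hz => by
    have h1 : DifferentiableAt ℂ (deriv F) z :=
      ((h.F_diff.deriv s9f_isOpen_LH) z hz).differentiableAt (s9f_isOpen_LH.mem_nhds hz)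
    have h2 := h1.hasDerivAt
    rwa [h.ode z hz] at h2
  have hW : ∀ z ∈ s9f_LH, HasDerivAt (fun z => F z * v z - deriv F z * y z) 0 z := fun z hz => by
    have h1 := ((hF z hz).mul (hv z hz)).sub ((hF' z hz).mul (hy z hz))
    refine h1.congr_deriv ?_
    ring
  have hconst : ∀ z ∈ s9f_LH, F z * v z - deriv F z * y z = 1 := by
    intro z hz
    have h1 := s9f_isOpen_LH.is_const_of_deriv_eq_zero s9f_convex_LH.isPreconnected
      (f := fun z => F z * v z - deriv F z * y z)
      (fun z hz => (hW z hz).differentiableAt.differentiableWithinAt)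
      (fun z hz => (hW z hz).deriv) hz hz₀
    rw [h1, hy0, hv0]
    field_simp
    ring
  refine ⟨y, fun z hz => (hy z hz).differentiableAt.differentiableWithinAt, fun z hz => ?_⟩
  rw [(hy z hz).deriv]
  exact hconst z hz

end Claimed.Agent.R269
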