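/-
Row 269, mesh package (P1 Thm 9.11).  LEAF FILE `LF-S9g-encl`.   Blueprint: helper149.

Cauchy estimate for a closed polygon which visibly winds once around `z` (replaces the Jordan curve theorem / maximum principle
inside the mesh loop of the paper).  The polygon consists of four arcs lying successively in the four open half planes
below, to the right of, above, to the left of `z`.

PROOF SKETCH.  `g ζ / (ζ - z) = dslope g z ζ + g z / (ζ - z)` for `ζ ≠ z`.  `dslope g z` is holomorphic in `ℍ₋`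
(`DifferentiableOn` version of `differentiableOn_dslope`), so it has a primitive `Φ` (`s9g_primitive_LH`).  Branches of `log (ζ - z)`:
  `ℓ₀ ζ = Complex.log (I * (ζ - z)) - π/2 * I`     on `Im ζ < Im z`   (`I (ζ - z)` has positive real part),
  `ℓ₁ ζ = Complex.log (ζ - z)`                      on `Re ζ > Re z`,
  `ℓ₂ ζ = Complex.log (-I * (ζ - z)) + π/2 * I`    on `Im ζ > Im z`,
  `ℓ₃ ζ = Complex.log (-(ζ - z)) + π * I`          on `Re ζ < Re z`.
Each has derivative `1/(ζ - z)` on its half plane (argument in `Complex.slitPlane`).  `ℓ₀ = ℓ₁` on the overlap of the first two half planes,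
`ℓ₁ = ℓ₂`, `ℓ₂ = ℓ₃` likewise, and `ℓ₃ = ℓ₀ + 2π I` where `Re ζ < Re z`, `Im ζ < Im z` (compare `exp` and the ranges of `arg`, or use
`Complex.log_mul_eq_add_log_iff` / `Complex.arg_mul_eq_add_arg_iff`).
`Λ_a = Φ + g z · ℓ_a` is a primitive of `g ζ/(ζ - z)` on the a-th half plane (intersected with `ℍ₋`), whose norm is `≤ B/η` on the segments;
each segment of the a-th arc lies in the (convex) half plane, so `‖Λ_a (P (j+1)) - Λ_a (P j)‖ ≤ (B/η) ‖P (j+1) - P j‖`
(`Convex.norm_image_sub_le_of_norm_hasDerivWithin_le`).  Telescoping the four arcs and using `P n = P 0`: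
  `∑_a (Λ_a (P m_{a+1}) - Λ_a (P m_a)) = g z · (ℓ₃ (P 0) - ℓ₀ (P 0)) = 2π I · g z`.
-/
import Claimed.Agent.R269.S9.MeshPrim

set_option autoImplicit false

namespace Claimed.Agent.R269

open Set Metric

theorem s9g_log_I_mul {v : ℂ} (hv : 0 < v.re) :
    Complex.log (Complex.I * v) = Real.pi / 2 * Complex.I + Complex.log v := by
  have hv0 : v ≠ 0 := by intro h; rw [h] at hv; simp at hv
  have harg : |Complex.arg v| < Real.pi / 2 := Complex.abs_arg_lt_pi_div_two_iff.mpr (Or.inl hv)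
  rw [(Complex.log_mul_eq_add_log_iff Complex.I_ne_zero hv0).mpr, Complex.log_I]
  rw [Complex.arg_I]
  have := abs_lt.mp harg
  constructor <;> linarith [Real.pi_pos]

theorem s9g_log_neg_I_mul {v : ℂ} (hv : 0 < v.re) :
    Complex.log (-Complex.I * v) = -(Real.pi / 2) * Complex.I + Complex.log v := by
  have hv0 : v ≠ 0 := by intro h; rw [h] at hv; simp at hv
  have harg : |Complex.arg v| < Real.pi / 2 := Complex.abs_arg_lt_pi_div_two_iff.mpr (Or.inl hv)
  rw [(Complex.log_mul_eq_add_log_iff (neg_ne_zero.mpr Complex.I_ne_zero) hv0).mpr,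
    Complex.log_neg_I]
  rw [Complex.arg_neg_I]
  have := abs_lt.mp harg
  constructor <;> linarith [Real.pi_pos]

/-- mean value estimate along an arc of a polygon inside a convex set. -/
theorem s9g_arc (Λ f : ℂ → ℂ) (Hs : Set ℂ) (hconv : Convex ℝ Hs)
    (hder : ∀ ζ ∈ Hs, HasDerivAt Λ (f ζ) ζ) (P : ℕ → ℂ) (C : ℝ) (a b : ℕ) (hab : a ≤ b)
    (hP : ∀ j, a ≤ j → j ≤ b → P j ∈ Hs)
    (hC : ∀ j, a ≤ j → j < b → ∀ ζ ∈ segment ℝ (P j) (P (j + 1)), ‖f ζ‖ ≤ C) :
    ‖Λ (P b) - Λ (P a)‖ ≤ C * ∑ j ∈ Finset.Ico a b, ‖P (j + 1) - P j‖ := by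
  induction b, hab using Nat.le_induction with
  | base => simp
  | succ b hab ih =>
    have h1 := ih (fun j h1 h2 => hP j h1 (by omega)) (fun j h1 h2 => hC j h1 (by omega))
    have hsub : segment ℝ (P b) (P (b + 1)) ⊆ Hs :=
      hconv.segment_subset (hP b hab (by omega)) (hP (b + 1) (by omega) le_rfl)
    have h2 := Convex.norm_image_sub_le_of_norm_hasDerivWithin_le
      (fun x hx => (hder x (hsub hx)).hasDerivWithinAt) (hC b hab (by omega))
      (convex_segment _ _) (left_mem_segment ℝ _ _) (right_mem_segment ℝ _ _)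
    rw [Finset.sum_Ico_succ_top hab, mul_add]
    calc ‖Λ (P (b + 1)) - Λ (P a)‖ ≤ ‖Λ (P b) - Λ (P a)‖ + ‖Λ (P (b + 1)) - Λ (P b)‖ := by
          refine le_trans (le_of_eq ?_) (norm_add_le _ _)
          congr 1; ring
      _ ≤ _ := add_le_add h1 h2

/-- the primitive of `g ζ / (ζ - z)` built from a primitive of `dslope g z` and a branch of the logarithm. -/
theorem s9g_hasDerivAt_branch (g Φ : ℂ → ℂ) (z u κ ζ : ℂ) (hu : u ≠ 0)
    (hζ : u * (ζ - z) ∈ Complex.slitPlane) (hΦ : HasDerivAt Φ (dslope g z ζ) ζ) :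
    HasDerivAt (fun w => Φ w + g z * (Complex.log (u * (w - z)) + κ)) (g ζ / (ζ - z)) ζ := by
  have hne : ζ - z ≠ 0 := by
    intro h
    rw [h, mul_zero] at hζ
    exact Complex.zero_notMem_slitPlane hζ
  have hne' : ζ ≠ z := sub_ne_zero.mp hne
  have d1 : HasDerivAt (fun w => u * (w - z)) u ζ := by
    simpa using ((hasDerivAt_id ζ).sub_const z).const_mul u
  have d2 := (d1.clog hζ).add_const κ
  have d3 := hΦ.add (d2.const_mul (g z))
  have e : dslope g z ζ + g z * (u / (u * (ζ - z))) = g ζ / (ζ - z) := by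
    rw [dslope_of_ne _ hne', slope_def_field]
    field_simp
    ring
  rw [e] at d3
  exact d3

/-- LEAF: Cauchy estimate on a polygon with four half-plane arcs. -/
theorem s9g_enclosure (g : ℂ → ℂ) (hg : DifferentiableOn ℂ g s9f_LH)
    (n m₁ m₂ m₃ : ℕ) (P : ℕ → ℂ) (h12 : m₁ ≤ m₂) (h23 : m₂ ≤ m₃) (h3n : m₃ ≤ n) (hcl : P n = P 0)
    (hP : ∀ j ≤ n, P j ∈ s9f_LH) (z : ℂ) (hz : z ∈ s9f_LH)
    (h0 : ∀ j, j ≤ m₁ → (P j).im < z.im)
    (h1 : ∀ j, m₁ ≤ j → j ≤ m₂ → z.re < (P j).re)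
    (h2 : ∀ j, m₂ ≤ j → j ≤ m₃ → z.im < (P j).im)
    (h3 : ∀ j, m₃ ≤ j → j ≤ n → (P j).re < z.re)
    (B η : ℝ) (hη : 0 < η)
    (hB : ∀ j < n, ∀ ζ ∈ segment ℝ (P j) (P (j + 1)), ‖g ζ‖ ≤ B ∧ η ≤ ‖ζ - z‖) :
    2 * Real.pi * ‖g z‖ ≤ (∑ j ∈ Finset.range n, ‖P (j + 1) - P j‖) * (B / η) := by
  obtain ⟨Φ, hΦ⟩ := s9g_primitive_LH (dslope g z)
    ((Complex.differentiableOn_dslope (s9f_isOpen_LH.mem_nhds hz)).mpr hg)
  have hC : ∀ j < n, ∀ ζ ∈ segment ℝ (P j) (P (j + 1)), ‖g ζ / (ζ - z)‖ ≤ B / η := by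
    intro j hj ζ hζ
    obtain ⟨b1, b2⟩ := hB j hj ζ hζ
    rw [norm_div]
    exact div_le_div₀ ((norm_nonneg _).trans b1) b1 hη b2
  have hI : Complex.I ≠ 0 := Complex.I_ne_zero
  -- the four arcs
  have A0 := s9g_arc (fun w => Φ w + g z * (Complex.log (Complex.I * (w - z)) +
      (-(Real.pi / 2) * Complex.I))) (fun ζ => g ζ / (ζ - z)) (s9f_LH ∩ {c : ℂ | c.im < z.im})
    (s9f_convex_LH.inter (convex_halfSpace_im_lt z.im))
    (fun ζ hζ => s9g_hasDerivAt_branch g Φ z _ _ ζ hI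
      (Complex.mem_slitPlane_iff.mpr (Or.inl (by
        have : ζ.im < z.im := hζ.2
        simp; linarith))) (hΦ ζ hζ.1))
    P (B / η) 0 m₁ (Nat.zero_le _) (fun j _ g2 => ⟨hP j (by omega), h0 j g2⟩)
    (fun j _ g2 => hC j (by omega))
  have A1 := s9g_arc (fun w => Φ w + g z * (Complex.log (1 * (w - z)) + 0))
    (fun ζ => g ζ / (ζ - z)) (s9f_LH ∩ {c : ℂ | z.re < c.re})
    (s9f_convex_LH.inter (convex_halfSpace_re_gt z.re))
    (fun ζ hζ => s9g_hasDerivAt_branch g Φ z _ _ ζ one_ne_zero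
      (Complex.mem_slitPlane_iff.mpr (Or.inl (by
        have : z.re < ζ.re := hζ.2
        simp; linarith))) (hΦ ζ hζ.1))
    P (B / η) m₁ m₂ h12 (fun j g1 g2 => ⟨hP j (by omega), h1 j g1 g2⟩)
    (fun j _ g2 => hC j (by omega))
  have A2 := s9g_arc (fun w => Φ w + g z * (Complex.log (-Complex.I * (w - z)) +
      (Real.pi / 2 * Complex.I))) (fun ζ => g ζ / (ζ - z)) (s9f_LH ∩ {c : ℂ | z.im < c.im})
    (s9f_convex_LH.inter (convex_halfSpace_im_gt z.im))
    (fun ζ hζ => s9g_hasDerivAt_branch g Φ z _ _ ζ (neg_ne_zero.mpr hI)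
      (Complex.mem_slitPlane_iff.mpr (Or.inl (by
        have : z.im < ζ.im := hζ.2
        simp; linarith))) (hΦ ζ hζ.1))
    P (B / η) m₂ m₃ h23 (fun j g1 g2 => ⟨hP j (by omega), h2 j g1 g2⟩)
    (fun j _ g2 => hC j (by omega))
  have A3 := s9g_arc (fun w => Φ w + g z * (Complex.log (-1 * (w - z)) +
      (Real.pi * Complex.I))) (fun ζ => g ζ / (ζ - z)) (s9f_LH ∩ {c : ℂ | c.re < z.re})
    (s9f_convex_LH.inter (convex_halfSpace_re_lt z.re))
    (fun ζ hζ => s9g_hasDerivAt_branch g Φ z _ _ ζ (neg_ne_zero.mpr one_ne_zero)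
      (Complex.mem_slitPlane_iff.mpr (Or.inl (by
        have : ζ.re < z.re := hζ.2
        simp; linarith))) (hΦ ζ hζ.1))
    P (B / η) m₃ n h3n (fun j g1 g2 => ⟨hP j g2, h3 j g1 g2⟩)
    (fun j _ g2 => hC j g2)
  -- matching of the branches
  have M1 : Complex.log (Complex.I * (P m₁ - z)) + (-(Real.pi / 2) * Complex.I) =
      Complex.log (1 * (P m₁ - z)) + 0 := by
    rw [s9g_log_I_mul (by have := h1 m₁ le_rfl h12; simp; linarith)]
    rw [one_mul]; ring
  have M2 : Complex.log (-Complex.I * (P m₂ - z)) + (Real.pi / 2 * Complex.I) =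
      Complex.log (1 * (P m₂ - z)) + 0 := by
    rw [s9g_log_neg_I_mul (by have := h1 m₂ h12 le_rfl; simp; linarith)]
    rw [one_mul]; ring
  have M3 : Complex.log (-Complex.I * (P m₃ - z)) + (Real.pi / 2 * Complex.I) =
      Complex.log (-1 * (P m₃ - z)) + (Real.pi * Complex.I) := by
    rw [show -Complex.I * (P m₃ - z) = Complex.I * (-1 * (P m₃ - z)) by ring,
      s9g_log_I_mul (by have := h3 m₃ le_rfl h3n; simp; linarith)]
    ring
  have M4 : Complex.log (-1 * (P n - z)) + (Real.pi * Complex.I) =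
      Complex.log (Complex.I * (P 0 - z)) + (-(Real.pi / 2) * Complex.I) +
        2 * Real.pi * Complex.I := by
    rw [hcl, show Complex.I * (P 0 - z) = -Complex.I * (-1 * (P 0 - z)) by ring,
      s9g_log_neg_I_mul (by have := h3 n h3n le_rfl; rw [hcl] at this; simp; linarith)]
    ring
  have hsum : ∑ j ∈ Finset.range n, ‖P (j + 1) - P j‖ =
      ∑ j ∈ Finset.Ico 0 m₁, ‖P (j + 1) - P j‖ + ∑ j ∈ Finset.Ico m₁ m₂, ‖P (j + 1) - P j‖ +
      ∑ j ∈ Finset.Ico m₂ m₃, ‖P (j + 1) - P j‖ + ∑ j ∈ Finset.Ico m₃ n, ‖P (j + 1) - P j‖ := by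
    rw [Finset.sum_Ico_consecutive _ (Nat.zero_le _) h12,
      Finset.sum_Ico_consecutive _ (Nat.zero_le _) h23,
      Finset.sum_Ico_consecutive _ (Nat.zero_le _) h3n, Finset.range_eq_Ico]
  have hT : 2 * Real.pi * Complex.I * g z =
      ((Φ (P m₁) + g z * (Complex.log (Complex.I * (P m₁ - z)) + (-(Real.pi / 2) * Complex.I))) -
        (Φ (P 0) + g z * (Complex.log (Complex.I * (P 0 - z)) + (-(Real.pi / 2) * Complex.I)))) +
      ((Φ (P m₂) + g z * (Complex.log (1 * (P m₂ - z)) + 0)) -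
        (Φ (P m₁) + g z * (Complex.log (1 * (P m₁ - z)) + 0))) +
      ((Φ (P m₃) + g z * (Complex.log (-Complex.I * (P m₃ - z)) + (Real.pi / 2 * Complex.I))) -
        (Φ (P m₂) + g z * (Complex.log (-Complex.I * (P m₂ - z)) + (Real.pi / 2 * Complex.I)))) +
      ((Φ (P n) + g z * (Complex.log (-1 * (P n - z)) + (Real.pi * Complex.I))) -
        (Φ (P m₃) + g z * (Complex.log (-1 * (P m₃ - z)) + (Real.pi * Complex.I)))) := by
    rw [M1, M2, M3, M4, hcl]
    ring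
  have hnorm : ‖2 * Real.pi * Complex.I * g z‖ = 2 * Real.pi * ‖g z‖ := by
    rw [norm_mul, norm_mul, norm_mul, Complex.norm_I, Complex.norm_real, Real.norm_eq_abs,
      abs_of_pos Real.pi_pos]
    simp
  rw [← hnorm, hT, hsum]
  refine (norm_add_le _ _).trans ?_
  refine (add_le_add ((norm_add_le _ _).trans (add_le_add (norm_add_le _ _) le_rfl)) le_rfl).trans ?_
  have := add_le_add (add_le_add (add_le_add A0 A1) A2) A3
  refine this.trans (le_of_eq ?_)
  ring

end Claimed.Agent.R269
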