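/-
Row 269, mesh package (P1 Thm 9.11).  LEAF FILE `LF-S9f-div`.   Blueprint: helper149.   Proof: helper175.

Division by Blaschke factors (replaces the Riesz/Jensen count of zeros in P1 Lemma 9.13).

PROOF SKETCH.  Induction on `N`, for all `f`.  If `f` has no zero in `closedBall ζ₀ R`: `n = 0`, `g = f`.
Otherwise let `f a = 0`, `‖a - ζ₀‖ ≤ R` (`a ≠ ζ₀` because `f ζ₀ ≠ 0`).  With `ρ = 2R`, `a' = a - ζ₀`, `b ζ = ρ (ζ - a) / (ρ² - conj a' (ζ - ζ₀))`: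
`f₁ ζ := dslope f a ζ * (ρ² - conj a' (ζ - ζ₀)) / ρ` is holomorphic on `ball ζ₀ R₀`, `f = f₁ b` on `closedBall ζ₀ ρ`,
`‖b‖ = 1` on the sphere of radius `ρ`, so `‖f₁‖ ≤ B` on `closedBall ζ₀ ρ` by the maximum principle
(`Complex.norm_le_of_forall_mem_frontier_norm_le`), and `‖f₁ ζ₀‖ = ‖f ζ₀‖ ρ / ‖a'‖ ≥ 2 ‖f ζ₀‖`.
`N = 0`: `‖f₁ ζ₀‖ ≥ 2B > B`, contradiction.  `N + 1`: apply the induction hypothesis to `f₁` and add `a` to the list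
(`Fin.cons`); on `closedBall ζ₀ R`: `‖b ζ‖ ≥ ρ ‖ζ - a‖ / (ρ² + R²) ≥ ‖ζ - a‖ / (4R)`.
-/
import Claimed.Agent.R269.S9.MeshDefs

set_option autoImplicit false

namespace Claimed.Agent.R269

open Set Metric

/-- one zero is divided out -/
theorem s9fd_step (f : ℂ → ℂ) (ζ₀ a : ℂ) (R R₀ B : ℝ) (hR : 0 < R) (hR₀ : 2 * R < R₀)
    (hf : DifferentiableOn ℂ f (ball ζ₀ R₀)) (hfB : ∀ ζ ∈ closedBall ζ₀ (2 * R), ‖f ζ‖ ≤ B)
    (ha : a ∈ closedBall ζ₀ R) (hfa : f a = 0) :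
    ∃ f₁ : ℂ → ℂ, DifferentiableOn ℂ f₁ (ball ζ₀ R₀) ∧ (∀ ζ ∈ closedBall ζ₀ (2 * R), ‖f₁ ζ‖ ≤ B) ∧
      2 * ‖f ζ₀‖ ≤ ‖f₁ ζ₀‖ ∧ ∀ ζ ∈ closedBall ζ₀ R, ‖f₁ ζ‖ * (‖ζ - a‖ / (4 * R)) ≤ ‖f ζ‖ := by
  set ρ : ℝ := 2 * R with hρ
  have hρ0 : 0 < ρ := by positivity
  have hρc : (ρ : ℂ) ≠ 0 := by exact_mod_cast hρ0.ne'
  set q : ℂ → ℂ := fun ζ => (ρ : ℂ) ^ 2 - (starRingEnd ℂ) (a - ζ₀) * (ζ - ζ₀) with hq
  set f₁ : ℂ → ℂ := fun ζ => dslope f a ζ * q ζ / (ρ : ℂ) with hf₁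
  have haR : ‖a - ζ₀‖ ≤ R := by
    rw [mem_closedBall, dist_eq_norm] at ha
    exact ha
  have ha_ball : a ∈ ball ζ₀ R₀ := by
    rw [mem_ball, dist_eq_norm]
    linarith
  have hds : DifferentiableOn ℂ (dslope f a) (ball ζ₀ R₀) :=
    (Complex.differentiableOn_dslope (isOpen_ball.mem_nhds ha_ball)).2 hf
  have hqd : Differentiable ℂ q :=
    (differentiable_const _).sub ((differentiable_const _).mul (differentiable_id.sub (differentiable_const _)))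
  have hd1 : DifferentiableOn ℂ f₁ (ball ζ₀ R₀) := (hds.mul hqd.differentiableOn).div_const _
  have hfac : ∀ ζ, f ζ = (ζ - a) * dslope f a ζ := by
    intro ζ
    have := sub_smul_dslope f a ζ
    rw [hfa, sub_zero, smul_eq_mul] at this
    exact this.symm
  have hI : ∀ ζ, f ζ * q ζ = f₁ ζ * ρ * (ζ - a) := by
    intro ζ
    rw [hfac ζ]
    simp only [hf₁]
    field_simp
  have hIn : ∀ ζ, ‖f ζ‖ * ‖q ζ‖ = ‖f₁ ζ‖ * ρ * ‖ζ - a‖ := by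
    intro ζ
    have := congrArg norm (hI ζ)
    rw [norm_mul, norm_mul, norm_mul, Complex.norm_real, Real.norm_of_nonneg hρ0.le] at this
    exact this
  have hsph : ∀ ζ, ‖ζ - ζ₀‖ = ρ → ‖q ζ‖ = ρ * ‖ζ - a‖ := by
    intro ζ hζ
    have e : q ζ = (ζ - ζ₀) * (starRingEnd ℂ) (ζ - a) := by
      have h1 : (ρ : ℂ) ^ 2 = (ζ - ζ₀) * (starRingEnd ℂ) (ζ - ζ₀) := by
        rw [Complex.mul_conj, Complex.normSq_eq_norm_sq, hζ]
        push_cast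
        ring
      have h2 : (starRingEnd ℂ) (ζ - a) = (starRingEnd ℂ) (ζ - ζ₀) - (starRingEnd ℂ) (a - ζ₀) := by
        rw [← map_sub, sub_sub_sub_cancel_right]
      simp only [hq]
      rw [h1, h2]
      ring
    rw [e, norm_mul, RCLike.norm_conj, hζ]
  have hB1 : ∀ ζ ∈ closedBall ζ₀ ρ, ‖f₁ ζ‖ ≤ B := by
    intro ζ hζ
    have hcl : closure (ball ζ₀ ρ) = closedBall ζ₀ ρ := closure_ball ζ₀ hρ0.ne'
    refine Complex.norm_le_of_forall_mem_frontier_norm_le (U := ball ζ₀ ρ) isBounded_ball ?_ ?_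
      (by rw [hcl]; exact hζ)
    · apply DifferentiableOn.diffContOnCl
      rw [hcl]
      exact hd1.mono (closedBall_subset_ball hR₀)
    · intro z hz
      rw [frontier_ball ζ₀ hρ0.ne', mem_sphere, dist_eq_norm] at hz
      have h1 := hIn z
      rw [hsph z hz] at h1
      have h2 : R ≤ ‖z - a‖ := by
        have h3 : z - ζ₀ = (z - a) + (a - ζ₀) := by ring
        have h4 := norm_add_le (z - a) (a - ζ₀)
        rw [← h3, hz] at h4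
        linarith
      have h3 : 0 < ρ * ‖z - a‖ := by
        have : 0 < ‖z - a‖ := by linarith
        positivity
      have h4 : ‖f z‖ = ‖f₁ z‖ := by
        have : ‖f z‖ * (ρ * ‖z - a‖) = ‖f₁ z‖ * (ρ * ‖z - a‖) := by
          rw [h1]
          ring
        exact mul_right_cancel₀ h3.ne' this
      rw [← h4]
      exact hfB z (by rw [mem_closedBall, dist_eq_norm, hz])
  refine ⟨f₁, hd1, hB1, ?_, ?_⟩
  · have h1 := hIn ζ₀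
    have h2 : ‖q ζ₀‖ = ρ ^ 2 := by
      simp only [hq]
      rw [sub_self, mul_zero, sub_zero, norm_pow, Complex.norm_real, Real.norm_of_nonneg hρ0.le]
    rw [h2, norm_sub_rev] at h1
    have h3 : ‖f₁ ζ₀‖ * ρ * ‖a - ζ₀‖ ≤ ‖f₁ ζ₀‖ * ρ * R :=
      mul_le_mul_of_nonneg_left haR (by positivity)
    have h4 : ‖f ζ₀‖ * ρ ^ 2 ≤ ‖f₁ ζ₀‖ * ρ * R := by linarith
    have h5 : (2 * ‖f ζ₀‖) * (ρ * R) ≤ ‖f₁ ζ₀‖ * (ρ * R) := by
      have e : (2 * ‖f ζ₀‖) * (ρ * R) = ‖f ζ₀‖ * ρ ^ 2 := by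
        rw [hρ]
        ring
      rw [e]
      linarith
    exact le_of_mul_le_mul_right h5 (by positivity)
  · intro ζ hζ
    rw [mem_closedBall, dist_eq_norm] at hζ
    have h1 := hIn ζ
    have h2 : ‖q ζ‖ ≤ 5 * R ^ 2 := by
      simp only [hq]
      refine (norm_sub_le _ _).trans ?_
      rw [norm_pow, Complex.norm_real, Real.norm_of_nonneg hρ0.le, norm_mul, RCLike.norm_conj]
      have : ‖a - ζ₀‖ * ‖ζ - ζ₀‖ ≤ R * R := mul_le_mul haR hζ (norm_nonneg _) hR.le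
      rw [hρ]
      nlinarith
    have h3 : ‖f₁ ζ‖ * ρ * ‖ζ - a‖ ≤ ‖f ζ‖ * (5 * R ^ 2) := by
      rw [← h1]
      exact mul_le_mul_of_nonneg_left h2 (norm_nonneg _)
    have h4 : 0 ≤ ‖f₁ ζ‖ * ‖ζ - a‖ := by positivity
    rw [mul_div_assoc', div_le_iff₀ (by positivity)]
    have h5 : ‖f₁ ζ‖ * ‖ζ - a‖ * (2 * R) ≤ ‖f ζ‖ * (5 * R ^ 2) := by
      rw [hρ] at h3
      linarith
    have h6 : ‖f₁ ζ‖ * ‖ζ - a‖ * 2 ≤ ‖f ζ‖ * (5 * R) := by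
      have : (‖f₁ ζ‖ * ‖ζ - a‖ * 2) * R ≤ (‖f ζ‖ * (5 * R)) * R := by nlinarith
      exact le_of_mul_le_mul_right this hR
    have h7 : 0 ≤ ‖f ζ‖ * R := by positivity
    linarith

/-- LEAF: at most `N` zeros can be divided out, leaving a zero-free function with the same bounds. -/
theorem s9f_blaschke_division (N : ℕ) (f : ℂ → ℂ) (ζ₀ : ℂ) (R R₀ B : ℝ) (hR : 0 < R)
    (hR₀ : 2 * R < R₀) (hB : 0 < B) (hf : DifferentiableOn ℂ f (ball ζ₀ R₀))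
    (hfB : ∀ ζ ∈ closedBall ζ₀ (2 * R), ‖f ζ‖ ≤ B) (hf₀ : B ≤ 2 ^ N * ‖f ζ₀‖) :
    ∃ (n : ℕ) (a : Fin n → ℂ) (g : ℂ → ℂ), n ≤ N ∧ DifferentiableOn ℂ g (ball ζ₀ R₀) ∧
      (∀ ζ ∈ closedBall ζ₀ (2 * R), ‖g ζ‖ ≤ B) ∧ ‖f ζ₀‖ ≤ ‖g ζ₀‖ ∧
      (∀ ζ ∈ closedBall ζ₀ R, g ζ ≠ 0) ∧
      ∀ ζ ∈ closedBall ζ₀ R, ‖g ζ‖ * ∏ j, (‖ζ - a j‖ / (4 * R)) ≤ ‖f ζ‖ := by
  have hc : ζ₀ ∈ closedBall ζ₀ (2 * R) := mem_closedBall_self (by positivity)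
  induction N generalizing f with
  | zero =>
    refine ⟨0, Fin.elim0, f, le_rfl, hf, hfB, le_rfl, ?_, fun ζ _ => by simp⟩
    intro a ha hfa
    obtain ⟨f₁, -, h2, h3, -⟩ := s9fd_step f ζ₀ a R R₀ B hR hR₀ hf hfB ha hfa
    have := h2 ζ₀ hc
    rw [pow_zero, one_mul] at hf₀
    linarith
  | succ N ih =>
    by_cases hz : ∀ ζ ∈ closedBall ζ₀ R, f ζ ≠ 0
    · exact ⟨0, Fin.elim0, f, Nat.zero_le _, hf, hfB, le_rfl, hz, fun ζ _ => by simp⟩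
    · push Not at hz
      obtain ⟨a, ha, hfa⟩ := hz
      obtain ⟨f₁, h1, h2, h3, h4⟩ := s9fd_step f ζ₀ a R R₀ B hR hR₀ hf hfB ha hfa
      have h5 : B ≤ 2 ^ N * ‖f₁ ζ₀‖ := by
        refine hf₀.trans ?_
        rw [pow_succ, mul_assoc]
        exact mul_le_mul_of_nonneg_left h3 (by positivity)
      obtain ⟨n, b, g, g1, g2, g3, g4, g5, g6⟩ := ih f₁ h1 h2 h5
      refine ⟨n + 1, Fin.cons a b, g, by omega, g2, g3, ?_, g5, ?_⟩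
      · have := norm_nonneg (f ζ₀)
        linarith
      · intro ζ hζ
        rw [Fin.prod_univ_succ]
        simp only [Fin.cons_zero, Fin.cons_succ]
        have h6 : 0 ≤ ‖ζ - a‖ / (4 * R) := by positivity
        calc ‖g ζ‖ * (‖ζ - a‖ / (4 * R) * ∏ j, (‖ζ - b j‖ / (4 * R)))
            = (‖g ζ‖ * ∏ j, (‖ζ - b j‖ / (4 * R))) * (‖ζ - a‖ / (4 * R)) := by ring
          _ ≤ ‖f₁ ζ‖ * (‖ζ - a‖ / (4 * R)) := mul_le_mul_of_nonneg_right (g6 ζ hζ) h6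
          _ ≤ ‖f ζ‖ := h4 ζ hζ

end Claimed.Agent.R269
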