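/-
Row 269, mesh package (P1 Thm 9.11).  LEAF FILE `LF-S9f-harnack`.   Blueprint: helper149.  Proof: helper221.

Harnack inequality for `log (B/|g|)`, `g` zero-free.

PROOF SKETCH.  `g'/g` is holomorphic on the ball, so it has a primitive `ℓ` (`DifferentiableOn.isExactOn_ball`,
`Complex.IsExactOn.with_val_at`) with `ℓ ζ₀ = 0`; `g e^{-ℓ}` has derivative `0`, so `g = g ζ₀ · e^{ℓ}` on the ball, `‖g ζ‖ = ‖g ζ₀‖ e^{Re ℓ ζ}`.
`Re ℓ ≤ log (B / ‖g ζ₀‖) ≤ H`.  `Complex.borelCaratheodory_zero` (Mathlib.Analysis.Complex.BorelCaratheodory; translate the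
centre to `0`) applied to `ℓ` with `M = H`: `‖ℓ ζ‖ ≤ 2 H r / (R - r) ≤ 2H` for `r = ‖ζ - ζ₀‖ ≤ R/2`.  So `Re ℓ ζ ≥ -2H` and
`‖g ζ‖ ≥ B e^{-H} e^{-2H}`.
-/
import Claimed.Agent.R269.S9.MeshDefs
import Claimed.Agent.R269.Lib.CA1Prim

set_option autoImplicit false

namespace Claimed.Agent.R269

open Set Metric

/-- LEAF: lower bound for a bounded zero-free holomorphic function. -/
theorem s9f_harnack (g : ℂ → ℂ) (ζ₀ : ℂ) (R B H : ℝ) (hR : 0 < R) (hB : 0 < B) (hH : 0 < H)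
    (hg : DifferentiableOn ℂ g (ball ζ₀ R)) (hg0 : ∀ ζ ∈ ball ζ₀ R, g ζ ≠ 0)
    (hgB : ∀ ζ ∈ ball ζ₀ R, ‖g ζ‖ ≤ B) (hg₀ : B * Real.exp (-H) ≤ ‖g ζ₀‖) :
    ∀ ζ ∈ closedBall ζ₀ (R / 2), B * Real.exp (-(3 * H)) ≤ ‖g ζ‖ := by
  intro ζ hζ
  have hc : ζ₀ ∈ ball ζ₀ R := mem_ball_self hR
  have hg00 : g ζ₀ ≠ 0 := hg0 _ hc
  -- the normalised function `v = g / g ζ₀`
  have hv : DifferentiableOn ℂ (fun y => g y / g ζ₀) (ball ζ₀ R) := hg.div_const _
  have hv0 : ∀ y ∈ ball ζ₀ R, g y / g ζ₀ ≠ 0 := fun y hy => div_ne_zero (hg0 y hy) hg00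
  obtain ⟨L, hL0, hL, hexp⟩ := ca_exists_log (v := fun y => g y / g ζ₀) isOpen_ball
    (convex_ball ζ₀ R) hv hv0 (y₀ := ζ₀) (L₀ := 0) hc (by simp [div_self hg00])
  -- translate to the origin
  have hf : DifferentiableOn ℂ (fun z => L (ζ₀ + z)) (ball 0 R) := by
    intro z hz
    have hz' : ζ₀ + z ∈ ball ζ₀ R := by
      simpa [mem_ball, dist_eq_norm] using hz
    have h1 : HasDerivAt (fun z => L (ζ₀ + z)) (deriv (fun y => g y / g ζ₀) (ζ₀ + z)
        / (g (ζ₀ + z) / g ζ₀)) z := by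
      have := (hL _ hz').comp_const_add ζ₀ z
      simpa using this
    exact h1.differentiableAt.differentiableWithinAt
  have hn0 : 0 < ‖g ζ₀‖ := norm_pos_iff.2 hg00
  have hre : ∀ y ∈ ball ζ₀ R, ‖g y‖ = ‖g ζ₀‖ * Real.exp (L y).re := by
    intro y hy
    have := congrArg norm (hexp y hy)
    rw [Complex.norm_exp, norm_div] at this
    rw [this]; field_simp
  have hmaps : Set.MapsTo (fun z => L (ζ₀ + z)) (ball 0 R) {z | z.re ≤ H} := by
    intro z hz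
    have hz' : ζ₀ + z ∈ ball ζ₀ R := by
      simpa [mem_ball, dist_eq_norm] using hz
    have h1 := hre _ hz'
    have h2 := hgB _ hz'
    have h3 : B * Real.exp (-H) * Real.exp (L (ζ₀ + z)).re ≤ B := by
      calc B * Real.exp (-H) * Real.exp (L (ζ₀ + z)).re
          ≤ ‖g ζ₀‖ * Real.exp (L (ζ₀ + z)).re := by gcongr
        _ = ‖g (ζ₀ + z)‖ := h1.symm
        _ ≤ B := h2
    have h4 : Real.exp (-H + (L (ζ₀ + z)).re) ≤ Real.exp 0 := by
      rw [Real.exp_add, Real.exp_zero]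
      have : B * (Real.exp (-H) * Real.exp (L (ζ₀ + z)).re) ≤ B * 1 := by
        rw [mul_one, ← mul_assoc]; exact h3
      exact le_of_mul_le_mul_left this hB
    have h5 := Real.exp_le_exp.1 h4
    show (L (ζ₀ + z)).re ≤ H
    linarith
  have hζn : ‖ζ - ζ₀‖ ≤ R / 2 := by simpa [mem_closedBall, dist_eq_norm] using hζ
  have hζb : ζ - ζ₀ ∈ ball (0 : ℂ) R := by
    rw [mem_ball_zero_iff]; linarith
  have hζB : ζ ∈ ball ζ₀ R := by
    rw [mem_ball, dist_eq_norm]; linarith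
  have hbc := Complex.borelCaratheodory_zero hH hf hmaps hR hζb (by simpa using hL0)
  have hbc' : ‖L ζ‖ ≤ 2 * H := by
    have e : ζ₀ + (ζ - ζ₀) = ζ := by ring
    simp only [e] at hbc
    refine hbc.trans ?_
    rw [div_le_iff₀ (by linarith)]
    nlinarith [norm_nonneg (ζ - ζ₀)]
  have hlow : -(2 * H) ≤ (L ζ).re := by
    have := Complex.abs_re_le_norm (L ζ)
    have h2 := neg_abs_le (L ζ).re
    linarith
  rw [hre ζ hζB]
  calc B * Real.exp (-(3 * H)) = B * Real.exp (-H) * Real.exp (-(2 * H)) := by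
        rw [mul_assoc, ← Real.exp_add]; congr 2; ring
    _ ≤ ‖g ζ₀‖ * Real.exp (L ζ).re := by
        gcongr

end Claimed.Agent.R269
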