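/-
Row 269, mesh package (P1 Thm 9.11).  LEAF FILE `LF-S9f-poly`.   Blueprint: helper149.   Proof: helper175.

One-dimensional substitute for Cartan's lemma (P1 Lemma 9.13 uses Cartan's lemma; we only need exceptional sets of
abscissae / ordinates, so a Chebyshev argument on the line suffices).

PROOF (helper175; a discrete version of the sketch, no singular integrals).  `n = 0`: the set is empty (`1 < 1` is false).
Let `n ≥ 1` and `ψ_j(x) = #{k ≥ 0 : |x - α j| < 2 h / 2^k} ∈ [0, ∞]`.   If `m = ψ_j(x) < ∞` then `2 h / 2^m ≤ |x - α j|`, so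
`∏ |x - α j| < h^n` forces `∑_j ψ_j(x) > n`.   `∫ ψ_j = ∑_k 4 h / 2^k = 8 h`.   Markov: `n vol(S) ≤ 8 h n`.   Together with
`vol(S) ≤ b - a`:  `vol(S) ≤ min (8 h) (b - a) ≤ 5 √((b - a) h)`.
-/
import Claimed.Agent.R269.S9.MeshDefs

set_option autoImplicit false

namespace Claimed.Agent.R269

open Set Metric MeasureTheory

/-- the dyadic counting function of one root -/
noncomputable def s9fp_psi (h c x : ℝ) : ENNReal := ∑' k : ℕ, (ball c (2 * h / 2 ^ k)).indicator 1 x

theorem s9fp_psi_measurable (h c : ℝ) : Measurable (s9fp_psi h c) :=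
  Measurable.tsum fun _ => measurable_one.indicator measurableSet_ball

theorem s9fp_lintegral_psi (h c : ℝ) (hh : 0 < h) : ∫⁻ x, s9fp_psi h c x = ENNReal.ofReal (8 * h) := by
  unfold s9fp_psi
  rw [lintegral_tsum fun _ => (measurable_one.indicator measurableSet_ball).aemeasurable]
  have e : ∀ k : ℕ, ∫⁻ x, (ball c (2 * h / 2 ^ k)).indicator (1 : ℝ → ENNReal) x =
      ENNReal.ofReal (4 * h * (1 / 2) ^ k) := by
    intro k
    rw [lintegral_indicator_one measurableSet_ball, Real.volume_ball]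
    congr 1
    rw [one_div, inv_pow]
    ring
  simp only [e]
  rw [← ENNReal.ofReal_tsum_of_nonneg (fun k => by positivity)
    (summable_geometric_two.mul_left (4 * h)), tsum_mul_left, tsum_geometric_two]
  congr 1
  ring

/-- lower bound of the counting function at a point different from the root -/
theorem s9fp_exists_level (h t : ℝ) (ht : t ≠ 0) :
    ∃ m : ℕ, (∀ k < m, |t| < 2 * h / 2 ^ k) ∧ 2 * h / 2 ^ m ≤ |t| := by
  have ht' : 0 < |t| := abs_pos.2 ht
  have hex : ∃ m : ℕ, 2 * h / 2 ^ m ≤ |t| := by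
    obtain ⟨m, hm⟩ := pow_unbounded_of_one_lt (2 * h / |t|) (by norm_num : (1 : ℝ) < 2)
    refine ⟨m, ?_⟩
    rw [div_lt_iff₀ ht'] at hm
    rw [div_le_iff₀ (by positivity)]
    linarith
  classical
  refine ⟨Nat.find hex, fun k hk => ?_, Nat.find_spec hex⟩
  exact not_le.1 (Nat.find_min hex hk)

theorem s9fp_le_psi (h c x : ℝ) (m : ℕ) (hm : ∀ k < m, |x - c| < 2 * h / 2 ^ k) : (m : ENNReal) ≤ s9fp_psi h c x := by
  unfold s9fp_psi
  refine le_trans ?_ (ENNReal.sum_le_tsum (Finset.range m))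
  have : ∀ k ∈ Finset.range m, (ball c (2 * h / 2 ^ k)).indicator (1 : ℝ → ENNReal) x = 1 := by
    intro k hk
    rw [indicator_of_mem, Pi.one_apply]
    rw [mem_ball, Real.dist_eq]
    exact hm k (Finset.mem_range.1 hk)
  rw [Finset.sum_congr rfl this]
  simp

theorem s9fp_psi_self (h c : ℝ) (hh : 0 < h) : s9fp_psi h c c = ⊤ := by
  refine top_unique (le_of_forall_lt fun y hy => ?_)
  obtain ⟨m, hm⟩ := ENNReal.exists_nat_gt hy.ne
  refine lt_of_lt_of_le hm (s9fp_le_psi h c c m fun k _ => ?_)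
  rw [sub_self, abs_zero]
  positivity

/-- the pointwise inequality -/
theorem s9fp_pointwise (n : ℕ) (α : Fin n → ℝ) (h x : ℝ) (hh : 0 < h) (hx : ∏ j, |x - α j| < h ^ n) :
    (n : ENNReal) ≤ ∑ j, s9fp_psi h (α j) x := by
  by_cases h0 : ∃ j, x = α j
  · obtain ⟨j, rfl⟩ := h0
    have := Finset.single_le_sum (f := fun i => s9fp_psi h (α i) (α j)) (fun i _ => zero_le) (Finset.mem_univ j)
    simp only [s9fp_psi_self h (α j) hh] at this
    exact le_trans le_top this
  · push Not at h0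
    choose m hm1 hm2 using fun j => s9fp_exists_level h (x - α j) (sub_ne_zero.2 (h0 j))
    have h1 : ((∑ j, m j : ℕ) : ENNReal) ≤ ∑ j, s9fp_psi h (α j) x := by
      rw [Nat.cast_sum]
      exact Finset.sum_le_sum fun j _ => s9fp_le_psi h (α j) x (m j) (hm1 j)
    refine le_trans ?_ h1
    have h2 : ∏ j, (2 * h / 2 ^ m j) ≤ ∏ j, |x - α j| :=
      Finset.prod_le_prod (fun j _ => by positivity) fun j _ => hm2 j
    rw [Finset.prod_div_distrib, Finset.prod_const, Finset.card_univ, Fintype.card_fin,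
      Finset.prod_pow_eq_pow_sum] at h2
    have h3 : (2 * h) ^ n / 2 ^ (∑ j, m j) < h ^ n := lt_of_le_of_lt h2 hx
    rw [div_lt_iff₀ (by positivity), mul_pow] at h3
    have h4 : (2 : ℝ) ^ n < 2 ^ (∑ j, m j) := by
      have hp : 0 < h ^ n := by positivity
      nlinarith
    have h5 : n < ∑ j, m j := (pow_lt_pow_iff_right₀ (by norm_num : (1 : ℝ) < 2)).1 h4
    exact_mod_cast h5.le

/-- the bound independent of the interval -/
theorem s9fp_level_le (n : ℕ) (α : Fin n → ℝ) (h : ℝ) (hh : 0 < h) :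
    volume {x : ℝ | ∏ j, |x - α j| < h ^ n} ≤ ENNReal.ofReal (8 * h) := by
  rcases Nat.eq_zero_or_pos n with rfl | hn
  · simp
  have hmeas : Measurable fun x => ∑ j, s9fp_psi h (α j) x :=
    Finset.measurable_sum _ fun j _ => s9fp_psi_measurable h (α j)
  have h1 := mul_meas_ge_le_lintegral hmeas (μ := volume) (n : ENNReal)
  rw [lintegral_finsetSum _ fun j _ => s9fp_psi_measurable h (α j)] at h1
  simp only [s9fp_lintegral_psi h _ hh, Finset.sum_const, Finset.card_univ, Fintype.card_fin, nsmul_eq_mul] at h1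
  have h2 : volume {x : ℝ | (n : ENNReal) ≤ ∑ j, s9fp_psi h (α j) x} ≤ ENNReal.ofReal (8 * h) :=
    (ENNReal.mul_le_mul_iff_right (by exact_mod_cast hn.ne') (ENNReal.natCast_ne_top n)).1 h1
  exact le_trans (measure_mono fun x hx => s9fp_pointwise n α h x hh hx) h2

/-- LEAF: sublevel sets of monic real-rooted polynomials are short. -/
theorem s9f_poly_level (n : ℕ) (α : Fin n → ℝ) (a b h : ℝ) (hab : a ≤ b) (hh : 0 < h) :
    volume {x : ℝ | x ∈ Icc a b ∧ ∏ j, |x - α j| < h ^ n} ≤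
      ENNReal.ofReal (5 * Real.sqrt ((b - a) * h)) := by
  have hl : 0 ≤ b - a := sub_nonneg.2 hab
  have h1 : volume {x : ℝ | x ∈ Icc a b ∧ ∏ j, |x - α j| < h ^ n} ≤ ENNReal.ofReal (8 * h) :=
    le_trans (measure_mono fun x hx => hx.2) (s9fp_level_le n α h hh)
  have h2 : volume {x : ℝ | x ∈ Icc a b ∧ ∏ j, |x - α j| < h ^ n} ≤ ENNReal.ofReal (b - a) := by
    rw [← Real.volume_Icc]
    exact measure_mono fun x hx => hx.1
  have key : ∀ y : ℝ, 0 ≤ y → y ^ 2 ≤ 25 * ((b - a) * h) → y ≤ 5 * Real.sqrt ((b - a) * h) := by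
    intro y hy hy2
    have : y / 5 ≤ Real.sqrt ((b - a) * h) := Real.le_sqrt_of_sq_le (by nlinarith)
    linarith
  rcases le_total (8 * h) (b - a) with hc | hc
  · exact h1.trans (ENNReal.ofReal_le_ofReal (key _ (by positivity) (by nlinarith)))
  · exact h2.trans (ENNReal.ofReal_le_ofReal (key _ hl (by nlinarith)))

end Claimed.Agent.R269
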