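/-
Row 269, mesh package (P1 Thm 9.11).  LEAF FILE `LF-S9f-local`.   Blueprint: helper149.   Proof: helper175.

Local minimum-modulus estimate (= the analytic half of P1 Lemma 9.13 "routing").

PROOF SKETCH of `s9f_local_lines` (assembly of the three leaves imported below).
Let `ζ₀` be the high point, `B = e^M`, `R = 22 ρ`, `R₀ = 99 ρ` (`ball ζ₀ (99ρ) ⊆ ball c (100ρ)`, `ball c (10ρ) ⊆ closedBall ζ₀ (11ρ)`).
`N = ⌈H / log 2⌉₊`, so `B ≤ 2^N ‖F ζ₀‖` and `N ≤ 3H` (as `H ≥ 1`).  `s9f_blaschke_division` gives `n ≤ N`, `a j`, `g`.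
`s9f_harnack` on `ball ζ₀ R`: `‖g‖ ≥ e^{M - 3H}` on `closedBall ζ₀ (11ρ)`.
`h = ρ / 200000`, `X = {x ∈ [Re c - 10ρ, Re c + 10ρ] : ∏ |x - Re (a j)| < h^n}`, `Y` likewise with imaginary parts;
`s9f_poly_level`: `vol X ≤ 5 √(20 ρ h) = ρ/20`.
If `ζ ∈ ball c (10ρ)` and `Re ζ ∉ X` then `∏ ‖ζ - a j‖ ≥ ∏ |Re ζ - Re (a j)| ≥ h^n`, so
`‖F ζ‖ ≥ e^{M-3H} (h / (88 ρ))^n ≥ e^{M - 3H} (1.76·10^7)^{-3H} ≥ e^{M - 60 H}`   (`log (1.76·10^7) < 17`).   Same with `Im`.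
(Formal proof: cruder constants, `N = 2 ⌈H⌉₊ ≤ 4 H`, `1.76·10^7 ≤ 2^25 ≤ e^25`, `Ch = 103`.)
-/
import Claimed.Agent.R269.S9.MeshLocalPoly
import Claimed.Agent.R269.S9.MeshLocalDiv
import Claimed.Agent.R269.S9.MeshLocalHarnack

set_option autoImplicit false

namespace Claimed.Agent.R269

open Set Metric MeasureTheory

/-- the measure bound of the exceptional sets -/
theorem s9fl_vol (n : ℕ) (α : Fin n → ℝ) (t ρ : ℝ) (hρ : 0 < ρ) :
    volume {x : ℝ | x ∈ Icc (t - 10 * ρ) (t + 10 * ρ) ∧ ∏ j, |x - α j| < (ρ / 200000) ^ n} ≤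
      ENNReal.ofReal (ρ / 20) := by
  refine (s9f_poly_level n α _ _ (ρ / 200000) (by linarith) (by positivity)).trans (le_of_eq ?_)
  congr 1
  have e : (t + 10 * ρ - (t - 10 * ρ)) * (ρ / 200000) = (ρ / 100) ^ 2 := by ring
  rw [e, Real.sqrt_sq (by positivity)]
  ring

/-- numerical facts on `exp` -/
theorem s9fl_exp_le_pow (H : ℝ) : Real.exp H ≤ 2 ^ (2 * ⌈H⌉₊) := by
  have h1 : Real.exp H ≤ Real.exp (⌈H⌉₊ : ℝ) := Real.exp_le_exp.2 (Nat.le_ceil H)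
  have h2 : Real.exp (⌈H⌉₊ : ℝ) = Real.exp 1 ^ ⌈H⌉₊ := (Real.exp_one_pow _).symm
  have h3 : Real.exp 1 ≤ 2 ^ 2 := by
    have := Real.exp_one_lt_d9
    norm_num at this ⊢
    linarith
  rw [pow_mul]
  rw [h2] at h1
  exact h1.trans (pow_le_pow_left₀ (Real.exp_pos 1).le h3 _)

theorem s9fl_exp_neg_le (n : ℕ) : Real.exp (-(25 * (n : ℝ))) ≤ (1 / 17600000 : ℝ) ^ n := by
  have h1 : (2 : ℝ) ≤ Real.exp 1 := by
    have := Real.add_one_le_exp (1 : ℝ)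
    linarith
  have h2 : (17600000 : ℝ) ≤ Real.exp 25 := by
    have h3 : Real.exp 25 = Real.exp 1 ^ 25 := by
      rw [Real.exp_one_pow]
      norm_num
    rw [h3]
    refine le_trans (by norm_num) (pow_le_pow_left₀ (by norm_num) h1 25)
  have h4 : Real.exp (-(25 * (n : ℝ))) = (Real.exp 25)⁻¹ ^ n := by
    rw [← Real.exp_neg, ← Real.exp_nat_mul]
    congr 1
    ring
  rw [h4, one_div]
  exact pow_le_pow_left₀ (inv_nonneg.2 (Real.exp_pos _).le) (inv_anti₀ (by norm_num) h2) n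

/-- LEAF: minimum modulus off small sets of vertical and horizontal lines. -/
theorem s9f_local_lines : ∃ Ch : ℝ, 1 ≤ Ch ∧ ∀ (F : ℂ → ℂ) (c : ℂ) (ρ M H : ℝ), 0 < ρ → 1 ≤ H →
    DifferentiableOn ℂ F (ball c (100 * ρ)) → (∀ ζ ∈ ball c (100 * ρ), ‖F ζ‖ ≤ Real.exp M) →
    (∃ ζ₀ ∈ closedBall c ρ, Real.exp (M - H) ≤ ‖F ζ₀‖) →
    ∃ X Y : Set ℝ, volume X ≤ ENNReal.ofReal (ρ / 20) ∧ volume Y ≤ ENNReal.ofReal (ρ / 20) ∧
      ∀ ζ ∈ ball c (10 * ρ), (ζ.re ∉ X ∨ ζ.im ∉ Y) → Real.exp (M - Ch * H) ≤ ‖F ζ‖ := by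
  refine ⟨103, by norm_num, ?_⟩
  intro F c ρ M H hρ hH hF hFB ⟨ζ₀, hζ₀, hhigh⟩
  rw [mem_closedBall] at hζ₀
  have hH0 : 0 < H := by linarith
  -- inclusions
  have hsub : ∀ r : ℝ, r ≤ 99 * ρ → ball ζ₀ r ⊆ ball c (100 * ρ) := fun r hr =>
    ball_subset_ball' (by linarith)
  have hsubc : closedBall ζ₀ (2 * (22 * ρ)) ⊆ ball c (100 * ρ) := by
    intro ζ hζ
    rw [mem_closedBall] at hζ
    rw [mem_ball]
    have := dist_triangle ζ ζ₀ c
    linarith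
  set N : ℕ := 2 * ⌈H⌉₊ with hN
  have hNle : (N : ℝ) ≤ 4 * H := by
    have := Nat.ceil_lt_add_one hH0.le
    rw [hN]
    push_cast
    linarith
  have hB0 : Real.exp M ≤ 2 ^ N * ‖F ζ₀‖ := by
    have e : Real.exp M = Real.exp H * Real.exp (M - H) := by
      rw [← Real.exp_add]
      congr 1
      ring
    rw [e]
    exact mul_le_mul (s9fl_exp_le_pow H) hhigh (Real.exp_pos _).le (by positivity)
  obtain ⟨n, a, g, hn, hg, hgB, hg₀, hgne, hgF⟩ := s9f_blaschke_division N F ζ₀ (22 * ρ) (99 * ρ) (Real.exp M)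
    (by positivity) (by linarith) (Real.exp_pos M) (hF.mono (hsub _ le_rfl)) (fun ζ hζ => hFB ζ (hsubc hζ)) hB0
  have hharn := s9f_harnack g ζ₀ (22 * ρ) (Real.exp M) H (by positivity) (Real.exp_pos M) hH0
    (hg.mono (ball_subset_ball (by linarith))) (fun ζ hζ => hgne ζ (ball_subset_closedBall hζ))
    (fun ζ hζ => hgB ζ (closedBall_subset_closedBall (by linarith) (ball_subset_closedBall hζ)))
    (by
      rw [← Real.exp_add]
      exact hhigh.trans hg₀)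
  refine ⟨{x : ℝ | x ∈ Icc (c.re - 10 * ρ) (c.re + 10 * ρ) ∧ ∏ j, |x - (a j).re| < (ρ / 200000) ^ n},
    {x : ℝ | x ∈ Icc (c.im - 10 * ρ) (c.im + 10 * ρ) ∧ ∏ j, |x - (a j).im| < (ρ / 200000) ^ n},
    s9fl_vol n _ _ ρ hρ, s9fl_vol n _ _ ρ hρ, ?_⟩
  intro ζ hζ hXY
  rw [mem_ball, dist_eq_norm] at hζ
  -- the product of the distances to the zeros
  have hprod : (ρ / 200000) ^ n ≤ ∏ j, ‖ζ - a j‖ := by
    rcases hXY with hX | hY
    · have h1 : ζ.re ∈ Icc (c.re - 10 * ρ) (c.re + 10 * ρ) := by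
        have := Complex.abs_re_le_norm (ζ - c)
        rw [Complex.sub_re, abs_le] at this
        exact ⟨by linarith [this.1], by linarith [this.2]⟩
      have h2 : (ρ / 200000) ^ n ≤ ∏ j, |ζ.re - (a j).re| := by
        by_contra hcon
        exact hX ⟨h1, not_le.1 hcon⟩
      refine h2.trans (Finset.prod_le_prod (fun j _ => abs_nonneg _) fun j _ => ?_)
      rw [← Complex.sub_re]
      exact Complex.abs_re_le_norm _
    · have h1 : ζ.im ∈ Icc (c.im - 10 * ρ) (c.im + 10 * ρ) := by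
        have := Complex.abs_im_le_norm (ζ - c)
        rw [Complex.sub_im, abs_le] at this
        exact ⟨by linarith [this.1], by linarith [this.2]⟩
      have h2 : (ρ / 200000) ^ n ≤ ∏ j, |ζ.im - (a j).im| := by
        by_contra hcon
        exact hY ⟨h1, not_le.1 hcon⟩
      refine h2.trans (Finset.prod_le_prod (fun j _ => abs_nonneg _) fun j _ => ?_)
      rw [← Complex.sub_im]
      exact Complex.abs_im_le_norm _
  have hζ11 : ζ ∈ closedBall ζ₀ (22 * ρ / 2) := by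
    rw [mem_closedBall]
    have := dist_triangle ζ c ζ₀
    rw [dist_eq_norm ζ c, dist_comm c ζ₀] at this
    linarith
  have hζ22 : ζ ∈ closedBall ζ₀ (22 * ρ) := closedBall_subset_closedBall (by linarith) hζ11
  have h1 := hharn ζ hζ11
  have h2 := hgF ζ hζ22
  have h3 : (1 / 17600000 : ℝ) ^ n ≤ ∏ j, (‖ζ - a j‖ / (4 * (22 * ρ))) := by
    rw [Finset.prod_div_distrib, Finset.prod_const, Finset.card_univ, Fintype.card_fin,
      le_div_iff₀ (by positivity), ← mul_pow]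
    have e : (1 / 17600000 : ℝ) * (4 * (22 * ρ)) = ρ / 200000 := by ring
    rw [e]
    exact hprod
  have hnle : (n : ℝ) ≤ 4 * H := le_trans (by exact_mod_cast hn) hNle
  calc Real.exp (M - 103 * H) ≤ Real.exp (M + -(3 * H) + -(25 * (n : ℝ))) :=
        Real.exp_le_exp.2 (by linarith)
    _ = Real.exp M * Real.exp (-(3 * H)) * Real.exp (-(25 * (n : ℝ))) := by
        rw [Real.exp_add, Real.exp_add]
    _ ≤ ‖g ζ‖ * ∏ j, (‖ζ - a j‖ / (4 * (22 * ρ))) :=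
        mul_le_mul h1 ((s9fl_exp_neg_le n).trans h3) (Real.exp_pos _).le (norm_nonneg _)
    _ ≤ ‖F ζ‖ := h2

end Claimed.Agent.R269
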