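/-
Row 269, mesh package (P1 Thm 9.11).  LEAF FILE `LF-S9g-osc`.   Blueprint: helper149.

Oscillation of `G₀ / F` along a high-modulus polygon.

PROOF SKETCH.  Where `F ≠ 0`, `(G₀/F)' = (F G₀' - F' G₀)/F² = 1/F²`.  On a segment `[a,b] ⊆ ℍ₋` with `|F| ≥ L > 0`:
`‖(G₀/F)(ζ) - (G₀/F)(a)‖ ≤ ‖ζ - a‖ / L² ≤ ‖b - a‖ / L²` (`Convex.norm_image_sub_le_of_norm_hasDerivWithin_le` on the segment).
Telescoping over `i < j` gives `‖(G₀/F)(ζ) - (G₀/F)(P 0)‖ ≤ (∑ ‖P (i+1) - P i‖)/L²`; multiply by `‖F ζ‖`.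
-/
import Claimed.Agent.R269.S9.MeshDefs

set_option autoImplicit false

namespace Claimed.Agent.R269

open Set Metric

/-- oscillation of `G₀ / F` on one segment. -/
theorem s9g_osc_seg {F G₀ : ℂ → ℂ} (hF : DifferentiableOn ℂ F s9f_LH) (hG : S9gSecond F G₀)
    (a b : ℂ) (L : ℝ) (hL : 0 < L) (ha : a ∈ s9f_LH) (hb : b ∈ s9f_LH)
    (hhigh : ∀ ζ ∈ segment ℝ a b, L ≤ ‖F ζ‖) :
    ∀ ζ ∈ segment ℝ a b, ‖G₀ ζ / F ζ - G₀ a / F a‖ ≤ ‖b - a‖ / L ^ 2 := by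
  intro ζ hζ
  have hsub : segment ℝ a b ⊆ s9f_LH := s9f_convex_LH.segment_subset ha hb
  have hder : ∀ x ∈ segment ℝ a b,
      HasDerivWithinAt (fun w => G₀ w / F w) (1 / F x ^ 2) (segment ℝ a b) x := by
    intro x hx
    have hxL := hsub hx
    have hnh : s9f_LH ∈ nhds x := s9f_isOpen_LH.mem_nhds hxL
    have hFx : F x ≠ 0 := by
      intro h0
      have := hhigh x hx
      rw [h0, norm_zero] at this
      linarith
    have d1 := (hG.diff.differentiableAt hnh).hasDerivAt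
    have d2 := (hF.differentiableAt hnh).hasDerivAt
    have d3 := (d1.div d2 hFx).hasDerivWithinAt (s := segment ℝ a b)
    have hW := hG.wronskian x hxL
    have e : (deriv G₀ x * F x - G₀ x * deriv F x) / F x ^ 2 = 1 / F x ^ 2 := by
      congr 1
      linear_combination hW
    rw [e] at d3
    exact d3
  have hbound : ∀ x ∈ segment ℝ a b, ‖1 / F x ^ 2‖ ≤ 1 / L ^ 2 := by
    intro x hx
    rw [norm_div, norm_one, norm_pow]
    have := hhigh x hx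
    gcongr
  have h1 := Convex.norm_image_sub_le_of_norm_hasDerivWithin_le hder hbound (convex_segment a b)
    (left_mem_segment ℝ a b) hζ
  have h2 : ‖ζ - a‖ ≤ ‖b - a‖ := norm_sub_le_of_mem_segment hζ
  calc ‖G₀ ζ / F ζ - G₀ a / F a‖ ≤ 1 / L ^ 2 * ‖ζ - a‖ := h1
    _ ≤ 1 / L ^ 2 * ‖b - a‖ := by gcongr
    _ = ‖b - a‖ / L ^ 2 := by ring

/-- LEAF: `G₀ - c F` is small along a high-modulus polygon, `c = G₀ (P 0) / F (P 0)`. -/
theorem s9g_osc {F G₀ : ℂ → ℂ} (hF : DifferentiableOn ℂ F s9f_LH) (hG : S9gSecond F G₀)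
    (n : ℕ) (P : ℕ → ℂ) (L : ℝ) (hL : 0 < L) (hP : ∀ j ≤ n, P j ∈ s9f_LH)
    (hhigh : ∀ j < n, ∀ ζ ∈ segment ℝ (P j) (P (j + 1)), L ≤ ‖F ζ‖) :
    ∀ j < n, ∀ ζ ∈ segment ℝ (P j) (P (j + 1)),
      ‖G₀ ζ - G₀ (P 0) / F (P 0) * F ζ‖ ≤
        ‖F ζ‖ * ((∑ i ∈ Finset.range n, ‖P (i + 1) - P i‖) / L ^ 2) := by
  have hstep : ∀ j < n, ∀ ζ ∈ segment ℝ (P j) (P (j + 1)),
      ‖G₀ ζ / F ζ - G₀ (P j) / F (P j)‖ ≤ ‖P (j + 1) - P j‖ / L ^ 2 := fun j hj =>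
    s9g_osc_seg hF hG (P j) (P (j + 1)) L hL (hP j hj.le) (hP (j + 1) hj) (hhigh j hj)
  have htel : ∀ j ≤ n, ‖G₀ (P j) / F (P j) - G₀ (P 0) / F (P 0)‖ ≤
      (∑ i ∈ Finset.range j, ‖P (i + 1) - P i‖) / L ^ 2 := by
    intro j
    induction j with
    | zero => intro _; simp
    | succ j ih =>
      intro hj
      have h1 := ih (by omega)
      have h2 := hstep j (by omega) (P (j + 1)) (right_mem_segment ℝ _ _)
      rw [Finset.sum_range_succ, add_div]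
      calc ‖G₀ (P (j + 1)) / F (P (j + 1)) - G₀ (P 0) / F (P 0)‖
          ≤ ‖G₀ (P j) / F (P j) - G₀ (P 0) / F (P 0)‖ +
            ‖G₀ (P (j + 1)) / F (P (j + 1)) - G₀ (P j) / F (P j)‖ := by
            refine le_trans (le_of_eq ?_) (norm_add_le _ _)
            congr 1; ring
        _ ≤ _ := add_le_add h1 h2
  intro j hj ζ hζ
  have hFζ : F ζ ≠ 0 := by
    intro h0
    have := hhigh j hj ζ hζ
    rw [h0, norm_zero] at this
    linarith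
  have e : G₀ ζ - G₀ (P 0) / F (P 0) * F ζ = F ζ * (G₀ ζ / F ζ - G₀ (P 0) / F (P 0)) := by
    field_simp
  rw [e, norm_mul]
  refine mul_le_mul_of_nonneg_left ?_ (norm_nonneg _)
  have h1 := htel j hj.le
  have h2 := hstep j hj ζ hζ
  have h3 : ∑ i ∈ Finset.range (j + 1), ‖P (i + 1) - P i‖ ≤
      ∑ i ∈ Finset.range n, ‖P (i + 1) - P i‖ :=
    Finset.sum_le_sum_of_subset_of_nonneg (Finset.range_subset_range.mpr hj)
      (fun _ _ _ => norm_nonneg _)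
  calc ‖G₀ ζ / F ζ - G₀ (P 0) / F (P 0)‖
      ≤ ‖G₀ (P j) / F (P j) - G₀ (P 0) / F (P 0)‖ + ‖G₀ ζ / F ζ - G₀ (P j) / F (P j)‖ := by
        refine le_trans (le_of_eq ?_) (norm_add_le _ _)
        congr 1; ring
    _ ≤ (∑ i ∈ Finset.range j, ‖P (i + 1) - P i‖) / L ^ 2 + ‖P (j + 1) - P j‖ / L ^ 2 :=
        add_le_add h1 h2
    _ = (∑ i ∈ Finset.range (j + 1), ‖P (i + 1) - P i‖) / L ^ 2 := by
        rw [Finset.sum_range_succ, add_div]
    _ ≤ _ := by gcongr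

end Claimed.Agent.R269
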