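/-
Row 269, mesh package (P1 Thm 9.11).  LEAF FILE `LF-S9f-route`.   Blueprint: helper149.

Routing a closed polygon through a closed chain of tiles with the "lines" property (= the geometric half of P1 Lemma 9.13).

PROOF SKETCH.  Let `X_i, Y_i` be the exceptional sets of `τ i`.  For `i < n` choose the junction `J_i = (x_i, y_i) ∈ s9f_sq (τ i)` with
`x_i ∉ X_i ∪ X_{i+1}`, `y_i ∉ Y_i ∪ Y_{i+1}`: possible because the side `ρ_i` exceeds `ρ_i/20 + ρ_{i+1}/20` (`ρ_{i+1} ≤ (401/400) ρ_i`;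
outer measure: monotone + subadditive, `Real.volume_Icc`; no measurability needed).
Put `J_{-1} := J_{n-1}` (legitimate since `τ n = τ 0`: take the sets of `τ n` equal to those of `τ 0`, e.g. choose the sets as a function
of the TILE, not of the index).  `P (2i) = J_{i-1}`, `P (2i+1) = (x_i, y_{i-1})` (elbow), `P (2i+2) = J_i`.
The segment `P (2i) → P (2i+1)` is horizontal at the ordinate `y_{i-1} ∉ Y_i`, the segment `P (2i+1) → P (2i+2)` is vertical at the
abscissa `x_i ∉ X_i`.  `J_{i-1}` lies in a square touching `s9f_sq (τ i)` of side `≤ (401/400) ρ_i`, so all three points are within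
`(1/2 + 401/400) √2 ρ_i < 4 ρ_i` of the centre of `τ i`; the ball of radius `10 ρ_i` is convex, so the lines property of `τ i` applies.
-/
import Claimed.Agent.R269.S9.MeshDefs

set_option autoImplicit false

namespace Claimed.Agent.R269

open Set Metric

theorem s9f_exists_notMem (a b α β : ℝ) (A B : Set ℝ)
    (hA : MeasureTheory.volume A ≤ ENNReal.ofReal α) (hB : MeasureTheory.volume B ≤ ENNReal.ofReal β)
    (hα : 0 ≤ α) (hβ : 0 ≤ β) (h : α + β < b - a) : ∃ x ∈ Icc a b, x ∉ A ∧ x ∉ B := by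
  by_contra hcon
  have hsub : Icc a b ⊆ A ∪ B := by
    intro x hx
    by_cases hxA : x ∈ A
    · exact Or.inl hxA
    · by_cases hxB : x ∈ B
      · exact Or.inr hxB
      · exact absurd ⟨x, hx, hxA, hxB⟩ hcon
  have h1 : MeasureTheory.volume (Icc a b) ≤ MeasureTheory.volume A + MeasureTheory.volume B :=
    (MeasureTheory.measure_mono hsub).trans (MeasureTheory.measure_union_le _ _)
  rw [Real.volume_Icc] at h1
  have h2 : ENNReal.ofReal (b - a) ≤ ENNReal.ofReal (α + β) := by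
    rw [ENNReal.ofReal_add hα hβ]; exact h1.trans (add_le_add hA hB)
  rw [ENNReal.ofReal_le_ofReal_iff (by linarith)] at h2
  linarith

theorem s9f_route_ctr_im (T : S9fTile) :
    (s9f_ctr T).im = -(400 * s9f_rho T.1 + s9f_rho T.1 / 2) := by
  rw [← s9f_d_succ_eq]; rfl

theorem s9f_route_ctr_re (T : S9fTile) : (s9f_ctr T).re = ((T.2 : ℝ) + 1 / 2) * s9f_rho T.1 := rfl

theorem s9f_rho_pred (k : ℤ) : s9f_rho (k - 1) = s9f_rho k * (401 / 400) := by
  have := s9f_rho_succ (k - 1)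
  rw [sub_add_cancel] at this
  rw [this]; ring

theorem s9f_d_pred (k : ℤ) : s9f_d (k - 1) = s9f_d k * (401 / 400) := by
  have := s9f_d_succ (k - 1)
  rw [sub_add_cancel] at this
  rw [this]; ring

/-- a point of a square touching `T` is close to the centre of `T`. -/
theorem s9f_near_touch {T T' : S9fTile} (h : s9f_touch T' T) {x y : ℝ}
    (hx : x ∈ Icc (s9f_lo T') (s9f_hi T')) (hy : -y ∈ Icc (s9f_d (T'.1 + 1)) (s9f_d T'.1)) :
    |x - (s9f_ctr T).re| ≤ 2 * s9f_rho T.1 ∧ |y - (s9f_ctr T).im| ≤ 2 * s9f_rho T.1 := by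
  obtain ⟨hk, h1, h2⟩ := h
  have hk' := abs_le.mp hk
  have hρ := s9f_rho_pos T.1
  have r1 : s9f_rho T'.1 ≤ s9f_rho (T.1 - 1) := s9f_rho_anti (by omega)
  rw [s9f_rho_pred] at r1
  have d1 : s9f_d T'.1 ≤ s9f_d (T.1 - 1) := s9f_d_anti (by omega)
  rw [s9f_d_pred] at d1
  have d2 : s9f_d (T.1 + 1 + 1) ≤ s9f_d (T'.1 + 1) := s9f_d_anti (by omega)
  rw [s9f_d_succ, s9f_d_succ] at d2
  have e2 : s9f_d T.1 = 401 * s9f_rho T.1 := by unfold s9f_rho; ring
  rw [e2] at d1 d2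
  have w' := s9f_hi_sub_lo T'
  have hx1 := hx.1
  have hx2 := hx.2
  have hy1 := hy.1
  have hy2 := hy.2
  rw [s9f_route_ctr_im, s9f_route_ctr_re]
  have l1 : s9f_lo T = (T.2 : ℝ) * s9f_rho T.1 := rfl
  have l2 : s9f_hi T = ((T.2 : ℝ) + 1) * s9f_rho T.1 := rfl
  constructor
  · rw [abs_le]; constructor <;> nlinarith
  · rw [abs_le]; constructor <;> nlinarith

theorem s9f_dist_mk_le (a b : ℝ) (c : ℂ) (r : ℝ) (h1 : |a - c.re| ≤ 2 * r) (h2 : |b - c.im| ≤ 2 * r) :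
    dist (⟨a, b⟩ : ℂ) c ≤ 4 * r := by
  rw [dist_eq_norm]
  refine (Complex.norm_le_abs_re_add_abs_im _).trans ?_
  rw [Complex.sub_re, Complex.sub_im]
  show |a - c.re| + |b - c.im| ≤ 4 * r
  linarith

theorem s9f_segment_im {a b ζ : ℂ} {y : ℝ} (ha : a.im = y) (hb : b.im = y)
    (hζ : ζ ∈ segment ℝ a b) : ζ.im = y := by
  obtain ⟨s, t, _, _, hst, rfl⟩ := hζ
  simp only [Complex.add_im, Complex.real_smul, Complex.mul_im, Complex.ofReal_re,
    Complex.ofReal_im, zero_mul, add_zero, ha, hb]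
  rw [← add_mul, hst, one_mul]

theorem s9f_segment_re {a b ζ : ℂ} {x : ℝ} (ha : a.re = x) (hb : b.re = x)
    (hζ : ζ ∈ segment ℝ a b) : ζ.re = x := by
  obtain ⟨s, t, _, _, hst, rfl⟩ := hζ
  simp only [Complex.add_re, Complex.real_smul, Complex.mul_re, Complex.ofReal_re,
    Complex.ofReal_im, zero_mul, sub_zero, ha, hb]
  rw [← add_mul, hst, one_mul]

/-- LEAF: the closed high-modulus polygon. -/
theorem s9f_route (F : ℂ → ℂ) (L : ℝ) (n : ℕ) (τ : ℕ → S9fTile) (hn : 0 < n) (hcl : τ n = τ 0)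
    (htouch : ∀ i < n, s9f_touch (τ i) (τ (i + 1))) (hlines : ∀ i ≤ n, S9fLines F L (τ i)) :
    ∃ P : ℕ → ℂ, P (2 * n) = P 0 ∧
      (∀ i ≤ n, dist (P (2 * i)) (s9f_ctr (τ i)) ≤ 4 * s9f_rho (τ i).1) ∧
      (∀ i < n, dist (P (2 * i + 1)) (s9f_ctr (τ i)) ≤ 4 * s9f_rho (τ i).1) ∧
      (∀ i < n, dist (P (2 * i + 2)) (s9f_ctr (τ i)) ≤ 4 * s9f_rho (τ i).1) ∧
      ∀ j < 2 * n, ∀ ζ ∈ segment ℝ (P j) (P (j + 1)), L ≤ ‖F ζ‖ := by
  classical
  have hex : ∀ T : S9fTile, ∃ X Y : Set ℝ, S9fLines F L T →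
      (MeasureTheory.volume X ≤ ENNReal.ofReal (s9f_rho T.1 / 20) ∧
        MeasureTheory.volume Y ≤ ENNReal.ofReal (s9f_rho T.1 / 20) ∧
        ∀ ζ ∈ ball (s9f_ctr T) (10 * s9f_rho T.1), (ζ.re ∉ X ∨ ζ.im ∉ Y) → L ≤ ‖F ζ‖) := by
    intro T
    by_cases h : S9fLines F L T
    · obtain ⟨X, Y, h'⟩ := h; exact ⟨X, Y, fun _ => h'⟩
    · exact ⟨∅, ∅, fun h' => absurd h' h⟩
  choose X Y hXY using hex
  have hjun : ∀ i, ∃ x y : ℝ, i < n → (x ∈ Icc (s9f_lo (τ i)) (s9f_hi (τ i)) ∧ x ∉ X (τ i) ∧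
      x ∉ X (τ (i + 1)) ∧ -y ∈ Icc (s9f_d ((τ i).1 + 1)) (s9f_d (τ i).1) ∧ y ∉ Y (τ i) ∧
      y ∉ Y (τ (i + 1))) := by
    intro i
    by_cases hi : i < n
    · have hρ := s9f_rho_pos (τ i).1
      have hρ' := s9f_rho_pos (τ (i + 1)).1
      have hk := abs_le.mp (htouch i hi).1
      have r1 : s9f_rho (τ (i + 1)).1 ≤ s9f_rho ((τ i).1 - 1) := s9f_rho_anti (by omega)
      rw [s9f_rho_pred] at r1
      have L0 := hXY (τ i) (hlines i hi.le)
      have L1 := hXY (τ (i + 1)) (hlines (i + 1) hi)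
      obtain ⟨x, hx, hx0, hx1⟩ := s9f_exists_notMem (s9f_lo (τ i)) (s9f_hi (τ i)) _ _ _ _
        L0.1 L1.1 (by positivity) (by positivity) (by rw [s9f_hi_sub_lo]; linarith)
      obtain ⟨y, hy, hy0, hy1⟩ := s9f_exists_notMem (-s9f_d (τ i).1) (-s9f_d ((τ i).1 + 1)) _ _ _ _
        L0.2.1 L1.2.1 (by positivity) (by positivity)
        (by have := s9f_d_sub (τ i).1; linarith)
      exact ⟨x, y, fun _ => ⟨hx, hx0, hx1, ⟨by linarith [hy.2], by linarith [hy.1]⟩, hy0, hy1⟩⟩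
    · exact ⟨0, 0, fun h => absurd h hi⟩
  choose x y hxy using hjun
  set prev : ℕ → ℕ := fun i => if i = 0 then n - 1 else i - 1 with hprevdef
  have hprev : ∀ i ≤ n, prev i < n ∧ τ (prev i + 1) = τ i := by
    intro i hi
    rcases Nat.eq_zero_or_pos i with h0 | h0
    · subst h0
      have : prev 0 = n - 1 := by simp [hprevdef]
      rw [this, show n - 1 + 1 = n by omega]
      exact ⟨by omega, hcl⟩
    · have : prev i = i - 1 := by simp [hprevdef, h0.ne']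
      rw [this, show i - 1 + 1 = i by omega]
      exact ⟨by omega, rfl⟩
  have hprevs : ∀ i, prev (i + 1) = i := by intro i; simp [hprevdef]
  set P : ℕ → ℂ := fun j => if j % 2 = 0 then ⟨x (prev (j / 2)), y (prev (j / 2))⟩
    else ⟨x (j / 2), y (prev (j / 2))⟩ with hPdef
  have hPe : ∀ i, P (2 * i) = ⟨x (prev i), y (prev i)⟩ := by
    intro i
    have h1 : (2 * i) % 2 = 0 := by omega
    have h2 : (2 * i) / 2 = i := by omega
    simp only [hPdef, h1, h2, if_true]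
  have hPo : ∀ i, P (2 * i + 1) = ⟨x i, y (prev i)⟩ := by
    intro i
    have h1 : ¬ ((2 * i + 1) % 2 = 0) := by omega
    have h2 : (2 * i + 1) / 2 = i := by omega
    simp only [hPdef, h1, h2, if_false]
  have hPs : ∀ i, P (2 * i + 2) = ⟨x i, y i⟩ := by
    intro i
    rw [show 2 * i + 2 = 2 * (i + 1) by ring, hPe, hprevs]
  have nearP : ∀ i ≤ n, |x (prev i) - (s9f_ctr (τ i)).re| ≤ 2 * s9f_rho (τ i).1 ∧
      |y (prev i) - (s9f_ctr (τ i)).im| ≤ 2 * s9f_rho (τ i).1 := by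
    intro i hi
    obtain ⟨hp, hτ⟩ := hprev i hi
    have ht := htouch (prev i) hp
    rw [hτ] at ht
    have := hxy (prev i) hp
    exact s9f_near_touch ht this.1 this.2.2.2.1
  have nearS : ∀ i < n, |x i - (s9f_ctr (τ i)).re| ≤ 2 * s9f_rho (τ i).1 ∧
      |y i - (s9f_ctr (τ i)).im| ≤ 2 * s9f_rho (τ i).1 := by
    intro i hi
    have := hxy i hi
    exact s9f_near_touch (s9f_touch_refl _) this.1 this.2.2.2.1
  have D0 : ∀ i ≤ n, dist (P (2 * i)) (s9f_ctr (τ i)) ≤ 4 * s9f_rho (τ i).1 := by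
    intro i hi
    rw [hPe]
    exact s9f_dist_mk_le _ _ _ _ (nearP i hi).1 (nearP i hi).2
  have D1 : ∀ i < n, dist (P (2 * i + 1)) (s9f_ctr (τ i)) ≤ 4 * s9f_rho (τ i).1 := by
    intro i hi
    rw [hPo]
    exact s9f_dist_mk_le _ _ _ _ (nearS i hi).1 (nearP i hi.le).2
  have D2 : ∀ i < n, dist (P (2 * i + 2)) (s9f_ctr (τ i)) ≤ 4 * s9f_rho (τ i).1 := by
    intro i hi
    rw [hPs]
    exact s9f_dist_mk_le _ _ _ _ (nearS i hi).1 (nearS i hi).2
  refine ⟨P, ?_, D0, D1, D2, ?_⟩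
  · rw [hPe, show (0 : ℕ) = 2 * 0 by norm_num, hPe]
    have h1 : prev n = n - 1 := by simp [hprevdef]
    have h2 : prev 0 = n - 1 := by simp [hprevdef]
    rw [h1, h2]
  · intro j hj ζ hζ
    obtain ⟨i, rfl | rfl⟩ := Nat.even_or_odd' j
    · have hi : i < n := by omega
      have hρ := s9f_rho_pos (τ i).1
      have hin : ζ ∈ closedBall (s9f_ctr (τ i)) (4 * s9f_rho (τ i).1) :=
        (convex_closedBall _ _).segment_subset (D0 i hi.le) (D1 i hi) hζ
      have hball : ζ ∈ ball (s9f_ctr (τ i)) (10 * s9f_rho (τ i).1) :=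
        closedBall_subset_ball (by linarith) hin
      have him : ζ.im = y (prev i) :=
        s9f_segment_im (by rw [hPe]) (by rw [hPo]) hζ
      obtain ⟨hp, hτ⟩ := hprev i hi.le
      have hnot := (hxy (prev i) hp).2.2.2.2.2
      rw [hτ] at hnot
      exact (hXY (τ i) (hlines i hi.le)).2.2 ζ hball (Or.inr (by rw [him]; exact hnot))
    · have hi : i < n := by omega
      have hρ := s9f_rho_pos (τ i).1
      have hin : ζ ∈ closedBall (s9f_ctr (τ i)) (4 * s9f_rho (τ i).1) :=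
        (convex_closedBall _ _).segment_subset (D1 i hi) (D2 i hi) hζ
      have hball : ζ ∈ ball (s9f_ctr (τ i)) (10 * s9f_rho (τ i).1) :=
        closedBall_subset_ball (by linarith) hin
      have hre : ζ.re = x i :=
        s9f_segment_re (by rw [hPo]) (by rw [show 2 * i + 1 + 1 = 2 * i + 2 by ring, hPs]) hζ
      have hnot := (hxy i hi).2.1
      exact (hXY (τ i) (hlines i hi.le)).2.2 ζ hball (Or.inl (by rw [hre]; exact hnot))

end Claimed.Agent.R269
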