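/-
Row 269, mesh package (P1 Thm 9.11).  LEAF FILE `LF-S9g-chainest` (glue of four leaves).   Blueprint: helper149.

From a closed chain of good tiles to the estimate of `G₀ - c F` at the enclosed points.

PROOF SKETCH.  `Ch` = the constant of `s9f_local_lines`, `L = exp (M - Ch H)`.
(1) `s9f_sq T ⊆ closedBall (s9f_ctr T) (ρ T)`; `ball (ctr) (100 ρ) ⊆ ℍ₋` (the depth of the centre is `400.5 ρ`).  So every `τ i` has
    `S9fLines F L (τ i)`.
(2) `s9f_route` gives the polygon `P` with `2n` segments; the two segments `2i → 2i+1 → 2i+2` lie in `closedBall (ctr (τ i)) (4 ρ_i)` (convex), so they have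
    length `≤ 8 ρ_i`, total length `ℓ ≤ 16 S`, they lie in `ℍ₋`, and `‖F‖ ≤ e^M` on them.
(3) `s9g_osc`, `c = G₀ (P 0) / F (P 0)` (independent of `z`): `‖G₀ - c F‖ ≤ e^M · 16 S / L² = 16 S exp (2 Ch H - M)` on the polygon.
(4) `s9g_enclosure` for `g = (G₀ - c F)^4`, break points `2 m₁ ≤ 2 m₂ ≤ 2 m₃ ≤ 2 n`: a vertex `P (2i)` with `m_a ≤ i ≤ m_{a+1}` is within `4 ρ_i` of `ctr (τ i)`;
    a vertex `P (2i+1)` with `2 m_a ≤ 2i+1 ≤ 2 m_{a+1}` has `m_a ≤ i < m_{a+1}`.  Every `i < n` lies in one of the four ranges, which gives `η ≤ ‖ζ - z‖` on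
    both segments of the tile `i`.   `2π η ‖g z‖ ≤ 16 S · (16 S exp (2 Ch H - M))^4`.
-/
import Claimed.Agent.R269.S9.MeshLocal
import Claimed.Agent.R269.S9.MeshRoute
import Claimed.Agent.R269.S9.MeshOsc
import Claimed.Agent.R269.S9.MeshEncl

set_option autoImplicit false

namespace Claimed.Agent.R269

open Set Metric

theorem s9g_ctr_im (T : S9fTile) : (s9f_ctr T).im = -(400 * s9f_rho T.1 + s9f_rho T.1 / 2) := by
  rw [← s9f_d_succ_eq]; rfl

theorem s9g_ctr_re (T : S9fTile) : (s9f_ctr T).re = ((T.2 : ℝ) + 1 / 2) * s9f_rho T.1 := rfl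

theorem s9g_ball_subset_LH (T : S9fTile) : ball (s9f_ctr T) (100 * s9f_rho T.1) ⊆ s9f_LH := by
  intro ζ hζ
  have hρ := s9f_rho_pos T.1
  rw [mem_ball, dist_eq_norm] at hζ
  have h1 := (abs_le.mp ((Complex.abs_im_le_norm (ζ - s9f_ctr T)).trans hζ.le)).2
  rw [Complex.sub_im, s9g_ctr_im] at h1
  show ζ.im < 0
  linarith

theorem s9g_sq_subset (T : S9fTile) : s9f_sq T ⊆ closedBall (s9f_ctr T) (s9f_rho T.1) := by
  rintro ζ ⟨⟨h1, h2⟩, h3, h4⟩
  have hρ := s9f_rho_pos T.1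
  rw [mem_closedBall, dist_eq_norm]
  refine (Complex.norm_le_abs_re_add_abs_im _).trans ?_
  rw [Complex.sub_re, Complex.sub_im, s9g_ctr_im, s9g_ctr_re]
  have e1 : s9f_d (T.1 + 1) = 400 * s9f_rho T.1 := s9f_d_succ_eq _
  have e2 : s9f_d T.1 = 401 * s9f_rho T.1 := by unfold s9f_rho; ring
  rw [e1] at h3
  rw [e2] at h4
  simp only [s9f_lo, s9f_hi] at h1 h2
  have a1 : |ζ.re - ((T.2 : ℝ) + 1 / 2) * s9f_rho T.1| ≤ s9f_rho T.1 / 2 := by
    rw [abs_le]; constructor <;> linarith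
  have a2 : |ζ.im - -(400 * s9f_rho T.1 + s9f_rho T.1 / 2)| ≤ s9f_rho T.1 / 2 := by
    rw [abs_le]; constructor <;> linarith
  linarith

theorem s9g_sum_range_two_mul (a : ℕ → ℝ) (n : ℕ) :
    ∑ j ∈ Finset.range (2 * n), a j = ∑ i ∈ Finset.range n, (a (2 * i) + a (2 * i + 1)) := by
  induction n with
  | zero => simp
  | succ n ih =>
    rw [show 2 * (n + 1) = 2 * n + 1 + 1 by ring, Finset.sum_range_succ, Finset.sum_range_succ, ih,
      Finset.sum_range_succ]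
    ring

/-- LEAF (glue): the estimate inside a closed chain of good tiles. -/
theorem s9g_chain_estimate : ∃ Ch : ℝ, 1 ≤ Ch ∧ ∀ (F G₀ : ℂ → ℂ), DifferentiableOn ℂ F s9f_LH →
    S9gSecond F G₀ → ∀ (M H S : ℝ), 1 ≤ H → ∀ (n m₁ m₂ m₃ : ℕ) (τ : ℕ → S9fTile), 0 < n →
    m₁ ≤ m₂ → m₂ ≤ m₃ → m₃ ≤ n → τ n = τ 0 →
    (∀ i < n, s9f_touch (τ i) (τ (i + 1))) →
    (∀ i ≤ n, S9fGood F (Real.exp (M - H)) (τ i)) →
    (∀ i ≤ n, ∀ ζ ∈ ball (s9f_ctr (τ i)) (100 * s9f_rho (τ i).1), ‖F ζ‖ ≤ Real.exp M) →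
    ∑ i ∈ Finset.range n, s9f_rho (τ i).1 ≤ S →
    ∃ c : ℂ, ∀ (z : ℂ) (η : ℝ), z ∈ s9f_LH → 0 < η →
      (∀ i, i ≤ m₁ → (s9f_ctr (τ i)).im + 4 * s9f_rho (τ i).1 + η ≤ z.im) →
      (∀ i, m₁ ≤ i → i ≤ m₂ → z.re + η + 4 * s9f_rho (τ i).1 ≤ (s9f_ctr (τ i)).re) →
      (∀ i, m₂ ≤ i → i ≤ m₃ → z.im + η + 4 * s9f_rho (τ i).1 ≤ (s9f_ctr (τ i)).im) →
      (∀ i, m₃ ≤ i → i ≤ n → (s9f_ctr (τ i)).re + 4 * s9f_rho (τ i).1 + η ≤ z.re) →
      η * ‖G₀ z - c * F z‖ ^ 4 ≤ 16 * S * (16 * S * Real.exp (2 * Ch * H - M)) ^ 4 := by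
  obtain ⟨Ch, hCh, hloc⟩ := s9f_local_lines
  refine ⟨Ch, hCh, ?_⟩
  intro F G₀ hF hG M H S hH n m₁ m₂ m₃ τ hn h12 h23 h3n hcl htouch hgood hup hS
  set L : ℝ := Real.exp (M - Ch * H) with hLdef
  have hLpos : 0 < L := Real.exp_pos _
  have hρ : ∀ i, 0 < s9f_rho (τ i).1 := fun i => s9f_rho_pos _
  have hS0 : 0 ≤ S := le_trans (Finset.sum_nonneg (fun i _ => (hρ i).le)) hS
  -- (1) the lines property
  have hlines : ∀ i ≤ n, S9fLines F L (τ i) := by
    intro i hi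
    obtain ⟨ζ₀, hζ₀, hFζ₀⟩ := hgood i hi
    exact hloc F (s9f_ctr (τ i)) (s9f_rho (τ i).1) M H (hρ i) hH
      (hF.mono (s9g_ball_subset_LH _)) (hup i hi) ⟨ζ₀, s9g_sq_subset _ hζ₀, hFζ₀⟩
  -- (2) the polygon
  obtain ⟨P, hPcl, hP0, hP1, hP2, hhigh⟩ := s9f_route F L n τ hn hcl htouch hlines
  have hseg : ∀ j < 2 * n, ∃ i < n, (j = 2 * i ∨ j = 2 * i + 1) ∧
      P j ∈ closedBall (s9f_ctr (τ i)) (4 * s9f_rho (τ i).1) ∧
      P (j + 1) ∈ closedBall (s9f_ctr (τ i)) (4 * s9f_rho (τ i).1) := by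
    intro j hj
    obtain ⟨i, rfl | rfl⟩ := Nat.even_or_odd' j
    · exact ⟨i, by omega, Or.inl rfl, hP0 i (by omega), hP1 i (by omega)⟩
    · exact ⟨i, by omega, Or.inr rfl, hP1 i (by omega), hP2 i (by omega)⟩
  have hsub : ∀ i, closedBall (s9f_ctr (τ i)) (4 * s9f_rho (τ i).1) ⊆
      ball (s9f_ctr (τ i)) (100 * s9f_rho (τ i).1) := fun i =>
    closedBall_subset_ball (by linarith [hρ i])
  have hsegin : ∀ j < 2 * n, ∃ i < n, (j = 2 * i ∨ j = 2 * i + 1) ∧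
      segment ℝ (P j) (P (j + 1)) ⊆ closedBall (s9f_ctr (τ i)) (4 * s9f_rho (τ i).1) := by
    intro j hj
    obtain ⟨i, hi, hji, g1, g2⟩ := hseg j hj
    exact ⟨i, hi, hji, (convex_closedBall _ _).segment_subset g1 g2⟩
  have hPLH : ∀ j ≤ 2 * n, P j ∈ s9f_LH := by
    intro j hj
    rcases Nat.lt_or_ge j (2 * n) with g | g
    · obtain ⟨i, _, _, g1, _⟩ := hseg j g
      exact s9g_ball_subset_LH _ (hsub i g1)
    · have : j = 2 * n := le_antisymm hj g
      rw [this, hPcl]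
      obtain ⟨i, _, _, g1, _⟩ := hseg 0 (by omega)
      exact s9g_ball_subset_LH _ (hsub i g1)
  have hlen : ∑ j ∈ Finset.range (2 * n), ‖P (j + 1) - P j‖ ≤ 16 * S := by
    rw [s9g_sum_range_two_mul]
    have : ∀ i ∈ Finset.range n, ‖P (2 * i + 1) - P (2 * i)‖ + ‖P (2 * i + 1 + 1) - P (2 * i + 1)‖ ≤
        16 * s9f_rho (τ i).1 := by
      intro i hi
      have hi' := Finset.mem_range.mp hi
      have g0 := hP0 i hi'.le
      have g1 := hP1 i hi'
      have g2 := hP2 i hi'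
      have t1 : ‖P (2 * i + 1) - P (2 * i)‖ ≤ 8 * s9f_rho (τ i).1 := by
        rw [← dist_eq_norm]
        have := dist_triangle_right (P (2 * i + 1)) (P (2 * i)) (s9f_ctr (τ i))
        linarith
      have t2 : ‖P (2 * i + 1 + 1) - P (2 * i + 1)‖ ≤ 8 * s9f_rho (τ i).1 := by
        rw [← dist_eq_norm]
        have := dist_triangle_right (P (2 * i + 1 + 1)) (P (2 * i + 1)) (s9f_ctr (τ i))
        have g2' : dist (P (2 * i + 1 + 1)) (s9f_ctr (τ i)) ≤ 4 * s9f_rho (τ i).1 := g2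
        linarith
      linarith
    refine (Finset.sum_le_sum this).trans ?_
    rw [← Finset.mul_sum]
    linarith
  have hlen0 : 0 ≤ ∑ j ∈ Finset.range (2 * n), ‖P (j + 1) - P j‖ :=
    Finset.sum_nonneg (fun _ _ => norm_nonneg _)
  -- (3) oscillation
  have hosc := s9g_osc hF hG (2 * n) P L hLpos hPLH hhigh
  set c : ℂ := G₀ (P 0) / F (P 0) with hc
  set B₁ : ℝ := 16 * S * Real.exp (2 * Ch * H - M) with hB₁
  have hB₁0 : 0 ≤ B₁ := by positivity
  have hsmall : ∀ j < 2 * n, ∀ ζ ∈ segment ℝ (P j) (P (j + 1)), ‖G₀ ζ - c * F ζ‖ ≤ B₁ := by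
    intro j hj ζ hζ
    refine (hosc j hj ζ hζ).trans ?_
    obtain ⟨i, hi, _, hin⟩ := hsegin j hj
    have hFle : ‖F ζ‖ ≤ Real.exp M := hup i hi.le ζ (hsub i (hin hζ))
    have e1 : Real.exp M * (16 * S / L ^ 2) = B₁ := by
      rw [hB₁, hLdef, ← Real.exp_nat_mul, mul_div_assoc', div_eq_iff (Real.exp_pos _).ne',
        mul_assoc, ← Real.exp_add]
      rw [mul_comm (Real.exp M)]
      congr 2
      push_cast; ring
    rw [← e1]
    gcongr
  refine ⟨c, ?_⟩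
  intro z η hz hη hb hr ht hl
  -- coordinates in a closed ball
  have hco : ∀ i, ∀ ζ ∈ closedBall (s9f_ctr (τ i)) (4 * s9f_rho (τ i).1),
      |ζ.re - (s9f_ctr (τ i)).re| ≤ 4 * s9f_rho (τ i).1 ∧
      |ζ.im - (s9f_ctr (τ i)).im| ≤ 4 * s9f_rho (τ i).1 := by
    intro i ζ hζ
    rw [mem_closedBall, dist_eq_norm] at hζ
    exact ⟨by rw [← Complex.sub_re]; exact (Complex.abs_re_le_norm _).trans hζ,
      by rw [← Complex.sub_im]; exact (Complex.abs_im_le_norm _).trans hζ⟩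
  -- vertices
  have hvert : ∀ j ≤ 2 * n, ∃ i ≤ n, (j = 2 * i ∨ (j = 2 * i + 1 ∧ i < n)) ∧
      P j ∈ closedBall (s9f_ctr (τ i)) (4 * s9f_rho (τ i).1) := by
    intro j hj
    obtain ⟨i, rfl | rfl⟩ := Nat.even_or_odd' j
    · exact ⟨i, by omega, Or.inl rfl, hP0 i (by omega)⟩
    · exact ⟨i, by omega, Or.inr ⟨rfl, by omega⟩, hP1 i (by omega)⟩
  have hgd : DifferentiableOn ℂ (fun ζ => (G₀ ζ - c * F ζ) ^ 4) s9f_LH :=
    (hG.diff.sub (hF.const_mul c)).pow 4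
  have henc := s9g_enclosure (fun ζ => (G₀ ζ - c * F ζ) ^ 4) hgd (2 * n) (2 * m₁) (2 * m₂) (2 * m₃) P
    (by omega) (by omega) (by omega) hPcl hPLH z hz
    (by
      intro j hj
      obtain ⟨i, hi, hji, hin⟩ := hvert j (by omega)
      have := (abs_le.mp (hco i _ hin).2).2
      have := hb i (by omega)
      linarith)
    (by
      intro j hj1 hj2
      obtain ⟨i, hi, hji, hin⟩ := hvert j (by omega)
      have := (abs_le.mp (hco i _ hin).1).1
      have := hr i (by omega) (by omega)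
      linarith)
    (by
      intro j hj1 hj2
      obtain ⟨i, hi, hji, hin⟩ := hvert j (by omega)
      have := (abs_le.mp (hco i _ hin).2).1
      have := ht i (by omega) (by omega)
      linarith)
    (by
      intro j hj1 hj2
      obtain ⟨i, hi, hji, hin⟩ := hvert j hj2
      have := (abs_le.mp (hco i _ hin).1).2
      have := hl i (by omega) (by omega)
      linarith)
    (B₁ ^ 4) η hη
    (by
      intro j hj ζ hζ
      constructor
      · rw [norm_pow]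
        exact pow_le_pow_left₀ (norm_nonneg _) (hsmall j hj ζ hζ) 4
      · obtain ⟨i, hi, _, hin⟩ := hsegin j hj
        have hc1 := hco i ζ (hin hζ)
        have nre := Complex.abs_re_le_norm (ζ - z)
        have nim := Complex.abs_im_le_norm (ζ - z)
        rw [Complex.sub_re] at nre
        rw [Complex.sub_im] at nim
        rcases Nat.lt_or_ge m₁ i with g1 | g1
        · rcases Nat.lt_or_ge m₂ i with g2 | g2
          · rcases Nat.lt_or_ge m₃ i with g3 | g3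
            · have := hl i g3.le hi.le
              have := (abs_le.mp hc1.1).2
              have := neg_abs_le (ζ.re - z.re)
              linarith
            · have := ht i g2.le g3
              have := (abs_le.mp hc1.2).1
              have := le_abs_self (ζ.im - z.im)
              linarith
          · have := hr i g1.le g2
            have := (abs_le.mp hc1.1).1
            have := le_abs_self (ζ.re - z.re)
            linarith
        · have := hb i g1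
          have := (abs_le.mp hc1.2).2
          have := neg_abs_le (ζ.im - z.im)
          linarith)
  simp only [norm_pow] at henc
  have hpi : (1 : ℝ) ≤ 2 * Real.pi := by linarith [Real.pi_gt_three]
  have hB4 : 0 ≤ B₁ ^ 4 := by positivity
  have hx0 : 0 ≤ ‖G₀ z - c * F z‖ ^ 4 := by positivity
  have h5 : ‖G₀ z - c * F z‖ ^ 4 ≤ 16 * S * (B₁ ^ 4 / η) := by
    calc ‖G₀ z - c * F z‖ ^ 4 ≤ 2 * Real.pi * ‖G₀ z - c * F z‖ ^ 4 := by nlinarith
      _ ≤ _ := henc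
      _ ≤ 16 * S * (B₁ ^ 4 / η) := by gcongr
  calc η * ‖G₀ z - c * F z‖ ^ 4 ≤ η * (16 * S * (B₁ ^ 4 / η)) := by gcongr
    _ = 16 * S * B₁ ^ 4 := by field_simp

end Claimed.Agent.R269
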