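/-
Row 269, mesh package (P1 Thm 9.11).  LEAF FILE `LF-S9f-cross`.   Blueprint: helper149.

The crossing lemma: PURE COMBINATORICS of the tile grid (replaces "no bad barrier + planar duality" of the paper).

PROOF SKETCH ("largest scale first").  Choose `ℓ : ℝ → ℤ` from `hloc`.  Prove by strong induction on `N : ℕ` the statement
  `Q N`: for all `α ≤ β` in `[α₀, β₀]` with `β - α ≤ N * (2 * d k₁)` and all `L'` with `L ≤ L'` and `∀ x ∈ [α,β], L' ≤ ℓ x`, the conclusion holds with `L'` in place of `L`.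
Let `x₁ ∈ [α,β]` minimise `ℓ` on `[α,β]` (integers bounded below by `L'`), `ℓ₁ = ℓ x₁`, `d₁ = d ℓ₁ ≥ d k₁`.  The row of layer `ℓ₁` over `[x₁ - 4d₁, x₁ + 4d₁]` is good; consecutive
tiles of a row touch.
RIGHT HALF.  If `β ≤ x₁ + 4 d₁`, put `Tβ = s9f_over ℓ₁ β` (a tile of the row).  Otherwise `S9fLoc.col` with `y = x₁ + 2 d₁` gives `c₁ ∈ [x₁ + 2d₁, x₁ + 4d₁]`, `c₁ < β`, whose column is
good from `ℓ₁` to `k₁`.  `β - c₁ ≤ β - α - 2 d₁`, so `Q (N-1)` applies to `[c₁, β]` with `L' := ℓ₁` (minimality of `ℓ₁`): tiles `T' ∋ c₁`, `Tβ ∋ β` joined inside layers `[ℓ₁, k₁]`.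
Path: `s9f_over ℓ₁ x₁` → (row) → `s9f_over ℓ₁ c₁` → (column: `s9f_over k c₁`, `k = ℓ₁ .. T'.1`, consecutive ones touch because both projections contain `c₁`) → `T'`
(same layer, both projections contain `c₁`: equal or touching) → ... → `Tβ`.
LEFT HALF symmetric (`y = x₁ - 4 d₁`).  Monotonicity of the graph in the predicate: `SimpleGraph.Reachable.mono`.
All tiles used have projections inside `[α - ρ, β + ρ]`, `ρ ≤ d L`.
-/
import Claimed.Agent.R269.S9.MeshDefs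

set_option autoImplicit false

namespace Claimed.Agent.R269

open Set Metric

/-- the region predicate of a crossing. -/
def S9fBand (Good : S9fTile → Prop) (L k₁ : ℤ) (α β : ℝ) (T : S9fTile) : Prop :=
  Good T ∧ L ≤ T.1 ∧ T.1 ≤ k₁ ∧ α - 5 * s9f_d L ≤ s9f_lo T ∧ s9f_hi T ≤ β + 5 * s9f_d L

/-- auxiliary region predicate: good tiles of the layers `[L, k₁]` whose projection meets `[a, b]`. -/
def S9fMeet (Good : S9fTile → Prop) (L k₁ : ℤ) (a b : ℝ) (T : S9fTile) : Prop :=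
  Good T ∧ L ≤ T.1 ∧ T.1 ≤ k₁ ∧ s9f_lo T ≤ b ∧ a ≤ s9f_hi T

theorem s9f_meet_mono {Good : S9fTile → Prop} {L L' k₁ : ℤ} {a a' b b' : ℝ} (hL : L ≤ L')
    (ha : a ≤ a') (hb : b' ≤ b) (T : S9fTile) (h : S9fMeet Good L' k₁ a' b' T) :
    S9fMeet Good L k₁ a b T :=
  ⟨h.1, hL.trans h.2.1, h.2.2.1, h.2.2.2.1.trans hb, ha.trans h.2.2.2.2⟩

theorem s9f_meet_band {Good : S9fTile → Prop} {L k₁ : ℤ} {a b : ℝ} (T : S9fTile)
    (h : S9fMeet Good L k₁ a b T) : S9fBand Good L k₁ a b T := by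
  obtain ⟨h1, h2, h3, h4, h5⟩ := h
  have hw := s9f_hi_sub_lo T
  have hr : s9f_rho T.1 ≤ s9f_rho L := s9f_rho_anti h2
  have hd := s9f_d_pos L
  have hrd : s9f_rho L = s9f_d L / 401 := rfl
  refine ⟨h1, h2, h3, ?_, ?_⟩ <;> linarith

theorem s9f_graph_mono {P Q : S9fTile → Prop} (h : ∀ T, P T → Q T) :
    s9f_graph P ≤ s9f_graph Q := by
  intro T T' hadj
  exact ⟨hadj.1, h _ hadj.2.1, h _ hadj.2.2.1, hadj.2.2.2⟩

theorem s9f_reach_of_touch {P : S9fTile → Prop} {T T' : S9fTile} (hT : P T) (hT' : P T')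
    (h : s9f_touch T T') : (s9f_graph P).Reachable T T' := by
  by_cases he : T = T'
  · subst he; exact SimpleGraph.Reachable.refl _
  · exact SimpleGraph.Adj.reachable ⟨he, hT, hT', h⟩

theorem s9f_touch_of_mem {T T' : S9fTile} {c : ℝ} (h1 : |T.1 - T'.1| ≤ 1)
    (hc : c ∈ Icc (s9f_lo T) (s9f_hi T)) (hc' : c ∈ Icc (s9f_lo T') (s9f_hi T')) :
    s9f_touch T T' :=
  ⟨h1, hc.1.trans hc'.2, hc'.1.trans hc.2⟩

theorem s9f_reach_row {P : S9fTile → Prop} (ℓ a : ℤ) (n : ℕ)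
    (h : ∀ j : ℤ, a ≤ j → j ≤ a + n → P (ℓ, j)) :
    (s9f_graph P).Reachable (ℓ, a) (ℓ, a + n) := by
  induction n with
  | zero => simp
  | succ n ih =>
    have h1 := ih (fun j hj1 hj2 => h j hj1 (by push_cast; omega))
    refine h1.trans (s9f_reach_of_touch (h _ (by omega) (by push_cast; omega))
      (h _ (by push_cast; omega) le_rfl) ?_)
    have hρ := s9f_rho_pos ℓ
    refine ⟨by simp, ?_, ?_⟩
    · simp only [s9f_lo, s9f_hi]; push_cast; nlinarith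
    · simp only [s9f_lo, s9f_hi]; push_cast; nlinarith

theorem s9f_reach_col {P : S9fTile → Prop} (c : ℝ) (k : ℤ) (n : ℕ)
    (h : ∀ j : ℤ, k ≤ j → j ≤ k + n → P (s9f_over j c)) :
    (s9f_graph P).Reachable (s9f_over k c) (s9f_over (k + n) c) := by
  induction n with
  | zero => simp
  | succ n ih =>
    have h1 := ih (fun j hj1 hj2 => h j hj1 (by push_cast; omega))
    refine h1.trans (s9f_reach_of_touch (h _ (by omega) (by push_cast; omega))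
      (h _ (by push_cast; omega) le_rfl) ?_)
    refine s9f_touch_of_mem (c := c) ?_ (s9f_over_mem _ _) (s9f_over_mem _ _)
    simp only [s9f_over]
    push_cast
    rw [abs_le]; constructor <;> omega

theorem s9f_reach_locrow {Good : S9fTile → Prop} {k₁ ℓ : ℤ} {x u v : ℝ} (hℓ : ℓ ≤ k₁)
    (loc : S9fLoc Good k₁ x ℓ) (hu : x - 4 * s9f_d ℓ ≤ u) (huv : u ≤ v)
    (hv : v ≤ x + 4 * s9f_d ℓ) :
    S9fMeet Good ℓ k₁ u v (s9f_over ℓ u) ∧ S9fMeet Good ℓ k₁ u v (s9f_over ℓ v) ∧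
      (s9f_graph (S9fMeet Good ℓ k₁ u v)).Reachable (s9f_over ℓ u) (s9f_over ℓ v) := by
  have hρ := s9f_rho_pos ℓ
  have hfl : ⌊u / s9f_rho ℓ⌋ ≤ ⌊v / s9f_rho ℓ⌋ := Int.floor_le_floor (by gcongr)
  have key : ∀ j : ℤ, ⌊u / s9f_rho ℓ⌋ ≤ j → j ≤ ⌊v / s9f_rho ℓ⌋ →
      S9fMeet Good ℓ k₁ u v (ℓ, j) := by
    intro j hj1 hj2
    have h1 : s9f_lo (ℓ, j) ≤ v := by
      refine le_trans ?_ (s9f_over_mem ℓ v).1
      simp only [s9f_lo, s9f_over]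
      have : (j : ℝ) ≤ (⌊v / s9f_rho ℓ⌋ : ℝ) := by exact_mod_cast hj2
      gcongr
    have h2 : u ≤ s9f_hi (ℓ, j) := by
      refine le_trans (s9f_over_mem ℓ u).2 ?_
      simp only [s9f_hi, s9f_over]
      have : (⌊u / s9f_rho ℓ⌋ : ℝ) ≤ (j : ℝ) := by exact_mod_cast hj1
      gcongr
    exact ⟨loc.row j (by linarith) (by linarith), le_rfl, hℓ, h1, h2⟩
  refine ⟨key _ le_rfl hfl, key _ hfl le_rfl, ?_⟩
  obtain ⟨n, hn⟩ := Int.eq_ofNat_of_zero_le (sub_nonneg.mpr hfl)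
  have hn' : ⌊v / s9f_rho ℓ⌋ = ⌊u / s9f_rho ℓ⌋ + n := by omega
  have := s9f_reach_row (P := S9fMeet Good ℓ k₁ u v) ℓ ⌊u / s9f_rho ℓ⌋ n
    (fun j hj1 hj2 => key j hj1 (by omega))
  rw [← hn'] at this
  exact this

theorem s9f_meet_over {Good : S9fTile → Prop} {k₁ ℓ k : ℤ} {c : ℝ}
    (hcol : ∀ k : ℤ, ℓ ≤ k → k ≤ k₁ → Good (s9f_over k c)) (h1 : ℓ ≤ k) (h2 : k ≤ k₁) :
    S9fMeet Good ℓ k₁ c c (s9f_over k c) :=
  ⟨hcol k h1 h2, h1, h2, (s9f_over_mem k c).1, (s9f_over_mem k c).2⟩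

theorem s9f_reach_loccol {Good : S9fTile → Prop} {k₁ ℓ k : ℤ} {c : ℝ}
    (hcol : ∀ k : ℤ, ℓ ≤ k → k ≤ k₁ → Good (s9f_over k c)) (h1 : ℓ ≤ k) (h2 : k ≤ k₁) :
    (s9f_graph (S9fMeet Good ℓ k₁ c c)).Reachable (s9f_over ℓ c) (s9f_over k c) := by
  obtain ⟨n, hn⟩ := Int.eq_ofNat_of_zero_le (sub_nonneg.mpr h1)
  have hn' : k = ℓ + n := by omega
  have := s9f_reach_col (P := S9fMeet Good ℓ k₁ c c) c ℓ n
    (fun j hj1 hj2 => s9f_meet_over hcol hj1 (by omega))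
  rw [← hn'] at this
  exact this

theorem s9f_crossing_aux (Good : S9fTile → Prop) (k₁ : ℤ) (α₀ β₀ : ℝ) (ℓ : ℝ → ℤ)
    (hk : ∀ x ∈ Icc α₀ β₀, ℓ x ≤ k₁) (hloc : ∀ x ∈ Icc α₀ β₀, S9fLoc Good k₁ x (ℓ x)) (N : ℕ) :
    ∀ (L' : ℤ) (α β : ℝ), α₀ ≤ α → α ≤ β → β ≤ β₀ →
      β - α ≤ N * (2 * s9f_d k₁) - 2 * s9f_d k₁ → (∀ x ∈ Icc α β, L' ≤ ℓ x) →
      ∃ Tα Tβ : S9fTile, S9fMeet Good L' k₁ α β Tα ∧ S9fMeet Good L' k₁ α β Tβ ∧
        α ∈ Icc (s9f_lo Tα) (s9f_hi Tα) ∧ β ∈ Icc (s9f_lo Tβ) (s9f_hi Tβ) ∧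
        (s9f_graph (S9fMeet Good L' k₁ α β)).Reachable Tα Tβ := by
  induction N with
  | zero =>
    intro L' α β _ hαβ _ hlen _
    have := s9f_d_pos k₁
    exfalso
    push_cast at hlen
    linarith
  | succ N ih =>
    intro L' α β hα hαβ hβ hlen hL'
    push_cast at hlen
    obtain ⟨ℓ₁, ⟨x₁, hx₁, rfl⟩, hmin⟩ :=
      Int.exists_least_of_bdd (P := fun z => ∃ x ∈ Icc α β, ℓ x = z)
        ⟨L', by rintro z ⟨x, hx, rfl⟩; exact hL' x hx⟩ ⟨ℓ α, α, ⟨le_rfl, hαβ⟩, rfl⟩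
    have hmin' : ∀ x ∈ Icc α β, ℓ x₁ ≤ ℓ x := fun x hx => hmin _ ⟨x, hx, rfl⟩
    have hx₁' : x₁ ∈ Icc α₀ β₀ := ⟨hα.trans hx₁.1, hx₁.2.trans hβ⟩
    have loc := hloc x₁ hx₁'
    have hℓk := hk x₁ hx₁'
    have hd : s9f_d k₁ ≤ s9f_d (ℓ x₁) := s9f_d_anti hℓk
    have hdpos := s9f_d_pos k₁
    have hxa := hx₁.1
    have hxb := hx₁.2
    -- right half
    have hright : ∃ Tβ : S9fTile, S9fMeet Good (ℓ x₁) k₁ x₁ β Tβ ∧
        β ∈ Icc (s9f_lo Tβ) (s9f_hi Tβ) ∧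
        (s9f_graph (S9fMeet Good (ℓ x₁) k₁ x₁ β)).Reachable (s9f_over (ℓ x₁) x₁) Tβ := by
      by_cases hcase : β ≤ x₁ + 4 * s9f_d (ℓ x₁)
      · obtain ⟨_, h2, h3⟩ := s9f_reach_locrow hℓk loc (by linarith) hx₁.2 hcase
        exact ⟨_, h2, s9f_over_mem _ _, h3⟩
      · rw [not_le] at hcase
        obtain ⟨c, hc, hcol⟩ := loc.col (x₁ + 2 * s9f_d (ℓ x₁)) (by linarith) (by linarith)
        have hc1 := hc.1
        have hc2 := hc.2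
        have hcβ : c ≤ β := by linarith
        obtain ⟨T', Tβ, hT', hTβ, hcT', hβT, hreach⟩ := ih (ℓ x₁) c β (by linarith) hcβ hβ
          (by linarith) (fun x hx => hmin' x ⟨by linarith [hx.1], hx.2⟩)
        obtain ⟨_, _, h3⟩ := s9f_reach_locrow hℓk loc (u := x₁) (v := c) (by linarith)
          (by linarith) (by linarith)
        have h4 := s9f_reach_loccol hcol hT'.2.1 hT'.2.2.1
        have m1 : ∀ T, S9fMeet Good (ℓ x₁) k₁ x₁ c T → S9fMeet Good (ℓ x₁) k₁ x₁ β T :=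
          s9f_meet_mono le_rfl le_rfl hcβ
        have m2 : ∀ T, S9fMeet Good (ℓ x₁) k₁ c c T → S9fMeet Good (ℓ x₁) k₁ x₁ β T :=
          s9f_meet_mono le_rfl (by linarith) hcβ
        have m3 : ∀ T, S9fMeet Good (ℓ x₁) k₁ c β T → S9fMeet Good (ℓ x₁) k₁ x₁ β T :=
          s9f_meet_mono le_rfl (by linarith) le_rfl
        have h5 : (s9f_graph (S9fMeet Good (ℓ x₁) k₁ x₁ β)).Reachable (s9f_over T'.1 c) T' :=
          s9f_reach_of_touch (m2 _ (s9f_meet_over hcol hT'.2.1 hT'.2.2.1)) (m3 _ hT')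
            (s9f_touch_of_mem (c := c) (by simp [s9f_over]) (s9f_over_mem _ _) hcT')
        exact ⟨Tβ, m3 _ hTβ, hβT, ((h3.mono (s9f_graph_mono m1)).trans
          (h4.mono (s9f_graph_mono m2))).trans (h5.trans (hreach.mono (s9f_graph_mono m3)))⟩
    -- left half
    have hleft : ∃ Tα : S9fTile, S9fMeet Good (ℓ x₁) k₁ α x₁ Tα ∧
        α ∈ Icc (s9f_lo Tα) (s9f_hi Tα) ∧
        (s9f_graph (S9fMeet Good (ℓ x₁) k₁ α x₁)).Reachable Tα (s9f_over (ℓ x₁) x₁) := by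
      by_cases hcase : x₁ - 4 * s9f_d (ℓ x₁) ≤ α
      · obtain ⟨h1, _, h3⟩ := s9f_reach_locrow hℓk loc hcase hx₁.1 (by linarith)
        exact ⟨_, h1, s9f_over_mem _ _, h3⟩
      · rw [not_le] at hcase
        obtain ⟨c, hc, hcol⟩ := loc.col (x₁ - 4 * s9f_d (ℓ x₁)) (by linarith) (by linarith)
        have hc1 := hc.1
        have hc2 := hc.2
        have hcα : α ≤ c := by linarith
        obtain ⟨Tα, T', hTα, hT', hαT, hcT', hreach⟩ := ih (ℓ x₁) α c hα hcα (by linarith)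
          (by linarith) (fun x hx => hmin' x ⟨hx.1, by linarith [hx.2]⟩)
        obtain ⟨_, _, h3⟩ := s9f_reach_locrow hℓk loc (u := c) (v := x₁) (by linarith)
          (by linarith) (by linarith)
        have h4 := s9f_reach_loccol hcol hT'.2.1 hT'.2.2.1
        have m1 : ∀ T, S9fMeet Good (ℓ x₁) k₁ c x₁ T → S9fMeet Good (ℓ x₁) k₁ α x₁ T :=
          s9f_meet_mono le_rfl hcα le_rfl
        have m2 : ∀ T, S9fMeet Good (ℓ x₁) k₁ c c T → S9fMeet Good (ℓ x₁) k₁ α x₁ T :=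
          s9f_meet_mono le_rfl hcα (by linarith)
        have m3 : ∀ T, S9fMeet Good (ℓ x₁) k₁ α c T → S9fMeet Good (ℓ x₁) k₁ α x₁ T :=
          s9f_meet_mono le_rfl le_rfl (by linarith)
        have h5 : (s9f_graph (S9fMeet Good (ℓ x₁) k₁ α x₁)).Reachable T' (s9f_over T'.1 c) :=
          s9f_reach_of_touch (m3 _ hT') (m2 _ (s9f_meet_over hcol hT'.2.1 hT'.2.2.1))
            (s9f_touch_of_mem (c := c) (by simp [s9f_over]) hcT' (s9f_over_mem _ _))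
        exact ⟨Tα, m3 _ hTα, hαT, ((hreach.mono (s9f_graph_mono m3)).trans h5).trans
          ((h4.symm.mono (s9f_graph_mono m2)).trans (h3.mono (s9f_graph_mono m1)))⟩
    obtain ⟨Tβ, hTβ, hβT, hr⟩ := hright
    obtain ⟨Tα, hTα, hαT, hl⟩ := hleft
    have hLx : L' ≤ ℓ x₁ := hL' x₁ hx₁
    have mr : ∀ T, S9fMeet Good (ℓ x₁) k₁ x₁ β T → S9fMeet Good L' k₁ α β T :=
      s9f_meet_mono hLx hxa le_rfl
    have ml : ∀ T, S9fMeet Good (ℓ x₁) k₁ α x₁ T → S9fMeet Good L' k₁ α β T :=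
      s9f_meet_mono hLx le_rfl hxb
    exact ⟨Tα, Tβ, ml _ hTα, mr _ hTβ, hαT, hβT,
      (hl.mono (s9f_graph_mono ml)).trans (hr.mono (s9f_graph_mono mr))⟩

/-- LEAF: if every `x ∈ [α₀, β₀]` has local data at some layer in `[L, k₁]`, then good tiles of the layers `[L, k₁]` connect `α` to `β`. -/
theorem s9f_crossing (Good : S9fTile → Prop) (L k₁ : ℤ) (α₀ β₀ : ℝ)
    (hloc : ∀ x ∈ Icc α₀ β₀, ∃ ℓ : ℤ, L ≤ ℓ ∧ ℓ ≤ k₁ ∧ S9fLoc Good k₁ x ℓ)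
    (α β : ℝ) (hα : α₀ ≤ α) (hαβ : α ≤ β) (hβ : β ≤ β₀) :
    ∃ Tα Tβ : S9fTile, S9fBand Good L k₁ α β Tα ∧ S9fBand Good L k₁ α β Tβ ∧
      α ∈ Icc (s9f_lo Tα) (s9f_hi Tα) ∧ β ∈ Icc (s9f_lo Tβ) (s9f_hi Tβ) ∧
      (s9f_graph (S9fBand Good L k₁ α β)).Reachable Tα Tβ := by
  classical
  choose! ℓ hℓ using hloc
  have hdpos := s9f_d_pos k₁
  obtain ⟨N, hN⟩ := exists_nat_ge ((β - α) / (2 * s9f_d k₁) + 1)
  have hlen : β - α ≤ N * (2 * s9f_d k₁) - 2 * s9f_d k₁ := by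
    have h1 : (β - α) / (2 * s9f_d k₁) ≤ N - 1 := by linarith
    rw [div_le_iff₀ (by positivity)] at h1
    linarith
  obtain ⟨Tα, Tβ, h1, h2, h3, h4, h5⟩ := s9f_crossing_aux Good k₁ α₀ β₀ ℓ
    (fun x hx => (hℓ x hx).2.1) (fun x hx => (hℓ x hx).2.2) N L α β hα hαβ hβ hlen
    (fun x hx => (hℓ x ⟨hα.trans hx.1, hx.2.trans hβ⟩).1)
  exact ⟨Tα, Tβ, s9f_meet_band _ h1, s9f_meet_band _ h2, h3, h4,
    h5.mono (s9f_graph_mono s9f_meet_band)⟩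

end Claimed.Agent.R269
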