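/-
Row 269, mesh package (P1 Thm 9.11).  LEAF FILE `LF-S9f-frame` (glue, pure combinatorics).   Blueprint: helper149.

The closed chain of good tiles around the window: bottom crossing, right column, lid crossing, left column.

PROOF SKETCH.  `hR` with `S9fLoc.col` at `y = 7/4 - d ℓ` gives `cR ∈ [7/4 - 1/100, 7/4 + 1/100]` whose column `s9f_over k cR` is good for `Lb ≤ k ≤ k₁` (as `ℓ ≤ Lb`); likewise `cL` near `-7/4`.
`s9f_crossing` on `[cL, cR] ⊆ [-2,2]` with `(L, k₁) := (Lb, kb)` (bottom) and `(Lt, k₁)` (lid) + `s9f_chain_of_reachable`: injective chains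
  bottom: `Bα ∋ cL` ... `Bβ ∋ cR` in layers `[Lb, kb]`,     lid: `Dα ∋ cL` ... `Dβ ∋ cR` in layers `[Lt, k₁]`,
all with projections in `[cL - 5 d Lb, cR + 5 d Lb] ⊆ [-2, 2]`.
Closed chain `τ`:  `Bα → ... → Bβ` (indices `0..m₁`), then `s9f_over k cR` for `k = Bβ.1, ..., Dβ.1` (`Bβ.1 ≤ kb ≤ Lt ≤ Dβ.1`), then `Dβ` (index `m₂`), the lid chain backwards to `Dα` (index `m₃`),
then `s9f_over k cL` for `k = Dα.1, ..., Bα.1` downwards, then `Bα` (index `n`).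
Touching: two tiles of the same layer or of adjacent layers whose projections contain a common abscissa touch.
A tile whose projection contains `cR ≥ 1.74` has `lo ≥ cR - ρ ≥ 3/2`.
Sum: `s9f_sum_rho_le` with `x₁ - x₀ = 4` for the two crossings (`≤ 4 (kb - Lb + 1) + 4 (k₁ - Lt + 1) ≤ 8 (k₁ - Lb + 1)`), and a column contributes
`∑_{k=i}^{j} ρ k = d i - d (j+1) ≤ d Lb ≤ 1/100`.
-/
import Claimed.Agent.R269.S9.MeshCross
import Claimed.Agent.R269.S9.MeshChain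

set_option autoImplicit false

namespace Claimed.Agent.R269

open Set Metric

/-- gluing four finite sequences and a last point. -/
theorem s9f_glue4 {X : Type*} (a b c e : ℕ) (τA τB τC τD : ℕ → X) (Z : X) :
    ∃ τ : ℕ → X, (∀ i ≤ a, τ i = τA i) ∧ (∀ j ≤ b, τ (a + 1 + j) = τB j) ∧
      (∀ j ≤ c, τ (a + b + 2 + j) = τC j) ∧ (∀ j ≤ e, τ (a + b + c + 3 + j) = τD j) ∧
      τ (a + b + c + e + 4) = Z := by
  refine ⟨fun i => if i ≤ a then τA i else if i ≤ a + b + 1 then τB (i - (a + 1))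
    else if i ≤ a + b + c + 2 then τC (i - (a + b + 2))
    else if i ≤ a + b + c + e + 3 then τD (i - (a + b + c + 3)) else Z, ?_, ?_, ?_, ?_, ?_⟩
  · intro i hi; simp only [hi, if_true]
  · intro j hj
    have h1 : ¬ (a + 1 + j ≤ a) := by omega
    have h2 : a + 1 + j ≤ a + b + 1 := by omega
    simp only [h1, h2, if_true, if_false]
    congr 1; omega
  · intro j hj
    have h1 : ¬ (a + b + 2 + j ≤ a) := by omega
    have h2 : ¬ (a + b + 2 + j ≤ a + b + 1) := by omega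
    have h3 : a + b + 2 + j ≤ a + b + c + 2 := by omega
    simp only [h1, h2, h3, if_true, if_false]
    congr 1; omega
  · intro j hj
    have h1 : ¬ (a + b + c + 3 + j ≤ a) := by omega
    have h2 : ¬ (a + b + c + 3 + j ≤ a + b + 1) := by omega
    have h3 : ¬ (a + b + c + 3 + j ≤ a + b + c + 2) := by omega
    have h4 : a + b + c + 3 + j ≤ a + b + c + e + 3 := by omega
    simp only [h1, h2, h3, h4, if_true, if_false]
    congr 1; omega
  · have h1 : ¬ (a + b + c + e + 4 ≤ a) := by omega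
    have h2 : ¬ (a + b + c + e + 4 ≤ a + b + 1) := by omega
    have h3 : ¬ (a + b + c + e + 4 ≤ a + b + c + 2) := by omega
    have h4 : ¬ (a + b + c + e + 4 ≤ a + b + c + e + 3) := by omega
    simp only [h1, h2, h3, h4, if_false]

theorem s9f_glue4_cases (a b c e i : ℕ) (hi : i ≤ a + b + c + e + 4) :
    i ≤ a ∨ (∃ j ≤ b, i = a + 1 + j) ∨ (∃ j ≤ c, i = a + b + 2 + j) ∨
      (∃ j ≤ e, i = a + b + c + 3 + j) ∨ i = a + b + c + e + 4 := by
  by_cases h1 : i ≤ a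
  · exact Or.inl h1
  by_cases h2 : i ≤ a + b + 1
  · exact Or.inr (Or.inl ⟨i - (a + 1), by omega, by omega⟩)
  by_cases h3 : i ≤ a + b + c + 2
  · exact Or.inr (Or.inr (Or.inl ⟨i - (a + b + 2), by omega, by omega⟩))
  by_cases h4 : i ≤ a + b + c + e + 3
  · exact Or.inr (Or.inr (Or.inr (Or.inl ⟨i - (a + b + c + 3), by omega, by omega⟩)))
  · exact Or.inr (Or.inr (Or.inr (Or.inr (by omega))))

theorem s9f_glue4_sum {X : Type*} (a b c e : ℕ) (τ τA τB τC τD : ℕ → X)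
    (hA : ∀ i ≤ a, τ i = τA i) (hB : ∀ j ≤ b, τ (a + 1 + j) = τB j)
    (hC : ∀ j ≤ c, τ (a + b + 2 + j) = τC j) (hD : ∀ j ≤ e, τ (a + b + c + 3 + j) = τD j)
    (f : X → ℝ) :
    ∑ i ∈ Finset.range (a + b + c + e + 4), f (τ i) =
      ∑ i ∈ Finset.range (a + 1), f (τA i) + ∑ j ∈ Finset.range (b + 1), f (τB j) +
        ∑ j ∈ Finset.range (c + 1), f (τC j) + ∑ j ∈ Finset.range (e + 1), f (τD j) := by
  have hn : a + b + c + e + 4 = (a + 1) + (b + 1) + (c + 1) + (e + 1) := by omega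
  rw [hn, Finset.sum_range_add, Finset.sum_range_add, Finset.sum_range_add]
  have lt_le : ∀ {m j : ℕ}, j ∈ Finset.range (m + 1) → j ≤ m := fun h =>
    Nat.lt_succ_iff.mp (Finset.mem_range.mp h)
  congr 1
  · congr 1
    · congr 1
      · exact Finset.sum_congr rfl (fun i hi => by rw [hA i (lt_le hi)])
      · exact Finset.sum_congr rfl (fun j hj => by rw [hB j (lt_le hj)])
    · refine Finset.sum_congr rfl (fun j hj => ?_)
      rw [← hC j (lt_le hj)]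
      congr 2; omega
  · refine Finset.sum_congr rfl (fun j hj => ?_)
    rw [← hD j (lt_le hj)]
    congr 2; omega

theorem s9f_near_of_mem {T : S9fTile} {c : ℝ} {Lc : ℤ} (hs : s9f_d Lc ≤ 1 / 100) (hL : Lc ≤ T.1)
    (hc : c ∈ Icc (s9f_lo T) (s9f_hi T)) : c - 1 / 100 ≤ s9f_lo T ∧ s9f_hi T ≤ c + 1 / 100 := by
  have hw := s9f_hi_sub_lo T
  have hr : s9f_rho T.1 ≤ s9f_rho Lc := s9f_rho_anti hL
  have hd := s9f_d_pos Lc
  have hrd : s9f_rho Lc = s9f_d Lc / 401 := rfl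
  have h1 := hc.1
  have h2 := hc.2
  constructor <;> linarith

theorem s9f_sum_rho_up (k : ℤ) (m : ℕ) :
    ∑ j ∈ Finset.range m, s9f_rho (k + (j : ℤ)) = s9f_d k - s9f_d (k + (m : ℤ)) := by
  induction m with
  | zero => simp
  | succ m ih =>
    rw [Finset.sum_range_succ, ih, ← s9f_d_sub]
    push_cast
    rw [add_assoc]
    ring

theorem s9f_sum_rho_down (k : ℤ) (m : ℕ) :
    ∑ j ∈ Finset.range m, s9f_rho (k - (j : ℤ)) = s9f_d (k - (m : ℤ) + 1) - s9f_d (k + 1) := by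
  induction m with
  | zero => simp
  | succ m ih =>
    rw [Finset.sum_range_succ, ih, ← s9f_d_sub]
    push_cast
    rw [show k - ((m : ℤ) + 1) + 1 = k - (m : ℤ) by ring]
    ring

/-- LEAF (glue): the frame. -/
theorem s9f_frame (Good : S9fTile → Prop) (Lc Lb kb Lt k₁ : ℤ)
    (h1 : Lc ≤ Lb) (h2 : Lb ≤ kb) (h3 : kb ≤ Lt) (h4 : Lt ≤ k₁) (hsmall : s9f_d Lc ≤ 1 / 100)
    (hbot : ∀ x ∈ Icc (-2 : ℝ) 2, ∃ ℓ : ℤ, Lb ≤ ℓ ∧ ℓ ≤ kb ∧ S9fLoc Good kb x ℓ)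
    (hlid : ∀ x ∈ Icc (-2 : ℝ) 2, ∃ ℓ : ℤ, Lt ≤ ℓ ∧ ℓ ≤ k₁ ∧ S9fLoc Good k₁ x ℓ)
    (hL : ∃ ℓ : ℤ, Lc ≤ ℓ ∧ ℓ ≤ Lb ∧ S9fLoc Good k₁ (-7 / 4) ℓ)
    (hR : ∃ ℓ : ℤ, Lc ≤ ℓ ∧ ℓ ≤ Lb ∧ S9fLoc Good k₁ (7 / 4) ℓ) :
    ∃ (n m₁ m₂ m₃ : ℕ) (τ : ℕ → S9fTile), 0 < n ∧ m₁ ≤ m₂ ∧ m₂ ≤ m₃ ∧ m₃ ≤ n ∧ τ n = τ 0 ∧
      (∀ i < n, s9f_touch (τ i) (τ (i + 1))) ∧
      (∀ i ≤ n, Good (τ i) ∧ Lb ≤ (τ i).1 ∧ (τ i).1 ≤ k₁ ∧ -2 ≤ s9f_lo (τ i) ∧ s9f_hi (τ i) ≤ 2) ∧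
      (∀ i, i ≤ m₁ → (τ i).1 ≤ kb) ∧
      (∀ i, m₁ ≤ i → i ≤ m₂ → 3 / 2 ≤ s9f_lo (τ i)) ∧
      (∀ i, m₂ ≤ i → i ≤ m₃ → Lt ≤ (τ i).1) ∧
      (∀ i, m₃ ≤ i → i ≤ n → s9f_hi (τ i) ≤ -3 / 2) ∧
      ∑ i ∈ Finset.range n, s9f_rho (τ i).1 ≤ 10 * ((k₁ - Lb + 1 : ℤ) : ℝ) := by
  obtain ⟨ℓR, hR1, hR2, locR⟩ := hR
  obtain ⟨ℓL, hL1, hL2, locL⟩ := hL
  have hdR : s9f_d ℓR ≤ 1 / 100 := (s9f_d_anti hR1).trans hsmall
  have hdL : s9f_d ℓL ≤ 1 / 100 := (s9f_d_anti hL1).trans hsmall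
  have hdRpos := s9f_d_pos ℓR
  have hdLpos := s9f_d_pos ℓL
  have hdLb : s9f_d Lb ≤ 1 / 100 := (s9f_d_anti h1).trans hsmall
  have hdLt : s9f_d Lt ≤ 1 / 100 := (s9f_d_anti (h1.trans (h2.trans h3))).trans hsmall
  obtain ⟨cR, hcR, colR⟩ := locR.col (7 / 4 - s9f_d ℓR) (by linarith) (by linarith)
  obtain ⟨cL, hcL, colL⟩ := locL.col (-7 / 4 - s9f_d ℓL) (by linarith) (by linarith)
  have hcR1 : 7 / 4 - 1 / 100 ≤ cR := by linarith [hcR.1]
  have hcR2 : cR ≤ 7 / 4 + 1 / 100 := by linarith [hcR.2]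
  have hcL1 : -7 / 4 - 1 / 100 ≤ cL := by linarith [hcL.1]
  have hcL2 : cL ≤ -7 / 4 + 1 / 100 := by linarith [hcL.2]
  obtain ⟨Bα, Bβ, hBα, hBβ, hcBα, hcBβ, hBreach⟩ := s9f_crossing Good Lb kb (-2) 2 hbot cL cR
    (by linarith) (by linarith) (by linarith)
  obtain ⟨Dα, Dβ, hDα, hDβ, hcDα, hcDβ, hDreach⟩ := s9f_crossing Good Lt k₁ (-2) 2 hlid cL cR
    (by linarith) (by linarith) (by linarith)
  obtain ⟨a, τA, chA⟩ := s9f_chain_of_reachable _ _ _ hBα hBreach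
  obtain ⟨c, τC, chC⟩ := s9f_chain_of_reachable _ _ _ hDβ hDreach.symm
  have lBα1 := hBα.2.1
  have lBα2 := hBα.2.2.1
  have lBβ1 := hBβ.2.1
  have lBβ2 := hBβ.2.2.1
  have lDα1 := hDα.2.1
  have lDα2 := hDα.2.2.1
  have lDβ1 := hDβ.2.1
  have lDβ2 := hDβ.2.2.1
  obtain ⟨b, hb⟩ := Int.eq_ofNat_of_zero_le (show 0 ≤ Dβ.1 - Bβ.1 by omega)
  obtain ⟨e, he⟩ := Int.eq_ofNat_of_zero_le (show 0 ≤ Dα.1 - Bα.1 by omega)
  obtain ⟨τ, hτA, hτB0, hτC, hτD0, hτZ⟩ := s9f_glue4 a b c e τA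
    (fun j => s9f_over (Bβ.1 + (j : ℤ)) cR) τC (fun j => s9f_over (Dα.1 - (j : ℤ)) cL) Bα
  have hτB : ∀ j ≤ b, τ (a + 1 + j) = s9f_over (Bβ.1 + (j : ℤ)) cR := hτB0
  have hτD : ∀ j ≤ e, τ (a + b + c + 3 + j) = s9f_over (Dα.1 - (j : ℤ)) cL := hτD0
  -- facts on the pieces
  have baseA : ∀ T, S9fBand Good Lb kb cL cR T →
      Good T ∧ Lb ≤ T.1 ∧ T.1 ≤ k₁ ∧ -2 ≤ s9f_lo T ∧ s9f_hi T ≤ 2 := by
    rintro T ⟨g1, g2, g3, g4, g5⟩
    exact ⟨g1, g2, by omega, by linarith, by linarith⟩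
  have baseC : ∀ T, S9fBand Good Lt k₁ cL cR T →
      Good T ∧ Lb ≤ T.1 ∧ T.1 ≤ k₁ ∧ -2 ≤ s9f_lo T ∧ s9f_hi T ≤ 2 := by
    rintro T ⟨g1, g2, g3, g4, g5⟩
    exact ⟨g1, by omega, g3, by linarith, by linarith⟩
  have baseB : ∀ k : ℤ, Lb ≤ k → k ≤ k₁ →
      Good (s9f_over k cR) ∧ Lb ≤ (s9f_over k cR).1 ∧ (s9f_over k cR).1 ≤ k₁ ∧
        -2 ≤ s9f_lo (s9f_over k cR) ∧ s9f_hi (s9f_over k cR) ≤ 2 := by
    intro k g1 g2
    have := s9f_near_of_mem (T := s9f_over k cR) hsmall (h1.trans g1) (s9f_over_mem k cR)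
    exact ⟨colR k (by omega) g2, g1, g2, by linarith [this.1], by linarith [this.2]⟩
  have baseD : ∀ k : ℤ, Lb ≤ k → k ≤ k₁ →
      Good (s9f_over k cL) ∧ Lb ≤ (s9f_over k cL).1 ∧ (s9f_over k cL).1 ≤ k₁ ∧
        -2 ≤ s9f_lo (s9f_over k cL) ∧ s9f_hi (s9f_over k cL) ≤ 2 := by
    intro k g1 g2
    have := s9f_near_of_mem (T := s9f_over k cL) hsmall (h1.trans g1) (s9f_over_mem k cL)
    exact ⟨colL k (by omega) g2, g1, g2, by linarith [this.1], by linarith [this.2]⟩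
  have nearR : ∀ T : S9fTile, Lb ≤ T.1 → cR ∈ Icc (s9f_lo T) (s9f_hi T) → 3 / 2 ≤ s9f_lo T := by
    intro T g1 g2
    have := s9f_near_of_mem hsmall (h1.trans g1) g2
    linarith [this.1]
  have nearL : ∀ T : S9fTile, Lb ≤ T.1 → cL ∈ Icc (s9f_lo T) (s9f_hi T) → s9f_hi T ≤ -3 / 2 := by
    intro T g1 g2
    have := s9f_near_of_mem hsmall (h1.trans g1) g2
    linarith [this.2]
  have all : ∀ i ≤ a + b + c + e + 4,
      (Good (τ i) ∧ Lb ≤ (τ i).1 ∧ (τ i).1 ≤ k₁ ∧ -2 ≤ s9f_lo (τ i) ∧ s9f_hi (τ i) ≤ 2) ∧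
      (i ≤ a → (τ i).1 ≤ kb) ∧ (a ≤ i → i ≤ a + b + 2 → 3 / 2 ≤ s9f_lo (τ i)) ∧
      (a + b + 2 ≤ i → i ≤ a + b + c + 2 → Lt ≤ (τ i).1) ∧
      (a + b + c + 2 ≤ i → i ≤ a + b + c + e + 4 → s9f_hi (τ i) ≤ -3 / 2) := by
    intro i hi
    rcases s9f_glue4_cases a b c e i hi with hA | ⟨j, hj, rfl⟩ | ⟨j, hj, rfl⟩ | ⟨j, hj, rfl⟩ | rfl
    · rw [hτA i hA]
      refine ⟨baseA _ (chA.mem i hA), fun _ => (chA.mem i hA).2.2.1, fun g _ => ?_,
        fun g _ => by omega, fun g _ => by omega⟩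
      have : i = a := le_antisymm hA g
      rw [this, chA.last]
      exact nearR _ lBβ1 hcBβ
    · rw [hτB j hj]
      refine ⟨baseB _ (by omega) (by omega), fun g => by omega, fun _ _ => ?_,
        fun g _ => by omega, fun g _ => by omega⟩
      exact nearR _ (show Lb ≤ Bβ.1 + (j : ℤ) by omega) (s9f_over_mem _ _)
    · rw [hτC j hj]
      refine ⟨baseC _ (chC.mem j hj), fun g => by omega, fun _ g => ?_,
        fun _ _ => (chC.mem j hj).2.1, fun g _ => ?_⟩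
      · have : j = 0 := by omega
        rw [this, chC.head]
        exact nearR _ (by omega) hcDβ
      · have : j = c := by omega
        rw [this, chC.last]
        exact nearL _ (by omega) hcDα
    · rw [hτD j hj]
      refine ⟨baseD _ (by omega) (by omega), fun g => by omega, fun _ g => by omega,
        fun _ g => by omega, fun _ _ => ?_⟩
      exact nearL _ (show Lb ≤ Dα.1 - (j : ℤ) by omega) (s9f_over_mem _ _)
    · rw [hτZ]
      refine ⟨baseA _ hBα, fun g => by omega, fun _ g => by omega,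
        fun _ g => by omega, fun _ _ => ?_⟩
      exact nearL _ lBα1 hcBα
  refine ⟨a + b + c + e + 4, a, a + b + 2, a + b + c + 2, τ, by omega, by omega, by omega,
    by omega, ?_, ?_, fun i hi => (all i hi).1, fun i hi => (all i (by omega)).2.1 hi,
    fun i g1 g2 => (all i (by omega)).2.2.1 g1 g2,
    fun i g1 g2 => (all i (by omega)).2.2.2.1 g1 g2,
    fun i g1 g2 => (all i g2).2.2.2.2 g1 g2, ?_⟩
  · rw [hτZ, hτA 0 (Nat.zero_le _), chA.head]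
  · intro i hi
    rcases s9f_glue4_cases a b c e i hi.le with hA | ⟨j, hj, rfl⟩ | ⟨j, hj, rfl⟩ | ⟨j, hj, rfl⟩ | rfl
    · rcases Nat.lt_or_ge i a with g | g
      · rw [hτA i hA, hτA (i + 1) g]
        exact chA.touch i g
      · have : i = a := le_antisymm hA g
        subst this
        rw [hτA i hA, chA.last, show i + 1 = i + 1 + 0 by omega, hτB 0 (Nat.zero_le _)]
        exact s9f_touch_of_mem (c := cR) (by simp [s9f_over]) hcBβ (s9f_over_mem _ _)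
    · rcases Nat.lt_or_ge j b with g | g
      · rw [hτB j hj, show a + 1 + j + 1 = a + 1 + (j + 1) by omega, hτB (j + 1) g]
        refine s9f_touch_of_mem (c := cR) ?_ (s9f_over_mem _ _) (s9f_over_mem _ _)
        simp only [s9f_over]
        push_cast
        rw [abs_le]; constructor <;> omega
      · have : j = b := le_antisymm hj g
        subst this
        rw [hτB j hj, show a + 1 + j + 1 = a + j + 2 + 0 by omega, hτC 0 (Nat.zero_le _),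
          chC.head]
        refine s9f_touch_of_mem (c := cR) ?_ (s9f_over_mem _ _) hcDβ
        simp only [s9f_over]
        rw [abs_le]; constructor <;> omega
    · rcases Nat.lt_or_ge j c with g | g
      · rw [hτC j hj, show a + b + 2 + j + 1 = a + b + 2 + (j + 1) by omega, hτC (j + 1) g]
        exact chC.touch j g
      · have : j = c := le_antisymm hj g
        subst this
        rw [hτC j hj, chC.last, show a + b + 2 + j + 1 = a + b + j + 3 + 0 by omega,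
          hτD 0 (Nat.zero_le _)]
        exact s9f_touch_of_mem (c := cL) (by simp [s9f_over]) hcDα (s9f_over_mem _ _)
    · rcases Nat.lt_or_ge j e with g | g
      · rw [hτD j hj, show a + b + c + 3 + j + 1 = a + b + c + 3 + (j + 1) by omega,
          hτD (j + 1) g]
        refine s9f_touch_of_mem (c := cL) ?_ (s9f_over_mem _ _) (s9f_over_mem _ _)
        simp only [s9f_over]
        push_cast
        rw [abs_le]; constructor <;> omega
      · have : j = e := le_antisymm hj g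
        subst this
        rw [hτD j hj, show a + b + c + 3 + j + 1 = a + b + c + j + 4 by omega, hτZ]
        refine s9f_touch_of_mem (c := cL) ?_ (s9f_over_mem _ _) hcBα
        simp only [s9f_over]
        rw [abs_le]; constructor <;> omega
    · omega
  · rw [s9f_glue4_sum a b c e τ τA _ τC _ hτA hτB hτC hτD (fun T => s9f_rho T.1)]
    have SA := s9f_sum_rho_le Lb kb (-2) 2 a τA chA.inj (fun i hi =>
      ⟨(chA.mem i hi).2.1, (chA.mem i hi).2.2.1, (baseA _ (chA.mem i hi)).2.2.2.1,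
        (baseA _ (chA.mem i hi)).2.2.2.2⟩)
    have SC := s9f_sum_rho_le Lt k₁ (-2) 2 c τC chC.inj (fun i hi =>
      ⟨(chC.mem i hi).2.1, (chC.mem i hi).2.2.1, (baseC _ (chC.mem i hi)).2.2.2.1,
        (baseC _ (chC.mem i hi)).2.2.2.2⟩)
    have SB : ∑ j ∈ Finset.range (b + 1), s9f_rho (s9f_over (Bβ.1 + (j : ℤ)) cR).1 ≤ 1 / 100 := by
      have := s9f_sum_rho_up Bβ.1 (b + 1)
      have e1 : ∑ j ∈ Finset.range (b + 1), s9f_rho (s9f_over (Bβ.1 + (j : ℤ)) cR).1 =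
          ∑ j ∈ Finset.range (b + 1), s9f_rho (Bβ.1 + (j : ℤ)) := rfl
      rw [e1, this]
      have p1 := s9f_d_pos (Bβ.1 + ((b + 1 : ℕ) : ℤ))
      have p2 : s9f_d Bβ.1 ≤ s9f_d Lb := s9f_d_anti lBβ1
      linarith
    have SD : ∑ j ∈ Finset.range (e + 1), s9f_rho (s9f_over (Dα.1 - (j : ℤ)) cL).1 ≤ 1 / 100 := by
      have := s9f_sum_rho_down Dα.1 (e + 1)
      have e1 : ∑ j ∈ Finset.range (e + 1), s9f_rho (s9f_over (Dα.1 - (j : ℤ)) cL).1 =
          ∑ j ∈ Finset.range (e + 1), s9f_rho (Dα.1 - (j : ℤ)) := rfl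
      rw [e1, this]
      have p1 := s9f_d_pos (Dα.1 + 1)
      have p2 : s9f_d (Dα.1 - ((e + 1 : ℕ) : ℤ) + 1) ≤ s9f_d Lb :=
        s9f_d_anti (by push_cast; omega)
      linarith
    have c1 : (kb : ℝ) ≤ (Lt : ℝ) := by exact_mod_cast h3
    have c2 : (Lb : ℝ) ≤ (kb : ℝ) := by exact_mod_cast h2
    have c3 : (Lt : ℝ) ≤ (k₁ : ℝ) := by exact_mod_cast h4
    push_cast at SA SC ⊢
    linarith

end Claimed.Agent.R269
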