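/-
Row 269, mesh package (P1 Thm 9.11).  FILE `LF-S9g-stage` (glue: parameter bookkeeping).   Blueprint + owner: helper149.

One stage: for every large `u` a closed chain of good tiles surrounds the window `[-1,1] × {e^{-v} : u ≤ v ≤ (1+κ)u}` and `G₀ - c F` is tiny inside.

PARAMETERS.  `(C₁, M₁)` from `s9f_loc_of_witness A`, `Ch` from `s9g_chain_estimate`.  `κ = 1/(2000 Ch C₁)`, `ε = κ`.
`V₀ ≥ 0` beyond the thresholds of `upper κ`, `wit κ`.   For `u ≥ u₀`: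
  scales   `v_c = (1-6κ)u` (columns), `v_b = (1-3κ)u` (bottom), `v_t = (1+κ)(1+3κ)u` (lid);
  a witness of scale `v` has `e^{-(1+κ)v} ≤ δ ≤ e^{-(1-κ)v}`, and a layer `ℓ` with `δ/4 ≤ d ℓ ≤ δ/2` exists;
  layers   `y < d L ≤ (401/400) y` for `L = Lc, Lb, Lt` with `y = e^{-(1-κ)v}/2`, `v = v_c, v_b, v_t`;   `(400/401) y < d k ≤ y` for `k = kb, k₁` with `y = e^{-(1+κ)v}/4`, `v = v_b, v_t`;
  `τ = d (k₁+1)/4`, `M = (λ+κ)(-log τ)`, `H = 17 C₁ κ λ u`, `η = e^{-(1+κ)u}/4`, `S = 10 (k₁ - Lb + 1)`.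
CHECKS (all for `u` large).
  (a) `d Lb ≤ e^{-(1+κ)v_c}/4`  [`(1-κ)(1-3κ) - (1+κ)(1-6κ) = κ + 9κ² > 0`], so column layers are `≤ Lb`; `d Lc ≤ 1/100`.
  (b) `d Lt ≤ d kb`  [`(1-κ)v_t ≥ (1+κ)u > (1+κ)v_b`].
  (c) `‖F (x' - iδ')‖ ≤ e^{(λ+κ)(-log δ')} ≤ e^M` for `|x'| ≤ 5`, `τ ≤ δ' ≤ e^{-V₀}`.
  (d) `-log τ ≤ (1+κ)v_t + 3 ≤ (1+6κ)u + 3`, `U := M - (λ-κ)v ≤ M - (λ-κ)v_c ≤ (12κλ + 2κ)u + 3(λ+κ) ≤ 17κλu`.
  (e) rectangles of the witnesses: `(A + M₁) e^{-(1-κ)v_c} ≤ min 3 e^{-V₀}`.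
  (f) geometry: bottom tiles: `396.5 ρ k ≥ (396.5/401) d kb ≥ 2 e^{-u}`; lid tiles: `404.5 ρ k ≤ (404.5/401) d Lt ≤ 0.51 e^{-(1+κ)u}`; side tiles: `lo ≥ 3/2`, `ρ ≤ 1/100`.
  (g) balls `ball ctr (100ρ)`: depths in `[300 ρ k₁, 501 ρ Lb] ⊆ [τ, e^{-V₀}]`, abscissae in `[-5,5]`.
  (h) `M ≥ λ u`, `2 Ch H = 0.017 λ u`, `k₁ ≤ 401 (2u + 2)`; `‖G₀ - cF‖⁴ ≤ 4 e^{(1+κ)u} 16⁵ S⁵ e^{-3.93 λ u} ≤ e^{-2λu}`.
-/
import Claimed.Agent.R269.S9.MeshLoc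
import Claimed.Agent.R269.S9.MeshFrame
import Claimed.Agent.R269.S9.MeshChainEst

set_option autoImplicit false

namespace Claimed.Agent.R269

open Set Metric

/-! ### layers -/

theorem s9g_layer_both {y : ℝ} (hy : 0 < y) : ∃ n : ℤ, s9f_d (-n) ≤ y ∧ y < s9f_d (-(n + 1)) := by
  obtain ⟨n, hn1, hn2⟩ := exists_mem_Ico_zpow (y := (401 / 400 : ℝ)) hy (by norm_num)
  refine ⟨n, ?_, ?_⟩
  · unfold s9f_d; rw [neg_neg]; exact hn1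
  · unfold s9f_d; rw [neg_neg]; exact hn2

theorem s9g_layer_above {y : ℝ} (hy : 0 < y) : ∃ L : ℤ, y < s9f_d L ∧ s9f_d L ≤ 401 / 400 * y := by
  obtain ⟨n, h1, h2⟩ := s9g_layer_both hy
  refine ⟨-(n + 1), h2, ?_⟩
  have := s9f_d_succ (-(n + 1))
  rw [show -(n + 1) + 1 = -n by ring] at this
  rw [this] at h1
  linarith

theorem s9g_layer_below {y : ℝ} (hy : 0 < y) : ∃ k : ℤ, 400 / 401 * y < s9f_d k ∧ s9f_d k ≤ y := by
  obtain ⟨n, h1, h2⟩ := s9g_layer_both hy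
  refine ⟨-n, ?_, h1⟩
  have := s9f_d_succ (-(n + 1))
  rw [show -(n + 1) + 1 = -n by ring] at this
  rw [this]
  linarith

theorem s9g_le_of_d_le {a b : ℤ} (h : s9f_d a ≤ s9f_d b) : b ≤ a := by
  by_contra hcon
  have h1 : a + 1 ≤ b := by omega
  have h2 := s9f_d_anti h1
  rw [s9f_d_succ] at h2
  have := s9f_d_pos a
  linarith

theorem s9g_d_zero : s9f_d 0 = 1 := by simp [s9f_d]

/-- a layer whose depth is at least `e^{-t}` has index at most `401 t`. -/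
theorem s9g_layer_le {k : ℤ} {t : ℝ} (ht : 0 ≤ t) (h : Real.exp (-t) ≤ s9f_d k) :
    (k : ℝ) ≤ 401 * t := by
  have h1 : -t ≤ Real.log (s9f_d k) := (Real.le_log_iff_exp_le (s9f_d_pos k)).mpr h
  have h2 : Real.log (s9f_d k) = ((-k : ℤ) : ℝ) * Real.log (401 / 400) := by
    unfold s9f_d; rw [Real.log_zpow]
  rw [h2] at h1
  push_cast at h1
  have h3 : 1 / 401 ≤ Real.log (401 / 400) := by
    have := Real.one_sub_inv_le_log_of_pos (show (0 : ℝ) < 401 / 400 by norm_num)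
    norm_num at this ⊢
    linarith
  rcases le_total (k : ℝ) 0 with hk | hk
  · linarith
  · nlinarith

theorem s9g_exp_gap1 {a b : ℝ} (h : b + 1 ≤ a) :
    Real.exp (-a) ≤ 37 / 100 * Real.exp (-b) := by
  have h1 : Real.exp (-a) ≤ Real.exp (-b + -1) := Real.exp_le_exp.mpr (by linarith)
  rw [Real.exp_add] at h1
  have h2 := Real.exp_neg_one_lt_d9
  have h3 := Real.exp_pos (-b)
  nlinarith

theorem s9g_exp_gap2 {a b : ℝ} (h : b + 2 ≤ a) :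
    Real.exp (-a) ≤ 14 / 100 * Real.exp (-b) := by
  have h1 : Real.exp (-a) ≤ 37 / 100 * Real.exp (-(b + 1)) := s9g_exp_gap1 (by linarith)
  have h2 : Real.exp (-(b + 1)) ≤ 37 / 100 * Real.exp (-b) := s9g_exp_gap1 le_rfl
  have h3 := Real.exp_pos (-b)
  linarith

theorem s9g_exp_gap0 {a b : ℝ} (h : b ≤ a) : Real.exp (-a) ≤ Real.exp (-b) :=
  Real.exp_le_exp.mpr (by linarith)

/-- the upper bound on a box, from the upper bound at every scale. -/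
theorem s9g_upper_box {F : ℂ → ℂ} {μ V₀ τ : ℝ} (hμ : 0 ≤ μ) (hτ : 0 < τ)
    (hup : ∀ v ≥ V₀, ∀ x ∈ Icc (-5 : ℝ) 5,
      ‖F (s9f_pt x (Real.exp (-v)))‖ ≤ Real.exp (μ * v)) :
    ∀ x' δ' : ℝ, |x'| ≤ 5 → τ ≤ δ' → δ' ≤ Real.exp (-V₀) →
      ‖F (s9f_pt x' δ')‖ ≤ Real.exp (μ * (-Real.log τ)) := by
  intro x' δ' hx h1 h2
  have hδ : 0 < δ' := lt_of_lt_of_le hτ h1
  have hv : -Real.log δ' ≥ V₀ := by
    have := (Real.log_le_iff_le_exp hδ).mpr h2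
    linarith
  have h3 := hup (-Real.log δ') hv x' (abs_le.mp hx)
  rw [neg_neg, Real.exp_log hδ] at h3
  refine h3.trans (Real.exp_le_exp.mpr ?_)
  have : Real.log τ ≤ Real.log δ' := Real.log_le_log hτ h1
  nlinarith

/-- the conclusion of `s9f_loc_of_witness` for given constants. -/
def S9gLocHyp (A C₁ M₁ : ℝ) : Prop :=
  ∀ (F : ℂ → ℂ), DifferentiableOn ℂ F s9f_LH → ∀ (M H U τ x p δ : ℝ) (k₁ ℓ : ℤ),
    0 < τ → 0 < δ → |p - x| ≤ A * δ →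
    (∀ x' δ' : ℝ, |x' - p| ≤ M₁ * δ → τ ≤ δ' → δ' ≤ M₁ * δ → ‖F (s9f_pt x' δ')‖ ≤ Real.exp M) →
    Real.exp (M - U) ≤ ‖F (s9f_pt p δ)‖ → C₁ ≤ H → C₁ * U ≤ H →
    4 * τ ≤ s9f_d (k₁ + 1) → ℓ ≤ k₁ → δ / 4 ≤ s9f_d ℓ → s9f_d ℓ ≤ δ / 2 →
    S9fLoc (S9fGood F (Real.exp (M - H))) k₁ x ℓ

/-- the conclusion of `s9g_chain_estimate` for a given constant. -/
def S9gChainHyp (Ch : ℝ) : Prop :=
  ∀ (F G₀ : ℂ → ℂ), DifferentiableOn ℂ F s9f_LH →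
    S9gSecond F G₀ → ∀ (M H S : ℝ), 1 ≤ H → ∀ (n m₁ m₂ m₃ : ℕ) (τ : ℕ → S9fTile), 0 < n →
    m₁ ≤ m₂ → m₂ ≤ m₃ → m₃ ≤ n → τ n = τ 0 →
    (∀ i < n, s9f_touch (τ i) (τ (i + 1))) →
    (∀ i ≤ n, S9fGood F (Real.exp (M - H)) (τ i)) →
    (∀ i ≤ n, ∀ ζ ∈ ball (s9f_ctr (τ i)) (100 * s9f_rho (τ i).1), ‖F ζ‖ ≤ Real.exp M) →
    ∑ i ∈ Finset.range n, s9f_rho (τ i).1 ≤ S →
    ∃ c : ℂ, ∀ (z : ℂ) (η : ℝ), z ∈ s9f_LH → 0 < η →
      (∀ i, i ≤ m₁ → (s9f_ctr (τ i)).im + 4 * s9f_rho (τ i).1 + η ≤ z.im) →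
      (∀ i, m₁ ≤ i → i ≤ m₂ → z.re + η + 4 * s9f_rho (τ i).1 ≤ (s9f_ctr (τ i)).re) →
      (∀ i, m₂ ≤ i → i ≤ m₃ → z.im + η + 4 * s9f_rho (τ i).1 ≤ (s9f_ctr (τ i)).im) →
      (∀ i, m₃ ≤ i → i ≤ n → (s9f_ctr (τ i)).re + 4 * s9f_rho (τ i).1 + η ≤ z.re) →
      η * ‖G₀ z - c * F z‖ ^ 4 ≤ 16 * S * (16 * S * Real.exp (2 * Ch * H - M)) ^ 4

/-- witnesses of size `δ ∈ [e^{-b}, e^{-a}]` and height `e^w` near every `x ∈ [-2,2]`. -/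
def S9gWit (F : ℂ → ℂ) (A w a b : ℝ) : Prop :=
  ∀ x ∈ Icc (-2 : ℝ) 2, ∃ p δ : ℝ, Real.exp (-b) ≤ δ ∧ δ ≤ Real.exp (-a) ∧ |p - x| ≤ A * δ ∧
    Real.exp w ≤ ‖F (s9f_pt p δ)‖

theorem s9g_loc_scale {F : ℂ → ℂ} (hF : DifferentiableOn ℂ F s9f_LH) {A C₁ M₁ : ℝ} (hA : 0 ≤ A)
    (hM₁ : 1 ≤ M₁) (hT1 : S9gLocHyp A C₁ M₁) {M H τ D w a b : ℝ} (hτ : 0 < τ)
    (hUB : ∀ x' δ' : ℝ, |x'| ≤ 5 → τ ≤ δ' → δ' ≤ D → ‖F (s9f_pt x' δ')‖ ≤ Real.exp M)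
    (hH1 : C₁ ≤ H) (hH2 : C₁ * (M - w) ≤ H) (hW : S9gWit F A w a b)
    (s1 : (A + M₁) * Real.exp (-a) ≤ 3) (s2 : M₁ * Real.exp (-a) ≤ D)
    {L' kR kLoc : ℤ} (hL' : Real.exp (-a) / 2 < s9f_d L') (hkR : s9f_d kR ≤ Real.exp (-b) / 4)
    (hk : kR ≤ kLoc) (hτk : 4 * τ ≤ s9f_d (kLoc + 1)) {x : ℝ} (hx : x ∈ Icc (-2 : ℝ) 2) :
    ∃ ℓ : ℤ, L' ≤ ℓ ∧ ℓ ≤ kR ∧ S9fLoc (S9fGood F (Real.exp (M - H))) kLoc x ℓ := by
  obtain ⟨p, δ, hδ1, hδ2, hp, hFp⟩ := hW x hx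
  have hδ : 0 < δ := lt_of_lt_of_le (Real.exp_pos _) hδ1
  obtain ⟨ℓ, hℓ1, hℓ2⟩ := s9g_layer_below (y := δ / 2) (by positivity)
  have hLℓ : L' ≤ ℓ := s9g_le_of_d_le (by linarith)
  have hℓk : ℓ ≤ kR := s9g_le_of_d_le (by linarith)
  refine ⟨ℓ, hLℓ, hℓk, hT1 F hF M H (M - w) τ x p δ kLoc ℓ hτ hδ hp ?_ ?_ hH1 hH2 hτk
    (hℓk.trans hk) (by linarith) hℓ2⟩
  · intro x' δ' h1 h2 h3
    apply hUB x' δ' _ h2 _
    · have hx' := abs_le.mp h1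
      have hp' := abs_le.mp hp
      have : (A + M₁) * δ ≤ 3 := le_trans (by gcongr) s1
      rw [abs_le]; constructor <;> linarith [hx.1, hx.2]
    · have : M₁ * δ ≤ D := le_trans (by gcongr) s2
      linarith
  · rw [show M - (M - w) = w by ring]; exact hFp

theorem s9g_ball_bound {F : ℂ → ℂ} {M τ D : ℝ}
    (hUB : ∀ x' δ' : ℝ, |x'| ≤ 5 → τ ≤ δ' → δ' ≤ D → ‖F (s9f_pt x' δ')‖ ≤ Real.exp M)
    {T : S9fTile} (h1 : -2 ≤ s9f_lo T) (h2 : s9f_hi T ≤ 2) (h3 : 100 * s9f_rho T.1 ≤ 1)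
    (h4 : τ ≤ 300 * s9f_rho T.1) (h5 : 501 * s9f_rho T.1 ≤ D) :
    ∀ ζ ∈ ball (s9f_ctr T) (100 * s9f_rho T.1), ‖F ζ‖ ≤ Real.exp M := by
  intro ζ hζ
  have hρ := s9f_rho_pos T.1
  rw [mem_ball, dist_eq_norm] at hζ
  have a1 := abs_le.mp ((Complex.abs_re_le_norm (ζ - s9f_ctr T)).trans hζ.le)
  have a2 := abs_le.mp ((Complex.abs_im_le_norm (ζ - s9f_ctr T)).trans hζ.le)
  rw [Complex.sub_re, s9g_ctr_re] at a1
  rw [Complex.sub_im, s9g_ctr_im] at a2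
  have l1 : s9f_lo T = (T.2 : ℝ) * s9f_rho T.1 := rfl
  have l2 : s9f_hi T = ((T.2 : ℝ) + 1) * s9f_rho T.1 := rfl
  have e : ζ = s9f_pt ζ.re (-ζ.im) := by
    apply Complex.ext <;> simp [s9f_pt]
  rw [e]
  apply hUB
  · rw [abs_le]; constructor <;> nlinarith [a1.1, a1.2]
  · linarith [a2.1, a2.2]
  · linarith [a2.1, a2.2]

/-- the stage in abstract form: all scales are given by their exponents. -/
theorem s9g_stage_abs {F G₀ : ℂ → ℂ} (hF : DifferentiableOn ℂ F s9f_LH) (hG : S9gSecond F G₀)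
    {A C₁ M₁ Ch : ℝ} (hA : 0 ≤ A) (hC₁ : 1 ≤ C₁) (hM₁ : 1 ≤ M₁) (hT1 : S9gLocHyp A C₁ M₁)
    (hT3 : S9gChainHyp Ch)
    {μ V₀ w H ac bc ab bb at' bt u u' : ℝ} (hμ : 0 ≤ μ)
    (hup : ∀ v ≥ V₀, ∀ x ∈ Icc (-5 : ℝ) 5,
      ‖F (s9f_pt x (Real.exp (-v)))‖ ≤ Real.exp (μ * v))
    (hWc : S9gWit F A w ac bc) (hWb : S9gWit F A w ab bb) (hWt : S9gWit F A w at' bt)
    (e1 : ac ≤ bc) (e2 : bc + 1 ≤ ab) (e3 : ab ≤ bb) (e4 : bb + 2 ≤ u) (e5 : u ≤ u')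
    (e6 : u' + 1 ≤ at') (e7 : at' ≤ bt)
    (s1 : (A + M₁) * Real.exp (-ac) ≤ 3) (s2 : M₁ * Real.exp (-ac) ≤ Real.exp (-V₀))
    (s3 : Real.exp (-ac) ≤ 1 / 51)
    (hH1 : C₁ ≤ H) (hH2 : C₁ * (μ * (bt + 3) - w) ≤ H) (hbt : 0 ≤ bt) :
    ∃ c : ℂ, ∀ x ∈ Icc (-1 : ℝ) 1, ∀ v ∈ Icc u u',
      ‖G₀ (s9f_pt x (Real.exp (-v))) - c * F (s9f_pt x (Real.exp (-v)))‖ ^ 4 ≤
        4 * Real.exp u' * (16 * (4010 * (bt + 2) + 10) *
          (16 * (4010 * (bt + 2) + 10) * Real.exp (2 * Ch * H - μ * bt)) ^ 4) := by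
  have pac := Real.exp_pos (-ac)
  have pbc := Real.exp_pos (-bc)
  have pab := Real.exp_pos (-ab)
  have pbb := Real.exp_pos (-bb)
  have pu := Real.exp_pos (-u)
  have pu' := Real.exp_pos (-u')
  have pat := Real.exp_pos (-at')
  have pbt := Real.exp_pos (-bt)
  have r1 : Real.exp (-bc) ≤ Real.exp (-ac) := s9g_exp_gap0 e1
  have r2 : Real.exp (-ab) ≤ 37 / 100 * Real.exp (-bc) := s9g_exp_gap1 e2
  have r3 : Real.exp (-bb) ≤ Real.exp (-ab) := s9g_exp_gap0 e3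
  have r4 : Real.exp (-u) ≤ 14 / 100 * Real.exp (-bb) := s9g_exp_gap2 e4
  have r5 : Real.exp (-u') ≤ Real.exp (-u) := s9g_exp_gap0 e5
  have r6 : Real.exp (-at') ≤ 37 / 100 * Real.exp (-u') := s9g_exp_gap1 e6
  have r7 : Real.exp (-bt) ≤ Real.exp (-at') := s9g_exp_gap0 e7
  have qab : Real.exp (-ab) ≤ Real.exp (-ac) := s9g_exp_gap0 (by linarith only [e1, e2])
  have qat : Real.exp (-at') ≤ Real.exp (-ac) :=
    s9g_exp_gap0 (by linarith only [e1, e2, e3, e4, e5, e6])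
  have qu' : Real.exp (-u') ≤ Real.exp (-ac) :=
    s9g_exp_gap0 (by linarith only [e1, e2, e3, e4, e5])
  -- layers
  obtain ⟨Lc, hLc1, hLc2⟩ := s9g_layer_above (y := Real.exp (-ac) / 2) (by positivity)
  obtain ⟨Lb, hLb1, hLb2⟩ := s9g_layer_above (y := Real.exp (-ab) / 2) (by positivity)
  obtain ⟨kb, hkb1, hkb2⟩ := s9g_layer_below (y := Real.exp (-bb) / 4) (by positivity)
  obtain ⟨Lt, hLt1, hLt2⟩ := s9g_layer_above (y := Real.exp (-at') / 2) (by positivity)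
  obtain ⟨k₁, hk1, hk2⟩ := s9g_layer_below (y := Real.exp (-bt) / 4) (by positivity)
  have o1 : Lc ≤ Lb := s9g_le_of_d_le (by linarith only [hLb2, hLc1, r1, r2, pac])
  have o2 : Lb ≤ kb := s9g_le_of_d_le (by linarith only [hkb2, hLb1, r3, pab])
  have o3 : kb ≤ Lt := s9g_le_of_d_le (by linarith only [hLt2, hkb1, r6, r5, r4, pbb])
  have o4 : Lt ≤ k₁ := s9g_le_of_d_le (by linarith only [hk2, hLt1, r7, pat])
  have hsmall : s9f_d Lc ≤ 1 / 100 := by linarith only [hLc2, s3]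
  have hLbs : s9f_d Lb ≤ 1 / 100 := by linarith only [hLb2, qab, s3]
  have hLb0 : (0 : ℤ) ≤ Lb := s9g_le_of_d_le (by rw [s9g_d_zero]; linarith only [hLbs])
  obtain ⟨τ₀, hτdef⟩ : ∃ τ₀ : ℝ, τ₀ = s9f_d (k₁ + 1) / 4 := ⟨_, rfl⟩
  have hτ₀ : 0 < τ₀ := by rw [hτdef]; have := s9f_d_pos (k₁ + 1); positivity
  have hτk : τ₀ = s9f_d k₁ * (100 / 401) := by rw [hτdef, s9f_d_succ]; ring
  obtain ⟨M, hMdef⟩ : ∃ M : ℝ, M = μ * (-Real.log τ₀) := ⟨_, rfl⟩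
  have hUB := s9g_upper_box hμ hτ₀ hup
  rw [← hMdef] at hUB
  have hlog1 : -Real.log τ₀ ≤ bt + 3 := by
    have g1 : Real.exp (-(bt + 3)) ≤ 37 / 100 * Real.exp (-(bt + 2)) :=
      s9g_exp_gap1 (by linarith only)
    have g2 : Real.exp (-(bt + 2)) ≤ 14 / 100 * Real.exp (-bt) := s9g_exp_gap2 le_rfl
    have : -(bt + 3) ≤ Real.log τ₀ :=
      (Real.le_log_iff_exp_le hτ₀).mpr (by linarith only [g1, g2, hτk, hk1, pbt])
    linarith only [this]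
  have hlog2 : bt ≤ -Real.log τ₀ := by
    have : Real.log τ₀ ≤ -bt :=
      (Real.log_le_iff_le_exp hτ₀).mpr (by linarith only [hτk, hk2, pbt])
    linarith only [this]
  have hM1 : M ≤ μ * (bt + 3) := by rw [hMdef]; exact mul_le_mul_of_nonneg_left hlog1 hμ
  have hM2 : μ * bt ≤ M := by rw [hMdef]; exact mul_le_mul_of_nonneg_left hlog2 hμ
  have hH2' : C₁ * (M - w) ≤ H :=
    le_trans (mul_le_mul_of_nonneg_left (by linarith only [hM1]) (by linarith only [hC₁])) hH2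
  have hAM : 0 ≤ A + M₁ := by linarith only [hA, hM₁]
  have hM₁0 : 0 ≤ M₁ := by linarith only [hM₁]
  have hτle : ∀ k : ℤ, k ≤ k₁ → 4 * τ₀ ≤ s9f_d (k + 1) := by
    intro k hk
    rw [hτdef]
    have := s9f_d_anti (show k + 1 ≤ k₁ + 1 by omega)
    linarith only [this]
  -- the frame
  have hbot : ∀ x ∈ Icc (-2 : ℝ) 2, ∃ ℓ : ℤ, Lb ≤ ℓ ∧ ℓ ≤ kb ∧
      S9fLoc (S9fGood F (Real.exp (M - H))) kb x ℓ := fun x hx =>
    s9g_loc_scale hF hA hM₁ hT1 hτ₀ hUB hH1 hH2' hWb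
      (le_trans (mul_le_mul_of_nonneg_left qab hAM) s1)
      (le_trans (mul_le_mul_of_nonneg_left qab hM₁0) s2)
      hLb1 hkb2 le_rfl (hτle kb (o3.trans o4)) hx
  have hlid : ∀ x ∈ Icc (-2 : ℝ) 2, ∃ ℓ : ℤ, Lt ≤ ℓ ∧ ℓ ≤ k₁ ∧
      S9fLoc (S9fGood F (Real.exp (M - H))) k₁ x ℓ := fun x hx =>
    s9g_loc_scale hF hA hM₁ hT1 hτ₀ hUB hH1 hH2' hWt
      (le_trans (mul_le_mul_of_nonneg_left qat hAM) s1)
      (le_trans (mul_le_mul_of_nonneg_left qat hM₁0) s2)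
      hLt1 hk2 le_rfl (hτle k₁ le_rfl) hx
  have hcol : ∀ x ∈ Icc (-2 : ℝ) 2, ∃ ℓ : ℤ, Lc ≤ ℓ ∧ ℓ ≤ Lb ∧
      S9fLoc (S9fGood F (Real.exp (M - H))) k₁ x ℓ := fun x hx =>
    s9g_loc_scale hF hA hM₁ hT1 hτ₀ hUB hH1 hH2' hWc s1 s2
      hLc1 (by linarith only [hLb2, r2, pbc]) (o2.trans (o3.trans o4)) (hτle k₁ le_rfl) hx
  obtain ⟨n, m₁, m₂, m₃, T, hn, h12, h23, h3n, hcl, htouch, hbase, hB, hR, hT, hL, hsum⟩ :=
    s9f_frame (S9fGood F (Real.exp (M - H))) Lc Lb kb Lt k₁ o1 o2 o3 o4 hsmall hbot hlid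
      (hcol (-7 / 4) ⟨by norm_num, by norm_num⟩) (hcol (7 / 4) ⟨by norm_num, by norm_num⟩)
  -- sizes of the tiles of the chain
  have hρLb : s9f_rho Lb = s9f_d Lb / 401 := rfl
  have hρk₁ : s9f_rho k₁ = s9f_d k₁ / 401 := rfl
  have hρkb : s9f_rho kb = s9f_d kb / 401 := rfl
  have hρLt : s9f_rho Lt = s9f_d Lt / 401 := rfl
  have hρup : ∀ i ≤ n, s9f_rho (T i).1 ≤ s9f_rho Lb := fun i hi => s9f_rho_anti (hbase i hi).2.1
  have hρlo : ∀ i ≤ n, s9f_rho k₁ ≤ s9f_rho (T i).1 := fun i hi =>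
    s9f_rho_anti (hbase i hi).2.2.1
  have g3 : Real.exp (-ac) ≤ Real.exp (-V₀) := le_trans (le_mul_of_one_le_left pac.le hM₁) s2
  have hball : ∀ i ≤ n, ∀ ζ ∈ ball (s9f_ctr (T i)) (100 * s9f_rho (T i).1),
      ‖F ζ‖ ≤ Real.exp M := by
    intro i hi
    have g1 := hρup i hi
    have g2 := hρlo i hi
    exact s9g_ball_bound hUB (hbase i hi).2.2.2.1 (hbase i hi).2.2.2.2
      (by linarith only [g1, hρLb, hLbs])
      (by linarith only [g2, hρk₁, hτk, s9f_rho_pos (T i).1])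
      (by linarith only [g1, hρLb, hLb2, qab, g3, pab])
  obtain ⟨c, hc⟩ := hT3 F G₀ hF hG M H (10 * ((k₁ - Lb + 1 : ℤ) : ℝ)) (hC₁.trans hH1) n m₁ m₂ m₃ T
    hn h12 h23 h3n hcl htouch (fun i hi => (hbase i hi).1) hball hsum
  refine ⟨c, ?_⟩
  intro x hx v hv
  have pv := Real.exp_pos (-v)
  have rv1 : Real.exp (-v) ≤ Real.exp (-u) := s9g_exp_gap0 hv.1
  have rv2 : Real.exp (-u') ≤ Real.exp (-v) := s9g_exp_gap0 hv.2
  have hzim : (s9f_pt x (Real.exp (-v))).im = -Real.exp (-v) := rfl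
  have hzre : (s9f_pt x (Real.exp (-v))).re = x := rfl
  have hx1 := hx.1
  have hx2 := hx.2
  have key := hc (s9f_pt x (Real.exp (-v))) (Real.exp (-u') / 4) (s9f_pt_mem_LH pv)
    (by positivity)
    (by
      intro i hi
      have g : s9f_rho kb ≤ s9f_rho (T i).1 := s9f_rho_anti (hB i hi)
      rw [s9g_ctr_im, hzim]
      linarith only [g, hρkb, hkb1, rv1, r4, r5, pbb])
    (by
      intro i hi1 hi2
      have g := hρup i (by omega)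
      have g' := hR i hi1 hi2
      have l1 : (((T i).2 : ℝ) + 1 / 2) * s9f_rho (T i).1 =
          s9f_lo (T i) + s9f_rho (T i).1 / 2 := by unfold s9f_lo; ring
      have hρ := s9f_rho_pos (T i).1
      rw [s9g_ctr_re, hzre, l1]
      linarith only [g, g', hρ, hx2, hρLb, hLbs, qu', s3])
    (by
      intro i hi1 hi2
      have g : s9f_rho (T i).1 ≤ s9f_rho Lt := s9f_rho_anti (hT i hi1 hi2)
      rw [s9g_ctr_im, hzim]
      linarith only [g, hρLt, hLt2, r6, rv2, pu'])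
    (by
      intro i hi1 hi2
      have g := hρup i hi2
      have g' := hL i hi1 hi2
      have l2 : (((T i).2 : ℝ) + 1 / 2) * s9f_rho (T i).1 =
          s9f_hi (T i) - s9f_rho (T i).1 / 2 := by unfold s9f_hi; ring
      have hρ := s9f_rho_pos (T i).1
      rw [s9g_ctr_re, hzre, l2]
      linarith only [g, g', hρ, hx1, hρLb, hLbs, qu', s3])
  -- bound of `S`
  have hk₁le : (k₁ : ℝ) ≤ 401 * (bt + 2) := by
    apply s9g_layer_le (by linarith only [hbt])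
    have g2 : Real.exp (-(bt + 2)) ≤ 14 / 100 * Real.exp (-bt) := s9g_exp_gap2 le_rfl
    linarith only [g2, hk1, pbt]
  have hLb0' : (0 : ℝ) ≤ (Lb : ℝ) := by exact_mod_cast hLb0
  have hLbk : (Lb : ℝ) ≤ (k₁ : ℝ) := by exact_mod_cast o2.trans (o3.trans o4)
  have hS1 : 10 * ((k₁ - Lb + 1 : ℤ) : ℝ) ≤ 4010 * (bt + 2) + 10 := by
    push_cast; linarith only [hk₁le, hLb0']
  have hS0 : 0 ≤ 10 * ((k₁ - Lb + 1 : ℤ) : ℝ) := by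
    push_cast; linarith only [hLbk]
  have hmono : 16 * (10 * ((k₁ - Lb + 1 : ℤ) : ℝ)) *
      (16 * (10 * ((k₁ - Lb + 1 : ℤ) : ℝ)) * Real.exp (2 * Ch * H - M)) ^ 4 ≤
      16 * (4010 * (bt + 2) + 10) *
          (16 * (4010 * (bt + 2) + 10) * Real.exp (2 * Ch * H - μ * bt)) ^ 4 := by
    have : Real.exp (2 * Ch * H - M) ≤ Real.exp (2 * Ch * H - μ * bt) :=
      Real.exp_le_exp.mpr (by linarith only [hM2])
    gcongr
  have hee : Real.exp u' * Real.exp (-u') = 1 := by rw [← Real.exp_add]; simp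
  calc ‖G₀ (s9f_pt x (Real.exp (-v))) - c * F (s9f_pt x (Real.exp (-v)))‖ ^ 4
      = 4 * Real.exp u' * (Real.exp (-u') / 4 *
          ‖G₀ (s9f_pt x (Real.exp (-v))) - c * F (s9f_pt x (Real.exp (-v)))‖ ^ 4) := by
        linear_combination (-(‖G₀ (s9f_pt x (Real.exp (-v))) -
          c * F (s9f_pt x (Real.exp (-v)))‖ ^ 4)) * hee
    _ ≤ _ := by
        have := Real.exp_pos u'
        exact mul_le_mul_of_nonneg_left (key.trans hmono) (by positivity)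

theorem s9g_wit_of_core {F : ℂ → ℂ} {lam A κ v₁ v w : ℝ}
    (hwit : ∀ v ≥ v₁, ∀ x ∈ Icc (-5 : ℝ) 5, ∃ p δ : ℝ, 0 < δ ∧ |p - x| ≤ A * δ ∧
      |-Real.log δ - v| ≤ κ * v ∧ Real.exp ((lam - κ) * v) ≤ ‖F (s9f_pt p δ)‖)
    (hv : v₁ ≤ v) (hw : w ≤ (lam - κ) * v) : S9gWit F A w ((1 - κ) * v) ((1 + κ) * v) := by
  intro x hx
  obtain ⟨p, δ, hδ, hp, hlog, hFp⟩ := hwit v hv x ⟨by linarith [hx.1], by linarith [hx.2]⟩
  have hl := abs_le.mp hlog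
  refine ⟨p, δ, ?_, ?_, hp, (Real.exp_le_exp.mpr hw).trans hFp⟩
  · rw [← Real.le_log_iff_exp_le hδ]; linarith [hl.2]
  · rw [← Real.log_le_iff_le_exp hδ]; linarith [hl.1]

theorem s9g_stage_exponents {κ u : ℝ} (hκ : 0 < κ) (hκ' : κ ≤ 1 / 2000) (hκu : 2 ≤ κ * u) :
    (1 - κ) * ((1 - 6 * κ) * u) ≤ (1 + κ) * ((1 - 6 * κ) * u) ∧
    (1 + κ) * ((1 - 6 * κ) * u) + 1 ≤ (1 - κ) * ((1 - 3 * κ) * u) ∧
    (1 - κ) * ((1 - 3 * κ) * u) ≤ (1 + κ) * ((1 - 3 * κ) * u) ∧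
    (1 + κ) * ((1 - 3 * κ) * u) + 2 ≤ u ∧
    u ≤ (1 + κ) * u ∧
    (1 + κ) * u + 1 ≤ (1 - κ) * ((1 + κ) * (1 + 3 * κ) * u) ∧
    (1 - κ) * ((1 + κ) * (1 + 3 * κ) * u) ≤ (1 + κ) * ((1 + κ) * (1 + 3 * κ) * u) ∧
    u / 2 ≤ (1 - κ) * ((1 - 6 * κ) * u) ∧
    (1 + κ) * ((1 + κ) * (1 + 3 * κ) * u) ≤ (1 + 6 * κ) * u ∧
    u ≤ (1 + κ) * ((1 + κ) * (1 + 3 * κ) * u) := by
  have hu0 : 0 < u := by
    by_contra h
    have : κ * u ≤ 0 := mul_nonpos_of_nonneg_of_nonpos hκ.le (not_lt.mp h)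
    linarith
  have m0 : κ * u ≤ 1 / 2000 * u := mul_le_mul_of_nonneg_right hκ' hu0.le
  have t0 : 0 ≤ κ * u := by linarith
  have m2a : 0 ≤ κ * (κ * u) := mul_nonneg hκ.le t0
  have m2b : κ * (κ * u) ≤ 1 / 2000 * (κ * u) := mul_le_mul_of_nonneg_right hκ' t0
  have m3a : 0 ≤ κ * (κ * (κ * u)) := mul_nonneg hκ.le m2a
  have m3b : κ * (κ * (κ * u)) ≤ 1 / 2000 * (κ * (κ * u)) := mul_le_mul_of_nonneg_right hκ' m2a
  have m4a : 0 ≤ κ * (κ * (κ * (κ * u))) := mul_nonneg hκ.le m3a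
  have m4b : κ * (κ * (κ * (κ * u))) ≤ 1 / 2000 * (κ * (κ * (κ * u))) :=
    mul_le_mul_of_nonneg_right hκ' m3a
  refine ⟨?_, ?_, ?_, ?_, ?_, ?_, ?_, ?_, ?_, ?_⟩ <;> nlinarith

theorem s9g_stage_H {lam κ u bt : ℝ} (hlam : 1 ≤ lam) (hκ : 0 < κ) (hκ' : κ ≤ 1 / 2000)
    (hκu : 2 ≤ κ * u) (hbt : bt ≤ (1 + 6 * κ) * u) :
    (lam + κ) * (bt + 3) - (lam - κ) * ((1 - 6 * κ) * u) ≤ 17 * κ * lam * u := by
  have h1 : (lam + κ) * (bt + 3) ≤ (lam + κ) * ((1 + 6 * κ) * u + 3) :=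
    mul_le_mul_of_nonneg_left (by linarith) (by linarith)
  have n1 : 0 ≤ (lam - 1) * (κ * u) := mul_nonneg (by linarith) (by linarith)
  have n2 : 0 ≤ lam * (κ * u - 2) := mul_nonneg (by linarith) (by linarith)
  nlinarith

theorem s9g_mul_exp_neg_le {c t : ℝ} (h : c ≤ t) : c * Real.exp (-t) ≤ 1 := by
  have h1 : c ≤ Real.exp t := by linarith [Real.add_one_le_exp t]
  have h2 : Real.exp t * Real.exp (-t) = 1 := by rw [← Real.exp_add]; simp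
  calc c * Real.exp (-t) ≤ Real.exp t * Real.exp (-t) :=
        mul_le_mul_of_nonneg_right h1 (Real.exp_pos _).le
    _ = 1 := h2

theorem s9g_poly_le_exp {u : ℝ} (hu : 4 * 16 ^ 5 * 16050 ^ 5 * 720 / (9 / 10) ^ 6 ≤ u) :
    4 * 16 ^ 5 * (16050 * u) ^ 5 ≤ Real.exp (9 / 10 * u) := by
  have hu0 : 0 ≤ u := le_trans (by positivity) hu
  have h1 := Real.pow_div_factorial_le_exp (9 / 10 * u) (by positivity) 6
  refine le_trans ?_ h1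
  have : (Nat.factorial 6 : ℝ) = 720 := by norm_num [Nat.factorial]
  rw [this, le_div_iff₀ (by norm_num)]
  rw [div_le_iff₀ (by positivity)] at hu
  calc 4 * 16 ^ 5 * (16050 * u) ^ 5 * 720 = (4 * 16 ^ 5 * 16050 ^ 5 * 720) * u ^ 5 := by ring
    _ ≤ (u * (9 / 10) ^ 6) * u ^ 5 := by gcongr
    _ = (9 / 10 * u) ^ 6 := by ring

/-- the final numerical inequality of a stage. -/
theorem s9g_stage_final {lam u u' S E : ℝ} (hS0 : 0 ≤ S) (hS : S ≤ 16050 * u)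
    (hE : u' + 4 * E ≤ -(2 * lam * u) - 9 / 10 * u)
    (hu : 4 * 16 ^ 5 * 16050 ^ 5 * 720 / (9 / 10) ^ 6 ≤ u) :
    4 * Real.exp u' * (16 * S * (16 * S * Real.exp E) ^ 4) ≤ Real.exp (-(lam * u / 2)) ^ 4 := by
  have h1 := s9g_poly_le_exp hu
  have e1 : 4 * Real.exp u' * (16 * S * (16 * S * Real.exp E) ^ 4) =
      4 * 16 ^ 5 * S ^ 5 * Real.exp (u' + 4 * E) := by
    rw [Real.exp_add, show (4 : ℝ) * E = ((4 : ℕ) : ℝ) * E by norm_num, Real.exp_nat_mul]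
    ring
  have e2 : Real.exp (-(lam * u / 2)) ^ 4 =
      Real.exp (9 / 10 * u) * Real.exp (-(2 * lam * u) - 9 / 10 * u) := by
    rw [← Real.exp_nat_mul, ← Real.exp_add]
    congr 1
    push_cast; ring
  rw [e1, e2]
  have h2 : Real.exp (u' + 4 * E) ≤ Real.exp (-(2 * lam * u) - 9 / 10 * u) :=
    Real.exp_le_exp.mpr hE
  have h3 : 4 * 16 ^ 5 * S ^ 5 ≤ 4 * 16 ^ 5 * (16050 * u) ^ 5 := by gcongr
  exact mul_le_mul (h3.trans h1) h2 (Real.exp_pos _).le (Real.exp_pos _).le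

/-- GLUE LEAF: the stage proposition. -/
theorem s9g_stage {F G₀ : ℂ → ℂ} {lam A : ℝ} (hF : DifferentiableOn ℂ F s9f_LH)
    (hG : S9gSecond F G₀) (hlam : 1 ≤ lam) (hA : 0 ≤ A) (hc : S9gCore F lam A) :
    ∃ κ : ℝ, 0 < κ ∧ κ ≤ 1 / 8 ∧ ∃ u₀ : ℝ, ∀ u ≥ u₀, S9gStage F G₀ lam κ u := by
  obtain ⟨C₁, M₁, hC₁, hM₁, hT1⟩ := s9f_loc_of_witness A hA
  obtain ⟨Ch, hCh, hT3⟩ := s9g_chain_estimate
  obtain ⟨κ, hκdef⟩ : ∃ κ : ℝ, κ = 1 / (2000 * Ch * C₁) := ⟨_, rfl⟩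
  have hCC : 1 ≤ Ch * C₁ := by nlinarith
  have hκpos : 0 < κ := by rw [hκdef]; positivity
  have hκmul : κ * (2000 * Ch * C₁) = 1 := by
    rw [hκdef]; field_simp
  have hκle : κ ≤ 1 / 2000 := by
    rw [hκdef]
    apply one_div_le_one_div_of_le (by norm_num)
    nlinarith
  obtain ⟨V₀, hup⟩ := hc.upper κ hκpos
  obtain ⟨v₁, hwit⟩ := hc.wit κ hκpos
  refine ⟨κ, hκpos, by linarith, max (max (2 / κ) (2 * v₁)) (max (max (2 * (A + M₁))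
    (2 * (V₀ + M₁))) (max 102 (4 * 16 ^ 5 * 16050 ^ 5 * 720 / (9 / 10) ^ 6))), ?_⟩
  intro u hu
  have hu1 : 2 / κ ≤ u := le_trans (le_trans (le_max_left _ _) (le_max_left _ _)) hu
  have hu2 : 2 * v₁ ≤ u := le_trans (le_trans (le_max_right _ _) (le_max_left _ _)) hu
  have hu3 : 2 * (A + M₁) ≤ u :=
    le_trans (le_trans (le_trans (le_max_left _ _) (le_max_left _ _)) (le_max_right _ _)) hu
  have hu4 : 2 * (V₀ + M₁) ≤ u :=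
    le_trans (le_trans (le_trans (le_max_right _ _) (le_max_left _ _)) (le_max_right _ _)) hu
  have hu5 : 102 ≤ u :=
    le_trans (le_trans (le_trans (le_max_left _ _) (le_max_right _ _)) (le_max_right _ _)) hu
  have hu6 : 4 * 16 ^ 5 * 16050 ^ 5 * 720 / (9 / 10) ^ 6 ≤ u :=
    le_trans (le_trans (le_trans (le_max_right _ _) (le_max_right _ _)) (le_max_right _ _)) hu
  have hκu : 2 ≤ κ * u := by
    rw [div_le_iff₀ hκpos] at hu1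
    linarith
  obtain ⟨e1, e2, e3, e4, e5, e6, e7, hac, hbt1, hbt2⟩ := s9g_stage_exponents hκpos hκle hκu
  have hu0 : 0 ≤ u := by linarith
  have hlk : 0 ≤ lam - κ := by linarith
  -- witnesses
  have hvc : v₁ ≤ (1 - 6 * κ) * u := by nlinarith
  have hvcb : (1 - 6 * κ) * u ≤ (1 - 3 * κ) * u := by nlinarith
  have hvct : (1 - 6 * κ) * u ≤ (1 + κ) * (1 + 3 * κ) * u := by nlinarith
  have hWc : S9gWit F A ((lam - κ) * ((1 - 6 * κ) * u)) ((1 - κ) * ((1 - 6 * κ) * u))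
      ((1 + κ) * ((1 - 6 * κ) * u)) := s9g_wit_of_core hwit hvc le_rfl
  have hWb : S9gWit F A ((lam - κ) * ((1 - 6 * κ) * u)) ((1 - κ) * ((1 - 3 * κ) * u))
      ((1 + κ) * ((1 - 3 * κ) * u)) :=
    s9g_wit_of_core hwit (hvc.trans hvcb) (mul_le_mul_of_nonneg_left hvcb hlk)
  have hWt : S9gWit F A ((lam - κ) * ((1 - 6 * κ) * u)) ((1 - κ) * ((1 + κ) * (1 + 3 * κ) * u))
      ((1 + κ) * ((1 + κ) * (1 + 3 * κ) * u)) :=
    s9g_wit_of_core hwit (hvc.trans hvct) (mul_le_mul_of_nonneg_left hvct hlk)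
  -- smallness
  have s1 : (A + M₁) * Real.exp (-((1 - κ) * ((1 - 6 * κ) * u))) ≤ 3 :=
    (s9g_mul_exp_neg_le (by linarith)).trans (by norm_num)
  have s3 : Real.exp (-((1 - κ) * ((1 - 6 * κ) * u))) ≤ 1 / 51 := by
    have := s9g_mul_exp_neg_le (c := 51) (t := (1 - κ) * ((1 - 6 * κ) * u)) (by linarith)
    linarith
  have s2 : M₁ * Real.exp (-((1 - κ) * ((1 - 6 * κ) * u))) ≤ Real.exp (-V₀) := by
    have := s9g_mul_exp_neg_le (c := M₁) (t := (1 - κ) * ((1 - 6 * κ) * u) - V₀) (by linarith)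
    have e : Real.exp (-((1 - κ) * ((1 - 6 * κ) * u))) =
        Real.exp (-((1 - κ) * ((1 - 6 * κ) * u) - V₀)) * Real.exp (-V₀) := by
      rw [← Real.exp_add]; congr 1; ring
    rw [e, ← mul_assoc]
    exact mul_le_of_le_one_left (Real.exp_pos _).le this
  -- the height
  have hp : 2 ≤ lam * (κ * u) := by nlinarith
  have hH1 : C₁ ≤ C₁ * (17 * κ * lam * u) := by
    apply le_mul_of_one_le_right (by linarith)
    nlinarith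
  have hH2 : C₁ * ((lam + κ) * ((1 + κ) * ((1 + κ) * (1 + 3 * κ) * u) + 3) -
      (lam - κ) * ((1 - 6 * κ) * u)) ≤ C₁ * (17 * κ * lam * u) :=
    mul_le_mul_of_nonneg_left (s9g_stage_H hlam hκpos hκle hκu hbt1) (by linarith)
  obtain ⟨c, hcc⟩ := s9g_stage_abs hF hG hA hC₁ hM₁ hT1 hT3 (μ := lam + κ) (by linarith) hup
    hWc hWb hWt e1 e2 e3 e4 e5 e6 e7 s1 s2 s3 hH1 hH2 (by linarith)
  refine ⟨c, ?_⟩
  intro x hx v hv
  have h1 := hcc x hx v hv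
  have h2 := s9g_stage_final (lam := lam) (u := u) (u' := (1 + κ) * u)
    (S := 4010 * ((1 + κ) * ((1 + κ) * (1 + 3 * κ) * u) + 2) + 10)
    (E := 2 * Ch * (C₁ * (17 * κ * lam * u)) - (lam + κ) * ((1 + κ) * ((1 + κ) * (1 + 3 * κ) * u)))
    (by linarith) (by nlinarith)
    (by
      have g1 : 2 * Ch * (C₁ * (17 * κ * lam * u)) = 34 / 2000 * (lam * u) := by
        linear_combination (34 / 2000 * lam * u) * hκmul
      have g2 : lam * u ≤ (lam + κ) * ((1 + κ) * ((1 + κ) * (1 + 3 * κ) * u)) :=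
        mul_le_mul (by linarith) hbt2 hu0 (by linarith)
      have g3 : u ≤ lam * u := le_mul_of_one_le_left hu0 hlam
      have g4 : κ * u ≤ 1 / 2000 * u := mul_le_mul_of_nonneg_right hκle hu0
      rw [g1]
      linarith)
    hu6
  exact (pow_le_pow_iff_left₀ (norm_nonneg _) (Real.exp_pos _).le (by norm_num)).mp (h1.trans h2)

end Claimed.Agent.R269
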