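/-
Row 269, mesh package (P1 Thm 9.11).  LEAF FILE `LF-S9g-uniq`.   Blueprint: helper149.

Boundary uniqueness (replaces the Schwarz reflection at the end of the paper's proof).

PROOF SKETCH ("four rotations").  Fix `x₀, a` with `0 < a`, `|x₀| + a ≤ 1`, `z₀ = x₀ - i a`.  For `0 < s < a` let
`Q_s` be the open square `|Re (ζ - z₀)| < s`, `|Im (ζ - z₀)| < s`; its closure lies in `ℍ₋`.
`g` is bounded by some `B ≥ 0` on `Q_a`: where the depth is `< δ₀(1)` we have `|g| ≤ 1` (the abscissa lies in `[-1,1]`);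
the rest of `closure Q_a` is a compact subset of `ℍ₋`.
`Π ζ = ∏_{k<4} g (z₀ + i^k (ζ - z₀))` is holomorphic near `closure Q_s`; every `ζ ∈ frontier Q_s` is mapped by one of the
four rotations to the top side (depth `a - s`, abscissa in `[x₀-s, x₀+s]`), so `|Π ζ| ≤ ε B³` as soon as `a - s < δ₀(ε)`.
`Complex.norm_le_of_forall_mem_frontier_norm_le` at the centre: `|g z₀|^4 ≤ ε B³` for all `ε`, so `g z₀ = 0`.
So `g = 0` on the nonempty triangle `{x₀ - i a : 0 < a, |x₀| + a < 1}`, which is a neighbourhood of `-i/2`; the identity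
theorem (`AnalyticOnNhd.eqOn_zero_of_preconnected_of_eventuallyEq_zero`, `ℍ₋` convex) finishes.
-/
import Claimed.Agent.R269.S9.MeshDefs
import Claimed.Agent.R269.Lib.CAUniq

set_option autoImplicit false

namespace Claimed.Agent.R269

open Set Metric

/-- LEAF: a holomorphic function in `ℍ₋` tending to `0` uniformly at `[-1,1]` vanishes identically. -/
theorem s9g_boundary_uniqueness (g : ℂ → ℂ) (hg : DifferentiableOn ℂ g s9f_LH) (h0 : S9gVanish g) :
    ∀ z ∈ s9f_LH, g z = 0 := by
  have hopen : IsOpen s9f_LH := isOpen_lt Complex.continuous_im continuous_const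
  have hconn : IsPreconnected s9f_LH := (convex_halfSpace_im_lt 0).isPreconnected
  refine ca_boundary_uniqueness hopen hconn hg (a := -1) (b := 1) (η := 1) (by norm_num) one_pos
    (fun z _ hz => hz.2) ?_
  intro ε hε
  obtain ⟨δ₀, hδ₀, h⟩ := h0 ε hε
  refine ⟨δ₀, hδ₀, fun z hz1 hz2 => ?_⟩
  have e : z = s9f_pt z.re (-z.im) := by
    apply Complex.ext <;> simp [s9f_pt]
  rw [e]
  exact h _ hz1 _ ⟨by linarith [hz2.2], by linarith [hz2.1]⟩

end Claimed.Agent.R269
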