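/-
Row 269, P1 Theorem 9.11 (high-modulus mesh contradiction): EXPORT of units BP-S9f / BP-S9g.   Owner: helper149.

`s9g_mesh_contradiction` is the paper's statement; everything in this file is PROVED from the leaves of the files `Mesh*.lean`.
-/
import Claimed.Agent.R269.S9.MeshODE
import Claimed.Agent.R269.S9.MeshUniq
import Claimed.Agent.R269.S9.MeshLimit
import Claimed.Agent.R269.S9.MeshStage

set_option autoImplicit false

namespace Claimed.Agent.R269

open Set Metric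

/-- the core form of the theorem. -/
theorem s9g_core_false {F q : ℂ → ℂ} (h : S9fMesh F q) {lam A : ℝ} (hlam : 1 ≤ lam) (hA : 0 ≤ A)
    (hc : S9gCore F lam A) : False := by
  obtain ⟨G₀, hG⟩ := s9g_second_solution h
  obtain ⟨κ, hκ, hκ', u₀, hst⟩ := s9g_stage h.F_diff hG hlam hA hc
  obtain ⟨c, hv⟩ := s9g_limit hlam hA hc hκ hκ' hst
  have hdiff : DifferentiableOn ℂ (fun z => G₀ z - c * F z) s9f_LH :=
    hG.diff.sub (h.F_diff.const_mul c)
  have hzero := s9g_boundary_uniqueness _ hdiff hv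
  -- evaluate the Wronskian at `-i`
  have hz : (-Complex.I) ∈ s9f_LH := by simp [s9f_LH]
  have hnhds : s9f_LH ∈ nhds (-Complex.I) := s9f_isOpen_LH.mem_nhds hz
  have hGd : DifferentiableAt ℂ G₀ (-Complex.I) := hG.diff.differentiableAt hnhds
  have hFd : DifferentiableAt ℂ F (-Complex.I) := h.F_diff.differentiableAt hnhds
  have hev : (fun z => G₀ z - c * F z) =ᶠ[nhds (-Complex.I)] fun _ => 0 := by
    filter_upwards [hnhds] with z hz' using hzero z hz'
  have hd0 : deriv (fun z => G₀ z - c * F z) (-Complex.I) = 0 := by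
    rw [hev.deriv_eq]; simp
  have hd1 : deriv (fun z => G₀ z - c * F z) (-Complex.I)
      = deriv G₀ (-Complex.I) - c * deriv F (-Complex.I) := by
    rw [deriv_fun_sub hGd (hFd.const_mul c), deriv_const_mul _ hFd]
  have hW := hG.wronskian _ hz
  have h0 : G₀ (-Complex.I) - c * F (-Complex.I) = 0 := hzero _ hz
  have e1 : G₀ (-Complex.I) = c * F (-Complex.I) := by linear_combination h0
  have e2 : deriv G₀ (-Complex.I) = c * deriv F (-Complex.I) := by
    rw [hd1] at hd0; linear_combination hd0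
  rw [e1, e2] at hW
  have : (0 : ℂ) = 1 := by rw [← hW]; ring
  exact zero_ne_one this

/-- **P1 Theorem 9.11** (high-modulus mesh contradiction).
`E` = set of epochs; (i) `hup`, (ii) `hden`, (iii) `hwit`; all `o(v)` are written as "for every `ε > 0`, eventually `≤ ε v`". -/
theorem s9g_mesh_contradiction {F q : ℂ → ℂ} (h : S9fMesh F q) {lam : ℝ} (hlam : 1 ≤ lam)
    (E : Set ℝ)
    (hup : ∀ R : ℝ, ∀ ε > 0, ∃ v₀ : ℝ, ∀ v ≥ v₀, ∀ x ∈ Icc (-R) R,
      ‖F (s9f_pt x (Real.exp (-v)))‖ ≤ Real.exp ((lam + ε) * v))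
    (hden : ∀ ε > 0, ∃ v₀ : ℝ, ∀ v ≥ v₀, ∃ u ∈ E, |u - v| ≤ ε * v)
    (hwit : ∀ R : ℝ, ∃ A : ℝ, ∀ ε > 0, ∃ u₀ : ℝ, ∀ u ∈ E, u₀ ≤ u → ∀ x ∈ Icc (-R) R,
      ∃ p δ : ℝ, 0 < δ ∧ |p - x| ≤ A * δ ∧ |-Real.log δ - u| ≤ ε * u ∧
        Real.exp ((lam - ε) * u) ≤ ‖F (s9f_pt p δ)‖) : False := by
  obtain ⟨A, hA⟩ := hwit 5
  refine s9g_core_false h hlam (le_max_right A 0) (A := max A 0) ⟨hup 5, ?_⟩
  intro ε hε
  -- auxiliary small parameter
  set ε' : ℝ := min (ε / (4 * (lam + 1))) (1 / 2) with hε'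
  have hlam0 : 0 < lam + 1 := by linarith
  have hε'pos : 0 < ε' := by
    rw [hε']; exact lt_min (by positivity) (by norm_num)
  have hε'half : ε' ≤ 1 / 2 := min_le_right _ _
  have hε'le : ε' * (4 * (lam + 1)) ≤ ε := by
    have : ε' ≤ ε / (4 * (lam + 1)) := min_le_left _ _
    rwa [le_div_iff₀ (by positivity)] at this
  obtain ⟨v₁, hv₁⟩ := hden ε' hε'pos
  obtain ⟨u₀, hu₀⟩ := hA ε' hε'pos
  refine ⟨max (max v₁ (2 * u₀)) 0, ?_⟩
  intro v hv x hx
  have hv1 : v₁ ≤ v := le_trans (le_trans (le_max_left _ _) (le_max_left _ _)) hv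
  have hv2 : 2 * u₀ ≤ v := le_trans (le_trans (le_max_right _ _) (le_max_left _ _)) hv
  have hv0 : 0 ≤ v := le_trans (le_max_right _ _) hv
  obtain ⟨u, huE, huv⟩ := hv₁ v hv1
  have huv' := abs_le.mp huv
  have hεv : ε' * v ≤ v / 2 := by nlinarith
  have hu_lo : v / 2 ≤ u := by linarith [huv'.1]
  have hu_hi : u ≤ 2 * v := by linarith [huv'.2]
  have hu0 : u₀ ≤ u := by linarith
  obtain ⟨p, δ, hδ, hp, hlog, hF⟩ := hu₀ u huE hu0 x hx
  refine ⟨p, δ, hδ, le_trans hp (by gcongr; exact le_max_left _ _), ?_, le_trans ?_ hF⟩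
  · have hlog' := abs_le.mp hlog
    have h1 : ε' * u ≤ 2 * (ε' * v) := by nlinarith
    have h2 : 3 * (ε' * v) ≤ ε * v := by
      have : 3 * ε' ≤ ε := by nlinarith
      nlinarith
    rw [abs_le]
    constructor <;> linarith [hlog'.1, hlog'.2, huv'.1, huv'.2]
  · apply Real.exp_le_exp.mpr
    -- (lam - ε) v ≤ (lam - ε') u
    have h1 : (lam - ε') * u ≥ (lam - ε') * (v - ε' * v) := by
      have : 0 ≤ lam - ε' := by linarith
      have h3 : v - ε' * v ≤ u := by linarith [huv'.1]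
      exact mul_le_mul_of_nonneg_left h3 this
    have h2 : (lam - ε') * (v - ε' * v) ≥ (lam - ε) * v := by
      have : (lam - ε') * (v - ε' * v) = (lam - ε' * (1 + lam) + ε' * ε') * v := by ring
      rw [this]
      have h4 : lam - ε ≤ lam - ε' * (1 + lam) + ε' * ε' := by nlinarith
      exact mul_le_mul_of_nonneg_right h4 hv0
    linarith

end Claimed.Agent.R269
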