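/-
Row 269, UNIT S9a (P1 Lemma 9.3), DEFINITIONS + LEAF PACKAGE LF-S9a-basic.   Blueprint: helper149.   Proofs: helper175.   PURE REAL VARIABLE, no paper reading needed.

`lm` = a limiting moment law (`S9aLaw lm`: convex on `(0,∞)`, `lm 1 = 0`, `lm D ≤ -log D`).   `ρ x = -lm (e^x)`, `c = 3/4`.
A CONTACT is a point where `ρ` touches its `c`-hull `ρ_c x = c x + inf_{v ≥ x} (ρ v - c v)`.
`S9aBdd lm K X`: derivative-free form of "the right slope `p = ρ'_+` is `≤ K` at all contacts `z ≥ X`"  (`lm` is convex in `D = e^x`, so `ρ y - ρ z ≤ p(z) (e^{y-z} - 1)`).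

PROOFS.  `s9a_lm_cont`: `ConvexOn.continuousOn isOpen_Ioi`.   `s9a_lm_anti`: if `0 < a < b`, `lm a ≤ lm b`, then by monotonicity of slopes `lm D ≥ lm b` for all `D > b`; but `lm D ≤ -log D → -∞`.
-/
import Claimed.Agent.R269.S9.Units

set_option autoImplicit false

namespace Claimed.Agent.R269

open Complex Filter Topology MeasureTheory Set Metric
open scoped ENNReal Real

/-- `ρ x = - lm (e^x)`. -/
noncomputable def s9a_rho (lm : ℝ → ℝ) (x : ℝ) : ℝ := -lm (Real.exp x)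

/-- contact points of `ρ` with its `3/4`-hull. -/
def S9aContact (lm : ℝ → ℝ) (x : ℝ) : Prop :=
  ∀ v ≥ x, s9a_rho lm x - 3 / 4 * x ≤ s9a_rho lm v - 3 / 4 * v

/-- the slopes at the contacts `z ≥ X` are bounded by `K`. -/
def S9aBdd (lm : ℝ → ℝ) (K X : ℝ) : Prop :=
  ∀ z ≥ X, S9aContact lm z → ∀ y > z, s9a_rho lm y - s9a_rho lm z ≤ K * (Real.exp (y - z) - 1)

/-- the `3/4`-hull `ρ_c`. -/
noncomputable def s9a_rhoc (lm : ℝ → ℝ) (x : ℝ) : ℝ :=
  3 / 4 * x + sInf ((fun v => s9a_rho lm v - 3 / 4 * v) '' Ici x)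

theorem s9a_lm_cont {lm : ℝ → ℝ} (h : S9aLaw lm) : ContinuousOn lm (Ioi 0) := by
  exact h.convex.continuousOn isOpen_Ioi

theorem s9a_lm_anti {lm : ℝ → ℝ} (h : S9aLaw lm) : StrictAntiOn lm (Ioi 0) := by
  intro a ha b hb hab
  by_contra hcon
  push Not at hcon
  have ha' : (0 : ℝ) < a := ha
  have hb' : (0 : ℝ) < b := hb
  obtain ⟨D, hD1, hD2⟩ : ∃ D : ℝ, b < D ∧ Real.exp (-lm b + 1) ≤ D :=
    ⟨max (b + 1) (Real.exp (-lm b + 1)), lt_of_lt_of_le (by linarith) (le_max_left _ _),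
      le_max_right _ _⟩
  have hD0 : 0 < D := hb'.trans hD1
  have h1 := h.convex.slope_mono_adjacent ha (show D ∈ Ioi (0 : ℝ) from hD0) hab hD1
  have h2 : 0 ≤ (lm b - lm a) / (b - a) := div_nonneg (by linarith) (by linarith)
  have h3 : 0 ≤ lm D - lm b := by
    have := h2.trans h1
    by_contra hneg
    push Not at hneg
    exact absurd this (not_le.2 (div_neg_of_neg_of_pos hneg (by linarith)))
  have h4 := h.le D hD0
  have h5 : -lm b + 1 ≤ Real.log D := (Real.le_log_iff_exp_le hD0).2 hD2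
  linarith

theorem s9a_rho_cont {lm : ℝ → ℝ} (h : S9aLaw lm) : Continuous (s9a_rho lm) := by
  unfold s9a_rho
  exact ((s9a_lm_cont h).comp_continuous Real.continuous_exp fun x => Real.exp_pos x).neg

theorem s9a_rho_mono {lm : ℝ → ℝ} (h : S9aLaw lm) : StrictMono (s9a_rho lm) := by
  intro x y hxy
  unfold s9a_rho
  exact neg_lt_neg (s9a_lm_anti h (Real.exp_pos x) (Real.exp_pos y) (Real.exp_lt_exp.2 hxy))

theorem s9a_rho_ge {lm : ℝ → ℝ} (h : S9aLaw lm) (x : ℝ) : x ≤ s9a_rho lm x := by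
  unfold s9a_rho
  have := h.le (Real.exp x) (Real.exp_pos x)
  rw [Real.log_exp] at this
  linarith

end Claimed.Agent.R269
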