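/-
Row 269, UNIT S9a (P1 Lemma 9.3 (ii)), LEAF PACKAGE LF-S9a-hull.   Blueprint: helper149.   Proofs: helper175.   PURE REAL VARIABLE, no paper reading needed.

The `c`-hull `ρ_c x = c x + inf_{v ≥ x} (ρ v - c v)`, `c = 3/4`.     `ψ v := ρ v - c v` is continuous and `ψ v ≥ v/4` (`s9a_rho_ge`).

`attained`: `ψ ≥ x/4` on `[x,∞)`, and `ψ v > ψ x` for `v > 4 ψ x`; so the infimum over `[x,∞)` is the minimum over the compact `[x, max x (4 ψ x)]`, attained at some `v`; `v` is a contact, as `[v,∞) ⊆ [x,∞)`.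
`between`: `inf ≥ x/4`; `inf ≤ ψ x`.      `incr`: the infimum over a smaller set is larger.     `contact`: definition.
`find`: let `u'` be the point of `attained` for `u`.  If `u' ≥ v`, then `inf_{[v,∞)} ψ = ψ u' = inf_{[u,∞)} ψ`, so the increment is exactly `c (v - u)`.  So `u' ∈ [u, v)`.
`lip`: first `v - u ≤ 1`.  `u'` as above.  If `u' ≥ v` the increment is `c (v-u)`.  Otherwise `ρ_c v ≤ ρ v`, `ρ_c u = ρ u' - c (u' - u)`, so the increment is `≤ K (e^{v-u'} - 1) + c (u' - u) ≤ max (2K) 1 (v - u)`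
   (`e^t - 1 ≤ (e - 1) t ≤ 2 t` on `[0,1]`).   General `v - u`: induction over unit pieces.
`closed`: pass to the limit `z → x`, `z < x`, in `ψ z ≤ ψ v` (`v ≥ x`), by continuity of `ρ`.
-/
import Claimed.Agent.R269.S9.MomentDefs

set_option autoImplicit false

namespace Claimed.Agent.R269

open Complex Filter Topology MeasureTheory Set Metric
open scoped ENNReal Real

/-- the infimum in the definition of the hull is attained. -/
theorem s9ah_least {lm : ℝ → ℝ} (h : S9aLaw lm) (x : ℝ) :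
    ∃ v ≥ x, (∀ y ≥ x, s9a_rho lm v - 3 / 4 * v ≤ s9a_rho lm y - 3 / 4 * y) ∧
      s9a_rhoc lm x = 3 / 4 * x + (s9a_rho lm v - 3 / 4 * v) := by
  obtain ⟨M, hM⟩ : ∃ M : ℝ, M = max x (4 * (s9a_rho lm x - 3 / 4 * x)) := ⟨_, rfl⟩
  have hxM : x ≤ M := by rw [hM]; exact le_max_left _ _
  have hc : ContinuousOn (fun v => s9a_rho lm v - 3 / 4 * v) (Icc x M) :=
    ((s9a_rho_cont h).sub (continuous_const.mul continuous_id)).continuousOn
  obtain ⟨v, hv, hmin⟩ := isCompact_Icc.exists_isMinOn (nonempty_Icc.2 hxM) hc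
  have hmin' : ∀ y ∈ Icc x M, s9a_rho lm v - 3 / 4 * v ≤ s9a_rho lm y - 3 / 4 * y :=
    fun y hy => hmin hy
  have hall : ∀ y ≥ x, s9a_rho lm v - 3 / 4 * v ≤ s9a_rho lm y - 3 / 4 * y := by
    intro y hy
    rcases le_total y M with hyM | hyM
    · exact hmin' y ⟨hy, hyM⟩
    · have h1 := hmin' x ⟨le_refl _, hxM⟩
      have h2 : 4 * (s9a_rho lm x - 3 / 4 * x) ≤ y := by
        refine le_trans ?_ hyM
        rw [hM]; exact le_max_right _ _
      have h3 := s9a_rho_ge h y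
      linarith
  refine ⟨v, hv.1, hall, ?_⟩
  unfold s9a_rhoc
  have hl : IsLeast ((fun v => s9a_rho lm v - 3 / 4 * v) '' Ici x) (s9a_rho lm v - 3 / 4 * v) := by
    refine ⟨⟨v, hv.1, rfl⟩, ?_⟩
    rintro _ ⟨y, hy, rfl⟩
    exact hall y hy
  rw [hl.csInf_eq]

theorem s9a_hull_attained {lm : ℝ → ℝ} (h : S9aLaw lm) (x : ℝ) :
    ∃ v ≥ x, S9aContact lm v ∧ s9a_rhoc lm x = 3 / 4 * x + (s9a_rho lm v - 3 / 4 * v) := by
  obtain ⟨v, hv, hmin, he⟩ := s9ah_least h x
  exact ⟨v, hv, fun y hy => hmin y (hv.trans hy), he⟩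

theorem s9a_hull_between {lm : ℝ → ℝ} (h : S9aLaw lm) (x : ℝ) :
    x ≤ s9a_rhoc lm x ∧ s9a_rhoc lm x ≤ s9a_rho lm x := by
  obtain ⟨v, hv, hmin, he⟩ := s9ah_least h x
  have h1 := s9a_rho_ge h v
  have h2 := hmin x (le_refl _)
  rw [he]
  constructor <;> linarith

theorem s9a_hull_incr {lm : ℝ → ℝ} (h : S9aLaw lm) {u v : ℝ} (huv : u ≤ v) :
    3 / 4 * (v - u) ≤ s9a_rhoc lm v - s9a_rhoc lm u := by
  obtain ⟨u', hu', hminu, heu⟩ := s9ah_least h u
  obtain ⟨v', hv', hminv, hev⟩ := s9ah_least h v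
  have := hminu v' (huv.trans hv')
  rw [heu, hev]
  linarith

theorem s9a_hull_contact {lm : ℝ → ℝ} (h : S9aLaw lm) (x : ℝ) :
    S9aContact lm x ↔ s9a_rhoc lm x = s9a_rho lm x := by
  obtain ⟨v, hv, hmin, he⟩ := s9ah_least h x
  constructor
  · intro hc
    have h1 := hc v hv
    have h2 := hmin x (le_refl _)
    rw [he]
    linarith
  · intro heq y hy
    have := hmin y hy
    rw [he] at heq
    linarith

theorem s9a_hull_find {lm : ℝ → ℝ} (h : S9aLaw lm) {u v : ℝ} (huv : u < v)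
    (hinc : 3 / 4 * (v - u) < s9a_rhoc lm v - s9a_rhoc lm u) : ∃ z ∈ Ico u v, S9aContact lm z := by
  obtain ⟨u', hu', hminu, heu⟩ := s9ah_least h u
  obtain ⟨v', hv', hminv, hev⟩ := s9ah_least h v
  refine ⟨u', ⟨hu', ?_⟩, fun y hy => hminu y (hu'.trans hy)⟩
  by_contra hcon
  push Not at hcon
  have h1 := hminv u' hcon
  rw [heu, hev] at hinc
  linarith

/-- the Lipschitz bound on intervals of length at most one. -/
theorem s9ah_lip_unit {lm : ℝ → ℝ} (h : S9aLaw lm) {K X : ℝ} (hb : S9aBdd lm K X) {u v : ℝ}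
    (hu : X ≤ u) (huv : u ≤ v) (h1 : v - u ≤ 1) :
    s9a_rhoc lm v - s9a_rhoc lm u ≤ max (2 * K) 1 * (v - u) := by
  obtain ⟨u', hu', hminu, heu⟩ := s9ah_least h u
  obtain ⟨v', hv', hminv, hev⟩ := s9ah_least h v
  have hm1 : (1 : ℝ) ≤ max (2 * K) 1 := le_max_right _ _
  have hm2 : 2 * K ≤ max (2 * K) 1 := le_max_left _ _
  rcases le_or_gt v u' with hc | hc
  · have e1 := hminv u' hc
    have e2 : 1 * (v - u) ≤ max (2 * K) 1 * (v - u) :=
      mul_le_mul_of_nonneg_right hm1 (by linarith)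
    rw [heu, hev]
    linarith
  · have e1 := hb u' (hu.trans hu') (fun y hy => hminu y (hu'.trans hy)) v hc
    have e2 := hminv v (le_refl _)
    have ht0 : 0 ≤ v - u' := by linarith
    have e3 : K * (Real.exp (v - u') - 1) ≤ max (2 * K) 1 * (v - u') := by
      have h3 : 0 ≤ Real.exp (v - u') - 1 := by linarith [Real.add_one_le_exp (v - u')]
      rcases le_total 0 K with hK | hK
      · have h4 := Real.abs_exp_sub_one_le (x := v - u') (by rw [abs_of_nonneg ht0]; linarith)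
        rw [abs_of_nonneg h3, abs_of_nonneg ht0] at h4
        calc K * (Real.exp (v - u') - 1) ≤ K * (2 * (v - u')) := mul_le_mul_of_nonneg_left h4 hK
          _ = 2 * K * (v - u') := by ring
          _ ≤ max (2 * K) 1 * (v - u') := mul_le_mul_of_nonneg_right hm2 ht0
      · have h5 : K * (Real.exp (v - u') - 1) ≤ 0 := mul_nonpos_of_nonpos_of_nonneg hK h3
        have h6 : 0 ≤ max (2 * K) 1 * (v - u') := mul_nonneg (by linarith) ht0
        linarith
    have e4 : 1 * (u' - u) ≤ max (2 * K) 1 * (u' - u) :=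
      mul_le_mul_of_nonneg_right hm1 (by linarith)
    rw [heu, hev]
    nlinarith

theorem s9a_hull_lip {lm : ℝ → ℝ} (h : S9aLaw lm) {K X : ℝ} (hb : S9aBdd lm K X) {u v : ℝ}
    (hu : X ≤ u) (huv : u ≤ v) : s9a_rhoc lm v - s9a_rhoc lm u ≤ max (2 * K) 1 * (v - u) := by
  obtain ⟨n, hn⟩ := exists_nat_ge (v - u)
  induction n generalizing v with
  | zero =>
    have : v = u := by
      simp only [Nat.cast_zero] at hn
      linarith
    rw [this]; simp
  | succ n ih =>
    rcases le_total (v - u) 1 with h1 | h1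
    · exact s9ah_lip_unit h hb hu huv h1
    · push_cast at hn
      have e1 := ih (v := v - 1) (by linarith) (by linarith)
      have e2 := s9ah_lip_unit h hb (u := v - 1) (v := v) (by linarith) (by linarith) (by linarith)
      nlinarith

theorem s9a_contact_closed {lm : ℝ → ℝ} (h : S9aLaw lm) (x : ℝ)
    (hx : ∀ ε > (0 : ℝ), ∃ z ∈ Icc (x - ε) x, S9aContact lm z) : S9aContact lm x := by
  intro v hv
  by_contra hcon
  push Not at hcon
  have hc : Continuous fun z => s9a_rho lm z - 3 / 4 * z :=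
    (s9a_rho_cont h).sub (continuous_const.mul continuous_id)
  have hopen : IsOpen {z | s9a_rho lm v - 3 / 4 * v < s9a_rho lm z - 3 / 4 * z} :=
    isOpen_lt continuous_const hc
  obtain ⟨δ, hδ, hball⟩ := Metric.isOpen_iff.1 hopen x hcon
  obtain ⟨z, hz, hzc⟩ := hx (δ / 2) (by positivity)
  have h1 : z ∈ ball x δ := by
    rw [mem_ball, Real.dist_eq, abs_lt]
    constructor <;> linarith [hz.1, hz.2]
  have h2 : s9a_rho lm v - 3 / 4 * v < s9a_rho lm z - 3 / 4 * z := hball h1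
  have h3 := hzc v (hz.2.trans hv)
  linarith

end Claimed.Agent.R269
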