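/-
Row 269, UNIT S9a (P1 Lemma 9.3 (ii)), LEAF PACKAGE LF-S9a-sel.   Blueprint: helper149.   Proof: helper175.   HOST-FREE (Mathlib only).
Replaces the Krylov-Bogolyubov / Birkhoff argument of the paper by an elementary selection.

STATEMENT.  `R` nondecreasing and `K₁`-Lipschitz on `[X,∞)`, `R x ≥ x`.  Then there are a slope `λ ∈ [1, K₁]` and points `x j → ∞` from which `R` looks BACKWARDS like a line of slope `λ` on longer and longer intervals.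

PROOF.   `𝒜 := {s | ∃ ℓ > 0, ∃ Y ≥ X, ∀ x ≥ Y + ℓ, R x - R (x - ℓ) ≤ s ℓ}`,   `λ := sInf 𝒜`.
 `K₁ ∈ 𝒜`.   Every `s ∈ 𝒜` is `≥ 1`: `Y + n ℓ ≤ R (Y + n ℓ) ≤ R Y + n s ℓ` for all `n`.   So `1 ≤ λ ≤ K₁`.
 UPPER (U): for `η > 0` take `s ∈ 𝒜`, `s < λ + η/2`, with `ℓ₀, Y₀`.  If `x - ℓ ≥ Y₀`, `ℓ = n ℓ₀ + r`, `0 ≤ r < ℓ₀`, then `R x - R (x-ℓ) ≤ n s ℓ₀ + K₁ r ≤ (λ + η/2) ℓ + K₁ ℓ₀ ≤ (λ+η) ℓ` as soon as `ℓ ≥ 2 K₁ ℓ₀/η`.
 LOWER (L): for all `s < λ`, `ℓ > 0`, `Y ≥ X` there is `x ≥ Y + ℓ` with `R x - R (x-ℓ) > s ℓ`  (`s ∉ 𝒜`).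
 CHOICE of `x j`:  `η = 1/(j+1)`, `Λ = 2 K₁ (j+1)²`, `Y = max X j`.  By (L) there is a window `[x₀, x₀+Λ]`, `x₀ ≥ Y`, with `R (x₀+Λ) - R x₀ > (λ - η/2) Λ`.  Let `x j` maximise the continuous function `Φ x = R x - (λ-η) x` on the window, `ℓm j := x j - x₀`.
   `Φ (x j) - Φ x₀ ≥ Φ (x₀+Λ) - Φ x₀ ≥ η Λ/2` and `Φ (x j) - Φ x₀ ≤ (K₁ - λ + η)(x j - x₀) ≤ K₁ (x j - x₀)`, so `ℓm j ≥ η Λ/(2K₁) = j+1`.    `Φ (x j) ≥ Φ (x j - ℓ)` for `0 ≤ ℓ ≤ ℓm j` is the lower bound.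
   The upper bound is (U), valid as soon as `j ≥ Y₀`  (`x j - ℓ ≥ x₀ ≥ j`).
-/
import Mathlib

set_option autoImplicit false

namespace Claimed.Agent.R269

open Complex Filter Topology MeasureTheory Set Metric
open scoped ENNReal Real

/-- iteration of a one step bound. -/
theorem s9as_iter (R : ℝ → ℝ) (s ℓ Y : ℝ) (h : ∀ x ≥ Y + ℓ, R x - R (x - ℓ) ≤ s * ℓ) (hℓ : 0 ≤ ℓ)
    (x : ℝ) (n : ℕ) (hx : Y ≤ x - n * ℓ) : R x - R (x - n * ℓ) ≤ n * (s * ℓ) := by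
  induction n with
  | zero => simp
  | succ n ih =>
    push_cast at hx ⊢
    have h1 := ih (by nlinarith)
    have h2 := h (x - n * ℓ) (by nlinarith)
    have e : x - (n + 1) * ℓ = x - n * ℓ - ℓ := by ring
    rw [e]
    nlinarith

/-- the upper bound (U) on all long backward intervals. -/
theorem s9as_upper (R : ℝ → ℝ) (X K₁ : ℝ)
    (hlip : ∀ u v : ℝ, X ≤ u → u ≤ v → R v - R u ≤ K₁ * (v - u)) (s ℓ₀ Y₀ : ℝ) (hℓ₀ : 0 < ℓ₀)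
    (hY₀ : X ≤ Y₀) (hs : 0 ≤ s) (hK : 0 ≤ K₁) (h : ∀ x ≥ Y₀ + ℓ₀, R x - R (x - ℓ₀) ≤ s * ℓ₀)
    (x ℓ : ℝ) (hℓ : 0 ≤ ℓ) (hx : Y₀ ≤ x - ℓ) : R x - R (x - ℓ) ≤ s * ℓ + K₁ * ℓ₀ := by
  obtain ⟨n, hn⟩ : ∃ n : ℕ, n = ⌊ℓ / ℓ₀⌋₊ := ⟨_, rfl⟩
  have hn1 : (n : ℝ) * ℓ₀ ≤ ℓ := by
    rw [← le_div_iff₀ hℓ₀, hn]
    exact Nat.floor_le (div_nonneg hℓ hℓ₀.le)
  have hn2 : ℓ < ((n : ℝ) + 1) * ℓ₀ := by
    rw [← div_lt_iff₀ hℓ₀, hn]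
    exact Nat.lt_floor_add_one _
  have h1 := s9as_iter R s ℓ₀ Y₀ h hℓ₀.le x n (by linarith)
  have h2 := hlip (x - ℓ) (x - n * ℓ₀) (hY₀.trans hx) (by linarith)
  have h3 : (n : ℝ) * (s * ℓ₀) ≤ s * ℓ := by
    have := mul_le_mul_of_nonneg_left hn1 hs
    linarith
  have h4 : K₁ * (x - n * ℓ₀ - (x - ℓ)) ≤ K₁ * ℓ₀ :=
    mul_le_mul_of_nonneg_left (by linarith) hK
  linarith

/-- LEAF: selection of backward-regular points. -/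
theorem s9a_select (R : ℝ → ℝ) (X K₁ : ℝ) (hmono : ∀ u v : ℝ, X ≤ u → u ≤ v → R u ≤ R v)
    (hlip : ∀ u v : ℝ, X ≤ u → u ≤ v → R v - R u ≤ K₁ * (v - u)) (hge : ∀ x ≥ X, x ≤ R x) :
    ∃ (lam : ℝ) (x ℓm : ℕ → ℝ), 1 ≤ lam ∧ lam ≤ K₁ ∧ Tendsto x atTop atTop ∧ Tendsto ℓm atTop atTop ∧
      (∀ j, 0 < ℓm j ∧ X ≤ x j - ℓm j) ∧
      (∀ j, ∀ ℓ ∈ Icc 0 (ℓm j), (lam - 1 / ((j : ℝ) + 1)) * ℓ ≤ R (x j) - R (x j - ℓ)) ∧
      ∀ η > (0 : ℝ), ∃ ℓ₀ : ℝ, ∀ᶠ j in atTop, ∀ ℓ ∈ Icc ℓ₀ (ℓm j), R (x j) - R (x j - ℓ) ≤ (lam + η) * ℓ := by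
  -- the set of admissible slopes
  set 𝒜 : Set ℝ := {s | ∃ ℓ > 0, ∃ Y ≥ X, ∀ x ≥ Y + ℓ, R x - R (x - ℓ) ≤ s * ℓ} with h𝒜
  have hK𝒜 : K₁ ∈ 𝒜 := by
    refine ⟨1, one_pos, X, le_refl _, fun x hx => ?_⟩
    have := hlip (x - 1) x (by linarith) (by linarith)
    linarith
  have hge1 : ∀ s ∈ 𝒜, 1 ≤ s := by
    rintro s ⟨ℓ, hℓ, Y, hY, h⟩
    by_contra hs
    push Not at hs
    have hpos : 0 < ℓ * (1 - s) := mul_pos hℓ (by linarith)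
    obtain ⟨n, hn⟩ := exists_nat_gt ((R Y - Y) / (ℓ * (1 - s)))
    rw [div_lt_iff₀ hpos] at hn
    have h1 := s9as_iter R s ℓ Y h hℓ.le (Y + n * ℓ) n (by linarith)
    have h2 := hge (Y + n * ℓ) (by
      have : 0 ≤ (n : ℝ) * ℓ := by positivity
      linarith)
    rw [add_sub_cancel_right] at h1
    nlinarith
  have hbdd : BddBelow 𝒜 := ⟨1, fun s hs => hge1 s hs⟩
  have hne : 𝒜.Nonempty := ⟨K₁, hK𝒜⟩
  obtain ⟨lam, hlam⟩ : ∃ lam : ℝ, lam = sInf 𝒜 := ⟨_, rfl⟩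
  have hlam1 : 1 ≤ lam := by rw [hlam]; exact le_csInf hne hge1
  have hlamK : lam ≤ K₁ := by rw [hlam]; exact csInf_le hbdd hK𝒜
  have hK1 : 1 ≤ K₁ := hlam1.trans hlamK
  have hK0 : 0 < K₁ := by linarith
  -- continuity
  have hcont : ContinuousOn R (Ici X) := by
    have : LipschitzOnWith K₁.toNNReal R (Ici X) := by
      refine LipschitzOnWith.of_dist_le_mul fun u hu v hv => ?_
      rw [Real.coe_toNNReal _ hK0.le, Real.dist_eq, Real.dist_eq]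
      rcases le_total u v with h | h
      · rw [abs_sub_comm, abs_sub_comm u v, abs_of_nonneg (by linarith [hmono u v hu h]),
          abs_of_nonneg (by linarith)]
        exact hlip u v hu h
      · rw [abs_of_nonneg (by linarith [hmono v u hv h]), abs_of_nonneg (by linarith)]
        exact hlip v u hv h
    exact this.continuousOn
  -- choice of the points
  have hchoice : ∀ j : ℕ, ∃ x₀ x : ℝ, X ≤ x₀ ∧ (j : ℝ) ≤ x₀ ∧ (j : ℝ) + 1 ≤ x - x₀ ∧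
      ∀ ℓ ∈ Icc 0 (x - x₀), (lam - 1 / ((j : ℝ) + 1)) * ℓ ≤ R x - R (x - ℓ) := by
    intro j
    have hj : (0 : ℝ) < (j : ℝ) + 1 := by positivity
    obtain ⟨η, hη⟩ : ∃ η : ℝ, η = 1 / ((j : ℝ) + 1) := ⟨_, rfl⟩
    have hη0 : 0 < η := by rw [hη]; positivity
    have hη1 : η ≤ 1 := by
      rw [hη, div_le_one hj]
      have : (0 : ℝ) ≤ j := Nat.cast_nonneg j
      linarith
    obtain ⟨Λ, hΛ⟩ : ∃ Λ : ℝ, Λ = 2 * K₁ * ((j : ℝ) + 1) ^ 2 := ⟨_, rfl⟩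
    have hΛ0 : 0 < Λ := by rw [hΛ]; positivity
    have hnot : lam - η / 2 ∉ 𝒜 := by
      apply notMem_of_lt_csInf _ hbdd
      rw [← hlam]; linarith
    have hex : ∃ x' ≥ max X j + Λ, (lam - η / 2) * Λ < R x' - R (x' - Λ) := by
      by_contra hcon
      push Not at hcon
      exact hnot ⟨Λ, hΛ0, max X j, le_max_left _ _, hcon⟩
    obtain ⟨x', hx', hgap⟩ := hex
    obtain ⟨x₀, hx₀⟩ : ∃ x₀ : ℝ, x₀ = x' - Λ := ⟨_, rfl⟩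
    have hx'e : x' = x₀ + Λ := by rw [hx₀]; ring
    rw [← hx₀, hx'e] at hgap
    have hx₀Y : max X j ≤ x₀ := by rw [hx₀]; linarith
    have hx₀X : X ≤ x₀ := (le_max_left _ _).trans hx₀Y
    have hcΦ : ContinuousOn (fun x => R x - (lam - η) * x) (Icc x₀ (x₀ + Λ)) :=
      (hcont.mono fun x hx => hx₀X.trans hx.1).sub
        (continuous_const.mul continuous_id).continuousOn
    obtain ⟨x, hx, hmax⟩ := isCompact_Icc.exists_isMaxOn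
      (nonempty_Icc.2 (show x₀ ≤ x₀ + Λ by linarith)) hcΦ
    have hΦ : ∀ y ∈ Icc x₀ (x₀ + Λ), R y - (lam - η) * y ≤ R x - (lam - η) * x :=
      fun y hy => hmax hy
    refine ⟨x₀, x, hx₀X, (le_max_right _ _).trans hx₀Y, ?_, fun ℓ hℓ => ?_⟩
    · have h1 := hΦ (x₀ + Λ) ⟨by linarith, le_refl _⟩
      have h2 := hlip x₀ x hx₀X hx.1
      have h3 : (lam - η) * (x - x₀) ≥ 0 := mul_nonneg (by linarith) (by linarith [hx.1])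
      have h4 : η * Λ / 2 ≤ K₁ * (x - x₀) := by nlinarith
      have h5 : η * Λ / 2 = K₁ * ((j : ℝ) + 1) := by
        rw [hη, hΛ]; field_simp
      rw [h5] at h4
      exact le_of_mul_le_mul_left h4 hK0
    · have h1 := hΦ (x - ℓ) ⟨by linarith [hℓ.2], by linarith [hℓ.1, hx.2]⟩
      rw [← hη]
      nlinarith
  choose x₀ x hX hj hlen hlow using hchoice
  refine ⟨lam, x, fun j => x j - x₀ j, hlam1, hlamK, ?_, ?_, fun j => ⟨?_, ?_⟩, hlow, ?_⟩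
  · refine tendsto_atTop_mono (fun j => ?_) tendsto_natCast_atTop_atTop
    have := hlen j
    have := hj j
    have : (0 : ℝ) ≤ j := Nat.cast_nonneg j
    linarith
  · refine tendsto_atTop_mono (fun j => ?_) tendsto_natCast_atTop_atTop
    have := hlen j
    linarith
  · have := hlen j
    have : (0 : ℝ) ≤ j := Nat.cast_nonneg j
    linarith
  · have := hX j
    linarith
  · intro η hη
    obtain ⟨s, ⟨ℓ₀, hℓ₀, Y₀, hY₀, hs⟩, hslt⟩ :=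
      exists_lt_of_csInf_lt hne (show sInf 𝒜 < lam + η / 2 by rw [← hlam]; linarith)
    have hs1 : 1 ≤ s := hge1 s ⟨ℓ₀, hℓ₀, Y₀, hY₀, hs⟩
    refine ⟨2 * K₁ * ℓ₀ / η, ?_⟩
    filter_upwards [eventually_ge_atTop ⌈Y₀⌉₊] with j hjY ℓ hℓ
    have hjY' : Y₀ ≤ (j : ℝ) := (Nat.le_ceil Y₀).trans (by exact_mod_cast hjY)
    have hℓ0 : 0 ≤ ℓ := le_trans (by positivity) hℓ.1
    have h1 := s9as_upper R X K₁ hlip s ℓ₀ Y₀ hℓ₀ hY₀ (by linarith) hK0.le hs (x j) ℓ hℓ0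
      (by have := hℓ.2; have := hj j; linarith)
    have h2 : 2 * K₁ * ℓ₀ ≤ ℓ * η := (div_le_iff₀ hη).1 hℓ.1
    have h3 : s * ℓ ≤ (lam + η / 2) * ℓ := mul_le_mul_of_nonneg_right hslt.le hℓ0
    nlinarith

end Claimed.Agent.R269
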