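/-
Row 269, UNIT S9a (P1 Lemma 9.3 (ii)), LEAF PACKAGES LF-S9a-seq (`s9a_flat_seq`) and LF-S9a-flat (`s9a_flat`).   Blueprint: helper149.   PURE REAL VARIABLE, no paper reading needed.

`ρ = s9a_rho lm`, `ρ_c = s9a_rhoc lm`, `c = 3/4`, `K₁ = max (2K) 1`.

PROOF OF `s9a_flat_seq`.  `s9a_select` for `R = ρ_c` on `[X,∞)` (`s9a_hull_incr`, `s9a_hull_lip`, `s9a_hull_between`); drop the first 4 terms (`j ↦ j+4`), so that `λ - 1/(j+1) ≥ 4/5 > c`.
 CONTACT at `x j`: for small `ℓ > 0` the increment of `ρ_c` over `[x j - ℓ, x j]` is `≥ (4/5) ℓ > c ℓ`, so `s9a_hull_find` gives a contact in `[x j - ℓ, x j)`; `s9a_contact_closed`.   So `ρ (x j) = ρ_c (x j)` (`s9a_hull_contact`).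
 UPPER: `ρ (x j) - ρ (x j - v) ≤ ρ_c (x j) - ρ_c (x j - v) ≤ (λ+η') v` for `ℓ₀(η') ≤ v ≤ ℓm j`.
 LOWER: `θ := 8 η' < 1`, `1/(j+1) < η'`, `v (1-θ) ≥ ℓ₀(η')`.  The increment of `ρ_c` over `[x j - v, x j - v + θ v]` is `≥ (λ - 1/(j+1)) v - (λ+η')(1-θ) v ≥ (λ θ - 2η') v > c θ v` (as `(λ - c) θ ≥ 2 η'`... use `θ/4 = 2η'` and strictness from `1/(j+1) < η'`).
   So there is a contact `z ∈ [x j - v, x j - v + θ v)`, and `ρ (x j - v) ≤ ρ z = ρ_c z ≤ ρ_c (x j - v) + K₁ θ v`.   Hence `ρ (x j) - ρ (x j - v) ≥ (λ - η' - 8 K₁ η') v`.    Given `η` take `η' = min (1/16) (η/(1 + 8K₁))`, `v₀ = 2 ℓ₀(η')`.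

PROOF OF `s9a_flat`.  WLOG `X ≥ 0` (`S9aBdd` is monotone in `X`).   `λ, x, ℓm` from `s9a_flat_seq`.   `g j D := lm (e^{x j} D) - lm (e^{x j})` is convex on `(0,∞)`, `g j 1 = 0`;  `g j D ≤ 0` for `D ≥ 1` (`s9a_lm_anti`);
 for `D = e^{-v}`, `0 ≤ v ≤ x j - X`: `g j D = ρ (x j) - ρ (x j - v) ≤ ρ_c (x j) - ρ_c (x j - v) ≤ K₁ v`.   `s9a_convex_compact` (`b n = n`): subsequence `φ`, limit `g'`.   `L v := g' (e^{-v})`; the final sequence is `x ∘ φ`.
 `L_cont`: `g'` is convex on the open half line, hence continuous.  `L_zero`: `g' 1 = lim g j 1`.   `L_lim`: `e^{x - v} = e^x e^{-v}`, `e^{-v} ∈ [e^{-V}, 1]`.    `L_slope`: pass to the limit `j → ∞` in the estimate of `s9a_flat_seq` at fixed `v ≥ v₀`.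
 `coarse`: contact at `x j`.      `fine`, `P' = K₁`, `C ≥ ρ_c X - X`: for `X ≤ v ≤ x j`: `ρ (x j) - ρ v ≤ ρ_c (x j) - ρ_c v ≤ K₁ (x j - v)`; for `v < X`: `ρ (x j) - ρ v ≤ K₁ (x j - X) + ρ_c X - v ≤ K₁ (x j - v) + (ρ_c X - X)`.
 `size`: `ρ (x j) = ρ_c (x j) ≤ ρ_c X + K₁ (x j - X) ≤ (K₁ + ρ_c X)(1 + x j)`.      `C := K₁ + ρ_c X`.
-/
import Claimed.Agent.R269.S9.MomentHull
import Claimed.Agent.R269.S9.MomentSelect
import Claimed.Agent.R269.S9.MomentConvex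

set_option autoImplicit false

namespace Claimed.Agent.R269

open Complex Filter Topology MeasureTheory Set Metric
open scoped ENNReal Real

/-- LEAF: contacts from which `ρ` itself looks backwards like a line of slope `λ`. -/
theorem s9a_flat_seq (lm : ℝ → ℝ) (h : S9aLaw lm) (K X : ℝ) (hb : S9aBdd lm K X) :
    ∃ (lam : ℝ) (x ℓm : ℕ → ℝ), 1 ≤ lam ∧ Tendsto x atTop atTop ∧ Tendsto ℓm atTop atTop ∧
      (∀ j, 0 < ℓm j ∧ X ≤ x j - ℓm j) ∧ (∀ j, S9aContact lm (x j)) ∧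
      ∀ η > (0 : ℝ), ∃ v₀ : ℝ, ∀ᶠ j in atTop, ∀ v ∈ Icc v₀ (ℓm j),
        |s9a_rho lm (x j) - s9a_rho lm (x j - v) - lam * v| ≤ η * v := by
  obtain ⟨K₁, hK₁⟩ : ∃ K₁, K₁ = max (2 * K) 1 := ⟨_, rfl⟩
  have hK₁1 : 1 ≤ K₁ := hK₁ ▸ le_max_right _ _
  obtain ⟨lam, x, ℓm, hlam, hlamK, hx, hℓ, hpos, hlow, hup⟩ := s9a_select (s9a_rhoc lm) X K₁
    (fun u v _ huv => by have := s9a_hull_incr h huv; linarith)
    (fun u v hu huv => hK₁ ▸ s9a_hull_lip h hb hu huv)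
    (fun x _ => (s9a_hull_between h x).1)
  have hj5 : ∀ j : ℕ, 1 / (((j + 4 : ℕ) : ℝ) + 1) ≤ 1 / 5 := by
    intro j
    apply one_div_le_one_div_of_le (by norm_num)
    push_cast
    have : (0 : ℝ) ≤ j := Nat.cast_nonneg j
    linarith
  have hcontact : ∀ j, S9aContact lm (x (j + 4)) := by
    intro j
    apply s9a_contact_closed h
    intro ε hε
    obtain ⟨ℓ, hℓdef⟩ : ∃ ℓ, ℓ = min ε (ℓm (j + 4)) := ⟨_, rfl⟩
    have hℓ0 : 0 < ℓ := hℓdef ▸ lt_min hε (hpos _).1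
    have hℓε : ℓ ≤ ε := hℓdef ▸ min_le_left _ _
    have h1 := hlow (j + 4) ℓ ⟨hℓ0.le, hℓdef ▸ min_le_right _ _⟩
    have h2 : 4 / 5 * ℓ ≤ (lam - 1 / (((j + 4 : ℕ) : ℝ) + 1)) * ℓ := by
      apply mul_le_mul_of_nonneg_right _ hℓ0.le
      linarith [hj5 j]
    obtain ⟨z, hz, hzc⟩ := s9a_hull_find h (u := x (j + 4) - ℓ) (v := x (j + 4)) (by linarith)
      (by linarith)
    exact ⟨z, ⟨by linarith [hz.1], hz.2.le⟩, hzc⟩
  refine ⟨lam, fun j => x (j + 4), fun j => ℓm (j + 4), hlam, hx.comp (tendsto_add_atTop_nat 4),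
    hℓ.comp (tendsto_add_atTop_nat 4), fun j => hpos _, hcontact, ?_⟩
  intro η hη
  obtain ⟨η', hη'⟩ : ∃ η', η' = min (1 / 16) (η / (1 + 8 * K₁)) := ⟨_, rfl⟩
  have hK8 : 0 < 1 + 8 * K₁ := by linarith
  have hη'0 : 0 < η' := hη' ▸ lt_min (by norm_num) (by positivity)
  have hη'1 : η' ≤ 1 / 16 := hη' ▸ min_le_left _ _
  have hη'2 : (1 + 8 * K₁) * η' ≤ η := by
    have : η' ≤ η / (1 + 8 * K₁) := hη' ▸ min_le_right _ _
    rw [le_div_iff₀ hK8] at this
    linarith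
  obtain ⟨ℓ₀, hℓ₀⟩ := hup η' hη'0
  refine ⟨max (2 * ℓ₀) 1, ?_⟩
  have hev : ∀ᶠ j : ℕ in atTop, 1 / (((j + 4 : ℕ) : ℝ) + 1) < η' := by
    obtain ⟨n, hn⟩ := exists_nat_one_div_lt hη'0
    filter_upwards [eventually_ge_atTop n] with j hj
    refine lt_of_le_of_lt ?_ hn
    apply one_div_le_one_div_of_le (by positivity)
    push_cast
    have : (n : ℝ) ≤ j := Nat.cast_le.2 hj
    linarith
  filter_upwards [(tendsto_add_atTop_nat 4).eventually hℓ₀, hev] with j hj hjη v hv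
  obtain ⟨y, hy⟩ : ∃ y, y = x (j + 4) := ⟨_, rfl⟩
  obtain ⟨e, he⟩ : ∃ e, e = 1 / (((j + 4 : ℕ) : ℝ) + 1) := ⟨_, rfl⟩
  have hlowj := hlow (j + 4)
  have hposj := hpos (j + 4)
  have hc := (s9a_hull_contact h y).1 (hy ▸ hcontact j)
  rw [← hy] at hj hlowj hposj
  rw [← he] at hlowj hjη
  show |s9a_rho lm (x (j + 4)) - s9a_rho lm (x (j + 4) - v) - lam * v| ≤ η * v
  rw [← hy]
  have hv1 : 1 ≤ v := (le_max_right _ _).trans hv.1
  have hv2 : 2 * ℓ₀ ≤ v := (le_max_left _ _).trans hv.1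
  have hvM : v ≤ ℓm (j + 4) := hv.2
  have hXv : X ≤ y - v := by linarith [hposj.2]
  have hU := hj v ⟨by linarith, hvM⟩
  have hL := hlowj v ⟨by linarith, hvM⟩
  have hθv : v / 2 ≤ (1 - 8 * η') * v := by nlinarith
  have hθv' : (1 - 8 * η') * v ≤ v := by nlinarith
  have hU2 := hj ((1 - 8 * η') * v) ⟨by linarith, by linarith⟩
  have hc₀ : 0 < lam * (8 * η') - e - η' * (1 - 8 * η') - 3 / 4 * (8 * η') := by
    nlinarith [mul_nonneg (sub_nonneg.2 hlam) hη'0.le, sq_nonneg η']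
  have hc₀v := mul_pos hc₀ (by linarith : (0 : ℝ) < v)
  have hid : (lam - e) * v - (lam + η') * ((1 - 8 * η') * v) - 3 / 4 * (8 * η' * v) =
      (lam * (8 * η') - e - η' * (1 - 8 * η') - 3 / 4 * (8 * η')) * v := by ring
  have hηv : 0 < η' * v := mul_pos hη'0 (by linarith)
  obtain ⟨z, hz, hzc⟩ := s9a_hull_find h (u := y - v) (v := y - (1 - 8 * η') * v)
    (by linarith) (by linarith)
  have h1 : s9a_rho lm (y - v) ≤ s9a_rho lm z := (s9a_rho_mono h).monotone hz.1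
  have h2 := (s9a_hull_contact h z).1 hzc
  have h3 := s9a_hull_lip h hb hXv hz.1
  rw [← hK₁] at h3
  have h4 : K₁ * (z - (y - v)) ≤ K₁ * (8 * η' * v) :=
    mul_le_mul_of_nonneg_left (by linarith [hz.2]) (by linarith)
  have h5 := (s9a_hull_between h (y - v)).2
  have h6 : e * v ≤ η' * v := mul_le_mul_of_nonneg_right hjη.le (by linarith)
  have h7 : (1 + 8 * K₁) * η' * v ≤ η * v := mul_le_mul_of_nonneg_right hη'2 (by linarith)
  have h8 : 0 ≤ K₁ * (η' * v) := mul_nonneg (by linarith) hηv.le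
  rw [abs_le]
  constructor <;> nlinarith

/-- LEAF: bounded slopes at the contacts give alternative (ii). -/
theorem s9a_flat (lm : ℝ → ℝ) (h : S9aLaw lm) (K X : ℝ) (hb : S9aBdd lm K X) :
    ∃ (x : ℕ → ℝ) (L : ℝ → ℝ) (lam C P' : ℝ), S9aFlat lm x L lam C P' := by
  -- WLOG `X ≥ 0`
  obtain ⟨X', hX'0, hb'⟩ : ∃ X', 0 ≤ X' ∧ S9aBdd lm K X' :=
    ⟨max X 0, le_max_right _ _, fun z hz => hb z ((le_max_left _ _).trans hz)⟩
  clear hb X
  obtain ⟨K₁, hK₁⟩ : ∃ K₁, K₁ = max (2 * K) 1 := ⟨_, rfl⟩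
  have hK₁1 : 1 ≤ K₁ := hK₁ ▸ le_max_right _ _
  obtain ⟨lam, x, ℓm, hlam, hx, hℓ, hpos, hcontact, hest⟩ := s9a_flat_seq lm h K X' hb'
  have hlip : ∀ u v : ℝ, X' ≤ u → u ≤ v → s9a_rhoc lm v - s9a_rhoc lm u ≤ K₁ * (v - u) :=
    fun u v hu huv => hK₁ ▸ s9a_hull_lip h hb' hu huv
  have hc : ∀ j, s9a_rhoc lm (x j) = s9a_rho lm (x j) := fun j =>
    (s9a_hull_contact h (x j)).1 (hcontact j)
  have hXx : ∀ j, X' ≤ x j := fun j => by linarith [(hpos j).1, (hpos j).2]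
  -- the rescaled laws
  obtain ⟨g, hg⟩ : ∃ g : ℕ → ℝ → ℝ, g = fun j D => lm (Real.exp (x j) * D) - lm (Real.exp (x j)) :=
    ⟨_, rfl⟩
  have hgv : ∀ j v, g j (Real.exp (-v)) = s9a_rho lm (x j) - s9a_rho lm (x j - v) := by
    intro j v
    rw [hg]
    simp only [s9a_rho]
    rw [← Real.exp_add, ← sub_eq_add_neg]
    ring
  have hconv : ∀ n : ℕ, ConvexOn ℝ (Ioo 0 ((n : ℕ) : ℝ)) (g n) := by
    intro n
    refine ⟨convex_Ioo _ _, fun D₁ h₁ D₂ h₂ a b ha hb hab => ?_⟩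
    have he := Real.exp_pos (x n)
    have := h.convex.2 (x := Real.exp (x n) * D₁) (y := Real.exp (x n) * D₂)
      (mul_pos he h₁.1) (mul_pos he h₂.1) ha hb hab
    simp only [smul_eq_mul] at this ⊢
    rw [hg]
    simp only []
    have h1 : Real.exp (x n) * (a * D₁ + b * D₂) =
        a * (Real.exp (x n) * D₁) + b * (Real.exp (x n) * D₂) := by ring
    have h2 : lm (Real.exp (x n)) = a * lm (Real.exp (x n)) + b * lm (Real.exp (x n)) := by
      rw [← add_mul, hab, one_mul]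
    rw [h1]
    linarith
  have hone : ∀ n, g n 1 = 0 := by intro n; rw [hg]; simp
  have hupb : ∀ a c : ℝ, 0 < a → a ≤ c → ∃ C : ℝ, ∀ᶠ n in atTop, ∀ D ∈ Icc a c, g n D ≤ C := by
    intro a c ha _
    refine ⟨K₁ * |Real.log a|, ?_⟩
    filter_upwards [hℓ.eventually_ge_atTop (-Real.log a)] with n hn D hD
    have hD0 : 0 < D := lt_of_lt_of_le ha hD.1
    have hC0 : 0 ≤ K₁ * |Real.log a| := mul_nonneg (by linarith) (abs_nonneg _)
    rcases le_total 1 D with h1 | h1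
    · refine le_trans ?_ hC0
      rw [hg]
      simp only []
      have he := Real.exp_pos (x n)
      have := (s9a_lm_anti h).antitoneOn (show Real.exp (x n) ∈ Ioi (0 : ℝ) from he)
        (show Real.exp (x n) * D ∈ Ioi (0 : ℝ) from mul_pos he hD0) (le_mul_of_one_le_right he.le h1)
      linarith
    · obtain ⟨v, hv⟩ : ∃ v, v = -Real.log D := ⟨_, rfl⟩
      have hDv : D = Real.exp (-v) := by rw [hv, neg_neg, Real.exp_log hD0]
      have hv0 : 0 ≤ v := by rw [hv]; linarith [Real.log_nonpos hD0.le h1]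
      have hva : v ≤ -Real.log a := by rw [hv]; linarith [Real.log_le_log ha hD.1]
      rw [hDv, hgv, ← hc]
      have h2 := hlip (x n - v) (x n) (by linarith [(hpos n).2]) (by linarith)
      have h3 := (s9a_hull_between h (x n - v)).2
      have h4 : K₁ * v ≤ K₁ * |Real.log a| :=
        mul_le_mul_of_nonneg_left (hva.trans (neg_le_abs _)) (by linarith)
      have h5 : x n - (x n - v) = v := by ring
      rw [h5] at h2
      linarith
  obtain ⟨φ, g', hφ, hg'conv, hg'lim⟩ := s9a_convex_compact g (fun n => (n : ℝ))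
    tendsto_natCast_atTop_atTop hconv hone hupb
  have hpt : ∀ v : ℝ, ∀ η > (0 : ℝ), ∀ᶠ n in atTop,
      |s9a_rho lm (x (φ n)) - s9a_rho lm (x (φ n) - v) - g' (Real.exp (-v))| ≤ η := by
    intro v η hη
    filter_upwards [hg'lim (Real.exp (-v)) (Real.exp (-v)) (Real.exp_pos _) le_rfl η hη] with n hn
    have := hn (Real.exp (-v)) ⟨le_rfl, le_rfl⟩
    rwa [hgv] at this
  have hX'c : X' ≤ s9a_rhoc lm X' := (s9a_hull_between h X').1
  refine ⟨x ∘ φ, fun v => g' (Real.exp (-v)), lam, K₁ + s9a_rhoc lm X', K₁, ?_⟩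
  refine ⟨hx.comp hφ.tendsto_atTop, hlam, ?_, ?_, ?_, ?_, ?_, ?_, ?_⟩
  · -- continuity
    have h1 : ContinuousOn g' (Ioi 0) := hg'conv.continuousOn isOpen_Ioi
    exact (h1.comp_continuous (Real.continuous_exp.comp continuous_neg)
      fun v => Real.exp_pos _).continuousOn
  · -- `L 0 = 0`
    have h1 : ∀ η > (0 : ℝ), |g' (Real.exp (-0))| ≤ η := by
      intro η hη
      obtain ⟨n, hn⟩ := (hpt 0 η hη).exists
      rw [sub_zero, sub_self, zero_sub, abs_neg] at hn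
      exact hn
    have h2 : |g' (Real.exp (-0))| ≤ 0 := le_of_forall_pos_le_add fun η hη => by
      rw [zero_add]; exact h1 η hη
    exact abs_eq_zero.1 (le_antisymm h2 (abs_nonneg _))
  · -- `L_lim`
    intro V hV η hη
    filter_upwards [hg'lim (Real.exp (-V)) 1 (Real.exp_pos _) (Real.exp_le_one_iff.2 (by linarith))
      η hη] with n hn v hv
    have := hn (Real.exp (-v)) ⟨Real.exp_le_exp.2 (by linarith [hv.2]),
      Real.exp_le_one_iff.2 (by linarith [hv.1])⟩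
    rw [hgv] at this
    simp only [s9a_rho, Function.comp] at this ⊢
    have h1 : lm (Real.exp (x (φ n) - v)) - lm (Real.exp (x (φ n))) =
        -lm (Real.exp (x (φ n))) - -lm (Real.exp (x (φ n) - v)) := by ring
    rw [h1]
    exact this
  · -- `L_slope`
    intro η hη
    obtain ⟨v₀, hv₀⟩ := hest η hη
    refine ⟨v₀, fun v hv => ?_⟩
    refine le_of_forall_pos_le_add fun η₂ hη₂ => ?_
    obtain ⟨n, hn1, hn2, hn3⟩ := ((hpt v η₂ hη₂).and ((hφ.tendsto_atTop.eventually hv₀).and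
      ((hℓ.comp hφ.tendsto_atTop).eventually_ge_atTop v))).exists
    have h1 := hn2 v ⟨hv, hn3⟩
    have h2 := abs_le.1 h1
    have h3 := abs_le.1 hn1
    rw [abs_le]
    constructor <;> linarith [h2.1, h2.2, h3.1, h3.2]
  · -- coarse
    intro j v hv
    have := hcontact (φ j) v hv
    simp only [s9a_rho, Function.comp] at this ⊢
    linarith
  · -- fine
    intro j v hv
    have hcj := hc (φ j)
    have hXj := hXx (φ j)
    simp only [Function.comp] at hv ⊢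
    have hgoal : s9a_rho lm (x (φ j)) - s9a_rho lm v ≤
        K₁ * (x (φ j) - v) + (K₁ + s9a_rhoc lm X') := by
      rcases le_total X' v with h1 | h1
      · have h2 := hlip v (x (φ j)) h1 hv
        have h3 := (s9a_hull_between h v).2
        linarith
      · have h2 := hlip X' (x (φ j)) le_rfl hXj
        have h3 := s9a_rho_ge h v
        have h4 : 1 * (X' - v) ≤ K₁ * (X' - v) := mul_le_mul_of_nonneg_right hK₁1 (by linarith)
        nlinarith
    simp only [s9a_rho] at hgoal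
    linarith
  · -- size
    intro j
    have hcj := hc (φ j)
    have hXj := hXx (φ j)
    have h2 := hlip X' (x (φ j)) le_rfl hXj
    simp only [Function.comp]
    have hgoal : s9a_rho lm (x (φ j)) ≤ (K₁ + s9a_rhoc lm X') * (1 + x (φ j)) := by
      have h3 : 0 ≤ s9a_rhoc lm X' * x (φ j) := mul_nonneg (by linarith) (by linarith)
      have h4 : 0 ≤ K₁ * X' := mul_nonneg (by linarith) hX'0
      nlinarith
    simpa only [s9a_rho] using hgoal

end Claimed.Agent.R269
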