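/-
Row 269, UNIT S9a, LEAF PACKAGE LF-S9a-hardy.   Blueprint: helper149.   HOST-FREE.

HARDY CONVEXITY in multiplicative form (no logarithm of `0`): the horizontal `L^p` means (`p = 1, 2`) of a `2π`-periodic holomorphic function on a strip are log-convex in the height.

PROOF (three lines).  Fix `h₀ < h₁`, `h = (1-θ) h₀ + θ h₁`.
`p = 1`: `φ x = conj (g (x+ih))/‖g (x+ih)‖` (`0` where `g = 0`), measurable, `|φ| ≤ 1`;  `Γ z = ∫_0^{2π} g (x + z) φ x dx` is holomorphic in the strip, continuous and bounded on `h₀ ≤ Im z ≤ h₁`,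
`‖Γ z‖ ≤ I (Im z)` (periodicity: the integral over a period of `‖g (x + Re z + i Im z)‖` does not depend on `Re z`), `Γ (ih) = I h`.
Hadamard three lines (Mathlib `Complex.HadamardThreeLines`, vertical strips: rotate by `z ↦ -i z`, rescale): `‖Γ (ih)‖ ≤ (sup_{Im = h₀} ‖Γ‖)^{1-θ} (sup_{Im = h₁} ‖Γ‖)^θ`.
`p = 2`: same with `φ x = conj (g (x+ih))`: `I₂ h = Γ (ih) ≤ (I₂ h₀ · I₂ h)^{(1-θ)/2} (I₂ h₁ · I₂ h)^{θ/2}` by Cauchy-Schwarz on the two lines; divide by `(I₂ h)^{1/2}`.   (Or Parseval.)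
`s9a_add_logconvex`: Hoelder for two terms: `a₀^{1-θ} a₁^θ + c₀^{1-θ} c₁^θ ≤ (a₀+c₀)^{1-θ} (a₁+c₁)^θ` (`Real.inner_le_Lp_mul_Lq` on `Fin 2`, or weighted AM-GM after normalising).
-/
import Claimed.Agent.R269.Lib.CAThreeLines

set_option autoImplicit false

namespace Claimed.Agent.R269

open Complex Filter Topology MeasureTheory Set Metric
open scoped ENNReal Real

/-- LEAF: Hardy convexity, `p ∈ {1,2}`. -/
theorem s9a_hardy (g : ℂ → ℂ) (H : ℝ) (hg : DifferentiableOn ℂ g {z | |z.im| < H})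
    (hper : ∀ z : ℂ, |z.im| < H → g (z + 2 * π) = g z) (p : ℕ) (hp : p = 1 ∨ p = 2) (h₀ h₁ θ : ℝ)
    (hh₀ : |h₀| < H) (hh₁ : |h₁| < H) (hθ : θ ∈ Icc (0 : ℝ) 1) :
    (∫ x in (0 : ℝ)..(2 * π), ‖g ⟨x, (1 - θ) * h₀ + θ * h₁⟩‖ ^ p) ≤
      (∫ x in (0 : ℝ)..(2 * π), ‖g ⟨x, h₀⟩‖ ^ p) ^ (1 - θ) *
        (∫ x in (0 : ℝ)..(2 * π), ‖g ⟨x, h₁⟩‖ ^ p) ^ θ := by
  have e : ∀ x y : ℝ, (⟨x, y⟩ : ℂ) = (x : ℂ) + (y : ℂ) * I := fun x y => Complex.mk_eq_add_mul_I x y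
  simp only [e]
  rcases hp with rfl | rfl
  · simp only [pow_one]
    exact ca_hardy_one hg hper hh₀ hh₁ hθ
  · exact ca_hardy_two hg hper hh₀ hh₁ hθ

/-- LEAF: two-term Hoelder inequality. -/
theorem s9a_add_logconvex (a₀ a₁ c₀ c₁ θ : ℝ) (ha₀ : 0 ≤ a₀) (ha₁ : 0 ≤ a₁) (hc₀ : 0 ≤ c₀)
    (hc₁ : 0 ≤ c₁) (hθ : θ ∈ Icc (0 : ℝ) 1) :
    a₀ ^ (1 - θ) * a₁ ^ θ + c₀ ^ (1 - θ) * c₁ ^ θ ≤ (a₀ + c₀) ^ (1 - θ) * (a₁ + c₁) ^ θ :=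
  ca_add_logconvex a₀ a₁ c₀ c₁ θ ha₀ ha₁ hc₀ hc₁ hθ

end Claimed.Agent.R269
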