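/-
Row 269, P1 Section 9: the pair of fields `(f, q)` as a HOST-FREE object + LEAF PACKAGES LF-S9-pair (`Shape.s9_pair`) and LF-S9-rowE (`s9E_*`).   Blueprint: helper149.

`S9Pair f q H`: `f, q` holomorphic and `2π`-periodic on the strip `|Im| < H`, `f'' = q f`, `f ≢ 0`.    `s9u = |f|² + |q|`,   `s9E h` = mean of `s9u` over the row of height `h`.

PROOFS.
`Shape.s9_pair`.  `estrip Sh.G.Hs = {|Im| < Hr}` because `H ≠ ⊤` (`ENNReal.ofReal_lt_iff_lt_toReal`).  `0 < Hr`: if `Hs = 0` the strip is empty and `noncircular` fails.  `f = deriv φ` is holomorphic on the open strip (`DifferentiableOn.deriv`), periodic: differentiate `φ_per`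
   (`φ (s + 2π) = φ s + 2π` holds in a neighbourhood of `s`).   `ode` = `q_eq`.   `f ≢ 0`: `noncircular` with `c₁ = 0`.   `q` periodic: `q (s+2π) f (s+2π) = f'' (s+2π) = f'' s = q s f s`, so `q (· + 2π) = q` where `f ≠ 0`;
   the zeros of `f` are isolated (identity theorem on the connected strip), both sides are continuous.
`s9E_cont`: continuity of a parametric integral of a continuous function (`(x,h) ↦ s9u ⟨x,h⟩` is continuous on `ℝ × (-H,H)`).
`s9E_pos`: `s9u ≥ 0` continuous on the row; it is not identically `0` on `[0,2π]`, otherwise `f` vanishes on a segment, so `f ≡ 0` by the identity theorem.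
`s9E_shift`: `x ↦ s9u ⟨x,h⟩` is `2π`-periodic: `Function.Periodic.intervalIntegral_add_eq`.
-/
import Claimed.Agent.R269.S9.Scale

set_option autoImplicit false

namespace Claimed.Agent.R269

open Complex Filter Topology MeasureTheory Set Metric
open scoped ENNReal Real

/-- a pair of `2π`-periodic holomorphic fields on the strip `|Im| < H` with `f'' = q f`, `f ≢ 0`. -/
structure S9Pair (f q : ℂ → ℂ) (H : ℝ) : Prop where
  H_pos : 0 < H
  f_diff : DifferentiableOn ℂ f {z | |z.im| < H}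
  q_diff : DifferentiableOn ℂ q {z | |z.im| < H}
  f_per : ∀ z : ℂ, |z.im| < H → f (z + 2 * π) = f z
  q_per : ∀ z : ℂ, |z.im| < H → q (z + 2 * π) = q z
  ode : ∀ z : ℂ, |z.im| < H → deriv (deriv f) z = q z * f z
  f_ne : ∃ z : ℂ, |z.im| < H ∧ f z ≠ 0

/-- the energy density `|f|² + |q|`. -/
noncomputable def s9u (f q : ℂ → ℂ) (s : ℂ) : ℝ := ‖f s‖ ^ 2 + ‖q s‖

/-- the row energy `E(|f|² + |q|)` at height `h`. -/
noncomputable def s9E (f q : ℂ → ℂ) (h : ℝ) : ℝ :=
  (2 * π)⁻¹ * ∫ x in (0 : ℝ)..(2 * π), s9u f q ⟨x, h⟩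

theorem s9u_nonneg (f q : ℂ → ℂ) (s : ℂ) : 0 ≤ s9u f q s := by
  unfold s9u; positivity

theorem s9_strip_open (H : ℝ) : IsOpen {z : ℂ | |z.im| < H} :=
  isOpen_lt (continuous_abs.comp Complex.continuous_im) continuous_const

theorem s9_strip_convex (H : ℝ) : Convex ℝ {z : ℂ | |z.im| < H} := by
  have : {z : ℂ | |z.im| < H} = {z : ℂ | -H < z.im} ∩ {z : ℂ | z.im < H} := by
    ext z; simp [abs_lt]
  rw [this]
  exact (convex_halfSpace_im_gt _).inter (convex_halfSpace_im_lt _)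

theorem s9_strip_shift {H : ℝ} {z : ℂ} (hz : |z.im| < H) : |(z + 2 * π).im| < H := by
  have : (z + 2 * π).im = z.im := by simp
  rwa [this]

/-- the derivative of a function which is periodic up to a constant on an open set is periodic. -/
theorem s9_per_deriv (g : ℂ → ℂ) (c : ℂ) (S : Set ℂ) (hS : IsOpen S)
    (hper : ∀ z ∈ S, g (z + 2 * π) = g z + c) : ∀ z ∈ S, deriv g (z + 2 * π) = deriv g z := by
  intro z hz
  have h1 : (fun s => g (s + 2 * π)) =ᶠ[𝓝 z] fun s => g s + c := by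
    filter_upwards [hS.mem_nhds hz] with s hs using hper s hs
  have h2 := h1.deriv_eq
  rw [deriv_comp_add_const, deriv_add_const] at h2
  exact h2

/-- LEAF LF-S9-pair. -/
theorem Shape.s9_pair (Sh : Shape) (hH : Sh.H ≠ ⊤) : S9Pair Sh.f Sh.q Sh.Hr := by
  have hset : estrip Sh.G.Hs = {z : ℂ | |z.im| < Sh.Hr} := by
    ext z; exact Sh.s9_mem_D hH z
  have hop := s9_strip_open Sh.Hr
  have hφ : DifferentiableOn ℂ Sh.φ {z : ℂ | |z.im| < Sh.Hr} := hset ▸ Sh.φ_diff
  have hq : DifferentiableOn ℂ Sh.q {z : ℂ | |z.im| < Sh.Hr} := hset ▸ Sh.q_diff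
  have hf : DifferentiableOn ℂ Sh.f {z : ℂ | |z.im| < Sh.Hr} := hφ.deriv hop
  have hfper : ∀ z ∈ {z : ℂ | |z.im| < Sh.Hr}, Sh.f (z + 2 * π) = Sh.f z :=
    s9_per_deriv Sh.φ (2 * π) _ hop (fun z hz => Sh.φ_per z (hset ▸ hz))
  have hf1per : ∀ z ∈ {z : ℂ | |z.im| < Sh.Hr}, deriv Sh.f (z + 2 * π) = deriv Sh.f z :=
    s9_per_deriv Sh.f 0 _ hop (fun z hz => by rw [hfper z hz, add_zero])
  have hf2per : ∀ z ∈ {z : ℂ | |z.im| < Sh.Hr}, deriv (deriv Sh.f) (z + 2 * π) = deriv (deriv Sh.f) z :=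
    s9_per_deriv (deriv Sh.f) 0 _ hop (fun z hz => by rw [hf1per z hz, add_zero])
  have hode : ∀ z : ℂ, |z.im| < Sh.Hr → deriv (deriv Sh.f) z = Sh.q z * Sh.f z :=
    fun z hz => Sh.q_eq z (hset ▸ hz)
  have hne : ∃ z : ℂ, |z.im| < Sh.Hr ∧ Sh.f z ≠ 0 := by
    by_contra hcon
    push Not at hcon
    exact Sh.noncircular ⟨0, fun s hs => hcon s ((Sh.s9_mem_D hH s).1 hs)⟩
  refine ⟨Sh.s9_Hr_pos hH, hf, hq, hfper, ?_, hode, hne⟩
  -- periodicity of `q`
  obtain ⟨z₀, hz₀, hfz₀⟩ := hne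
  have hq1 : DifferentiableOn ℂ (fun s => Sh.q (s + 2 * π)) {z : ℂ | |z.im| < Sh.Hr} := by
    have : DifferentiableOn ℂ (fun s : ℂ => s + 2 * π) {z : ℂ | |z.im| < Sh.Hr} := by fun_prop
    exact hq.comp this (fun s hs => s9_strip_shift hs)
  have hev : (fun s => Sh.q (s + 2 * π)) =ᶠ[𝓝 z₀] Sh.q := by
    have hc : ContinuousAt Sh.f z₀ := (hf z₀ hz₀).continuousWithinAt.continuousAt (hop.mem_nhds hz₀)
    filter_upwards [hc.eventually_ne hfz₀, hop.mem_nhds hz₀] with s hs1 hs2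
    have h1 := hode (s + 2 * π) (s9_strip_shift hs2)
    rw [hf2per s hs2, hfper s hs2, hode s hs2] at h1
    exact (mul_right_cancel₀ hs1 h1).symm
  have := (hq1.analyticOnNhd hop).eqOn_of_preconnected_of_eventuallyEq (hq.analyticOnNhd hop)
    (s9_strip_convex Sh.Hr).isPreconnected hz₀ hev
  exact fun z hz => this hz

theorem Shape.s9_mu_eq (Sh : Shape) (k : ℝ) :
    Sh.μ k = Real.exp (-k) * Real.sqrt (s9E Sh.f Sh.q (Sh.Hr - Real.exp (-k))) := rfl

/-- LEAF LF-S9-rowE (1). -/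
theorem s9u_cont {f q : ℂ → ℂ} {H : ℝ} (hp : S9Pair f q H) : ContinuousOn (s9u f q) {z | |z.im| < H} := by
  unfold s9u
  exact (hp.f_diff.continuousOn.norm.pow 2).add hp.q_diff.continuousOn.norm

theorem s9_mk_cont : Continuous fun p : ℝ × ℝ => (⟨p.1, p.2⟩ : ℂ) := by
  have : (fun p : ℝ × ℝ => (⟨p.1, p.2⟩ : ℂ)) = fun p : ℝ × ℝ => (p.1 : ℂ) + p.2 * I := by
    funext p; apply Complex.ext <;> simp
  rw [this]; fun_prop

/-- the density along a row is continuous. -/
theorem s9u_row_cont {f q : ℂ → ℂ} {H : ℝ} (hp : S9Pair f q H) {h : ℝ} (hh : |h| < H) :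
    Continuous fun x : ℝ => s9u f q ⟨x, h⟩ := by
  have h1 : Continuous fun x : ℝ => (⟨x, h⟩ : ℂ) := s9_mk_cont.comp (by fun_prop : Continuous fun x : ℝ => (x, h))
  exact (s9u_cont hp).comp_continuous h1 (fun x => hh)

/-- LEAF LF-S9-rowE (2). -/
theorem s9E_cont {f q : ℂ → ℂ} {H : ℝ} (hp : S9Pair f q H) : ContinuousOn (s9E f q) (Ioo (-H) H) := by
  intro h₀ hh₀
  apply ContinuousAt.continuousWithinAt
  obtain ⟨a, ha1, ha2⟩ := exists_between hh₀.1
  obtain ⟨b, hb1, hb2⟩ := exists_between hh₀.2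
  set cl : ℝ → ℝ := fun h => max a (min b h) with hcl
  have hclc : Continuous cl := by fun_prop
  have hclm : ∀ h, |cl h| < H := by
    intro h
    have h1 : a ≤ cl h := le_max_left _ _
    have h2 : cl h ≤ b := max_le (by linarith) (min_le_left _ _)
    rw [abs_lt]; constructor <;> linarith
  have hF : Continuous (Function.uncurry fun (h : ℝ) (x : ℝ) => s9u f q ⟨x, cl h⟩) := by
    have h1 : Continuous fun p : ℝ × ℝ => (⟨p.2, cl p.1⟩ : ℂ) :=
      s9_mk_cont.comp (by fun_prop : Continuous fun p : ℝ × ℝ => (p.2, cl p.1))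
    exact (s9u_cont hp).comp_continuous h1 (fun p => hclm p.1)
  have hI := intervalIntegral.continuous_parametric_intervalIntegral_of_continuous' (μ := volume) hF 0 (2 * π)
  have hI' : Continuous fun h => (2 * π)⁻¹ * ∫ x in (0 : ℝ)..(2 * π), s9u f q ⟨x, cl h⟩ := hI.const_mul _
  refine hI'.continuousAt.congr ?_
  filter_upwards [Ioo_mem_nhds ha2 hb1] with h hh
  have : cl h = h := by
    rw [hcl]; simp only
    rw [min_eq_right hh.2.le, max_eq_right hh.1.le]
  simp only [this, s9E]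

/-- LEAF LF-S9-rowE (3). -/
theorem s9E_pos {f q : ℂ → ℂ} {H : ℝ} (hp : S9Pair f q H) {h : ℝ} (hh : |h| < H) : 0 < s9E f q h := by
  unfold s9E
  have h2π : (0 : ℝ) < 2 * π := by positivity
  apply mul_pos (by positivity)
  apply intervalIntegral.integral_pos h2π (s9u_row_cont hp hh).continuousOn (fun x _ => s9u_nonneg _ _ _)
  by_contra hcon
  push Not at hcon
  have hzero : ∀ x ∈ Icc (0 : ℝ) (2 * π), f ⟨x, h⟩ = 0 := by
    intro x hx
    have h1 := le_antisymm (hcon x hx) (s9u_nonneg _ _ _)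
    unfold s9u at h1
    have h2 : ‖f ⟨x, h⟩‖ ^ 2 = 0 := by
      have := sq_nonneg ‖f ⟨x, h⟩‖
      have := norm_nonneg (q ⟨x, h⟩)
      linarith
    simpa using h2
  obtain ⟨z₁, hz₁, hfz₁⟩ := hp.f_ne
  apply hfz₁
  have hfr : ∃ᶠ z in 𝓝[≠] (⟨π, h⟩ : ℂ), f z = 0 := by
    have ht : Tendsto (fun x : ℝ => (⟨x, h⟩ : ℂ)) (𝓝[≠] π) (𝓝[≠] (⟨π, h⟩ : ℂ)) := by
      apply tendsto_nhdsWithin_of_tendsto_nhds_of_eventually_within
      · have h1 : Continuous fun x : ℝ => (⟨x, h⟩ : ℂ) :=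
          s9_mk_cont.comp (by fun_prop : Continuous fun x : ℝ => (x, h))
        exact (h1.tendsto π).mono_left nhdsWithin_le_nhds
      · filter_upwards [self_mem_nhdsWithin] with x hx
        intro hc
        apply hx
        exact congrArg Complex.re hc
    apply ht.frequently
    apply Eventually.frequently
    have : Icc (0 : ℝ) (2 * π) ∈ 𝓝 π := Icc_mem_nhds Real.pi_pos (by linarith [Real.pi_pos])
    filter_upwards [mem_nhdsWithin_of_mem_nhds this] with x hx using hzero x hx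
  exact (hp.f_diff.analyticOnNhd (s9_strip_open H)).eqOn_zero_of_preconnected_of_frequently_eq_zero
    (s9_strip_convex H).isPreconnected (show (⟨π, h⟩ : ℂ) ∈ {z : ℂ | |z.im| < H} from hh) hfr hz₁

/-- LEAF LF-S9-rowE (4): translation invariance of the row means. -/
theorem s9E_shift {f q : ℂ → ℂ} {H : ℝ} (hp : S9Pair f q H) {h : ℝ} (hh : |h| < H) (a : ℝ) :
    (2 * π)⁻¹ * ∫ x in (0 : ℝ)..(2 * π), s9u f q ⟨x + a, h⟩ = s9E f q h := by
  unfold s9E
  congr 1
  have hper : Function.Periodic (fun x : ℝ => s9u f q ⟨x, h⟩) (2 * π) := by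
    intro x
    have h1 : (⟨x + 2 * π, h⟩ : ℂ) = (⟨x, h⟩ : ℂ) + 2 * π := by
      apply Complex.ext <;> simp
    simp only [s9u, h1]
    rw [hp.f_per _ hh, hp.q_per _ hh]
  rw [intervalIntegral.integral_comp_add_right (fun x => s9u f q ⟨x, h⟩) a]
  have := hper.intervalIntegral_add_eq (0 + a) 0
  simpa [add_comm] using this

end Claimed.Agent.R269
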