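/-
Row 269, UNIT S9a, LEAF PACKAGE LF-S9a-log.   Blueprint: helper149.   No paper reading needed.

`D ↦ s9lm k D = log (μ(k - log D)/(μ k · D))` is convex on `0 < D < H e^k`, and `μ > 0` on the rows inside the strip.

PROOFS.
`s9E_logconvex` (host-free): `s9a_hardy` (`p = 2` for `f`, `p = 1` for `q`) + `s9a_add_logconvex` (the factor `(2π)⁻¹ = ((2π)⁻¹)^{1-θ} ((2π)⁻¹)^θ`); the integral of the sum is the sum of the integrals (continuity on the row).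
`s9a_mu_pos`: `Shape.s9_mu_eq`, `s9E_pos` (`|Hr - e^{-k}| < Hr` iff `0 < e^{-k} < 2 Hr`), `Shape.s9_pair`.
`s9a_logconvex`: `μ (k - log D) = e^{-k} D √(s9E (Hr - e^{-k} D))` (`e^{-(k - log D)} = e^{-k} D`).  If `μ k = 0` then `s9lm k D = log 0 = 0` for all `D`.  Otherwise, for `0 < D < Hr e^k`,
   `s9lm k D = (1/2) log (s9E (Hr - e^{-k} D)) - k - log (μ k)`.   Take logarithms in `s9E_logconvex` (`s9E_pos`); compose with the affine map `D ↦ Hr - e^{-k} D`.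
-/
import Claimed.Agent.R269.S9.Pair
import Claimed.Agent.R269.S9.MomentHardy

set_option autoImplicit false

namespace Claimed.Agent.R269

open Complex Filter Topology MeasureTheory Set Metric
open scoped ENNReal Real

theorem s9_row_cont_of {g : ℂ → ℂ} {H : ℝ} (hg : DifferentiableOn ℂ g {z | |z.im| < H}) {h : ℝ}
    (hh : |h| < H) : Continuous fun x : ℝ => g ⟨x, h⟩ := by
  have h1 : Continuous fun x : ℝ => (⟨x, h⟩ : ℂ) := s9_mk_cont.comp (by fun_prop : Continuous fun x : ℝ => (x, h))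
  exact hg.continuousOn.comp_continuous h1 (fun x => hh)

theorem s9E_split {f q : ℂ → ℂ} {H : ℝ} (hp : S9Pair f q H) {h : ℝ} (hh : |h| < H) :
    s9E f q h = (2 * π)⁻¹ * ((∫ x in (0 : ℝ)..(2 * π), ‖f ⟨x, h⟩‖ ^ 2) +
      ∫ x in (0 : ℝ)..(2 * π), ‖q ⟨x, h⟩‖ ^ 1) := by
  unfold s9E s9u
  simp only [pow_one]
  rw [intervalIntegral.integral_add]
  · exact ((s9_row_cont_of hp.f_diff hh).norm.pow 2).intervalIntegrable _ _
  · exact (s9_row_cont_of hp.q_diff hh).norm.intervalIntegrable _ _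

/-- LEAF: log-convexity of the row energy (multiplicative form). -/
theorem s9E_logconvex {f q : ℂ → ℂ} {H : ℝ} (hp : S9Pair f q H) (h₀ h₁ θ : ℝ) (hh₀ : |h₀| < H)
    (hh₁ : |h₁| < H) (hθ : θ ∈ Icc (0 : ℝ) 1) :
    s9E f q ((1 - θ) * h₀ + θ * h₁) ≤ s9E f q h₀ ^ (1 - θ) * s9E f q h₁ ^ θ := by
  have hhθ : |(1 - θ) * h₀ + θ * h₁| < H := by
    obtain ⟨a1, a2⟩ := abs_lt.1 hh₀
    obtain ⟨b1, b2⟩ := abs_lt.1 hh₁
    obtain ⟨t0, t1⟩ := hθ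
    have := (convex_Ioo (-H) H) (show h₀ ∈ Ioo (-H) H from ⟨a1, a2⟩) (show h₁ ∈ Ioo (-H) H from ⟨b1, b2⟩)
      (by linarith : 0 ≤ 1 - θ) t0 (by ring)
    simp only [smul_eq_mul] at this
    exact abs_lt.2 this
  rw [s9E_split hp hhθ, s9E_split hp hh₀, s9E_split hp hh₁]
  have h2π : (0 : ℝ) ≤ 2 * π := by positivity
  have nn : ∀ (g : ℂ → ℂ) (p : ℕ) (h : ℝ), 0 ≤ ∫ x in (0 : ℝ)..(2 * π), ‖g ⟨x, h⟩‖ ^ p :=
    fun g p h => intervalIntegral.integral_nonneg h2π (fun x _ => by positivity)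
  have hA := s9a_hardy f H hp.f_diff hp.f_per 2 (Or.inr rfl) h₀ h₁ θ hh₀ hh₁ hθ
  have hC := s9a_hardy q H hp.q_diff hp.q_per 1 (Or.inl rfl) h₀ h₁ θ hh₀ hh₁ hθ
  have hadd := s9a_add_logconvex _ _ _ _ θ (nn f 2 h₀) (nn f 2 h₁) (nn q 1 h₀) (nn q 1 h₁) hθ
  have hc : (0 : ℝ) < (2 * π)⁻¹ := by positivity
  rw [Real.mul_rpow hc.le (add_nonneg (nn f 2 h₀) (nn q 1 h₀)),
    Real.mul_rpow hc.le (add_nonneg (nn f 2 h₁) (nn q 1 h₁))]
  have hsplit : ((2 * π)⁻¹ : ℝ) ^ (1 - θ) * ((2 * π)⁻¹ : ℝ) ^ θ = (2 * π)⁻¹ := by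
    rw [← Real.rpow_add hc]; simp
  calc (2 * π)⁻¹ * ((∫ x in (0 : ℝ)..(2 * π), ‖f ⟨x, (1 - θ) * h₀ + θ * h₁⟩‖ ^ 2) +
        ∫ x in (0 : ℝ)..(2 * π), ‖q ⟨x, (1 - θ) * h₀ + θ * h₁⟩‖ ^ 1)
      ≤ (2 * π)⁻¹ * (((∫ x in (0 : ℝ)..(2 * π), ‖f ⟨x, h₀⟩‖ ^ 2) + ∫ x in (0 : ℝ)..(2 * π), ‖q ⟨x, h₀⟩‖ ^ 1) ^ (1 - θ) *
          ((∫ x in (0 : ℝ)..(2 * π), ‖f ⟨x, h₁⟩‖ ^ 2) + ∫ x in (0 : ℝ)..(2 * π), ‖q ⟨x, h₁⟩‖ ^ 1) ^ θ) := by
        apply mul_le_mul_of_nonneg_left _ hc.le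
        linarith
    _ = _ := by
        conv_lhs => rw [← hsplit]
        ring

/-- LEAF: positivity of the row moments. -/
theorem s9a_mu_pos (Sh : Shape) (hH : Sh.H ≠ ⊤) (k : ℝ) (hk : Real.exp (-k) < 2 * Sh.Hr) : 0 < Sh.μ k := by
  rw [Sh.s9_mu_eq]
  have h0 := Real.exp_pos (-k)
  apply mul_pos h0
  apply Real.sqrt_pos.2
  apply s9E_pos (Sh.s9_pair hH)
  rw [abs_lt]; constructor <;> linarith

theorem Shape.s9_mu_log (Sh : Shape) (k D : ℝ) (hD : 0 < D) :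
    Sh.μ (k - Real.log D) = Real.exp (-k) * D * Real.sqrt (s9E Sh.f Sh.q (Sh.Hr - Real.exp (-k) * D)) := by
  have : Real.exp (-(k - Real.log D)) = Real.exp (-k) * D := by
    rw [neg_sub, sub_eq_add_neg, Real.exp_add, Real.exp_log hD, mul_comm]
  rw [Sh.s9_mu_eq, this]

/-- LEAF: convexity of the normalised moment law. -/
theorem s9a_logconvex (Sh : Shape) (hH : Sh.H ≠ ⊤) (k : ℝ) :
    ConvexOn ℝ (Ioo 0 (Sh.Hr * Real.exp k)) (Sh.s9lm k) := by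
  have hp := Sh.s9_pair hH
  have hμ0 : 0 ≤ Sh.μ k := by rw [Sh.s9_mu_eq]; positivity
  rcases hμ0.eq_or_lt with h0 | h0
  · have : Sh.s9lm k = fun _ => 0 := by
      funext D; unfold Shape.s9lm; rw [← h0]; simp
    rw [this]
    exact convexOn_const 0 (convex_Ioo _ _)
  have hek := Real.exp_pos (-k)
  have hrow : ∀ D ∈ Ioo 0 (Sh.Hr * Real.exp k), |Sh.Hr - Real.exp (-k) * D| < Sh.Hr := by
    intro D hD
    have h1 : Real.exp (-k) * D < Sh.Hr := by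
      have := mul_lt_mul_of_pos_left hD.2 hek
      have h2 : Real.exp (-k) * (Sh.Hr * Real.exp k) = Sh.Hr := by
        rw [mul_comm Sh.Hr, ← mul_assoc, ← Real.exp_add]; simp
      linarith
    have h3 : 0 < Real.exp (-k) * D := mul_pos hek hD.1
    rw [abs_lt]; constructor <;> linarith
  have hform : ∀ D ∈ Ioo 0 (Sh.Hr * Real.exp k), Sh.s9lm k D =
      Real.log (Real.exp (-k) / Sh.μ k) + 1 / 2 * Real.log (s9E Sh.f Sh.q (Sh.Hr - Real.exp (-k) * D)) := by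
    intro D hD
    have hE := s9E_pos hp (hrow D hD)
    unfold Shape.s9lm
    rw [Sh.s9_mu_log k D hD.1]
    have h1 : Real.exp (-k) * D * Real.sqrt (s9E Sh.f Sh.q (Sh.Hr - Real.exp (-k) * D)) / (Sh.μ k * D) =
        Real.exp (-k) / Sh.μ k * Real.sqrt (s9E Sh.f Sh.q (Sh.Hr - Real.exp (-k) * D)) := by
      have := hD.1.ne'
      field_simp
    rw [h1, Real.log_mul (by positivity) (Real.sqrt_pos.2 hE).ne', Real.log_sqrt hE.le]
    ring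
  refine ⟨convex_Ioo _ _, ?_⟩
  intro D₀ hD₀ D₁ hD₁ a b ha hb hab
  have hmem : a • D₀ + b • D₁ ∈ Ioo 0 (Sh.Hr * Real.exp k) := (convex_Ioo _ _) hD₀ hD₁ ha hb hab
  rw [hform _ hmem, hform _ hD₀, hform _ hD₁]
  have ha' : a = 1 - b := by linarith
  have hlc := s9E_logconvex hp (Sh.Hr - Real.exp (-k) * D₀) (Sh.Hr - Real.exp (-k) * D₁) b
    (hrow D₀ hD₀) (hrow D₁ hD₁) ⟨hb, by linarith⟩
  have harg : (1 - b) * (Sh.Hr - Real.exp (-k) * D₀) + b * (Sh.Hr - Real.exp (-k) * D₁) =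
      Sh.Hr - Real.exp (-k) * (a • D₀ + b • D₁) := by
    simp only [smul_eq_mul, ha']; ring
  rw [harg] at hlc
  have hE := s9E_pos hp (hrow _ hmem)
  have hE₀ := s9E_pos hp (hrow _ hD₀)
  have hE₁ := s9E_pos hp (hrow _ hD₁)
  have hlog := Real.log_le_log hE hlc
  rw [Real.log_mul (by positivity) (by positivity), Real.log_rpow hE₀, Real.log_rpow hE₁] at hlog
  simp only [smul_eq_mul]
  simp only [smul_eq_mul] at hlog
  rw [ha']
  rw [ha'] at hlog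
  nlinarith

end Claimed.Agent.R269
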