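/-
Row 269, UNIT S9a, LEAF PACKAGE LF-S9a-normal.   Blueprint: helper149.   Small bookkeeping lemmas on `μ`, `s9lm`, `s9E`, used by `s9a_compact` and by the units S9b1, S9b2.   No paper reading needed.

PROOFS.
`s9_k0_row`: `l ≥ 1 - log (Hr/10)` gives `e^{-l} ≤ e^{-1} Hr/10`  (`0 < Hr` from `Shape.s9_pair`).      `s9_mu_pos_of_k0`: `s9a_mu_pos`.
`S9Prohibited.B_pos`: `0 < μ (s9k0) ≤ μ (k n) e^{...}` by `normal`.
`s9lm_mu`: `exp (log x) = x` for `x > 0`.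
`s9lm_E`: `μ (k - log D) = e^{-k} D √(s9E (Hr - e^{-k} D))`; so `exp (2 s9lm k D) = s9E (Hr - e^{-k} D) e^{-2k}/(μ k)²`; take the quotient for `D'` and `D`.
`s9a_lm_normal`: `normal` with `j = k n - log D`, `|j - k n| = |log D|`; divide by `μ (k n) D`, take `log` (monotone on positive numbers).
-/
import Claimed.Agent.R269.S9.MomentLog

set_option autoImplicit false

namespace Claimed.Agent.R269

open Complex Filter Topology MeasureTheory Set Metric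
open scoped ENNReal Real

theorem Shape.s9_k0_row (Sh : Shape) (hH : Sh.H ≠ ⊤) (l : ℝ) (hl : Sh.s9k0 ≤ l) :
    Real.exp (-l) < Sh.Hr / 10 := by
  have hHr := Sh.s9_Hr_pos hH
  have h1 : 1 - Real.log (Sh.Hr / 10) ≤ Sh.s9k0 := le_max_right _ _
  have h2 : Real.exp (-l) < Real.exp (Real.log (Sh.Hr / 10)) := by
    apply Real.exp_lt_exp.2
    linarith
  rwa [Real.exp_log (by positivity)] at h2

theorem Shape.s9_mu_pos_of_k0 (Sh : Shape) (hH : Sh.H ≠ ⊤) (l : ℝ) (hl : Sh.s9k0 ≤ l) : 0 < Sh.μ l := by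
  apply s9a_mu_pos Sh hH
  have := Sh.s9_k0_row hH l hl
  have := Sh.s9_Hr_pos hH
  linarith

theorem S9Prohibited.B_pos {Sh : Shape} (hH : Sh.H ≠ ⊤) (Pr : S9Prohibited Sh) (n : ℕ) : 0 < Sh.μ (Pr.k n) := by
  have h1 := Sh.s9_mu_pos_of_k0 hH Sh.s9k0 le_rfl
  have h2 := Pr.normal n Sh.s9k0 le_rfl
  have h3 := Real.exp_pos (Pr.eps n * |Sh.s9k0 - Pr.k n|)
  by_contra hcon
  push Not at hcon
  have : Sh.μ (Pr.k n) * Real.exp (Pr.eps n * |Sh.s9k0 - Pr.k n|) ≤ 0 :=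
    mul_nonpos_of_nonpos_of_nonneg hcon h3.le
  linarith

theorem Shape.s9lm_mu (Sh : Shape) (k D : ℝ) (hD : 0 < D) (hk : 0 < Sh.μ k) (hkD : 0 < Sh.μ (k - Real.log D)) :
    Sh.μ (k - Real.log D) = Sh.μ k * D * Real.exp (Sh.s9lm k D) := by
  unfold Shape.s9lm
  rw [Real.exp_log (by positivity)]
  field_simp

theorem Shape.s9lm_E (Sh : Shape) (hH : Sh.H ≠ ⊤) (k D D' : ℝ) (hk : 0 < Sh.μ k) (hD : 0 < D) (hD' : 0 < D')
    (hDk : Real.exp (-k) * D < 2 * Sh.Hr) (hDk' : Real.exp (-k) * D' < 2 * Sh.Hr) :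
    s9E Sh.f Sh.q (Sh.Hr - Real.exp (-k) * D') =
      s9E Sh.f Sh.q (Sh.Hr - Real.exp (-k) * D) * Real.exp (2 * (Sh.s9lm k D' - Sh.s9lm k D)) := by
  have hp := Sh.s9_pair hH
  have hek := Real.exp_pos (-k)
  have key : ∀ X : ℝ, 0 < X → Real.exp (-k) * X < 2 * Sh.Hr →
      s9E Sh.f Sh.q (Sh.Hr - Real.exp (-k) * X) = (Sh.μ k / Real.exp (-k)) ^ 2 * Real.exp (2 * Sh.s9lm k X) := by
    intro X hX hXk
    have hE : 0 < s9E Sh.f Sh.q (Sh.Hr - Real.exp (-k) * X) := by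
      apply s9E_pos hp
      have : 0 < Real.exp (-k) * X := by positivity
      rw [abs_lt]; constructor <;> linarith
    have h1 := Sh.s9_mu_log k X hX
    have hpos : 0 < Sh.μ (k - Real.log X) := by
      rw [h1]; have := Real.sqrt_pos.2 hE; positivity
    have h2 := Sh.s9lm_mu k X hX hk hpos
    rw [h1] at h2
    have h3 : Real.sqrt (s9E Sh.f Sh.q (Sh.Hr - Real.exp (-k) * X)) =
        Sh.μ k / Real.exp (-k) * Real.exp (Sh.s9lm k X) := by
      field_simp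
      nlinarith
    have h4 : Real.exp (2 * Sh.s9lm k X) = Real.exp (Sh.s9lm k X) ^ 2 := by
      rw [← Real.exp_nat_mul]; norm_num
    rw [h4, ← mul_pow, ← h3, Real.sq_sqrt hE.le]
  rw [key D' hD' hDk', key D hD hDk, mul_assoc, ← Real.exp_add]
  congr 2
  ring

theorem s9a_lm_normal {Sh : Shape} (hH : Sh.H ≠ ⊤) (Pr : S9Prohibited Sh) (n : ℕ) (D : ℝ) (hD : 0 < D)
    (hl : Sh.s9k0 ≤ Pr.k n - Real.log D) :
    Sh.s9lm (Pr.k n) D ≤ -Real.log D + Pr.eps n * |Real.log D| := by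
  have hB := Pr.B_pos hH n
  have hpos := Sh.s9_mu_pos_of_k0 hH _ hl
  have h1 := Pr.normal n _ hl
  have h2 : |Pr.k n - Real.log D - Pr.k n| = |Real.log D| := by
    rw [show Pr.k n - Real.log D - Pr.k n = -Real.log D by ring, abs_neg]
  rw [h2] at h1
  unfold Shape.s9lm
  have h3 : Sh.μ (Pr.k n - Real.log D) / (Sh.μ (Pr.k n) * D) ≤ Real.exp (Pr.eps n * |Real.log D|) / D := by
    rw [div_le_div_iff₀ (by positivity) hD]
    nlinarith
  calc Real.log (Sh.μ (Pr.k n - Real.log D) / (Sh.μ (Pr.k n) * D))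
      ≤ Real.log (Real.exp (Pr.eps n * |Real.log D|) / D) := Real.log_le_log (by positivity) h3
    _ = -Real.log D + Pr.eps n * |Real.log D| := by
        rw [Real.log_div (Real.exp_pos _).ne' hD.ne', Real.log_exp]; ring

end Claimed.Agent.R269
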