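/-
Row 269, UNIT S9a (P1 Lemma 9.3 (i)), LEAF PACKAGE LF-S9a-grid.   Blueprint: helper149.   Proofs: helper175.   HOST-FREE (Mathlib only), three independent elementary lemmas.

`s9a_pick`: let `m` maximise `Δ i (1+η)^{-i}` over `i < N` (`Finset.exists_max_image`).  Then `Δ (m+k) ≤ (1+η)^k Δ m`, and `Δ i ≤ (1+η)^{-(m-i)} Δ m` for `i ≤ m`; sum the geometric series: `∑_{k ≥ 0} (1+η)^{-k} = (1+η)/η`.
`s9a_local`: for `u ∈ [0,U]`: `g (D - u w) ≤ g D + u` (chord on `[D - U w, D]`), `g (D - u w) ≥ g D + u/(1+η')` (extension of the chord on `[D, D + U w (1+η')]`, slopes are monotone); for `u ∈ [-U,0]` symmetric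
   (`D + |u| w ≤ D + U w (1+η')`: chord gives `≤ g D - |u|/(1+η')`, the extension of the left chord gives `≥ g D - |u|`).   `|u| (1 - 1/(1+η')) ≤ U η'`.
`s9a_grid`: `E i` by the intermediate value theorem on `[a,b]` (`intermediate_value_Icc'`; `g` is continuous: `ConvexOn.continuousOn isOpen_Ioi`), `E 0 := a`.  `E i < E (i+1)` because `g (E (i+1)) < g (E i)` and `g` is antitone.
   The steps are nondecreasing by `ConvexOn.slope_mono_adjacent`: `-U/(E (i+1) - E i) ≤ -U/(E (i+2) - E (i+1))`.
-/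
import Mathlib

set_option autoImplicit false

namespace Claimed.Agent.R269

open Complex Filter Topology MeasureTheory Set Metric
open scoped ENNReal Real

/-- LEAF: choice of an index with controlled forward growth and geometric backward decay. -/
theorem s9a_pick (Δ : ℕ → ℝ) (N : ℕ) (hN : 0 < N) (hpos : ∀ i < N, 0 < Δ i) (η : ℝ) (hη : 0 < η) :
    ∃ m < N, (∀ k, m + k < N → Δ (m + k) ≤ (1 + η) ^ k * Δ m) ∧
      ∑ i ∈ Finset.range (m + 1), Δ i ≤ Δ m * (1 + η) / η := by
  obtain ⟨m, hm, hmax⟩ := Finset.exists_max_image (Finset.range N) (fun i => Δ i / (1 + η) ^ i)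
    ⟨0, Finset.mem_range.2 hN⟩
  have hmN : m < N := Finset.mem_range.1 hm
  have hq : (0 : ℝ) < 1 + η := by linarith
  have hle : ∀ i < N, Δ i ≤ Δ m / (1 + η) ^ m * (1 + η) ^ i := by
    intro i hi
    have := hmax i (Finset.mem_range.2 hi)
    rwa [div_le_iff₀ (pow_pos hq i)] at this
  refine ⟨m, hmN, fun k hk => ?_, ?_⟩
  · have := hle (m + k) hk
    rw [pow_add] at this
    have e : Δ m / (1 + η) ^ m * ((1 + η) ^ m * (1 + η) ^ k) = (1 + η) ^ k * Δ m := by
      have : (1 + η) ^ m ≠ 0 := (pow_pos hq m).ne'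
      field_simp
    rwa [e] at this
  · have hΔm : 0 < Δ m := hpos m hmN
    calc ∑ i ∈ Finset.range (m + 1), Δ i
        ≤ ∑ i ∈ Finset.range (m + 1), Δ m / (1 + η) ^ m * (1 + η) ^ i :=
          Finset.sum_le_sum fun i hi => hle i (by have := Finset.mem_range.1 hi; omega)
      _ = Δ m / (1 + η) ^ m * (((1 + η) ^ (m + 1) - 1) / η) := by
          rw [← Finset.mul_sum, geom_sum_eq (by linarith)]
          congr 2
          ring
      _ ≤ Δ m / (1 + η) ^ m * ((1 + η) ^ (m + 1) / η) := by
          refine mul_le_mul_of_nonneg_left ?_ (by positivity)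
          exact div_le_div_of_nonneg_right (by linarith) hη.le
      _ = Δ m * (1 + η) / η := by
          have : (1 + η) ^ m ≠ 0 := (pow_pos hq m).ne'
          rw [pow_succ]
          field_simp

/-- the three point inequality of a convex function on `(0,∞)`. -/
theorem s9ag_three {g : ℝ → ℝ} (hg : ConvexOn ℝ (Ioi 0) g) {x y z : ℝ} (hx : 0 < x) (hxy : x ≤ y)
    (hyz : y ≤ z) : (z - x) * g y ≤ (z - y) * g x + (y - x) * g z := by
  rcases eq_or_lt_of_le (hxy.trans hyz) with h | h
  · have h1 : y = x := le_antisymm (by linarith) hxy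
    rw [← h, h1]; simp
  · have hzx : 0 < z - x := by linarith
    have := hg.2 (show x ∈ Ioi (0 : ℝ) from hx) (show z ∈ Ioi (0 : ℝ) from hx.trans h)
      (show 0 ≤ (z - y) / (z - x) from div_nonneg (by linarith) hzx.le)
      (show 0 ≤ (y - x) / (z - x) from div_nonneg (by linarith) hzx.le)
      (by field_simp; ring)
    have e : ((z - y) / (z - x)) • x + ((y - x) / (z - x)) • z = y := by
      simp only [smul_eq_mul]; field_simp; ring
    rw [e] at this
    simp only [smul_eq_mul] at this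
    have h2 := mul_le_mul_of_nonneg_left this hzx.le
    have e2 : (z - x) * ((z - y) / (z - x) * g x + (y - x) / (z - x) * g z) =
        (z - y) * g x + (y - x) * g z := by field_simp
    rwa [e2] at h2

/-- LEAF: two exact values + convexity pin down `g` near `D`. -/
theorem s9a_local (g : ℝ → ℝ) (hg : ConvexOn ℝ (Ioi 0) g) (D w U η' : ℝ) (hw : 0 < w) (hU : 0 < U)
    (hη' : 0 ≤ η') (hD : 0 < D - U * w) (hl : g (D - U * w) = g D + U)
    (hr : g (D + U * w * (1 + η')) = g D - U) :
    ∀ u ∈ Icc (-U) U, |g (D - u * w) - g D - u| ≤ U * η' := by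
  intro u hu
  have hUw : 0 < U * w := mul_pos hU hw
  have hD0 : 0 < D := by linarith
  have hη1 : 0 < 1 + η' := by linarith
  obtain ⟨d, hd⟩ : ∃ d : ℝ, d = g (D - u * w) - g D := ⟨_, rfl⟩
  have hgx : g (D - u * w) = g D + d := by rw [hd]; ring
  have key : (0 ≤ u → d ≤ u ∧ u ≤ (1 + η') * d) ∧ (u ≤ 0 → u ≤ d ∧ (1 + η') * d ≤ u) := by
    constructor
    · intro h0
      have huw : 0 ≤ u * w := mul_nonneg h0 hw.le
      have huw' : u * w ≤ U * w := mul_le_mul_of_nonneg_right hu.2 hw.le
      have t1 := s9ag_three hg hD (show D - U * w ≤ D - u * w by linarith)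
        (show D - u * w ≤ D by linarith)
      have t2 := s9ag_three hg (show 0 < D - u * w by linarith) (show D - u * w ≤ D by linarith)
        (show D ≤ D + U * w * (1 + η') by nlinarith)
      rw [hl, hgx] at t1
      rw [hr, hgx] at t2
      constructor
      · have : U * w * d ≤ U * w * u := by nlinarith
        exact le_of_mul_le_mul_left this hUw
      · have : U * w * u ≤ U * w * ((1 + η') * d) := by nlinarith
        exact le_of_mul_le_mul_left this hUw
    · intro h0
      have huw : 0 ≤ -u * w := mul_nonneg (by linarith) hw.le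
      have huw' : -u * w ≤ U * w := mul_le_mul_of_nonneg_right (by linarith [hu.1]) hw.le
      have hUwη : 0 ≤ U * w * η' := mul_nonneg hUw.le hη'
      have t1 := s9ag_three hg hD0 (show D ≤ D - u * w by linarith)
        (show D - u * w ≤ D + U * w * (1 + η') by nlinarith)
      have t2 := s9ag_three hg hD (show D - U * w ≤ D by linarith)
        (show D ≤ D - u * w by linarith)
      rw [hr, hgx] at t1
      rw [hl, hgx] at t2
      constructor
      · have : U * w * u ≤ U * w * d := by nlinarith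
        exact le_of_mul_le_mul_left this hUw
      · have : U * w * ((1 + η') * d) ≤ U * w * u := by nlinarith
        exact le_of_mul_le_mul_left this hUw
  rw [← hd, abs_le]
  rcases le_total 0 u with h0 | h0
  · obtain ⟨k1, k2⟩ := key.1 h0
    have e1 : η' * d ≤ η' * u := mul_le_mul_of_nonneg_left k1 hη'
    have e2 : η' * u ≤ η' * U := mul_le_mul_of_nonneg_left hu.2 hη'
    have e3 : 0 ≤ U * η' := mul_nonneg hU.le hη'
    constructor <;> nlinarith
  · obtain ⟨k1, k2⟩ := key.2 h0
    have e1 : η' * u ≤ η' * d := mul_le_mul_of_nonneg_left k1 hη'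
    have e2 : η' * (-U) ≤ η' * u := mul_le_mul_of_nonneg_left hu.1 hη'
    have e3 : 0 ≤ U * η' := mul_nonneg hU.le hη'
    constructor <;> nlinarith

/-- LEAF: the grid of equal drops `U` of a convex decreasing function. -/
theorem s9a_grid (g : ℝ → ℝ) (hg : ConvexOn ℝ (Ioi 0) g) (hanti : StrictAntiOn g (Ioi 0)) (a b U : ℝ)
    (ha : 0 < a) (hab : a < b) (hU : 0 < U) (N : ℕ) (hN : N * U ≤ g a - g b) :
    ∃ E : ℕ → ℝ, E 0 = a ∧ (∀ i ≤ N, E i ∈ Icc a b ∧ g (E i) = g a - i * U) ∧
      (∀ i < N, E i < E (i + 1)) ∧ ∀ i, i + 1 < N → E (i + 1) - E i ≤ E (i + 2) - E (i + 1) := by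
  have hcont : ContinuousOn g (Icc a b) :=
    (hg.continuousOn isOpen_Ioi).mono fun x hx => lt_of_lt_of_le ha hx.1
  have hex : ∀ i : ℕ, ∃ x : ℝ, i ≤ N → x ∈ Icc a b ∧ g x = g a - i * U := by
    intro i
    by_cases hi : i ≤ N
    · have h1 : (i : ℝ) * U ≤ N * U :=
        mul_le_mul_of_nonneg_right (by exact_mod_cast hi) hU.le
      have h2 : 0 ≤ (i : ℝ) * U := by positivity
      obtain ⟨x, hx, hgx⟩ := intermediate_value_Icc' hab.le hcont
        (show g a - i * U ∈ Icc (g b) (g a) from ⟨by linarith, by linarith⟩)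
      exact ⟨x, fun _ => ⟨hx, hgx⟩⟩
    · exact ⟨a, fun h => absurd h hi⟩
  choose E hE using hex
  have hpos : ∀ i ≤ N, E i ∈ Ioi (0 : ℝ) := fun i hi => lt_of_lt_of_le ha (hE i hi).1.1
  have hlt : ∀ i < N, E i < E (i + 1) := by
    intro i hi
    have h1 := (hE i hi.le).2
    have h2 := (hE (i + 1) hi).2
    refine (hanti.lt_iff_gt (hpos _ hi) (hpos _ hi.le)).1 ?_
    rw [h1, h2]
    push_cast
    linarith
  refine ⟨E, ?_, hE, hlt, fun i hi => ?_⟩
  · have h1 := (hE 0 (Nat.zero_le _)).2
    simp only [Nat.cast_zero, zero_mul, sub_zero] at h1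
    exact hanti.injOn (hpos 0 (Nat.zero_le _)) (show a ∈ Ioi (0 : ℝ) from ha) h1
  · have h0 := (hE i (by omega)).2
    have h1 := (hE (i + 1) (by omega)).2
    have h2 := (hE (i + 2) (by omega)).2
    have t := s9ag_three hg (hpos i (by omega)) (hlt i (by omega)).le (hlt (i + 1) (by omega)).le
    rw [h0, h1, h2] at t
    push_cast at t
    have : 0 ≤ U * ((E (i + 2) - E (i + 1)) - (E (i + 1) - E i)) := by nlinarith
    have := nonneg_of_mul_nonneg_right this hU
    linarith

end Claimed.Agent.R269
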