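/-
Row 269, UNIT S9a (P1 Lemma 9.3 (i)), LEAF PACKAGES LF-S9a-step (`s9a_steep_step`) and LF-S9a-steep (`s9a_steep`, glue).   Blueprint: helper149.   Proofs: helper175 (with `C = 3`).   PURE REAL VARIABLE, no paper reading needed.

PROOF OF `s9a_steep_step`  (`g = lm`, `C = 2`).   It suffices to treat `U ≥ 5`, `η₁ ≤ 1/2` with error `U η₁` (given `U, η` use `U' = max U 5`, `η₁ = min (1/2) (η/U')`), and `K₀ = 200 U/η₁`.
 `D₁ = e^z`, `D_a = D₁/e = e^{z-1}`.  The hypothesis says: the chord of `g` on `[D₁, e^y]` has slope `< -K/D₁`; by convexity EVERY chord of `g` in `(0, D₁]` has slope `< -K/D₁`.   (★)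
 So `T := g D_a - g D₁ ≥ K (1 - 1/e) ≥ K/2`.  `N := ⌊T/U⌋₊`.   `s9a_grid` on `[D_a, D₁]`: `E i`, `Δ i = E (i+1) - E i` (`i < N`), positive, nondecreasing; by (★) `Δ i ≤ U D₁/K` and `D₁ - E N ≤ U D₁/K` (as `g (E N) - g D₁ < U`).
 `s9a_pick` gives `m < N`.   `D := E (m+1)`, `w := Δ m/U`, `P := D/w`.    `D - D_a = ∑_{i ≤ m} Δ i ≤ Δ m (1+η₁)/η₁ ≤ 2 U D₁/(K η₁) ≤ D₁/100`.
 Hence `m + 1 < N` (otherwise `D = E N ≥ D₁ (1 - 1/100) > D₁/e + D₁/100`), so `Δ m ≤ Δ (m+1) ≤ (1+η₁) Δ m`.   `P = U D/Δ m ≥ K D/D₁ ≥ K/e`.   `D (1 - u/P) = D - u w`.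
 LOCAL: `s9a_local` with `η' = Δ (m+1)/Δ m - 1 ≤ η₁`  (`g (D - U w) = g (E m) = g D + U`, `g (D + U w (1+η')) = g (E (m+2)) = g D - U`).
 TAIL: `v ≥ 1`, `D' = D + v w`.
  Case A, `D' ≤ E N`: take `k` with `E (m+1+k) ≤ D' ≤ E (m+2+k)`, `m+2+k ≤ N`.   `g D' ≤ g D - k U`,  `v w ≤ ∑_{i=1}^{k+1} Δ (m+i) ≤ (k+1) (1+η₁)^{k+1} Δ m`, so `log (1+v) ≤ log (2U) + log (k+1) + (k+1) η₁ ≤ U + 2k` for `k ≥ 1`, and
     `(5/8)(U + 2k) ≤ k U` for `U ≥ 5`, `k ≥ 1`.    For `k = 0`: chord on `[D, E (m+2)]`: `g D' ≤ g D - v/(1+η₁) ≤ g D - (2/3) v ≤ g D - (5/8) log (1+v)`.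
  Case B, `D' ≥ E N`: `n' := N - m - 1 ≥ 1`.   `g D' ≤ g (E N) - (3/4) log⁺ (D'/D₁) = g D - n' U - (3/4) log⁺ (D'/D₁)`   (for `D' ≥ D₁` this is the CONTACT inequality at `z`, and `g D₁ ≤ g (E N)`).
     `1 + v ≤ 2 (D'/D) P`, `D'/D ≤ e max 1 (D'/D₁)`;    `D₁/4 ≤ (D₁ - D) - (D₁ - E N) = E N - E (m+1) ≤ n' (1+η₁)^{n'} Δ m`, so `P ≤ U D₁/Δ m ≤ 4 U n' (1+η₁)^{n'}`, `log P ≤ log (4U) + (3/2) n' ≤ U + (3/2) n'`.
     `(5/8)(log 2 + 1) ≤ 2`, `(5/8)(U + (3/2) n') ≤ n' U`.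

PROOF OF `s9a_steep`.  `C` from the step.  For each `j`: `U = j+1`, `η = 1/(j+1)`, `K₀`; `K = max K₀ (3 (j+1))`; `¬ S9aBdd lm K (j+1)` unfolds (`push_neg`) to `z ≥ j+1`, contact, `y > z` steep.   `D j ≥ e^{z-1} ≥ e^j ≥ j`, `P j ≥ j+1`.
-/
import Claimed.Agent.R269.S9.MomentDefs
import Claimed.Agent.R269.S9.MomentGrid

set_option autoImplicit false

namespace Claimed.Agent.R269

open Complex Filter Topology MeasureTheory Set Metric
open scoped ENNReal Real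

/-- (★): a steep chord to the right of `D₁` makes all chords in `(0, D₁]` steep. -/
theorem s9at_star {g : ℝ → ℝ} (hg : ConvexOn ℝ (Ioi 0) g) {D₁ D₂ σ : ℝ} (h12 : D₁ < D₂)
    (hs : σ * (D₂ - D₁) ≤ g D₁ - g D₂) {s t : ℝ} (hs0 : 0 < s) (hst : s ≤ t) (ht : t ≤ D₁) :
    σ * (t - s) ≤ g s - g t := by
  have c1 : ∀ r : ℝ, 0 < r → r ≤ D₁ → σ * (D₁ - r) ≤ g r - g D₁ := by
    intro r hr hr1
    have t1 := s9ag_three hg hr hr1 h12.le
    have hpos : 0 < D₂ - D₁ := by linarith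
    have h1 : (D₁ - r) * (σ * (D₂ - D₁)) ≤ (D₁ - r) * (g D₁ - g D₂) :=
      mul_le_mul_of_nonneg_left hs (by linarith)
    have : (D₂ - D₁) * (σ * (D₁ - r)) ≤ (D₂ - D₁) * (g r - g D₁) := by nlinarith
    exact le_of_mul_le_mul_left this hpos
  rcases eq_or_lt_of_le ht with h | h
  · rw [h]; exact c1 s hs0 (hst.trans ht)
  · have t1 := s9ag_three hg hs0 hst ht
    have h2 := c1 t (hs0.trans_le hst) ht
    have hpos : 0 < D₁ - t := by linarith
    have h1 : (t - s) * (σ * (D₁ - t)) ≤ (t - s) * (g t - g D₁) :=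
      mul_le_mul_of_nonneg_left h2 (by linarith)
    have : (D₁ - t) * (σ * (t - s)) ≤ (D₁ - t) * (g s - g t) := by nlinarith
    exact le_of_mul_le_mul_left this hpos

/-- the numerical inequality of the tail. -/
theorem s9at_num (U η₁ t v : ℝ) (k : ℕ) (hU : 5 ≤ U) (hη0 : 0 ≤ η₁) (hη1 : η₁ ≤ 1 / 2) (hk : 1 ≤ k)
    (ht : 0 ≤ t) (hv : 1 ≤ v)
    (hle : v ≤ 4 * U * ((k : ℝ) + 1) * (1 + η₁) ^ (k + 1) * Real.exp t) :
    5 / 8 * Real.log (1 + v) ≤ 3 + k * U + 3 / 4 * t := by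
  have hk' : (1 : ℝ) ≤ k := by exact_mod_cast hk
  have e8 : (8 : ℝ) ≤ Real.exp 3 := by
    have := Real.quadratic_le_exp_of_nonneg (show (0 : ℝ) ≤ 3 by norm_num)
    linarith
  have eU : U ≤ Real.exp U := by linarith [Real.add_one_le_exp U]
  have ek : (k : ℝ) + 1 ≤ Real.exp k := Real.add_one_le_exp _
  have eη : (1 + η₁) ^ (k + 1) ≤ Real.exp (((k : ℝ) + 1) / 2) := by
    calc (1 + η₁) ^ (k + 1) ≤ Real.exp (1 / 2) ^ (k + 1) := by
          refine pow_le_pow_left₀ (by linarith) ?_ _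
          have := Real.add_one_le_exp (1 / 2 : ℝ)
          linarith
      _ = Real.exp (((k : ℝ) + 1) / 2) := by
          rw [← Real.exp_nat_mul]; congr 1; push_cast; ring
  have hpow0 : 0 ≤ (1 + η₁) ^ (k + 1) := by positivity
  have h1 : 1 + v ≤ Real.exp (3 + U + k + ((k : ℝ) + 1) / 2 + t) := by
    calc 1 + v ≤ 8 * U * ((k : ℝ) + 1) * (1 + η₁) ^ (k + 1) * Real.exp t := by nlinarith
      _ ≤ Real.exp 3 * Real.exp U * Real.exp k * Real.exp (((k : ℝ) + 1) / 2) * Real.exp t := by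
          gcongr
      _ = Real.exp (3 + U + k + ((k : ℝ) + 1) / 2 + t) := by
          simp only [Real.exp_add]
  have h2 : Real.log (1 + v) ≤ 3 + U + k + ((k : ℝ) + 1) / 2 + t :=
    (Real.log_le_iff_le_exp (by linarith)).2 h1
  have h3 : 0 ≤ ((k : ℝ) - 1) * (U - 5) := mul_nonneg (by linarith) (by linarith)
  nlinarith

/-- the grid of equal drops on `[D₁/e, D₁]` and the chosen index. -/
theorem s9at_grid (g : ℝ → ℝ) (hg : ConvexOn ℝ (Ioi 0) g) (hanti : StrictAntiOn g (Ioi 0))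
    (U η₁ K D₁ : ℝ) (hU : 5 ≤ U) (hη0 : 0 < η₁) (hη1 : η₁ ≤ 1 / 2) (hK : 200 * U / η₁ ≤ K)
    (hD₁ : 0 < D₁)
    (hstar : ∀ s t : ℝ, 0 < s → s ≤ t → t ≤ D₁ → K / D₁ * (t - s) ≤ g s - g t) :
    ∃ (E : ℕ → ℝ) (N m : ℕ), m + 1 < N ∧
      (∀ i ≤ N, D₁ * Real.exp (-1) ≤ E i ∧ E i ≤ D₁ ∧ g (E i) = g (E 0) - i * U) ∧
      (∀ i < N, E i < E (i + 1)) ∧
      (E (m + 1) - E m ≤ E (m + 2) - E (m + 1)) ∧
      (∀ k, m + k < N → E (m + k + 1) - E (m + k) ≤ (1 + η₁) ^ k * (E (m + 1) - E m)) ∧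
      (K / D₁ * (E (m + 1) - E m) ≤ U) ∧ D₁ ≤ 4 * (E N - E (m + 1)) := by
  have hU0 : 0 < U := by linarith
  have hK' : 200 * U ≤ K * η₁ := (div_le_iff₀ hη0).1 hK
  have hK0 : 0 < K := lt_of_lt_of_le (by positivity) hK
  have hKU : 400 * U ≤ K := by nlinarith
  have he2 : Real.exp (-1) ≤ 1 / 2 := by
    rw [Real.exp_neg, one_div]
    exact inv_anti₀ (by norm_num) (by linarith [Real.add_one_le_exp (1 : ℝ)])
  have he0 : 0 < Real.exp (-1) := Real.exp_pos _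
  obtain ⟨a, ha⟩ : ∃ a : ℝ, a = D₁ * Real.exp (-1) := ⟨_, rfl⟩
  have ha0 : 0 < a := by rw [ha]; positivity
  have ha2 : a ≤ D₁ / 2 := by rw [ha]; nlinarith
  have hab : a < D₁ := by linarith
  have hT : K / 2 ≤ g a - g D₁ := by
    have h1 := hstar a D₁ ha0 hab.le le_rfl
    have h2 : K / D₁ * (D₁ / 2) ≤ K / D₁ * (D₁ - a) :=
      mul_le_mul_of_nonneg_left (by linarith) (by positivity)
    have h3 : K / D₁ * (D₁ / 2) = K / 2 := by field_simp
    linarith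
  obtain ⟨N, hN⟩ : ∃ N : ℕ, N = ⌊(g a - g D₁) / U⌋₊ := ⟨_, rfl⟩
  have hT0 : 0 ≤ (g a - g D₁) / U := div_nonneg (by linarith) hU0.le
  have hN1 : (N : ℝ) * U ≤ g a - g D₁ := by
    rw [← le_div_iff₀ hU0, hN]; exact Nat.floor_le hT0
  have hN2 : g a - g D₁ < ((N : ℝ) + 1) * U := by
    rw [← div_lt_iff₀ hU0, hN]; exact Nat.lt_floor_add_one _
  have hNpos : 0 < N := by
    rw [hN, Nat.floor_pos, le_div_iff₀ hU0]
    linarith
  obtain ⟨E, hE0, hE, hlt, hmono⟩ := s9a_grid g hg hanti a D₁ U ha0 hab hU0 N hN1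
  obtain ⟨m, hmN, hfw, hsum⟩ := s9a_pick (fun i => E (i + 1) - E i) N hNpos
    (fun i hi => sub_pos.2 (hlt i hi)) η₁ hη0

  rw [Finset.sum_range_sub, hE0] at hsum
  have hpos : ∀ i ≤ N, 0 < E i := fun i hi => lt_of_lt_of_le ha0 (hE i hi).1.1
  have hδ : K / D₁ * (E (m + 1) - E m) ≤ U := by
    have h1 := hstar (E m) (E (m + 1)) (hpos m hmN.le) (hlt m hmN).le (hE (m + 1) hmN).1.2
    rw [(hE m hmN.le).2, (hE (m + 1) hmN).2] at h1
    push_cast at h1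
    linarith
  have hδ' : K * (E (m + 1) - E m) ≤ U * D₁ := by
    rw [div_mul_eq_mul_div, div_le_iff₀ hD₁] at hδ
    exact hδ
  have hδ0 : 0 < E (m + 1) - E m := sub_pos.2 (hlt m hmN)
  have hEN : K * (D₁ - E N) ≤ U * D₁ := by
    have h1 := hstar (E N) D₁ (hpos N le_rfl) (hE N le_rfl).1.2 le_rfl
    rw [(hE N le_rfl).2, div_mul_eq_mul_div, div_le_iff₀ hD₁] at h1
    nlinarith
  have hEN' : D₁ - E N ≤ D₁ / 400 := by
    have h1 : 400 * U * (D₁ - E N) ≤ K * (D₁ - E N) :=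
      mul_le_mul_of_nonneg_right hKU (by linarith [(hE N le_rfl).1.2])
    have h2 : U * (400 * (D₁ - E N)) ≤ U * D₁ := by linarith
    have := le_of_mul_le_mul_left h2 hU0
    linarith
  have hDa : E (m + 1) - a ≤ D₁ / 100 := by
    have h1 : (E (m + 1) - E m) * (1 + η₁) / η₁ ≤ D₁ / 100 := by
      rw [div_le_iff₀ hη0]
      have h2 : (E (m + 1) - E m) * (1 + η₁) ≤ (E (m + 1) - E m) * 2 :=
        mul_le_mul_of_nonneg_left (by linarith) hδ0.le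
      have h3 : 200 * U * (E (m + 1) - E m) ≤ K * η₁ * (E (m + 1) - E m) :=
        mul_le_mul_of_nonneg_right hK' hδ0.le
      have h4 : K * η₁ * (E (m + 1) - E m) ≤ η₁ * (U * D₁) := by
        have := mul_le_mul_of_nonneg_left hδ' hη0.le
        linarith
      have h5 : U * (200 * (E (m + 1) - E m)) ≤ U * (η₁ * D₁) := by linarith
      have h6 := le_of_mul_le_mul_left h5 hU0
      linarith
    linarith
  have hm1 : m + 1 < N := by
    by_contra hcon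
    have : m + 1 = N := by omega
    rw [this] at hDa
    linarith
  refine ⟨E, N, m, hm1, fun i hi => ?_, hlt, hmono m hm1, hfw, hδ, by linarith⟩
  have := hE i hi
  rw [hE0, ← ha]
  exact ⟨this.1.1, this.1.2, this.2⟩

/-- sums of consecutive steps after the chosen index. -/
theorem s9at_sum (E : ℕ → ℝ) (N m : ℕ) (η₁ : ℝ) (hη0 : 0 ≤ η₁) (hδ0 : 0 ≤ E (m + 1) - E m)
    (hfw : ∀ k, m + k < N → E (m + k + 1) - E (m + k) ≤ (1 + η₁) ^ k * (E (m + 1) - E m)) (j : ℕ)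
    (hj : m + 1 + j ≤ N) :
    E (m + 1 + j) - E (m + 1) ≤ j * (1 + η₁) ^ j * (E (m + 1) - E m) := by
  induction j with
  | zero => simp
  | succ j ih =>
    have h1 := ih (by omega)
    have h2 := hfw (j + 1) (by omega)
    have e1 : m + 1 + (j + 1) = m + (j + 1) + 1 := by omega
    have e2 : m + 1 + j = m + (j + 1) := by omega
    rw [e1]
    rw [e2] at h1
    have h3 : (1 + η₁) ^ j ≤ (1 + η₁) ^ (j + 1) := pow_le_pow_right₀ (by linarith) (by omega)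
    have h4 : (j : ℝ) * (1 + η₁) ^ j * (E (m + 1) - E m) ≤
        (j : ℝ) * (1 + η₁) ^ (j + 1) * (E (m + 1) - E m) := by gcongr
    push_cast
    nlinarith

/-- the tail estimate, from the grid data. -/
theorem s9at_tail (g : ℝ → ℝ) (hg : ConvexOn ℝ (Ioi 0) g) (hanti : StrictAntiOn g (Ioi 0))
    (U η₁ D₁ : ℝ) (hU : 5 ≤ U) (hη0 : 0 < η₁) (hη1 : η₁ ≤ 1 / 2) (hD₁ : 0 < D₁)
    (hcontact : ∀ D' ≥ D₁, g D' ≤ g D₁ - 3 / 4 * Real.log (D' / D₁))
    (E : ℕ → ℝ) (N m : ℕ) (hm1 : m + 1 < N)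
    (hE : ∀ i ≤ N, D₁ * Real.exp (-1) ≤ E i ∧ E i ≤ D₁ ∧ g (E i) = g (E 0) - i * U)
    (hlt : ∀ i < N, E i < E (i + 1))
    (hfw : ∀ k, m + k < N → E (m + k + 1) - E (m + k) ≤ (1 + η₁) ^ k * (E (m + 1) - E m))
    (hfar : D₁ ≤ 4 * (E N - E (m + 1))) (v : ℝ) (hv : 1 ≤ v) :
    g (E (m + 1) + v * ((E (m + 1) - E m) / U)) - g (E (m + 1)) ≤
      3 - 5 / 8 * Real.log (1 + v) := by
  have hU0 : 0 < U := by linarith
  have hpos : ∀ i ≤ N, 0 < E i := fun i hi =>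
    lt_of_lt_of_le (mul_pos hD₁ (Real.exp_pos _)) (hE i hi).1
  obtain ⟨δ, hδ⟩ : ∃ δ : ℝ, δ = E (m + 1) - E m := ⟨_, rfl⟩
  have hδ0 : 0 < δ := by rw [hδ]; exact sub_pos.2 (hlt m (by omega))
  rw [← hδ] at hfw ⊢
  obtain ⟨D', hD'⟩ : ∃ D' : ℝ, D' = E (m + 1) + v * (δ / U) := ⟨_, rfl⟩
  rw [← hD']
  have hvw : v * δ = U * (D' - E (m + 1)) := by rw [hD']; field_simp; ring
  have hDD' : E (m + 1) ≤ D' := by
    rw [hD']
    have : 0 ≤ v * (δ / U) := by positivity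
    linarith
  have hD'0 : 0 < D' := (hpos _ hm1.le).trans_le hDD'
  have hsum := fun j hj => s9at_sum E N m η₁ hη0.le (by rw [← hδ]; exact hδ0.le)
    (by rw [← hδ]; exact hfw) j hj
  rw [← hδ] at hsum
  classical
  obtain ⟨i, hi⟩ : ∃ i : ℕ, i = Nat.findGreatest (fun i => E i ≤ D') N := ⟨_, rfl⟩
  have hi1 : m + 1 ≤ i := by rw [hi]; exact Nat.le_findGreatest hm1.le hDD'
  have hi2 : i ≤ N := by rw [hi]; exact Nat.findGreatest_le N
  have hi3 : E i ≤ D' := by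
    rw [hi]; exact Nat.findGreatest_spec (P := fun i => E i ≤ D') hm1.le hDD'
  have hi4 : i < N → D' < E (i + 1) := by
    intro h
    have := Nat.findGreatest_is_greatest (P := fun i => E i ≤ D') (n := N) (k := i + 1)
      (by rw [← hi]; omega) h
    exact not_le.1 this
  obtain ⟨k, hk⟩ : ∃ k : ℕ, i = m + 1 + k := ⟨i - (m + 1), by omega⟩
  have hgi : g (E i) = g (E (m + 1)) - k * U := by
    rw [(hE i hi2).2.2, (hE (m + 1) hm1.le).2.2, hk]
    push_cast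
    ring
  have hgD' : g D' ≤ g (E i) := hanti.antitoneOn (hpos i hi2) hD'0 hi3
  have hlogv : Real.log (1 + v) ≤ v := by
    have := Real.log_le_sub_one_of_pos (show 0 < 1 + v by linarith)
    linarith
  have hq0 : (0 : ℝ) < 1 + η₁ := by linarith
  rcases lt_or_eq_of_le hi2 with hiN | hiN
  · -- `D'` lies in a cell of the grid
    have hup := hi4 hiN
    rcases Nat.eq_zero_or_pos k with hk0 | hk0
    · -- the first cell: chord
      rw [hk0, add_zero] at hk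
      rw [hk] at hup
      have t1 := s9ag_three hg (hpos _ hm1.le) hDD' hup.le
      have h2 : g (E (m + 1 + 1)) = g (E (m + 1)) - U := by
        rw [(hE (m + 1 + 1) hm1).2.2, (hE (m + 1) hm1.le).2.2]
        push_cast
        ring
      rw [h2] at t1
      have h3 := hfw 1 hm1
      rw [pow_one] at h3
      have h4 : 0 < E (m + 1 + 1) - E (m + 1) := sub_pos.2 (hlt _ hm1)
      -- `Δ' (g D' - g D) ≤ - v δ`
      have h5 : (E (m + 1 + 1) - E (m + 1)) * (g D' - g (E (m + 1))) ≤ -(v * δ) := by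
        rw [hvw]; nlinarith
      have h6 : (E (m + 1 + 1) - E (m + 1)) * (-(2 / 3 * v)) ≥ -(v * δ) := by
        have : (E (m + 1 + 1) - E (m + 1)) * (2 / 3 * v) ≤ (1 + η₁) * δ * (2 / 3 * v) :=
          mul_le_mul_of_nonneg_right h3 (by linarith)
        have h7 : (1 + η₁) * δ * (2 / 3 * v) ≤ 3 / 2 * δ * (2 / 3 * v) := by
          have : 0 ≤ δ * (2 / 3 * v) := by positivity
          nlinarith
        nlinarith
      have h8 : g D' - g (E (m + 1)) ≤ -(2 / 3 * v) :=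
        le_of_mul_le_mul_left (h5.trans h6) h4
      linarith
    · have h1 := hsum (k + 1) (by omega)
      have e1 : m + 1 + (k + 1) = i + 1 := by omega
      rw [e1] at h1
      have h2 : v * δ ≤ U * (((k + 1 : ℕ) : ℝ) * (1 + η₁) ^ (k + 1) * δ) := by
        rw [hvw]
        exact mul_le_mul_of_nonneg_left (by linarith) hU0.le
      have h3 : v ≤ U * (((k : ℝ) + 1) * (1 + η₁) ^ (k + 1)) := by
        push_cast at h2
        have : δ * v ≤ δ * (U * (((k : ℝ) + 1) * (1 + η₁) ^ (k + 1))) := by nlinarith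
        exact le_of_mul_le_mul_left this hδ0
      have h4 := s9at_num U η₁ 0 v k hU hη0.le hη1 hk0 le_rfl hv (by
        rw [Real.exp_zero, mul_one]
        have : 0 ≤ U * (((k : ℝ) + 1) * (1 + η₁) ^ (k + 1)) := by positivity
        nlinarith)
      linarith
  · -- `D'` beyond the grid
    have hk1 : 1 ≤ k := by omega
    obtain ⟨t, ht0, ht1, ht2⟩ : ∃ t : ℝ, 0 ≤ t ∧ D' ≤ D₁ * Real.exp t ∧
        g D' ≤ g (E i) - 3 / 4 * t := by
      rcases le_total D' D₁ with h | h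
      · exact ⟨0, le_rfl, by simpa using h, by simpa using hgD'⟩
      · refine ⟨Real.log (D' / D₁), Real.log_nonneg ((one_le_div hD₁).2 h), ?_, ?_⟩
        · rw [Real.exp_log (by positivity)]
          exact le_of_eq (by field_simp)
        · have h1 := hcontact D' h
          have h2 : g D₁ ≤ g (E i) := hanti.antitoneOn (hpos i hi2) hD₁ (hE i hi2).2.1
          linarith
    have h1 := hsum k (by omega)
    rw [← hk, hiN] at h1
    have hpk : (k : ℝ) * (1 + η₁) ^ k ≤ ((k : ℝ) + 1) * (1 + η₁) ^ (k + 1) := by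
      have h3 : (1 + η₁) ^ k ≤ (1 + η₁) ^ (k + 1) := pow_le_pow_right₀ (by linarith) (by omega)
      have h4 : (0 : ℝ) ≤ (1 + η₁) ^ k := by positivity
      have h5 : (0 : ℝ) ≤ k := Nat.cast_nonneg k
      nlinarith
    have h2 : D₁ ≤ 4 * (((k : ℝ) + 1) * (1 + η₁) ^ (k + 1) * δ) := by
      have : (k : ℝ) * (1 + η₁) ^ k * δ ≤ ((k : ℝ) + 1) * (1 + η₁) ^ (k + 1) * δ :=
        mul_le_mul_of_nonneg_right hpk hδ0.le
      linarith
    have h3 : v * δ ≤ U * (4 * (((k : ℝ) + 1) * (1 + η₁) ^ (k + 1) * δ) * Real.exp t) := by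
      rw [hvw]
      refine mul_le_mul_of_nonneg_left ?_ hU0.le
      have h4 : D₁ * Real.exp t ≤ 4 * (((k : ℝ) + 1) * (1 + η₁) ^ (k + 1) * δ) * Real.exp t :=
        mul_le_mul_of_nonneg_right h2 (Real.exp_pos t).le
      have := hpos (m + 1) hm1.le
      linarith
    have h4 : v ≤ 4 * U * ((k : ℝ) + 1) * (1 + η₁) ^ (k + 1) * Real.exp t := by
      have : δ * v ≤ δ * (4 * U * ((k : ℝ) + 1) * (1 + η₁) ^ (k + 1) * Real.exp t) := by
        nlinarith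
      exact le_of_mul_le_mul_left this hδ0
    have h5 := s9at_num U η₁ t v k hU hη0.le hη1 hk1 ht0 hv h4
    linarith

/-- the step for an abstract convex decreasing function, `U ≥ 5`, `η₁ ≤ 1/2`. -/
theorem s9at_core (g : ℝ → ℝ) (hg : ConvexOn ℝ (Ioi 0) g) (hanti : StrictAntiOn g (Ioi 0))
    (U η₁ K D₁ : ℝ) (hU : 5 ≤ U) (hη0 : 0 < η₁) (hη1 : η₁ ≤ 1 / 2) (hK : 200 * U / η₁ ≤ K)
    (hD₁ : 0 < D₁)
    (hstar : ∀ s t : ℝ, 0 < s → s ≤ t → t ≤ D₁ → K / D₁ * (t - s) ≤ g s - g t)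
    (hcontact : ∀ D' ≥ D₁, g D' ≤ g D₁ - 3 / 4 * Real.log (D' / D₁)) :
    ∃ D P : ℝ, D₁ * Real.exp (-1) ≤ D ∧ K / 3 ≤ P ∧
      (∀ u ∈ Icc (-U) U, |g (D * (1 - u / P)) - g D - u| ≤ U * η₁) ∧
      ∀ v ≥ (1 : ℝ), g (D * (1 + v / P)) - g D ≤ 3 - 5 / 8 * Real.log (1 + v) := by
  obtain ⟨E, N, m, hm1, hE, hlt, hmono, hfw, hδK, hfar⟩ :=
    s9at_grid g hg hanti U η₁ K D₁ hU hη0 hη1 hK hD₁ hstar
  have htail := s9at_tail g hg hanti U η₁ D₁ hU hη0 hη1 hD₁ hcontact E N m hm1 hE hlt hfw hfar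
  have hU0 : 0 < U := by linarith
  have hK0 : 0 < K := lt_of_lt_of_le (by positivity) hK
  have hpos : ∀ i ≤ N, 0 < E i := fun i hi =>
    lt_of_lt_of_le (mul_pos hD₁ (Real.exp_pos _)) (hE i hi).1
  obtain ⟨δ, hδ⟩ : ∃ δ : ℝ, δ = E (m + 1) - E m := ⟨_, rfl⟩
  have hδ0 : 0 < δ := by rw [hδ]; exact sub_pos.2 (hlt m (by omega))
  rw [← hδ] at hfw hδK hmono htail
  obtain ⟨D, hD⟩ : ∃ D : ℝ, D = E (m + 1) := ⟨_, rfl⟩
  have hD0 : 0 < D := by rw [hD]; exact hpos _ hm1.le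
  have hw0 : 0 < δ / U := by positivity
  have hDP : ∀ x : ℝ, D * (1 + x / (D / (δ / U))) = D + x * (δ / U) := by
    intro x; field_simp
  have hDP' : ∀ x : ℝ, D * (1 - x / (D / (δ / U))) = D - x * (δ / U) := by
    intro x; field_simp
  refine ⟨D, D / (δ / U), by rw [hD]; exact (hE _ hm1.le).1, ?_, ?_, ?_⟩
  · rw [le_div_iff₀ hw0]
    have h1 : K * δ ≤ U * D₁ := by
      rw [div_mul_eq_mul_div, div_le_iff₀ hD₁] at hδK
      exact hδK
    have h2 : D₁ / 3 ≤ D := by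
      have h3 : (1 : ℝ) / 3 ≤ Real.exp (-1) := by
        rw [Real.exp_neg, one_div]
        exact inv_anti₀ (Real.exp_pos _) (by linarith [Real.exp_one_lt_d9])
      have h4 := (hE _ hm1.le).1
      rw [← hD] at h4
      nlinarith
    have h5 : K / 3 * (δ / U) = K * δ / (3 * U) := by field_simp
    rw [h5, div_le_iff₀ (by positivity)]
    nlinarith
  · intro u hu
    rw [hDP']
    have hη' : 0 ≤ (E (m + 2) - E (m + 1)) / δ - 1 := by
      rw [sub_nonneg, le_div_iff₀ hδ0]; linarith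
    have e1 : D - U * (δ / U) = E m := by
      have : U * (δ / U) = δ := by field_simp
      rw [this, hD, hδ]; ring
    have e2 : D + U * (δ / U) * (1 + ((E (m + 2) - E (m + 1)) / δ - 1)) = E (m + 2) := by
      have : U * (δ / U) * (1 + ((E (m + 2) - E (m + 1)) / δ - 1)) = E (m + 2) - E (m + 1) := by
        field_simp; ring
      rw [this, hD]; ring
    have hloc := s9a_local g hg D (δ / U) U ((E (m + 2) - E (m + 1)) / δ - 1) hw0 hU0 hη'
      (by rw [e1]; exact hpos m (by omega))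
      (by
        rw [e1, hD, (hE m (by omega)).2.2, (hE (m + 1) hm1.le).2.2]
        push_cast; ring)
      (by
        rw [e2, hD, (hE (m + 2) hm1).2.2, (hE (m + 1) hm1.le).2.2]
        push_cast; ring) u hu
    refine hloc.trans (mul_le_mul_of_nonneg_left ?_ hU0.le)
    have h3 := hfw 1 hm1
    rw [pow_one] at h3
    rw [sub_le_iff_le_add, div_le_iff₀ hδ0]
    linarith
  · intro v hv
    rw [hDP, hD]
    exact htail v hv

/-- LEAF: one steep contact produces one almost exponential window with a polynomial tail. -/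
theorem s9a_steep_step (lm : ℝ → ℝ) (h : S9aLaw lm) :
    ∃ C : ℝ, ∀ U ≥ (1 : ℝ), ∀ η > (0 : ℝ), ∃ K₀ : ℝ, ∀ z K y : ℝ, K₀ ≤ K → S9aContact lm z → z < y →
      K * (Real.exp (y - z) - 1) < s9a_rho lm y - s9a_rho lm z →
      ∃ D P : ℝ, Real.exp (z - 1) ≤ D ∧ K / 3 ≤ P ∧
        (∀ u ∈ Icc (-U) U, |lm (D * (1 - u / P)) - lm D - u| ≤ η) ∧
        ∀ v ≥ (1 : ℝ), lm (D * (1 + v / P)) - lm D ≤ C - 5 / 8 * Real.log (1 + v) := by
  refine ⟨3, fun U hU η hη => ?_⟩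
  obtain ⟨U', hU'1, hU'2⟩ : ∃ U' : ℝ, U ≤ U' ∧ 5 ≤ U' := ⟨max U 5, le_max_left _ _, le_max_right _ _⟩
  have hU'0 : 0 < U' := by linarith
  obtain ⟨η₁, hη0, hη1, hη2⟩ : ∃ η₁ : ℝ, 0 < η₁ ∧ η₁ ≤ 1 / 2 ∧ η₁ ≤ η / U' :=
    ⟨min (1 / 2) (η / U'), lt_min (by norm_num) (by positivity), min_le_left _ _, min_le_right _ _⟩
  refine ⟨200 * U' / η₁, fun z K y hK hc hzy hsteep => ?_⟩
  have hD₁ : 0 < Real.exp z := Real.exp_pos z
  have hstar : ∀ s t : ℝ, 0 < s → s ≤ t → t ≤ Real.exp z →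
      K / Real.exp z * (t - s) ≤ lm s - lm t := by
    intro s t hs hst ht
    refine s9at_star h.convex (Real.exp_lt_exp.2 hzy) ?_ hs hst ht
    have e : K / Real.exp z * (Real.exp y - Real.exp z) = K * (Real.exp (y - z) - 1) := by
      rw [Real.exp_sub]; field_simp
    rw [e]
    unfold s9a_rho at hsteep
    linarith
  have hcontact : ∀ D' ≥ Real.exp z, lm D' ≤ lm (Real.exp z) - 3 / 4 * Real.log (D' / Real.exp z) := by
    intro D' hD'
    have hD'0 : 0 < D' := hD₁.trans_le hD'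
    have h1 := hc (Real.log D') ((Real.le_log_iff_exp_le hD'0).2 hD')
    unfold s9a_rho at h1
    rw [Real.exp_log hD'0] at h1
    rw [Real.log_div hD'0.ne' hD₁.ne', Real.log_exp]
    linarith
  obtain ⟨D, P, h1, h2, h3, h4⟩ := s9at_core lm h.convex (s9a_lm_anti h) U' η₁ K (Real.exp z) hU'2
    hη0 hη1 hK hD₁ hstar hcontact
  refine ⟨D, P, ?_, h2, fun u hu => ?_, h4⟩
  · rw [sub_eq_add_neg, Real.exp_add]; exact h1
  · refine (h3 u ⟨by linarith [hu.1], by linarith [hu.2]⟩).trans ?_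
    calc U' * η₁ ≤ U' * (η / U') := mul_le_mul_of_nonneg_left hη2 hU'0.le
      _ = η := by field_simp

/-- LEAF (glue): unbounded slopes at the contacts give alternative (i). -/
theorem s9a_steep (lm : ℝ → ℝ) (h : S9aLaw lm) (hu : ∀ K X : ℝ, ¬ S9aBdd lm K X) : S9aSteep lm := by
  obtain ⟨C, hC⟩ := s9a_steep_step lm h
  have hex : ∀ j : ℕ, ∃ D P : ℝ, (j : ℝ) + 1 ≤ D ∧ (j : ℝ) + 1 ≤ P ∧
      (∀ u ∈ Icc (-((j : ℝ) + 1)) ((j : ℝ) + 1),
        |lm (D * (1 - u / P)) - lm D - u| ≤ 1 / ((j : ℝ) + 1)) ∧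
      ∀ v ≥ (1 : ℝ), lm (D * (1 + v / P)) - lm D ≤ C - 5 / 8 * Real.log (1 + v) := by
    intro j
    have hj0 : (0 : ℝ) ≤ j := Nat.cast_nonneg j
    obtain ⟨K₀, hK₀⟩ := hC ((j : ℝ) + 1) (by linarith) (1 / ((j : ℝ) + 1)) (by positivity)
    have hnb := hu (max K₀ (3 * ((j : ℝ) + 1))) ((j : ℝ) + 1)
    unfold S9aBdd at hnb
    push Not at hnb
    obtain ⟨z, hz, hzc, y, hy, hsteep⟩ := hnb
    obtain ⟨D, P, h1, h2, h3, h4⟩ := hK₀ z _ y (le_max_left _ _) hzc hy hsteep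
    refine ⟨D, P, ?_, ?_, h3, h4⟩
    · have e1 : (j : ℝ) + 1 ≤ Real.exp j := Real.add_one_le_exp _
      have e2 : Real.exp j ≤ Real.exp (z - 1) := Real.exp_le_exp.2 (by linarith)
      linarith
    · have := le_max_right K₀ (3 * ((j : ℝ) + 1))
      linarith
  choose D P h1 h2 h3 h4 using hex
  refine ⟨D, P, C, fun j => ?_, ?_, ?_, ?_, h4⟩
  · have hj0 : (0 : ℝ) ≤ j := Nat.cast_nonneg j
    exact ⟨by linarith [h1 j], by linarith [h2 j]⟩
  · exact tendsto_atTop_mono (fun j => by linarith [h1 j]) tendsto_natCast_atTop_atTop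
  · exact tendsto_atTop_mono (fun j => by linarith [h2 j]) tendsto_natCast_atTop_atTop
  · intro U hU η hη
    filter_upwards [eventually_ge_atTop ⌈U⌉₊, eventually_ge_atTop ⌈1 / η⌉₊] with j hj1 hj2 u hu
    have hj1' : U ≤ (j : ℝ) := (Nat.le_ceil U).trans (by exact_mod_cast hj1)
    have hj2' : 1 / η ≤ (j : ℝ) := (Nat.le_ceil _).trans (by exact_mod_cast hj2)
    refine (h3 j u ⟨by linarith [hu.1], by linarith [hu.2]⟩).trans ?_
    rw [div_le_iff₀ (by linarith)]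
    rw [div_le_iff₀ hη] at hj2'
    nlinarith

end Claimed.Agent.R269
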