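/-
Row 269, P1 Section 9.1, UNIT S9a (09-model.tex l.24-312): the limiting moment law and the contact dichotomy.   EXPORTS (statements by helper149).
UNIT CUT (helper149): leaves in `S9/Moment{Hardy,Convex,Log,Defs,Grid,Steep,Hull,Select,Flat}.lean`.  `s9a_dichotomy` is PROVED from them.
`s9a_compact` is the glue leaf LF-S9a-compact:  `g n := Sh.s9lm (Pr.k n)`, `b n := Sh.Hr * exp (Pr.k n) → ∞`; `hconv` = `s9a_logconvex`; `g n 1 = 0` (`log 1 = 0`, also if `μ = 0`: `log 0 = 0`);
   `hup`: for `D ∈ [a,c]` and `n` large, `j = k n - log D ≥ s9k0` and `e^{-j} < 2 Hr`, so `0 < μ j ≤ μ (k n) e^{ε_n |log D|}` (`s9a_mu_pos`, `Pr.normal`), i.e. `g n D ≤ ε_n |log D| - log D`.   `s9a_convex_compact` gives `φ`, `lm`.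
   `lm 1 = lim g (φ n) 1 = 0`;  `lm D = lim g (φ n) D ≤ lim (ε |log D| - log D) = - log D`.

ROUTE (differs from the paper in (ii), see below).
`s9a_compact` = Lemma 9.2.  (a1) HARDY CONVEXITY: `h ↦ log (E|f(.+ih)|² + E|q(.+ih)|)` is convex on `(-H,H)`: for `E|f|²` and `E|q|` separately by the three lines theorem
   (Mathlib `Complex.HadamardThreeLines`) applied to `z ↦ ∫ g(x+z) φ(x) dx`, `|φ| ≤ 1` measurable [for `E|f|²` take `g = f`, `φ = conj f(.+ih)/‖f(.+ih)‖₂`, or use Parseval]; a sum of log-convex functions is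
   log-convex (Hoelder).  So `D ↦ s9lm k D` is convex on `0 < D < H e^{k}`.  (a2) `s9lm k 1 = 0`, `s9lm (k n) D ≤ -log D + ε_n |log D|` by `normal`.  (a3) COMPACTNESS of convex functions on `(0,∞)` which vanish at `1` and are
   locally uniformly bounded above: lower bounds and local Lipschitz bounds by convexity, diagonal subsequence on the rationals, then locally uniform convergence.  (positivity of `μ`: `f ≢ 0`.)
`s9a_dichotomy` = Lemma 9.3, PURE REAL VARIABLE.  `ρ x = -lm (e^x)`, `p = ρ'_-`, `p v ≤ e^{v-u} p u`, `ρ_c x = c x + inf_{v ≥ x} (ρ v - c v)`, `c = 3/4`, contacts `ρ = ρ_c`.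
 (i) as in the paper (or: `w = D/p` is nondecreasing in `D`, `w ≤ σ D₁` on `[D₁/e, D₁]`; if no point of the middle third had `w` almost constant on `[D - U w, D + U w]`, then `w` would grow at a linear rate `≥ η/(4U)`).
 (ii) NEW, elementary (no Krylov-Bogolyubov, no Birkhoff).  `ρ_c` is `K₁`-Lipschitz on a tail, `ρ_c v - ρ_c u ≥ c (v-u)`, `ρ_c x ≥ x`.  `a(x,ℓ) = (ρ_c x - ρ_c (x-ℓ))/ℓ`, `Λ ℓ = limsup_{x→∞} a(x,ℓ)`; `ℓ Λ ℓ` is subadditive, so
   `Λ ℓ → λ = inf Λ` (Fekete; Mathlib `Subadditive.tendsto_lim` on integers + Lipschitz), `λ ≥ 1` since the mean of `a(.,ℓ)` over long intervals is `≥ 1 - o(1)`.  UPPER: for every `η` there are `ℓ_η, X_η` with `a(x,ℓ) ≤ λ + 2η` whenever `ℓ ≥ ℓ_η`, `x - ℓ ≥ X_η`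
   (blocks of a fixed length + remainder).  LOWER: take a window `[x₀, x₀ + Λ₀]`, `x₀ ≥ X_η`, of mean slope `≥ λ - η/2`, and let `x*` maximise `ρ_c x - (λ - η) x` on it: then `a(x*, ℓ) ≥ λ - η` for all `ℓ ≤ x* - x₀`, `x* - x₀ ≥ η Λ₀/(2K₁)`, and `x*` is a CONTACT
   (off the contacts `ρ_c` has slope `c < λ - η`).  So `x_j := x*` for `η = 1/j`: `ρ x_j = ρ_c x_j`, which gives `coarse` (with constant `0`), `fine`, `size`.  Between `x_j - v` and `x_j - v + η v` the increment of `ρ_c` exceeds `c η v`, so there is a contact there and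
   `0 ≤ ρ - ρ_c ≤ K₁ η v` at `x_j - v`.  The limit `L` exists along a subsequence by the compactness lemma (a3) applied to `D ↦ lm (e^{x_j} D) - lm (e^{x_j})`.
-/
import Claimed.Agent.R269.S9.MomentNormal
import Claimed.Agent.R269.S9.MomentSteep
import Claimed.Agent.R269.S9.MomentFlat

set_option autoImplicit false

namespace Claimed.Agent.R269

open Complex Filter Topology MeasureTheory Set
open scoped ENNReal Real

/-- EXPORT S9a-1 = P1 Lemma 9.2. -/
theorem s9a_compact (Sh : Shape) (hH : Sh.H ≠ ⊤) (ho : Sh.order = 1) (Pr : S9Prohibited Sh) :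
    ∃ (φ : ℕ → ℕ) (lm : ℝ → ℝ), StrictMono φ ∧ S9aLaw lm ∧ S9aConv Sh (Pr.k ∘ φ) lm := by
  have hHr := Sh.s9_Hr_pos hH
  have hone : ∀ n, Sh.s9lm (Pr.k n) 1 = 0 := by
    intro n
    have := Pr.B_pos hH n
    unfold Shape.s9lm
    simp [this.ne']
  -- the normal bound, eventually, on compact intervals
  have hnb : ∀ c : ℝ, ∀ᶠ n in atTop, ∀ D : ℝ, 0 < D → D ≤ c →
      Sh.s9lm (Pr.k n) D ≤ -Real.log D + Pr.eps n * |Real.log D| := by
    intro c
    filter_upwards [Pr.k_tendsto.eventually_ge_atTop (Sh.s9k0 + Real.log (max c 1))] with n hn D hD hDc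
    apply s9a_lm_normal hH Pr n D hD
    have : Real.log D ≤ Real.log (max c 1) := Real.log_le_log hD (hDc.trans (le_max_left _ _))
    linarith
  obtain ⟨φ, lm, hφ, hconv, hlim⟩ := s9a_convex_compact (fun n => Sh.s9lm (Pr.k n))
    (fun n => Sh.Hr * Real.exp (Pr.k n))
    ((Real.tendsto_exp_atTop.comp Pr.k_tendsto).const_mul_atTop hHr)
    (fun n => s9a_logconvex Sh hH (Pr.k n)) hone (by
      intro a c ha hac
      refine ⟨2 * max |Real.log a| |Real.log c|, ?_⟩
      have he : ∀ᶠ n in atTop, Pr.eps n ≤ 1 := Pr.eps_tendsto.eventually (ge_mem_nhds one_pos) |>.mono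
        fun n hn => hn
      filter_upwards [hnb c, he] with n hn hen D hD
      have hD0 : 0 < D := lt_of_lt_of_le ha hD.1
      have h1 := hn D hD0 hD.2
      have h2 : |Real.log D| ≤ max |Real.log a| |Real.log c| := by
        have l1 : Real.log a ≤ Real.log D := Real.log_le_log ha hD.1
        have l2 : Real.log D ≤ Real.log c := Real.log_le_log hD0 hD.2
        rw [abs_le]
        constructor
        · have := neg_abs_le (Real.log a)
          have := le_max_left |Real.log a| |Real.log c|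
          linarith
        · have := le_abs_self (Real.log c)
          have := le_max_right |Real.log a| |Real.log c|
          linarith
      have h3 : Pr.eps n * |Real.log D| ≤ 1 * |Real.log D| :=
        mul_le_mul_of_nonneg_right hen (abs_nonneg _)
      have h4 := neg_le_abs (Real.log D)
      linarith)
  refine ⟨φ, lm, hφ, ⟨hconv, ?_, ?_⟩, hlim⟩
  · -- `lm 1 = 0`
    have h : ∀ η > (0 : ℝ), |lm 1| ≤ η := by
      intro η hη
      obtain ⟨n, hn⟩ := (hlim 1 1 one_pos le_rfl η hη).exists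
      have := hn 1 ⟨le_rfl, le_rfl⟩
      simp only [hone, zero_sub, abs_neg] at this
      exact this
    have : |lm 1| ≤ 0 := le_of_forall_pos_le_add (fun η hη => by simpa using h η hη)
    exact abs_eq_zero.1 (le_antisymm this (abs_nonneg _))
  · intro D hD
    apply le_of_forall_pos_le_add
    intro η hη
    have hφt := hφ.tendsto_atTop
    have he : ∀ᶠ n in atTop, Pr.eps (φ n) * |Real.log D| ≤ η / 2 := by
      have : Tendsto (fun n => Pr.eps (φ n) * |Real.log D|) atTop (𝓝 0) := by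
        simpa using (Pr.eps_tendsto.comp hφt).mul_const |Real.log D|
      exact this.eventually (ge_mem_nhds (by positivity))
    obtain ⟨n, h1, h2, h3⟩ := ((hlim D D hD le_rfl (η / 2) (by positivity)).and
      ((hφt.eventually (hnb D)).and he)).exists
    have h4 := (abs_le.1 (h1 D ⟨le_rfl, le_rfl⟩)).1
    have h5 := h2 D hD le_rfl
    linarith

/-- EXPORT S9a-2 = P1 Lemma 9.3. -/
theorem s9a_dichotomy (lm : ℝ → ℝ) (h : S9aLaw lm) :
    S9aSteep lm ∨ ∃ (x : ℕ → ℝ) (L : ℝ → ℝ) (lam C P' : ℝ), S9aFlat lm x L lam C P' := by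
  by_cases hu : ∀ K X : ℝ, ¬ S9aBdd lm K X
  · exact Or.inl (s9a_steep lm h hu)
  · push Not at hu
    obtain ⟨K, X, hb⟩ := hu
    exact Or.inr (s9a_flat lm h K X hb)

end Claimed.Agent.R269
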