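/-
Row 269, UNIT S9e, LEAF PACKAGE LF-S9e-quiet (P1 l.1176-1255).   Blueprint: helper149.   No paper reading needed.

A FAILED WITNESS MAKES THE RESCALED CONE QUIET.   `α' = 17/32`, `α = 9/16`.
Notation: `d' = e^{-K_n}`, `d'' = d' e^{-u}`, `B'' = μ(K_n+u)`, `M_n v = e^v μ(K_n+v)/μ(K_n)`.  For `s = ξ_n + iH + d' S`, `S = p - i e^{-v}` (`v = -log (dep s/d')`):
   `(d''/B'') M s · (dep s/d'')^{α'} = max ‖F_n S‖ (√‖Q_n S‖) · e^{α' (u-v)}/M_n u`,
and `s ∈ s9cone L₀ (ξ_n + d' x) (e^{-J} d'') δb` means `|p - x| ≤ L₀ e^{-v}`, `v ≤ u + J`, `e^{-v} ≤ δb/d'`.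
PROOF.  Fix `η' > 0` small (`η' ≤ (1-α') ε/4`, `η' ≤ (λ-α') ε/8`).  `M_n u ≥ e^{L u}/2 ≥ e^{(λ-η') u}/2` for `u` large and then `n` large (`moment`, `L_slope`).
`n` so large that `‖F_n - F‖ ≤ 1`, `√‖Q_n‖ ≤ 1` on the compact set `{p - i e^{-v} : 0 ≤ v ≤ u + J, |p - x| ≤ L₀ e^{-v}}` (`F_lim`, `Q_lim`; `TendstoLocallyUniformlyOn` => uniform on compacts), and `cones (L₀ + R)` holds.
 (q1) `(1-ε) u ≤ v ≤ u + J` (`J ≤ ε u`): failed witness with `δ = e^{-v}`: `max ≤ e^{(λ-ε) u} + 1`; exponent `(λ-ε) u + α' ε u - (λ-η') u = -(1-α') ε u + η' u`.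
 (q2) `0 ≤ v ≤ (1-ε) u`: `hg` on `[-(R+L₀), R+L₀]` with `η'` and continuity of `F` on a compact set: `‖F S‖ ≤ C_F e^{(λ+η') v}` for all `v ≥ 0`; exponent `(λ-α')(v-u) + η' (u+v) ≤ -(λ-α') ε u + 2 η' u`.
 (q3) `v ≤ 0`: `|p| ≤ R + L₀ e^{-v} ≤ (L₀+R) e^{-v}`, `cones`: `max ≤ C_A e^{α v}`; quantity `≤ 2 C_A e^{(α-α') v} e^{-(λ-η'-α') u}`.
All three bounds tend to `0` as `u → ∞`, uniformly in `x, J, n`.
-/
import Claimed.Agent.R269.S9.Units
import Claimed.Agent.R269.S9.WitnessEnv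

set_option autoImplicit false

namespace Claimed.Agent.R269

open Complex Filter Topology MeasureTheory Set Metric
open scoped ENNReal Real

/-- the witness fails at the epoch `u` and the centre `x` (aperture `L₀`, tolerance `ε`). -/
def S9eFail (F : ℂ → ℂ) (lam L₀ ε u x : ℝ) : Prop :=
  ∀ p δ : ℝ, 0 < δ → |p - x| ≤ L₀ * δ → |-Real.log δ - u| ≤ ε * u →
    ‖F (s9f_pt p δ)‖ < Real.exp ((lam - ε) * u)

/-- the rescaling identity. -/
theorem Shape.s9e_rescale (Sh : Shape) (K ξ u p v : ℝ) (hB : 0 < Sh.μ K) :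
    Real.exp (-(K + u)) *
        Sh.M ((ξ : ℂ) + I * Sh.Hr + (Real.exp (-K) : ℝ) * s9f_pt p (Real.exp (-v))) / Sh.μ (K + u) *
        (Sh.s9dep ((ξ : ℂ) + I * Sh.Hr + (Real.exp (-K) : ℝ) * s9f_pt p (Real.exp (-v))) /
          Real.exp (-(K + u))) ^ (17 / 32 : ℝ) =
      Real.exp (-u) * Sh.μ K / Sh.μ (K + u) *
        max ‖Sh.s9F K ξ (s9f_pt p (Real.exp (-v)))‖
          (Real.sqrt ‖Sh.s9Q K ξ (s9f_pt p (Real.exp (-v)))‖) *
        Real.exp (17 / 32 * (u - v)) := by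
  obtain ⟨s, hs⟩ : ∃ s, s = (ξ : ℂ) + I * Sh.Hr + (Real.exp (-K) : ℝ) * s9f_pt p (Real.exp (-v)) :=
    ⟨_, rfl⟩
  have hd : 0 < Real.exp (-K) := Real.exp_pos _
  have hF : ‖Sh.s9F K ξ (s9f_pt p (Real.exp (-v)))‖ = Real.exp (-K) / Sh.μ K * ‖Sh.f s‖ := by
    rw [Shape.s9F, ← hs, norm_mul, Complex.norm_real, Real.norm_of_nonneg (by positivity)]
  have hQ : Real.sqrt ‖Sh.s9Q K ξ (s9f_pt p (Real.exp (-v)))‖ =
      Real.exp (-K) / Sh.μ K * Real.sqrt ‖Sh.q s‖ := by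
    rw [Shape.s9Q, ← hs, norm_mul, Complex.norm_real, Real.norm_of_nonneg (by positivity),
      Real.sqrt_mul (by positivity), Real.sqrt_sq (by positivity)]
  have hmax : max ‖Sh.s9F K ξ (s9f_pt p (Real.exp (-v)))‖
      (Real.sqrt ‖Sh.s9Q K ξ (s9f_pt p (Real.exp (-v)))‖) = Real.exp (-K) / Sh.μ K * Sh.M s := by
    rw [hF, hQ, Shape.M, mul_max_of_nonneg _ _ (by positivity)]
  have hdep : Sh.s9dep s = Real.exp (-K) * Real.exp (-v) := by
    rw [Shape.s9dep, hs]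
    simp only [Complex.add_im, Complex.ofReal_im, Complex.mul_im, Complex.I_re, Complex.I_im,
      Complex.ofReal_re, s9f_pt]
    ring
  rw [← hs, hmax, hdep]
  have h1 : Real.exp (-K) * Real.exp (-v) / Real.exp (-(K + u)) = Real.exp (u - v) := by
    rw [← Real.exp_add, ← Real.exp_sub]; congr 1; ring
  have h2 : Real.exp (u - v) ^ (17 / 32 : ℝ) = Real.exp (17 / 32 * (u - v)) := by
    rw [← Real.exp_mul]; congr 1; ring
  have h3 : Real.exp (-(K + u)) = Real.exp (-K) * Real.exp (-u) := by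
    rw [← Real.exp_add]; congr 1; ring
  rw [h1, h2, h3]
  field_simp

/-- global growth bound of the limit field on a vertical half strip. -/
theorem s9e_CF (F q : ℂ → ℂ) (hm : S9fMesh F q) (c R' : ℝ) (hc : 0 ≤ c)
    (hg : ∃ v₀ : ℝ, ∀ v ≥ v₀, ∀ x ∈ Icc (-R') R',
      ‖F (s9f_pt x (Real.exp (-v)))‖ ≤ Real.exp (c * v)) :
    ∃ C : ℝ, 1 ≤ C ∧ ∀ v ≥ 0, ∀ x ∈ Icc (-R') R',
      ‖F (s9f_pt x (Real.exp (-v)))‖ ≤ C * Real.exp (c * v) := by
  obtain ⟨v₀, hv₀⟩ := hg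
  have hK : IsCompact (Icc (-R') R' ×ℂ Icc (-1) (-Real.exp (-(max v₀ 0)))) :=
    isCompact_Icc.reProdIm isCompact_Icc
  have hsub : (Icc (-R') R' ×ℂ Icc (-1) (-Real.exp (-(max v₀ 0)))) ⊆ s9f_LH := by
    intro z hz
    have := (Complex.mem_reProdIm.1 hz).2.2
    have h2 := Real.exp_pos (-(max v₀ 0))
    show z.im < 0
    linarith
  obtain ⟨C, hC⟩ := hK.exists_bound_of_continuousOn (hm.F_diff.continuousOn.mono hsub)
  refine ⟨max C 1, le_max_right _ _, fun v hv x hx => ?_⟩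
  have he : 1 ≤ Real.exp (c * v) := Real.one_le_exp (mul_nonneg hc hv)
  rcases le_total v₀ v with h | h
  · calc ‖F (s9f_pt x (Real.exp (-v)))‖ ≤ Real.exp (c * v) := hv₀ v h x hx
      _ ≤ max C 1 * Real.exp (c * v) := le_mul_of_one_le_left (by positivity) (le_max_right _ _)
  · have hmem : s9f_pt x (Real.exp (-v)) ∈ Icc (-R') R' ×ℂ Icc (-1) (-Real.exp (-(max v₀ 0))) := by
      refine Complex.mem_reProdIm.2 ⟨hx, ?_, ?_⟩
      · show -1 ≤ -Real.exp (-v)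
        have : Real.exp (-v) ≤ 1 := Real.exp_le_one_iff.2 (by linarith)
        linarith
      · show -Real.exp (-v) ≤ -Real.exp (-(max v₀ 0))
        have : Real.exp (-(max v₀ 0)) ≤ Real.exp (-v) :=
          Real.exp_le_exp.2 (by linarith [le_max_left v₀ 0])
        linarith
    calc ‖F (s9f_pt x (Real.exp (-v)))‖ ≤ C := hC _ hmem
      _ ≤ max C 1 := le_max_left _ _
      _ ≤ max C 1 * Real.exp (c * v) := le_mul_of_one_le_right (by positivity) he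

set_option maxHeartbeats 1000000 in
/-- LEAF: quietness of the rescaled cone. -/
theorem s9e_quiet (Sh : Shape) (𝒮 : S9Scale Sh)
    (hg : ∀ R : ℝ, ∀ ε > 0, ∃ v₀ : ℝ, ∀ v ≥ v₀, ∀ x ∈ Icc (-R) R,
      ‖𝒮.F (s9f_pt x (Real.exp (-v)))‖ ≤ Real.exp ((𝒮.lam + ε) * v))
    (L₀ R ε : ℝ) (hL₀ : 0 < L₀) (hR : 0 ≤ R) (hε : 0 < ε) (hε' : ε < 1) (η : ℝ) (hη : 0 < η) :
    ∃ u₂ : ℝ, ∀ u ≥ u₂, ∀ J ∈ Icc 0 (ε * u), ∀ x ∈ Icc (-R) R, S9eFail 𝒮.F 𝒮.lam L₀ ε u x →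
      ∀ᶠ n in atTop, ∀ s ∈ Sh.s9cone L₀ (𝒮.ξ n + Real.exp (-𝒮.K n) * x)
          (Real.exp (-J) * Real.exp (-(𝒮.K n + u))) Sh.s9db,
        Real.exp (-(𝒮.K n + u)) * Sh.M s / Sh.μ (𝒮.K n + u) *
          (Sh.s9dep s / Real.exp (-(𝒮.K n + u))) ^ (17 / 32 : ℝ) ≤ η := by
  have hμ0 : ∀ k, 0 ≤ Sh.μ k := fun k => by unfold Shape.μ; positivity
  have hlam := 𝒮.lam_ge
  obtain ⟨lam, hlamdef⟩ : ∃ lam, lam = 𝒮.lam := ⟨_, rfl⟩
  obtain ⟨F, hFdef⟩ : ∃ F, F = 𝒮.F := ⟨_, rfl⟩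
  rw [← hlamdef] at hlam hg ⊢
  rw [← hFdef] at hg ⊢
  obtain ⟨η', hη'⟩ : ∃ η', η' = ε / 32 := ⟨_, rfl⟩
  have hη'0 : 0 < η' := by rw [hη']; positivity
  obtain ⟨CF, hCF1, hCF⟩ := s9e_CF F 𝒮.qF (hFdef ▸ 𝒮.mesh) (lam + η') (R + L₀) (by linarith)
    (hg (R + L₀) η' hη'0)
  obtain ⟨CA, hCA⟩ := 𝒮.cones (L₀ + R) (by linarith)
  obtain ⟨v₁, hv₁⟩ := 𝒮.L_slope η' hη'0
  rw [← hlamdef] at hv₁
  obtain ⟨Cm, hCm⟩ : ∃ Cm, Cm = max 2 (max (CF + 1) CA) := ⟨_, rfl⟩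
  have hCm2 : 2 ≤ Cm := hCm ▸ le_max_left _ _
  have hCmF : CF + 1 ≤ Cm := hCm ▸ (le_max_left _ _).trans (le_max_right _ _)
  have hCmA : CA ≤ Cm := hCm ▸ (le_max_right _ _).trans (le_max_right _ _)
  refine ⟨max (max v₁ 2) (Real.log (2 * Cm / η) / (13 / 32 * ε)), fun u hu J hJ x hx hfail => ?_⟩
  have hu1 : v₁ ≤ u := ((le_max_left _ _).trans (le_max_left _ _)).trans hu
  have hu2 : 2 ≤ u := ((le_max_right _ _).trans (le_max_left _ _)).trans hu
  have hu3 : Real.log (2 * Cm / η) ≤ 13 / 32 * ε * u := by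
    have := (le_max_right _ _).trans hu
    rw [div_le_iff₀ (by positivity)] at this
    linarith
  have hfin : 2 * Cm * Real.exp (-(13 / 32 * ε * u)) ≤ η := by
    have h1 : 2 * Cm / η ≤ Real.exp (13 / 32 * ε * u) := by
      calc 2 * Cm / η = Real.exp (Real.log (2 * Cm / η)) := (Real.exp_log (by positivity)).symm
        _ ≤ _ := Real.exp_le_exp.2 hu3
    rw [div_le_iff₀ hη] at h1
    rw [Real.exp_neg, ← div_eq_mul_inv, div_le_iff₀ (Real.exp_pos _)]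
    linarith
  have hLu : (lam - η') * u ≤ 𝒮.L u := by
    have := (abs_le.1 (hv₁ u hu1)).1
    linarith
  have hl2 : 0 < Real.log 2 := Real.log_pos (by norm_num)
  have hl2' := Real.log_two_lt_d9
  have hεu : 0 ≤ ε * u := by positivity
  have hlu : 0 ≤ (lam - 1) * u := mul_nonneg (by linarith) (by linarith)
  have hεu' : 0 ≤ (1 - ε) * u := mul_nonneg (by linarith) (by linarith)
  have hLu2 : Real.log 2 < 𝒮.L u := by
    rw [hη'] at hLu
    linarith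
  -- the compact set
  obtain ⟨𝒦, h𝒦⟩ : ∃ 𝒦 : Set ℂ,
      𝒦 = Icc (-(R + L₀)) (R + L₀) ×ℂ Icc (-1) (-Real.exp (-(u + J))) := ⟨_, rfl⟩
  have h𝒦c : IsCompact 𝒦 := h𝒦 ▸ isCompact_Icc.reProdIm isCompact_Icc
  have h𝒦s : 𝒦 ⊆ s9f_LH := by
    intro z hz
    rw [h𝒦] at hz
    have := (Complex.mem_reProdIm.1 hz).2.2
    have h2 := Real.exp_pos (-(u + J))
    show z.im < 0
    linarith
  have hopen : IsOpen s9f_LH := isOpen_lt Complex.continuous_im continuous_const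
  have hFu := Metric.tendstoUniformlyOn_iff.1
    ((tendstoLocallyUniformlyOn_iff_forall_isCompact hopen).1 𝒮.F_lim 𝒦 h𝒦s h𝒦c) 1 one_pos
  have hQu := Metric.tendstoUniformlyOn_iff.1
    ((tendstoLocallyUniformlyOn_iff_forall_isCompact hopen).1 𝒮.Q_lim 𝒦 h𝒦s h𝒦c) 1 one_pos
  rw [← hFdef] at hFu
  filter_upwards [𝒮.moment u (by linarith) (Real.log 2) hl2, 𝒮.B_tendsto.eventually_gt_atTop 0,
    hFu, hQu, hCA] with n hmom hB hFn hQn hA s hs
  obtain ⟨K, hK⟩ : ∃ K, K = 𝒮.K n := ⟨_, rfl⟩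
  obtain ⟨ξ, hξ⟩ : ∃ ξ, ξ = 𝒮.ξ n := ⟨_, rfl⟩
  rw [← hK] at hmom hB hFn hQn hA hs ⊢
  rw [← hξ] at hFn hQn hA hs
  obtain ⟨hs1, hs2, hs3⟩ := hs
  have hd : 0 < Real.exp (-K) := Real.exp_pos _
  have hdep : 0 < Sh.s9dep s := lt_of_lt_of_le (by positivity) hs1
  obtain ⟨v, hv⟩ : ∃ v, v = -Real.log (Sh.s9dep s / Real.exp (-K)) := ⟨_, rfl⟩
  obtain ⟨p, hp⟩ : ∃ p, p = (s.re - ξ) / Real.exp (-K) := ⟨_, rfl⟩
  have hev : Real.exp (-K) * Real.exp (-v) = Sh.s9dep s := by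
    rw [hv, neg_neg, Real.exp_log (by positivity)]; field_simp
  have hre : s.re = ξ + Real.exp (-K) * p := by rw [hp]; field_simp; ring
  have hseq : s = (ξ : ℂ) + I * Sh.Hr + (Real.exp (-K) : ℝ) * s9f_pt p (Real.exp (-v)) := by
    apply Complex.ext
    · simp only [Complex.add_re, Complex.ofReal_re, Complex.mul_re, Complex.I_re, Complex.I_im,
        Complex.ofReal_im, s9f_pt, hre]
      ring
    · have : s.im = Sh.Hr - Real.exp (-K) * Real.exp (-v) := by rw [hev, Shape.s9dep]; ring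
      simp only [Complex.add_im, Complex.ofReal_im, Complex.mul_im, Complex.I_re, Complex.I_im,
        Complex.ofReal_re, s9f_pt, this]
      ring
  -- the cone conditions
  have hvJ : v ≤ u + J := by
    rw [← hev, ← Real.exp_add, ← Real.exp_add, Real.exp_le_exp] at hs1
    linarith
  have hpx : |p - x| ≤ L₀ * Real.exp (-v) := by
    rw [← hev, hre] at hs3
    have h1 : ξ + Real.exp (-K) * p - (ξ + Real.exp (-K) * x) = Real.exp (-K) * (p - x) := by ring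
    rw [h1, abs_mul, abs_of_pos hd] at hs3
    have h2 : Real.exp (-K) * |p - x| ≤ Real.exp (-K) * (L₀ * Real.exp (-v)) := by linarith
    exact le_of_mul_le_mul_left h2 hd
  have hxR : |x| ≤ R := abs_le.2 hx
  obtain ⟨S, hS⟩ : ∃ S, S = s9f_pt p (Real.exp (-v)) := ⟨_, rfl⟩
  have hSre : S.re = p := by rw [hS]; rfl
  have hSim : -S.im = Real.exp (-v) := by rw [hS]; simp [s9f_pt]
  -- the lower bound of `μ (K + u)`
  have hlow : Sh.μ K * Real.exp (𝒮.L u - Real.log 2 - u) ≤ Sh.μ (K + u) := by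
    have hx0 : 0 ≤ Real.exp u * Sh.μ (K + u) / Sh.μ K := by
      have := hμ0 (K + u); positivity
    have h1 := s9e_ge_of_log hx0 (hmom u ⟨by linarith, le_rfl⟩) hLu2
    rw [le_div_iff₀ hB] at h1
    have h2 : Real.exp (𝒮.L u - Real.log 2 - u) = Real.exp (𝒮.L u - Real.log 2) * Real.exp (-u) := by
      rw [← Real.exp_add]; congr 1
    have h3 : Real.exp u * Real.exp (-u) = 1 := by rw [← Real.exp_add]; simp
    calc Sh.μ K * Real.exp (𝒮.L u - Real.log 2 - u)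
        = (Real.exp (𝒮.L u - Real.log 2) * Sh.μ K) * Real.exp (-u) := by rw [h2]; ring
      _ ≤ (Real.exp u * Sh.μ (K + u)) * Real.exp (-u) := by gcongr
      _ = Sh.μ (K + u) * (Real.exp u * Real.exp (-u)) := by ring
      _ = Sh.μ (K + u) := by rw [h3, mul_one]
  have hB'' : 0 < Sh.μ (K + u) := lt_of_lt_of_le (by positivity) hlow
  have hratio : Real.exp (-u) * Sh.μ K / Sh.μ (K + u) ≤ 2 * Real.exp (-((lam - η') * u)) := by
    rw [div_le_iff₀ hB'']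
    calc Real.exp (-u) * Sh.μ K
        ≤ Real.exp (Real.log 2 + -((lam - η') * u) + (𝒮.L u - Real.log 2 - u)) * Sh.μ K := by
          gcongr; linarith
      _ = 2 * Real.exp (-((lam - η') * u)) * (Sh.μ K * Real.exp (𝒮.L u - Real.log 2 - u)) := by
          rw [Real.exp_add, Real.exp_add, Real.exp_log (by norm_num : (0 : ℝ) < 2)]; ring
      _ ≤ 2 * Real.exp (-((lam - η') * u)) * Sh.μ (K + u) := by gcongr
  rw [hseq, Shape.s9e_rescale Sh K ξ u p v hB, ← hS]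
  obtain ⟨m, hm⟩ : ∃ m, m = max ‖Sh.s9F K ξ S‖ (Real.sqrt ‖Sh.s9Q K ξ S‖) := ⟨_, rfl⟩
  rw [← hm]
  have hm0 : 0 ≤ m := hm ▸ le_max_of_le_left (norm_nonneg _)
  have key : ∀ e : ℝ, m ≤ Cm * Real.exp e →
      e + 17 / 32 * (u - v) - (lam - η') * u ≤ -(13 / 32 * ε * u) →
      Real.exp (-u) * Sh.μ K / Sh.μ (K + u) * m * Real.exp (17 / 32 * (u - v)) ≤ η := by
    intro e h1 h2
    calc Real.exp (-u) * Sh.μ K / Sh.μ (K + u) * m * Real.exp (17 / 32 * (u - v))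
        ≤ 2 * Real.exp (-((lam - η') * u)) * (Cm * Real.exp e) * Real.exp (17 / 32 * (u - v)) := by
          gcongr
      _ = 2 * Cm * Real.exp (e + 17 / 32 * (u - v) - (lam - η') * u) := by
          have h3 : e + 17 / 32 * (u - v) - (lam - η') * u =
              -((lam - η') * u) + e + 17 / 32 * (u - v) := by ring
          rw [h3, Real.exp_add, Real.exp_add]; ring
      _ ≤ 2 * Cm * Real.exp (-(13 / 32 * ε * u)) := by gcongr
      _ ≤ η := hfin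
  rcases le_total v 0 with hv0 | hv0
  · -- (q3)
    have he1 : 1 ≤ Real.exp (-v) := Real.one_le_exp (by linarith)
    have h1 := hA S (by rw [hSim]; exact he1)
      (by rw [hSim, le_div_iff₀ hd, mul_comm, hev]; exact hs2)
      (by
        rw [hSim, hSre]
        have : |p| ≤ |p - x| + |x| := by
          have := abs_add_le (p - x) x
          rwa [sub_add_cancel] at this
        have h5 : R ≤ R * Real.exp (-v) := le_mul_of_one_le_right hR he1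
        linarith)
    rw [← hm, hSim, ← Real.exp_mul] at h1
    refine key (-v * -(9 / 16)) (h1.trans (by gcongr)) ?_
    rw [hη']
    linarith
  -- membership in the compact set
  have he1 : Real.exp (-v) ≤ 1 := Real.exp_le_one_iff.2 (by linarith)
  have hpR : p ∈ Icc (-(R + L₀)) (R + L₀) := by
    have h1 := abs_le.1 hpx
    have h2 := abs_le.1 hxR
    have h3 : L₀ * Real.exp (-v) ≤ L₀ := mul_le_of_le_one_right hL₀.le he1
    constructor <;> linarith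
  have hS𝒦 : S ∈ 𝒦 := by
    rw [h𝒦]
    refine Complex.mem_reProdIm.2 ⟨hSre ▸ hpR, ?_, ?_⟩
    · linarith
    · have : Real.exp (-(u + J)) ≤ Real.exp (-v) := Real.exp_le_exp.2 (by linarith)
      linarith
  have hFS : ‖Sh.s9F K ξ S‖ ≤ ‖F S‖ + 1 := by
    have h1 := hFn S hS𝒦
    rw [dist_eq_norm] at h1
    have h2 : ‖Sh.s9F K ξ S‖ ≤ ‖F S‖ + ‖F S - Sh.s9F K ξ S‖ := by
      have := norm_sub_le (F S) (F S - Sh.s9F K ξ S)
      rwa [sub_sub_cancel] at this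
    linarith
  have hQS : Real.sqrt ‖Sh.s9Q K ξ S‖ ≤ 1 := by
    have h1 := hQn S hS𝒦
    rw [dist_eq_norm, zero_sub, norm_neg] at h1
    exact Real.sqrt_le_one.2 h1.le
  rcases le_total ((1 - ε) * u) v with hvu | hvu
  · -- (q1)
    have h1 := hfail p (Real.exp (-v)) (Real.exp_pos _) hpx (by
      rw [Real.log_exp, neg_neg, abs_le]
      constructor <;> linarith [hJ.2])
    rw [← hS] at h1
    have h2 : 1 ≤ Real.exp ((lam - ε) * u) := Real.one_le_exp (mul_nonneg (by linarith) (by linarith))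
    have h5 : 2 * Real.exp ((lam - ε) * u) ≤ Cm * Real.exp ((lam - ε) * u) :=
      mul_le_mul_of_nonneg_right hCm2 (Real.exp_pos _).le
    refine key ((lam - ε) * u) ?_ ?_
    · rw [hm]
      refine max_le ?_ ?_ <;> linarith
    · rw [hη']
      linarith
  · -- (q2)
    have h1 := hCF v hv0 p hpR
    rw [← hS] at h1
    have h2 : 1 ≤ Real.exp ((lam + η') * v) := Real.one_le_exp (mul_nonneg (by linarith) hv0)
    have h5 : (CF + 1) * Real.exp ((lam + η') * v) ≤ Cm * Real.exp ((lam + η') * v) :=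
      mul_le_mul_of_nonneg_right hCmF (Real.exp_pos _).le
    have h6 : 0 ≤ CF * Real.exp ((lam + η') * v) := mul_nonneg (by linarith) (Real.exp_pos _).le
    refine key ((lam + η') * v) ?_ ?_
    · rw [hm]
      refine max_le ?_ ?_ <;> linarith
    · rw [hη']
      have h3 : 0 ≤ (lam - 1) * (u - v) := mul_nonneg (by linarith) (by linarith)
      have h4 : 0 ≤ ε * (u - v) := mul_nonneg hε.le (by linarith)
      linarith

end Claimed.Agent.R269
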