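/-
Row 269, UNIT S9b2 (P1 Lemma 9.5, l.598-603), LEAF PACKAGE LF-S9b2-nonzero.   Blueprint: helper149.   No paper reading needed.

THE LIMIT FIELD DOES NOT VANISH IDENTICALLY:  otherwise the cone at `ξ n` is quiet and `Shape.s9i_no_quiet_cone` (Theorem 8.6) applies, with the exponent `α' = 17/32 < 9/16`.

PROOF.   `Sh.s9i_no_quiet_cone hH ho (17/32) (3/8) a Cenv Sh.s9db ...` gives `L₀ > 0`; apply it to `K, ξ`.   It remains to check: for `c, η > 0`, for large `n`, for `s ∈ s9cone L₀ (ξ n) (c e^{-K n}) s9db`: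
      `e^{-K} M(s)/μ K · (s9dep s/e^{-K})^{17/32} ≤ η`.         `S := (s - ξ - i Hr)/e^{-K}`, `D := -Im S = s9dep s/e^{-K} ∈ [c, s9db/e^{-K}]`, `|Re S| ≤ L₀ D`,  `e^{-K} M(s)/μ K = max ‖s9F‖ √‖s9Q‖` at `S` (`μ K > 0` for large `n`).
  `hcones L₀` gives `C_L`:  for `D ≥ D₀ := max 1 ((C_L/η)^{32})` (if `C_L ≤ 0` trivial): `max(...) D^{17/32} ≤ C_L D^{-1/32} ≤ η`.
  For `c ≤ D ≤ D₀`: `S` lies in the compact set `𝒦 = {c ≤ -Im S ≤ D₀, |Re S| ≤ L₀ D₀} ⊆ ℍ₋`; locally uniform convergence on an open set gives uniform convergence on compact subsets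
  (`tendstoLocallyUniformlyOn_iff_forall_isCompact`): `‖s9F‖ ≤ η'`, `‖s9Q‖ ≤ η'²` on `𝒦` for large `n`, with `η' D₀^{17/32} ≤ η`.
-/
import Claimed.Agent.R269.S9.Imports
import Claimed.Agent.R269.S9.MomentNormal
import Claimed.Agent.R269.S9.WitnessQuiet
import Claimed.Agent.R269.S9.GrowthDefs

set_option autoImplicit false

namespace Claimed.Agent.R269

open Complex Filter Topology MeasureTheory Set Metric
open scoped ENNReal Real

/-- LEAF: a vanishing limit contradicts Theorem 8.6. -/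
theorem s9b2_nonzero (Sh : Shape) (hH : Sh.H ≠ ⊤) (ho : Sh.order = 1) (K ξ : ℕ → ℝ) (a Cenv : ℝ)
    (ha : 0 < a) (hK : Tendsto K atTop atTop) (hB : Tendsto (fun n => Sh.μ (K n)) atTop atTop)
    (henv : ∀ n, ∀ l ≥ Sh.s9k0, Sh.μ l ≤ s9env (Cenv * Sh.μ (K n)) (3 / 8) a (K n) l)
    (hcones : ∀ A > (0 : ℝ), ∃ C : ℝ, ∀ᶠ n in atTop, ∀ S : ℂ, 1 ≤ -S.im →
      -S.im ≤ Sh.s9db / Real.exp (-K n) → |S.re| ≤ A * (-S.im) →
      max ‖Sh.s9F (K n) (ξ n) S‖ (Real.sqrt ‖Sh.s9Q (K n) (ξ n) S‖) ≤ C * (-S.im) ^ (-(9 / 16 : ℝ)))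
    (hF : TendstoLocallyUniformlyOn (fun n => Sh.s9F (K n) (ξ n)) (fun _ => 0) atTop s9f_LH)
    (hQ : TendstoLocallyUniformlyOn (fun n => Sh.s9Q (K n) (ξ n)) (fun _ => 0) atTop s9f_LH) : False := by
  obtain ⟨L₀, hL₀, hnq⟩ := Sh.s9i_no_quiet_cone hH ho (17 / 32) (3 / 8) a Cenv Sh.s9db
    (by norm_num) (by norm_num) (by norm_num) (by norm_num) ha Sh.s9_db_pos (Sh.s9_db_lt_half hH)
  refine hnq K ξ hK hB (Eventually.of_forall henv) ?_
  intro c hc η hη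
  obtain ⟨CL, hCL⟩ := hcones L₀ hL₀
  obtain ⟨C', hC'⟩ : ∃ C', C' = max CL 1 := ⟨_, rfl⟩
  have hC'1 : 1 ≤ C' := hC' ▸ le_max_right _ _
  have hC'L : CL ≤ C' := hC' ▸ le_max_left _ _
  obtain ⟨v₀, hv₀⟩ : ∃ v₀, v₀ = min 0 (32 * Real.log (η / C')) := ⟨_, rfl⟩
  have hv₀0 : v₀ ≤ 0 := hv₀ ▸ min_le_left _ _
  have hv₀1 : v₀ ≤ 32 * Real.log (η / C') := hv₀ ▸ min_le_right _ _
  obtain ⟨η', hη'⟩ : ∃ η', η' = η * Real.exp (17 / 32 * v₀) := ⟨_, rfl⟩
  have hη'0 : 0 < η' := by rw [hη']; positivity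
  obtain ⟨𝒦, h𝒦⟩ : ∃ 𝒦 : Set ℂ,
      𝒦 = Icc (-(L₀ * Real.exp (-v₀))) (L₀ * Real.exp (-v₀)) ×ℂ Icc (-Real.exp (-v₀)) (-c) :=
    ⟨_, rfl⟩
  have h𝒦c : IsCompact 𝒦 := h𝒦 ▸ isCompact_Icc.reProdIm isCompact_Icc
  have h𝒦s : 𝒦 ⊆ s9f_LH := by
    intro z hz
    rw [h𝒦] at hz
    have := (Complex.mem_reProdIm.1 hz).2.2
    show z.im < 0
    linarith
  have hopen : IsOpen s9f_LH := isOpen_lt Complex.continuous_im continuous_const
  have hFu := Metric.tendstoUniformlyOn_iff.1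
    ((tendstoLocallyUniformlyOn_iff_forall_isCompact hopen).1 hF 𝒦 h𝒦s h𝒦c) η' hη'0
  have hQu := Metric.tendstoUniformlyOn_iff.1
    ((tendstoLocallyUniformlyOn_iff_forall_isCompact hopen).1 hQ 𝒦 h𝒦s h𝒦c) (η' ^ 2) (by positivity)
  filter_upwards [hB.eventually_gt_atTop 0, hFu, hQu, hCL] with n hBn hFn hQn hA s hs
  obtain ⟨k, hk⟩ : ∃ k, k = K n := ⟨_, rfl⟩
  obtain ⟨x, hx⟩ : ∃ x, x = ξ n := ⟨_, rfl⟩
  rw [← hk] at hBn hFn hQn hA hs ⊢
  rw [← hx] at hFn hQn hA hs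
  obtain ⟨hs1, hs2, hs3⟩ := hs
  have hd : 0 < Real.exp (-k) := Real.exp_pos _
  have hdep : 0 < Sh.s9dep s := lt_of_lt_of_le (by positivity) hs1
  obtain ⟨v, hv⟩ : ∃ v, v = -Real.log (Sh.s9dep s / Real.exp (-k)) := ⟨_, rfl⟩
  obtain ⟨p, hp⟩ : ∃ p, p = (s.re - x) / Real.exp (-k) := ⟨_, rfl⟩
  have hev : Real.exp (-k) * Real.exp (-v) = Sh.s9dep s := by
    rw [hv, neg_neg, Real.exp_log (by positivity)]; field_simp
  have hre : s.re = x + Real.exp (-k) * p := by rw [hp]; field_simp; ring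
  have hseq : s = (x : ℂ) + I * Sh.Hr + (Real.exp (-k) : ℝ) * s9f_pt p (Real.exp (-v)) := by
    apply Complex.ext
    · simp only [Complex.add_re, Complex.ofReal_re, Complex.mul_re, Complex.I_re, Complex.I_im,
        Complex.ofReal_im, s9f_pt, hre]
      ring
    · have : s.im = Sh.Hr - Real.exp (-k) * Real.exp (-v) := by rw [hev, Shape.s9dep]; ring
      simp only [Complex.add_im, Complex.ofReal_im, Complex.mul_im, Complex.I_re, Complex.I_im,
        Complex.ofReal_re, s9f_pt, this]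
      ring
  have hcv : c ≤ Real.exp (-v) := by
    rw [← hev, mul_comm c] at hs1
    exact le_of_mul_le_mul_left hs1 hd
  have hpx : |p| ≤ L₀ * Real.exp (-v) := by
    rw [← hev, hre] at hs3
    have h1 : x + Real.exp (-k) * p - x = Real.exp (-k) * p := by ring
    rw [h1, abs_mul, abs_of_pos hd] at hs3
    have h2 : Real.exp (-k) * |p| ≤ Real.exp (-k) * (L₀ * Real.exp (-v)) := by linarith
    exact le_of_mul_le_mul_left h2 hd
  obtain ⟨S, hS⟩ : ∃ S, S = s9f_pt p (Real.exp (-v)) := ⟨_, rfl⟩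
  have hSre : S.re = p := by rw [hS]; rfl
  have hSim : -S.im = Real.exp (-v) := by rw [hS]; simp [s9f_pt]
  have hres := Sh.s9e_rescale k x 0 p v hBn
  simp only [add_zero, neg_zero, Real.exp_zero, one_mul, zero_sub] at hres
  rw [hseq, hres, div_self hBn.ne', one_mul, ← hS]
  obtain ⟨m, hm⟩ : ∃ m, m = max ‖Sh.s9F k x S‖ (Real.sqrt ‖Sh.s9Q k x S‖) := ⟨_, rfl⟩
  rw [← hm]
  rcases le_total v v₀ with hvv | hvv
  · have he1 : 1 ≤ Real.exp (-v) := Real.one_le_exp (by linarith)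
    have h1 := hA S (by rw [hSim]; exact he1)
      (by rw [hSim, le_div_iff₀ hd, mul_comm, hev]; exact hs2) (by rw [hSim, hSre]; exact hpx)
    rw [← hm, hSim, ← Real.exp_mul] at h1
    calc m * Real.exp (17 / 32 * -v)
        ≤ C' * Real.exp (-v * -(9 / 16)) * Real.exp (17 / 32 * -v) := by
          gcongr
          exact h1.trans (by gcongr)
      _ = C' * Real.exp (v / 32) := by
          rw [mul_assoc, ← Real.exp_add]; congr 2; ring
      _ ≤ C' * Real.exp (Real.log (η / C')) := by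
          gcongr; linarith
      _ = η := by rw [Real.exp_log (by positivity)]; field_simp
  · have hee : Real.exp (-v) ≤ Real.exp (-v₀) := Real.exp_le_exp.2 (by linarith)
    have hS𝒦 : S ∈ 𝒦 := by
      rw [h𝒦]
      have h1 := abs_le.1 hpx
      have h2 : L₀ * Real.exp (-v) ≤ L₀ * Real.exp (-v₀) := by gcongr
      refine Complex.mem_reProdIm.2 ⟨⟨?_, ?_⟩, ?_, ?_⟩
      · rw [hSre]; linarith
      · rw [hSre]; linarith
      · linarith
      · linarith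
    have hFS : ‖Sh.s9F k x S‖ ≤ η' := by
      have h1 := hFn S hS𝒦
      rw [dist_eq_norm, zero_sub, norm_neg] at h1
      exact h1.le
    have hQS : Real.sqrt ‖Sh.s9Q k x S‖ ≤ η' := by
      have h1 := hQn S hS𝒦
      rw [dist_eq_norm, zero_sub, norm_neg] at h1
      exact Real.sqrt_le_iff.2 ⟨hη'0.le, h1.le⟩
    calc m * Real.exp (17 / 32 * -v) ≤ η' * Real.exp (17 / 32 * -v) := by
          gcongr
          rw [hm]; exact max_le hFS hQS
      _ = η * Real.exp (17 / 32 * (v₀ - v)) := by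
          rw [hη', mul_assoc, ← Real.exp_add]; congr 2; ring
      _ ≤ η * 1 := by
          gcongr
          exact Real.exp_le_one_iff.2 (by linarith)
      _ = η := mul_one _

end Claimed.Agent.R269
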