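/-
Row 269, UNIT S9b2 (P1 Lemma 9.5, l.505-525), LEAF PACKAGE LF-S9b2-levels.   Blueprint: helper149.   No paper reading needed.

RE-CENTRING BY A FIXED SHIFT `X` (`= x_j`).    `k = Pr.k (φ i)`, `K = k - X`, `B = μ k`, `B' = μ K`, `g = Sh.s9lm k`.     BASIC IDENTITY (`Shape.s9lm_mu`, `log (e^w) = w`):   `μ (k - w) = B e^w exp (g (e^w))`   (all `μ > 0` as soon as the levels are `≥ s9k0`).
`hconv` at the point / on the interval gives `g (e^w) → lm (e^w)`.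

`s9b2_levels`: `k → ∞` (`Pr.k_tendsto.comp hφ.tendsto_atTop`), `sa → ∞`;  `B' = B e^X exp (g (e^X)) ≥ B e^X exp (lm (e^X) - 1) → ∞`.
`s9b2_moment`: `K + v = k - (X - v)`, so `e^v μ (K+v)/μ K = exp (g (e^{X-v}) - g (e^X))`;  `|g - lm| ≤ η/2` on `[e^{X-V}, e^X]`.
-/
import Claimed.Agent.R269.S9.MomentNormal

set_option autoImplicit false

namespace Claimed.Agent.R269

open Complex Filter Topology MeasureTheory Set Metric
open scoped ENNReal Real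

/-- pointwise convergence of the moment laws. -/
theorem S9aConv.at {Sh : Shape} {k : ℕ → ℝ} {lm : ℝ → ℝ} (h : S9aConv Sh k lm) (D : ℝ) (hD : 0 < D)
    (η : ℝ) (hη : 0 < η) : ∀ᶠ n in atTop, |Sh.s9lm (k n) D - lm D| ≤ η :=
  (h D D hD le_rfl η hη).mono fun _ hn => hn D ⟨le_rfl, le_rfl⟩

/-- BASIC IDENTITY: `μ (k - w) = μ k e^w exp (s9lm k (e^w))`. -/
theorem Shape.s9lm_mu_exp (Sh : Shape) (k w : ℝ) (hk : 0 < Sh.μ k) (hkw : 0 < Sh.μ (k - w)) :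
    Sh.μ (k - w) = Sh.μ k * Real.exp w * Real.exp (Sh.s9lm k (Real.exp w)) := by
  have := Sh.s9lm_mu k (Real.exp w) (Real.exp_pos _) hk (by rwa [Real.log_exp])
  rwa [Real.log_exp] at this

theorem S9Prohibited.k_comp {Sh : Shape} (Pr : S9Prohibited Sh) {φ : ℕ → ℕ} (hφ : StrictMono φ) :
    Tendsto (fun i => Pr.k (φ i)) atTop atTop := Pr.k_tendsto.comp hφ.tendsto_atTop

/-- eventually all the levels `k - w`, `w ≤ W`, are above the base level. -/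
theorem S9Prohibited.level_ev {Sh : Shape} (Pr : S9Prohibited Sh) {φ : ℕ → ℕ} (hφ : StrictMono φ) (W : ℝ) :
    ∀ᶠ i in atTop, ∀ w ≤ W, Sh.s9k0 ≤ Pr.k (φ i) - w := by
  filter_upwards [(Pr.k_comp hφ).eventually_ge_atTop (Sh.s9k0 + W)] with i hi w hw
  linarith

theorem s9b2_levels (Sh : Shape) (hH : Sh.H ≠ ⊤) (Pr : S9Prohibited Sh) (φ : ℕ → ℕ) (lm : ℝ → ℝ)
    (hφ : StrictMono φ) (hconv : S9aConv Sh (Pr.k ∘ φ) lm) (X R : ℝ) :
    ∀ᶠ i in atTop, R ≤ Pr.k (φ i) - X ∧ R ≤ Sh.μ (Pr.k (φ i) - X) ∧ X + 3 < Pr.sa (φ i) := by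
  have hφt := hφ.tendsto_atTop
  set c₀ : ℝ := Real.exp X * Real.exp (lm (Real.exp X) - 1) with hc₀
  have hc₀pos : 0 < c₀ := by positivity
  filter_upwards [(Pr.k_comp hφ).eventually_ge_atTop (R + X), Pr.level_ev hφ X,
    (Pr.sa_tendsto.comp hφt).eventually_gt_atTop (X + 3),
    (Pr.B_tendsto.comp hφt).eventually_ge_atTop (|R| / c₀),
    hconv.at (Real.exp X) (Real.exp_pos _) 1 one_pos] with i h1 h2 h3 h4 h5
  refine ⟨by linarith, ?_, h3⟩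
  have hB := Pr.B_pos hH (φ i)
  have hB' := Sh.s9_mu_pos_of_k0 hH _ (h2 X le_rfl)
  rw [Sh.s9lm_mu_exp _ X hB hB']
  have h6 : lm (Real.exp X) - 1 ≤ Sh.s9lm (Pr.k (φ i)) (Real.exp X) := by
    have := (abs_le.1 h5).1
    simp only [Function.comp] at this
    linarith
  have h7 : Real.exp (lm (Real.exp X) - 1) ≤ Real.exp (Sh.s9lm (Pr.k (φ i)) (Real.exp X)) :=
    Real.exp_le_exp.2 h6
  simp only [Function.comp] at h4
  rw [div_le_iff₀ hc₀pos] at h4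
  calc R ≤ |R| := le_abs_self R
    _ ≤ Sh.μ (Pr.k (φ i)) * c₀ := h4
    _ = Sh.μ (Pr.k (φ i)) * Real.exp X * Real.exp (lm (Real.exp X) - 1) := by rw [hc₀]; ring
    _ ≤ _ := by gcongr

theorem s9b2_moment (Sh : Shape) (hH : Sh.H ≠ ⊤) (Pr : S9Prohibited Sh) (φ : ℕ → ℕ) (lm : ℝ → ℝ)
    (hφ : StrictMono φ) (hconv : S9aConv Sh (Pr.k ∘ φ) lm) (X V η : ℝ) (hV : 0 < V) (hη : 0 < η) :
    ∀ᶠ i in atTop, ∀ v ∈ Icc 0 V,
      |Real.log (Real.exp v * Sh.μ (Pr.k (φ i) - X + v) / Sh.μ (Pr.k (φ i) - X)) -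
        (lm (Real.exp (X - v)) - lm (Real.exp X))| ≤ η := by
  filter_upwards [Pr.level_ev hφ X,
    hconv (Real.exp (X - V)) (Real.exp X) (Real.exp_pos _) (Real.exp_le_exp.2 (by linarith)) (η / 2)
      (by positivity)] with i h2 h5 v hv
  simp only [Function.comp] at h5
  have hB := Pr.B_pos hH (φ i)
  have hB' := Sh.s9_mu_pos_of_k0 hH _ (h2 X le_rfl)
  have hBv := Sh.s9_mu_pos_of_k0 hH _ (h2 (X - v) (by linarith [hv.1]))
  have e1 : Pr.k (φ i) - X + v = Pr.k (φ i) - (X - v) := by ring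
  rw [e1, Sh.s9lm_mu_exp _ X hB hB', Sh.s9lm_mu_exp _ (X - v) hB hBv]
  have e2 : Real.exp v * (Sh.μ (Pr.k (φ i)) * Real.exp (X - v) * Real.exp (Sh.s9lm (Pr.k (φ i)) (Real.exp (X - v)))) /
      (Sh.μ (Pr.k (φ i)) * Real.exp X * Real.exp (Sh.s9lm (Pr.k (φ i)) (Real.exp X))) =
      Real.exp (Sh.s9lm (Pr.k (φ i)) (Real.exp (X - v)) - Sh.s9lm (Pr.k (φ i)) (Real.exp X)) := by
    rw [Real.exp_sub, Real.exp_sub]
    field_simp
  rw [e2, Real.log_exp]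
  have a1 := abs_le.1 (h5 (Real.exp (X - v)) ⟨Real.exp_le_exp.2 (by linarith [hv.2]), Real.exp_le_exp.2 (by linarith [hv.1])⟩)
  have a2 := abs_le.1 (h5 (Real.exp X) ⟨Real.exp_le_exp.2 (by linarith), le_rfl⟩)
  rw [abs_le]
  constructor <;> linarith [a1.1, a1.2, a2.1, a2.2]

end Claimed.Agent.R269
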