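/-
Row 269, UNIT S9b2 (P1 Lemma 9.5, l.549-572), LEAF PACKAGE LF-S9b2-coarse.   Blueprint: helper149.   No paper reading needed.

THE COARSE HYPOTHESES OF THE WEIGHTED BOOTSTRAP IN THE NEW NORMALISATION (ancestor domination (9.24)); old exponent `β₀ = 1/4`, new exponent `β = 3/8`.

`s9TileL2_mono`: same majorant `Z`; `b² ≤ b'²`.       `s9TileL2_mono_A`: `s9tile A j x ⊆ s9tile A' j x` for `A ≤ A'` (on the tile the depth is `> 0`).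
`k = Pr.k (φ i)`, `s = Pr.sa (φ i)`, `ka = k - s`, `K = k - X`, `B = μ k`, `B' = μ K = B e^X exp (g (e^X))`, `g (e^X) → lm (e^X)`.   For large `i`: `s > X + 3`, so `l ≤ ka + 3 < K` and `s9env N₀ β a K l = N₀ e^{β (K-l)}`.
 RATIO:  `B' e^{β(K-l)}/(B e^{β₀ (k-l)}) = (B'/B) e^{-βX} e^{(β-β₀)(k-l)} ≥ e^{X + lm (e^X) - 1 - βX} e^{(s-3)/8} ≥ 1` for large `i` (`s → ∞`, `X` fixed).
`s9b2_coarse`: `Pr.coarse (1/4) A'` gives `C₀`; `Cc := |C₀|`; `s9TileL2_mono` (note `(C₀ t)² = (|C₀| t)²`).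
`s9b2_anchor`: `Pr.anchor (1/4)` gives `C₀`; `Can := max C₀ 0`;   `K - ka = s - X`,   `(B' e^{β (s-X)})² ≥ B² e^{2 β₀ s}` by the same ratio (with `l = ka`, `k - l = s`).
-/
import Claimed.Agent.R269.S9.SecondLevels

set_option autoImplicit false

namespace Claimed.Agent.R269

open Complex Filter Topology MeasureTheory Set Metric
open scoped ENNReal Real

theorem Shape.s9TileL2_mono (Sh : Shape) {ν : Measure ℝ} {A j b b' : ℝ} (h : Sh.s9TileL2 ν A j b)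
    (hb : |b| ≤ b') : Sh.s9TileL2 ν A j b' := by
  obtain ⟨Z, hZ, h1, h2⟩ := h
  refine ⟨Z, hZ, h1, h2.trans (ENNReal.ofReal_le_ofReal ?_)⟩
  apply sq_le_sq.2
  rwa [abs_of_nonneg ((abs_nonneg b).trans hb)]

theorem Shape.s9TileL2_mono_A (Sh : Shape) {ν : Measure ℝ} {A A' j b : ℝ} (h : Sh.s9TileL2 ν A' j b)
    (hA : A ≤ A') : Sh.s9TileL2 ν A j b := by
  obtain ⟨Z, hZ, h1, h2⟩ := h
  refine ⟨Z, hZ, fun x s hs => h1 x s ?_, h2⟩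
  obtain ⟨s1, s2, s3, s4⟩ := hs
  have hj := Real.exp_pos (-j)
  have hdep : 0 < Sh.s9dep s := lt_of_lt_of_le (by positivity) s1
  refine ⟨?_, ?_, ?_, s4⟩
  · refine le_trans ?_ s1
    gcongr
  · refine s2.trans ?_
    gcongr
  · refine s3.trans ?_
    gcongr

/-- ancestor domination (9.24). -/
theorem s9b2_ratio (Sh : Shape) (hH : Sh.H ≠ ⊤) (Pr : S9Prohibited Sh) (φ : ℕ → ℕ) (lm : ℝ → ℝ)
    (hφ : StrictMono φ) (hconv : S9aConv Sh (Pr.k ∘ φ) lm) (X : ℝ) :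
    ∀ᶠ i in atTop, X + 3 < Pr.sa (φ i) ∧ 0 < Sh.μ (Pr.k (φ i) - X) ∧ ∀ w, Pr.sa (φ i) - 3 ≤ w →
      Sh.μ (Pr.k (φ i)) * Real.exp (1 / 4 * w) ≤ Sh.μ (Pr.k (φ i) - X) * Real.exp (3 / 8 * (w - X)) := by
  have hφt := hφ.tendsto_atTop
  filter_upwards [Pr.level_ev hφ X,
    (Pr.sa_tendsto.comp hφt).eventually_gt_atTop (X + 3),
    (Pr.sa_tendsto.comp hφt).eventually_ge_atTop (3 + 8 * (1 - lm (Real.exp X) - 5 / 8 * X)),
    hconv.at (Real.exp X) (Real.exp_pos _) 1 one_pos] with i h2 h3 h4 h5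
  simp only [Function.comp] at h3 h4 h5
  have hB := Pr.B_pos hH (φ i)
  have hB' := Sh.s9_mu_pos_of_k0 hH _ (h2 X le_rfl)
  refine ⟨h3, hB', fun w hw => ?_⟩
  rw [Sh.s9lm_mu_exp _ X hB hB', mul_assoc, mul_assoc, ← Real.exp_add, ← Real.exp_add]
  apply mul_le_mul_of_nonneg_left _ hB.le
  apply Real.exp_le_exp.2
  have := (abs_le.1 h5).1
  linarith

theorem s9b2_coarse (Sh : Shape) (hH : Sh.H ≠ ⊤) (Pr : S9Prohibited Sh) (φ : ℕ → ℕ) (lm : ℝ → ℝ)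
    (hφ : StrictMono φ) (hconv : S9aConv Sh (Pr.k ∘ φ) lm) (A' : ℝ) (hA' : 1 ≤ A') :
    ∃ Cc : ℝ, ∀ X Cenv a : ℝ, 1 ≤ Cenv → ∀ᶠ i in atTop,
      ∀ l ∈ Icc Sh.s9k0 (Pr.k (φ i) - Pr.sa (φ i) + 3),
        Sh.s9TileL2 (Pr.ν (φ i)) A' l
          (Cc * s9env (Cenv * Sh.μ (Pr.k (φ i) - X)) (3 / 8) a (Pr.k (φ i) - X) l) := by
  obtain ⟨C₀, hC₀⟩ := Pr.coarse (1 / 4) ⟨by norm_num, by norm_num⟩ A' hA'
  refine ⟨|C₀|, fun X Cenv a hCenv => ?_⟩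
  filter_upwards [hφ.tendsto_atTop.eventually hC₀, s9b2_ratio Sh hH Pr φ lm hφ hconv X] with i h1 h2 l hl
  obtain ⟨h3, hB', h4⟩ := h2
  have hB := Pr.B_pos hH (φ i)
  refine Sh.s9TileL2_mono (h1 l hl) ?_
  unfold s9env
  rw [max_eq_left (by linarith [hl.2]), max_eq_right (by linarith [hl.2]), mul_zero, add_zero,
    abs_mul, abs_mul, abs_of_pos hB, abs_of_pos (Real.exp_pos _), mul_assoc]
  apply mul_le_mul_of_nonneg_left _ (abs_nonneg _)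
  have h5 := h4 (Pr.k (φ i) - l) (by linarith [hl.2])
  have h6 : Pr.k (φ i) - l - X = Pr.k (φ i) - X - l := by ring
  rw [h6] at h5
  refine h5.trans ?_
  have h7 : 0 ≤ Sh.μ (Pr.k (φ i) - X) * Real.exp (3 / 8 * (Pr.k (φ i) - X - l)) := by positivity
  nlinarith

theorem s9b2_anchor (Sh : Shape) (hH : Sh.H ≠ ⊤) (Pr : S9Prohibited Sh) (φ : ℕ → ℕ) (lm : ℝ → ℝ)
    (hφ : StrictMono φ) (hconv : S9aConv Sh (Pr.k ∘ φ) lm) :
    ∃ Can : ℝ, ∀ X Cenv a : ℝ, 1 ≤ Cenv → ∀ᶠ i in atTop,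
      ∫⁻ x, ENNReal.ofReal |Sh.s9P ⟨x, Sh.Hr - Real.exp (-(Pr.k (φ i) - Pr.sa (φ i)))⟩| ∂(Pr.ω (φ i)) ≤
        ENNReal.ofReal (Can * s9env (Cenv * Sh.μ (Pr.k (φ i) - X)) (3 / 8) a (Pr.k (φ i) - X)
          (Pr.k (φ i) - Pr.sa (φ i)) ^ 2 / Real.exp (-(Pr.k (φ i) - Pr.sa (φ i)))) := by
  obtain ⟨C₀, hC₀⟩ := Pr.anchor (1 / 4) ⟨by norm_num, by norm_num⟩
  refine ⟨max C₀ 0, fun X Cenv a hCenv => ?_⟩
  filter_upwards [hφ.tendsto_atTop.eventually hC₀, s9b2_ratio Sh hH Pr φ lm hφ hconv X] with i h1 h2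
  obtain ⟨h3, hB', h4⟩ := h2
  have hB := Pr.B_pos hH (φ i)
  refine h1.trans (ENNReal.ofReal_le_ofReal ?_)
  unfold s9env
  have m1 : max (Pr.k (φ i) - X - (Pr.k (φ i) - Pr.sa (φ i))) 0 = Pr.sa (φ i) - X := by
    rw [max_eq_left (by linarith)]; ring
  have m2 : max (Pr.k (φ i) - Pr.sa (φ i) - (Pr.k (φ i) - X)) 0 = 0 := max_eq_right (by linarith)
  rw [m1, m2, mul_zero, add_zero]
  apply div_le_div_of_nonneg_right _ (Real.exp_pos _).le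
  have h5 := h4 (Pr.sa (φ i)) (by linarith)
  set E := Real.exp (3 / 8 * (Pr.sa (φ i) - X)) with hE
  have hE0 : 0 < E := Real.exp_pos _
  have h7 : Real.exp (2 * (1 / 4) * Pr.sa (φ i)) = Real.exp (1 / 4 * Pr.sa (φ i)) ^ 2 := by
    rw [← Real.exp_nat_mul]; congr 1; push_cast; ring
  rw [h7]
  set F := Real.exp (1 / 4 * Pr.sa (φ i)) with hF
  have hF0 : 0 < F := Real.exp_pos _
  have h8 : (Sh.μ (Pr.k (φ i)) * F) ^ 2 ≤ (Cenv * Sh.μ (Pr.k (φ i) - X) * E) ^ 2 := by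
    apply pow_le_pow_left₀ (by positivity)
    have : 0 ≤ Sh.μ (Pr.k (φ i) - X) * E := by positivity
    nlinarith
  calc C₀ * Sh.μ (Pr.k (φ i)) ^ 2 * F ^ 2 = C₀ * (Sh.μ (Pr.k (φ i)) * F) ^ 2 := by ring
    _ ≤ max C₀ 0 * (Sh.μ (Pr.k (φ i)) * F) ^ 2 := by gcongr; exact le_max_left _ _
    _ ≤ max C₀ 0 * (Cenv * Sh.μ (Pr.k (φ i) - X) * E) ^ 2 := by
        apply mul_le_mul_of_nonneg_left h8 (le_max_right _ _)

end Claimed.Agent.R269
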