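/-
Row 269, UNIT S9b2 (P1 Lemma 9.5, l.526-548), LEAF PACKAGE LF-S9b2-env.   Blueprint: helper149.   No paper reading needed.

THE GLOBAL ENVELOPE (9.21) AFTER RE-CENTRING BY `X`, with constants independent of `X`:  `β = 3/8`, `a = max (P'-1) 1`, `Cenv = e^{C+2}`.

PROOF.   `k = Pr.k (φ i)`, `g = Sh.s9lm k`, `ε = Pr.eps (φ i)`.   For `l ≥ s9k0` write `l = k - v`.   By `Shape.s9lm_mu`:  `log (μ l/μ (k-X)) = (v - X) + g (e^v) - g (e^X)`;   `K - l = v - X`.     `V₀ := C₀ (1+X)`, `C₀ := max 2 (32 C/3)`.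
 For large `i`:  `|g - lm| ≤ 1/2` on `[e^{-V₀}, e^{V₀}]` (contains `e^X`),  `ε ≤ 3/32`,  `k - X ≥ s9k0`.
 MIDDLE `|v| ≤ V₀`:  `≤ (v - X) + lm (e^v) - lm (e^X) + 1`;   for `v ≥ X` this is `≤ (1/4)(v-X) + 1` (`hco`);  for `v ≤ X` it is `≤ (P'-1)(X-v) + C + 1` (`hfi`).
 FAR: `g (e^v) ≤ -v + ε |v|` (`s9a_lm_normal`, valid because `l ≥ s9k0`), `-g (e^X) ≤ C (1+X) + 1/2` (`hsz`):  `log (...) ≤ ε |v| + C (1+X) + 1/2`.
   `v ≥ V₀`: `v ≥ 2X`, so `β (v-X) ≥ (3/16) v ≥ ε v + (3/32) v ≥ ε v + C (1+X)`.       `v ≤ -V₀`: `a (X - v) ≥ |v| ≥ ε |v| + C (1+X)`.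
 Exponentiate.
-/
import Claimed.Agent.R269.S9.SecondLevels

set_option autoImplicit false

namespace Claimed.Agent.R269

open Complex Filter Topology MeasureTheory Set Metric
open scoped ENNReal Real

theorem s9b2_env (Sh : Shape) (hH : Sh.H ≠ ⊤) (Pr : S9Prohibited Sh) (φ : ℕ → ℕ) (lm : ℝ → ℝ)
    (hφ : StrictMono φ) (hconv : S9aConv Sh (Pr.k ∘ φ) lm) (X C P' : ℝ) (hX : 0 ≤ X) (hC : 0 ≤ C)
    (hco : ∀ v ≥ X, lm (Real.exp v) ≤ lm (Real.exp X) - 3 / 4 * (v - X))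
    (hfi : ∀ v ≤ X, lm (Real.exp v) ≤ lm (Real.exp X) + P' * (X - v) + C)
    (hsz : -lm (Real.exp X) ≤ C * (1 + X)) :
    ∀ᶠ i in atTop, ∀ l ≥ Sh.s9k0,
      Sh.μ l ≤ s9env (Real.exp (C + 2) * Sh.μ (Pr.k (φ i) - X)) (3 / 8) (max (P' - 1) 1) (Pr.k (φ i) - X) l := by
  set C₀ : ℝ := max 2 (32 * C / 3) with hC₀
  set V₀ : ℝ := C₀ * (1 + X) with hV₀
  set a : ℝ := max (P' - 1) 1 with ha
  have hC₀2 : 2 ≤ C₀ := le_max_left _ _
  have hC₀C : 32 * C / 3 ≤ C₀ := le_max_right _ _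
  have hV₀X : 2 * (1 + X) ≤ V₀ := by rw [hV₀]; nlinarith
  have hV₀C : 32 * C / 3 * (1 + X) ≤ V₀ := by rw [hV₀]; nlinarith
  have ha1 : 1 ≤ a := le_max_right _ _
  have haP : P' - 1 ≤ a := le_max_left _ _
  have hφt := hφ.tendsto_atTop
  have heps : ∀ᶠ i in atTop, Pr.eps (φ i) ≤ 3 / 32 :=
    (Pr.eps_tendsto.comp hφt).eventually (ge_mem_nhds (by norm_num))
  filter_upwards [Pr.level_ev hφ X, heps,
    hconv (Real.exp (-V₀)) (Real.exp V₀) (Real.exp_pos _) (Real.exp_le_exp.2 (by linarith)) (1 / 2)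
      (by norm_num)] with i h2 he h5 l hl
  simp only [Function.comp] at h5
  set k := Pr.k (φ i) with hk
  set g := Sh.s9lm k with hg
  have hB := Pr.B_pos hH (φ i)
  have hB' := Sh.s9_mu_pos_of_k0 hH _ (h2 X le_rfl)
  have hμl := Sh.s9_mu_pos_of_k0 hH l hl
  obtain ⟨v, hv⟩ : ∃ v, v = k - l := ⟨_, rfl⟩
  have hlv : l = k - v := by rw [hv]; ring
  have e1 : Sh.μ l = Sh.μ (k - X) * Real.exp ((v - X) + g (Real.exp v) - g (Real.exp X)) := by
    have h3 := Sh.s9lm_mu_exp k v hB (by rw [← hlv]; exact hμl)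
    have h4 := Sh.s9lm_mu_exp k X hB hB'
    have h7 : Real.exp ((v - X) + g (Real.exp v) - g (Real.exp X)) * (Real.exp X * Real.exp (g (Real.exp X))) =
        Real.exp v * Real.exp (g (Real.exp v)) := by
      rw [← Real.exp_add, ← Real.exp_add, ← Real.exp_add]; congr 1; ring
    rw [hlv, h3, h4]
    calc Sh.μ k * Real.exp v * Real.exp (Sh.s9lm k (Real.exp v))
        = Sh.μ k * (Real.exp v * Real.exp (g (Real.exp v))) := by rw [hg]; ring
      _ = Sh.μ k * (Real.exp ((v - X) + g (Real.exp v) - g (Real.exp X)) * (Real.exp X * Real.exp (g (Real.exp X)))) := by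
          rw [h7]
      _ = _ := by rw [hg]; ring
  have key : (v - X) + g (Real.exp v) - g (Real.exp X) ≤
      (C + 2) + (3 / 8 * max (k - X - l) 0 + a * max (l - (k - X)) 0) := by
    have gX := abs_le.1 (h5 (Real.exp X) ⟨Real.exp_le_exp.2 (by linarith), Real.exp_le_exp.2 (by linarith)⟩)
    have m1 : k - X - l = v - X := by rw [hv]; ring
    have m2 : l - (k - X) = X - v := by rw [hv]; ring
    rw [m1, m2]
    have M1 : v - X ≤ max (v - X) 0 := le_max_left _ _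
    have M1' : 0 ≤ max (v - X) 0 := le_max_right _ _
    have M2 : X - v ≤ max (X - v) 0 := le_max_left _ _
    have M2' : 0 ≤ max (X - v) 0 := le_max_right _ _
    by_cases hmid : |v| ≤ V₀
    · obtain ⟨hm1, hm2⟩ := abs_le.1 hmid
      have gv := abs_le.1 (h5 (Real.exp v) ⟨Real.exp_le_exp.2 hm1, Real.exp_le_exp.2 hm2⟩)
      rcases le_total X v with hXv | hXv
      · have := hco v hXv
        have h6 : 0 ≤ a * max (X - v) 0 := by positivity
        linarith [gv.2, gX.1]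
      · have := hfi v hXv
        have h6 : (P' - 1) * (X - v) ≤ a * max (X - v) 0 := by
          calc (P' - 1) * (X - v) ≤ a * (X - v) := mul_le_mul_of_nonneg_right haP (by linarith)
            _ ≤ a * max (X - v) 0 := by gcongr
        nlinarith [gv.2, gX.1]
    · push Not at hmid
      have hn := s9a_lm_normal hH Pr (φ i) (Real.exp v) (Real.exp_pos _) (by rw [Real.log_exp, ← hk, ← hlv]; exact hl)
      rw [Real.log_exp, ← hk, ← hg] at hn
      have hev : Pr.eps (φ i) * |v| ≤ 3 / 32 * |v| := mul_le_mul_of_nonneg_right he (abs_nonneg _)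
      have hCv : C * (1 + X) ≤ 3 / 32 * |v| := by
        have : 32 * C / 3 * (1 + X) < |v| := lt_of_le_of_lt hV₀C hmid
        nlinarith
      rcases le_total 0 v with hv0 | hv0
      · rw [abs_of_nonneg hv0] at hmid hev hCv hn
        have h6 : 0 ≤ a * max (X - v) 0 := by positivity
        linarith [gX.1]
      · rw [abs_of_nonpos hv0] at hmid hev hCv hn
        have h6 : -v ≤ a * max (X - v) 0 := by
          calc -v ≤ 1 * (X - v) := by linarith
            _ ≤ a * max (X - v) 0 := mul_le_mul ha1 M2 (by linarith) (by linarith)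
        linarith [gX.1]
  rw [e1]
  unfold s9env
  rw [mul_comm (Real.exp (C + 2)), mul_assoc, ← Real.exp_add]
  exact mul_le_mul_of_nonneg_left (Real.exp_le_exp.2 key) hB'.le

end Claimed.Agent.R269
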