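/-
Row 269, UNIT S9b2 (P1 Lemma 9.5, l.573-580), LEAF PACKAGE LF-S9b2-q.   Blueprint: helper149.   No paper reading needed.

THE NEW `q`-FIELD IS SMALL IN `ν`-PROBABILITY.    `k = Pr.k (φ i)`, `K = k - X`:   `e^{-K} = e^{-k} e^X`,  `μ K = μ k e^X exp (g (e^X))` (`Shape.s9lm_mu`), so
      `Sh.s9Q K x S = exp (-2 g (e^X)) · Sh.s9Q k x (e^X S)`.
For large `i`, `exp (-2 g (e^X)) ≤ Λ := exp (-2 lm (e^X) + 2)`.   Hence `{x | ∃ S ∈ 𝒦, η < ‖s9Q K x S‖} ⊆ {x | ∃ S' ∈ e^X • 𝒦, η/Λ < ‖s9Q k x S'‖}`;  `e^X • 𝒦` is a compact subset of the lower half plane;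
`Pr.qsmall` (composed with `φ`), `measure_mono`, squeeze (`tendsto_of_tendsto_of_tendsto_of_le_of_le'`).
-/
import Claimed.Agent.R269.S9.SecondLevels

set_option autoImplicit false

namespace Claimed.Agent.R269

open Complex Filter Topology MeasureTheory Set Metric
open scoped ENNReal Real

theorem Shape.s9Q_shift (Sh : Shape) (k X x : ℝ) (S : ℂ) (hk : 0 < Sh.μ k) (hkw : 0 < Sh.μ (k - X)) :
    Sh.s9Q (k - X) x S =
      (Real.exp (-2 * Sh.s9lm k (Real.exp X)) : ℝ) * Sh.s9Q k x ((Real.exp X : ℝ) * S) := by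
  unfold Shape.s9Q
  have h1 : Real.exp (-(k - X)) = Real.exp (-k) * Real.exp X := by
    rw [← Real.exp_add]; congr 1; ring
  have h2 := Sh.s9lm_mu_exp k X hk hkw
  obtain ⟨g, hg⟩ : ∃ g, g = Sh.s9lm k (Real.exp X) := ⟨_, rfl⟩
  rw [← hg] at h2 ⊢
  have h3 : (Real.exp (-(k - X)) / Sh.μ (k - X)) ^ 2 =
      Real.exp (-2 * g) * (Real.exp (-k) / Sh.μ k) ^ 2 := by
    rw [h1, h2]
    have e1 : Real.exp (-2 * g) = (Real.exp g)⁻¹ ^ 2 := by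
      rw [← Real.exp_neg, ← Real.exp_nat_mul]; congr 1; push_cast; ring
    rw [e1]
    have := Real.exp_pos g
    have := Real.exp_pos X
    field_simp
  rw [h3, h1]
  push_cast
  ring_nf

theorem s9b2_qsmall (Sh : Shape) (hH : Sh.H ≠ ⊤) (Pr : S9Prohibited Sh) (φ : ℕ → ℕ) (lm : ℝ → ℝ)
    (hφ : StrictMono φ) (hconv : S9aConv Sh (Pr.k ∘ φ) lm) (X : ℝ) (𝒦 : Set ℂ) (h𝒦 : IsCompact 𝒦)
    (hsub : 𝒦 ⊆ s9f_LH) (η : ℝ) (hη : 0 < η) :
    Tendsto (fun i => Pr.ν (φ i) {x | ∃ S ∈ 𝒦, η < ‖Sh.s9Q (Pr.k (φ i) - X) x S‖}) atTop (𝓝 0) := by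
  obtain ⟨Λ, hΛ⟩ : ∃ Λ, Λ = Real.exp (-2 * lm (Real.exp X) + 2) := ⟨_, rfl⟩
  have hΛ0 : 0 < Λ := hΛ ▸ Real.exp_pos _
  have hc : IsCompact ((fun S : ℂ => ((Real.exp X : ℝ) : ℂ) * S) '' 𝒦) :=
    h𝒦.image (continuous_const.mul continuous_id)
  have hs : ((fun S : ℂ => ((Real.exp X : ℝ) : ℂ) * S) '' 𝒦) ⊆ s9f_LH := by
    rintro _ ⟨S, hS, rfl⟩
    have : S.im < 0 := hsub hS
    show (((Real.exp X : ℝ) : ℂ) * S).im < 0
    rw [Complex.im_ofReal_mul]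
    exact mul_neg_of_pos_of_neg (Real.exp_pos _) this
  have h0 := (Pr.qsmall _ hc hs (η / Λ) (by positivity)).comp hφ.tendsto_atTop
  refine tendsto_of_tendsto_of_tendsto_of_le_of_le' tendsto_const_nhds h0
    (Eventually.of_forall fun _ => zero_le) ?_
  filter_upwards [Pr.level_ev hφ X, hconv.at (Real.exp X) (Real.exp_pos _) 1 one_pos] with i h2 h5
  simp only [Function.comp] at h5 ⊢
  apply measure_mono
  rintro x ⟨S, hS, hx⟩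
  refine ⟨_, ⟨S, hS, rfl⟩, ?_⟩
  have hB := Pr.B_pos hH (φ i)
  have hB' := Sh.s9_mu_pos_of_k0 hH _ (h2 X le_rfl)
  rw [Sh.s9Q_shift _ X x S hB hB', norm_mul, Complex.norm_real, Real.norm_eq_abs,
    abs_of_pos (Real.exp_pos _)] at hx
  rw [div_lt_iff₀ hΛ0]
  refine hx.trans_le ?_
  rw [mul_comm]
  apply mul_le_mul_of_nonneg_left _ (norm_nonneg _)
  rw [hΛ]
  apply Real.exp_le_exp.2
  have := (abs_le.1 h5).1
  linarith

end Claimed.Agent.R269
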