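/-
Row 269, UNIT S9b2 (P1 Lemma 9.5), LEAF PACKAGES LF-S9b2-box (`s9b2_box_*`) and LF-S9b2-seq (`s9b2_seq`).   Blueprint: helper149.   No paper reading needed.

THE DIAGONAL SEQUENCE AND THE WEIGHTED BOOTSTRAP.    `S9b2Seq Sh L` = everything that the selection of the centres needs.

PROOF OF `s9b2_seq`.   `C₁ := max C 0` (`hf.fine`, `hf.size` stay true with `C₁`, for `x j ≥ 0`), `a := max (P'-1) 1`, `Cenv := e^{C₁+2} ≥ 1`, `β = 3/8`.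
 For every integer `m ≥ 1`:  `A'_m` from `Sh.s9i_weighted_bootstrap hH ho β a Pr.cK Pr.CK ... (A := m)`;   `Cc_m` from `s9b2_coarse (A' := A'_m)`;  `Can` from `s9b2_anchor`;  then `C'_m, ka₀_m` from the bootstrap applied to `Can, Cc_m`.
 `x j → ∞`: choose `j₀ ≥ 1` with `x j ≥ 0` for `j ≥ j₀`, and work with `X_j := x (j + j₀)`.    For each `j` ALL the following hold for large `i`  (`k = Pr.k (φ i)`, `K = k - X_j`):
   (1) `s9b2_levels` with `R = j + 1`;      (2) `s9b2_moment` with `V = j+1`, `η = 1/(j+1)`;      (3) `s9b2_env`;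
   (4) for all `1 ≤ m ≤ j+1` (finite conjunction, `Filter.eventually_all_finset`): the conclusion of `s9b2_coarse` for `A'_m`, and `ka₀_m ≤ k - sa` (`Pr.ka_tendsto`);      (5) `s9b2_anchor`;
   (6) `Pr.ν (φ i) {x | ∃ S ∈ s9b2_box j, 1/(j+1) < ‖s9Q K x S‖} ≤ 1/(j+1)`   (`s9b2_qsmall`).
 `Filter.extraction_forall_of_eventually` gives `ι`;   `K j := Pr.k (φ (ι j)) - X_j`, `ν j := Pr.ν (φ (ι j))`.
 `tiles`: given `A ≥ 1` let `m = ⌈A⌉₊`; for `j + 1 ≥ m` the bootstrap applies with `N₀ = Cenv μ (K j) ≥ 1`, `ka = k - sa`, `ω = Pr.ω _`, `Pr.weight _`; then `Shape.s9TileL2_mono_A`.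
 `moment`: (2) + `hf.L_lim` (composed with `j ↦ j + j₀`), triangle inequality.         `qsmall`: `𝒦 ⊆ s9b2_box j` and `1/(j+1) ≤ η` for large `j`, so the measure is `≤ 1/(j+1) → 0`.
-/
import Claimed.Agent.R269.S9.Imports
import Claimed.Agent.R269.S9.SecondLevels
import Claimed.Agent.R269.S9.SecondEnv
import Claimed.Agent.R269.S9.SecondCoarse
import Claimed.Agent.R269.S9.SecondQ

set_option autoImplicit false

namespace Claimed.Agent.R269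

open Complex Filter Topology MeasureTheory Set Metric
open scoped ENNReal Real

/-- an exhaustion of the lower half plane by compact boxes. -/
def s9b2_box (j : ℕ) : Set ℂ := {S | |S.re| ≤ (j : ℝ) + 1 ∧ 1 / ((j : ℝ) + 1) ≤ -S.im ∧ -S.im ≤ (j : ℝ) + 1}

theorem s9b2_box_compact (j : ℕ) : IsCompact (s9b2_box j) := by
  have h : s9b2_box j = Icc (-((j : ℝ) + 1)) ((j : ℝ) + 1) ×ℂ Icc (-((j : ℝ) + 1)) (-(1 / ((j : ℝ) + 1))) := by
    ext S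
    simp only [s9b2_box, Set.mem_ofPred_eq, Complex.mem_reProdIm, mem_Icc, abs_le]
    constructor
    · rintro ⟨⟨a, b⟩, c, d⟩
      exact ⟨⟨a, b⟩, by linarith, by linarith⟩
    · rintro ⟨⟨a, b⟩, c, d⟩
      exact ⟨⟨a, b⟩, by linarith, by linarith⟩
  rw [h]
  exact isCompact_Icc.reProdIm isCompact_Icc

theorem s9b2_box_sub (j : ℕ) : s9b2_box j ⊆ s9f_LH := by
  intro S hS
  have h1 : 0 < 1 / ((j : ℝ) + 1) := by positivity
  have := hS.2.1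
  show S.im < 0
  linarith

theorem s9b2_box_exhaust (𝒦 : Set ℂ) (h𝒦 : IsCompact 𝒦) (hsub : 𝒦 ⊆ s9f_LH) :
    ∀ᶠ j in atTop, 𝒦 ⊆ s9b2_box j := by
  rcases 𝒦.eq_empty_or_nonempty with rfl | hne
  · exact Eventually.of_forall fun _ => empty_subset _
  obtain ⟨R, hR⟩ := h𝒦.isBounded.exists_norm_le
  obtain ⟨S₀, hS₀, hmin⟩ := h𝒦.exists_isMinOn hne (f := fun S : ℂ => -S.im)
    (Complex.continuous_im.neg.continuousOn)
  have hc : 0 < -S₀.im := by have : S₀.im < 0 := hsub hS₀; linarith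
  filter_upwards [(tendsto_natCast_atTop_atTop (R := ℝ)).eventually_ge_atTop R,
    (tendsto_natCast_atTop_atTop (R := ℝ)).eventually_ge_atTop (1 / (-S₀.im))] with j h1 h2 S hS
  have h3 := hR S hS
  have h4 : -S₀.im ≤ -S.im := hmin hS
  refine ⟨(Complex.abs_re_le_norm S).trans (by linarith), ?_, ?_⟩
  · refine le_trans ?_ h4
    rw [div_le_iff₀ (by positivity)]
    rw [div_le_iff₀ hc] at h2
    nlinarith
  · have := Complex.abs_im_le_norm S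
    have := neg_abs_le S.im
    linarith

/-- the diagonal sequence of levels and measures, after the weighted bootstrap. -/
structure S9b2Seq (Sh : Shape) (L : ℝ → ℝ) where
  K : ℕ → ℝ
  ν : ℕ → Measure ℝ
  a : ℝ
  Cenv : ℝ
  ν_prob : ∀ j, IsProbabilityMeasure (ν j)
  K_tendsto : Tendsto K atTop atTop
  B_tendsto : Tendsto (fun n => Sh.μ (K n)) atTop atTop
  a_pos : 0 < a
  moment : ∀ V > (0 : ℝ), ∀ η > (0 : ℝ), ∀ᶠ n in atTop, ∀ v ∈ Icc 0 V,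
    |Real.log (Real.exp v * Sh.μ (K n + v) / Sh.μ (K n)) - L v| ≤ η
  env : ∀ n, ∀ l ≥ Sh.s9k0, Sh.μ l ≤ s9env (Cenv * Sh.μ (K n)) (3 / 8) a (K n) l
  tiles : ∀ A ≥ (1 : ℝ), ∃ C : ℝ, ∀ᶠ j in atTop, ∀ l ≥ Sh.s9k0,
    Sh.s9TileL2 (ν j) A l (C * s9env (Cenv * Sh.μ (K j)) (3 / 8) a (K j) l)
  qsmall : ∀ 𝒦 : Set ℂ, IsCompact 𝒦 → 𝒦 ⊆ s9f_LH → ∀ η > (0 : ℝ),
    Tendsto (fun j => ν j {x | ∃ S ∈ 𝒦, η < ‖Sh.s9Q (K j) x S‖}) atTop (𝓝 0)

/-- LEAF: the diagonal sequence. -/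
theorem s9b2_seq (Sh : Shape) (hH : Sh.H ≠ ⊤) (ho : Sh.order = 1) (Pr : S9Prohibited Sh)
    (φ : ℕ → ℕ) (lm : ℝ → ℝ) (hφ : StrictMono φ) (hlaw : S9aLaw lm)
    (hconv : S9aConv Sh (Pr.k ∘ φ) lm) (x : ℕ → ℝ) (L : ℝ → ℝ) (lam C P' : ℝ)
    (hf : S9aFlat lm x L lam C P') : Nonempty (S9b2Seq Sh L) := by
  obtain ⟨C₁, hC₁⟩ : ∃ C₁, C₁ = max C 0 := ⟨_, rfl⟩
  have hC₁0 : 0 ≤ C₁ := hC₁ ▸ le_max_right _ _
  have hC₁C : C ≤ C₁ := hC₁ ▸ le_max_left _ _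
  obtain ⟨a, ha⟩ : ∃ a, a = max (P' - 1) 1 := ⟨_, rfl⟩
  have ha0 : 0 < a := ha ▸ lt_of_lt_of_le one_pos (le_max_right _ _)
  obtain ⟨Cenv, hCenv⟩ : ∃ Cenv, Cenv = Real.exp (C₁ + 2) := ⟨_, rfl⟩
  have hCenv1 : 1 ≤ Cenv := by rw [hCenv]; exact Real.one_le_exp (by linarith)
  choose A' hA'1 hboot using fun m : ℕ => Sh.s9i_weighted_bootstrap hH ho (3 / 8) a Pr.cK Pr.CK
    (by norm_num) (by norm_num) ha0 Pr.cK_pos ((m : ℝ) + 1) (by linarith [(Nat.cast_nonneg m : (0:ℝ) ≤ m)])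
  choose Cc hCc using fun m : ℕ => s9b2_coarse Sh hH Pr φ lm hφ hconv (A' m) (hA'1 m)
  obtain ⟨Can, hCan⟩ := s9b2_anchor Sh hH Pr φ lm hφ hconv
  choose C' ka₀ hb using fun m : ℕ => hboot m Can (Cc m)
  obtain ⟨j₀, hj₀⟩ := eventually_atTop.1 (hf.x_tendsto.eventually_ge_atTop 0)
  obtain ⟨X, hX⟩ : ∃ X : ℕ → ℝ, X = fun j => x (j + j₀) := ⟨_, rfl⟩
  have hX0 : ∀ j, 0 ≤ X j := fun j => by rw [hX]; exact hj₀ _ (by omega)
  have hφt := hφ.tendsto_atTop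
  have key : ∀ j : ℕ, ∀ᶠ i in atTop,
      (((j : ℝ) + 1 ≤ Pr.k (φ i) - X j ∧ (j : ℝ) + 1 ≤ Sh.μ (Pr.k (φ i) - X j) ∧ X j + 3 < Pr.sa (φ i)) ∧
      (∀ v ∈ Icc (0 : ℝ) ((j : ℝ) + 1),
        |Real.log (Real.exp v * Sh.μ (Pr.k (φ i) - X j + v) / Sh.μ (Pr.k (φ i) - X j)) -
          (lm (Real.exp (X j - v)) - lm (Real.exp (X j)))| ≤ 1 / ((j : ℝ) + 1)) ∧
      (∀ l ≥ Sh.s9k0, Sh.μ l ≤ s9env (Cenv * Sh.μ (Pr.k (φ i) - X j)) (3 / 8) a (Pr.k (φ i) - X j) l)) ∧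
      (∀ m ∈ Finset.range (j + 1),
        (∀ l ∈ Icc Sh.s9k0 (Pr.k (φ i) - Pr.sa (φ i) + 3),
          Sh.s9TileL2 (Pr.ν (φ i)) (A' m) l
            (Cc m * s9env (Cenv * Sh.μ (Pr.k (φ i) - X j)) (3 / 8) a (Pr.k (φ i) - X j) l)) ∧
        ka₀ m ≤ Pr.k (φ i) - Pr.sa (φ i)) ∧
      (∫⁻ x, ENNReal.ofReal |Sh.s9P ⟨x, Sh.Hr - Real.exp (-(Pr.k (φ i) - Pr.sa (φ i)))⟩| ∂(Pr.ω (φ i)) ≤
        ENNReal.ofReal (Can * s9env (Cenv * Sh.μ (Pr.k (φ i) - X j)) (3 / 8) a (Pr.k (φ i) - X j)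
          (Pr.k (φ i) - Pr.sa (φ i)) ^ 2 / Real.exp (-(Pr.k (φ i) - Pr.sa (φ i))))) ∧
      Pr.ν (φ i) {x | ∃ S ∈ s9b2_box j, 1 / ((j : ℝ) + 1) < ‖Sh.s9Q (Pr.k (φ i) - X j) x S‖} ≤
        ENNReal.ofReal (1 / ((j : ℝ) + 1)) := by
    intro j
    have hj1 : (0 : ℝ) < (j : ℝ) + 1 := by positivity
    have e3 := s9b2_env Sh hH Pr φ lm hφ hconv (X j) C₁ P' (hX0 j) hC₁0
      (by rw [hX]; exact hf.coarse _)
      (by rw [hX]; intro v hv; have := hf.fine _ v hv; linarith)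
      (by
        have h1 := hX0 j
        rw [hX] at h1 ⊢
        have := hf.size (j + j₀)
        simp only at h1 ⊢
        nlinarith)
    rw [← ha, ← hCenv] at e3
    have e4 : ∀ᶠ i in atTop, ∀ m ∈ Finset.range (j + 1),
        (∀ l ∈ Icc Sh.s9k0 (Pr.k (φ i) - Pr.sa (φ i) + 3),
          Sh.s9TileL2 (Pr.ν (φ i)) (A' m) l
            (Cc m * s9env (Cenv * Sh.μ (Pr.k (φ i) - X j)) (3 / 8) a (Pr.k (φ i) - X j) l)) ∧
        ka₀ m ≤ Pr.k (φ i) - Pr.sa (φ i) := by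
      rw [Filter.eventually_all_finset]
      intro m _
      exact (hCc m (X j) Cenv a hCenv1).and ((Pr.ka_tendsto.comp hφt).eventually_ge_atTop (ka₀ m))
    have e6 := (tendsto_order.1 (s9b2_qsmall Sh hH Pr φ lm hφ hconv (X j) _ (s9b2_box_compact j)
      (s9b2_box_sub j) (1 / ((j : ℝ) + 1)) (by positivity))).2 (ENNReal.ofReal (1 / ((j : ℝ) + 1)))
      (ENNReal.ofReal_pos.2 (by positivity))
    filter_upwards [s9b2_levels Sh hH Pr φ lm hφ hconv (X j) ((j : ℝ) + 1),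
      s9b2_moment Sh hH Pr φ lm hφ hconv (X j) ((j : ℝ) + 1) (1 / ((j : ℝ) + 1)) hj1 (by positivity),
      e3, e4, hCan (X j) Cenv a hCenv1, e6] with i i1 i2 i3 i4 i5 i6
    exact ⟨⟨i1, i2, i3⟩, i4, i5, i6.le⟩
  obtain ⟨ι, hι, hp⟩ := Filter.extraction_forall_of_eventually key
  have hnat : Tendsto (fun j : ℕ => (j : ℝ) + 1) atTop atTop :=
    tendsto_atTop_add_const_right _ _ tendsto_natCast_atTop_atTop
  have hinv : Tendsto (fun j : ℕ => 1 / ((j : ℝ) + 1)) atTop (𝓝 0) :=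
    tendsto_one_div_add_atTop_nhds_zero_nat
  refine ⟨{
    K := fun j => Pr.k (φ (ι j)) - X j
    ν := fun j => Pr.ν (φ (ι j))
    a := a
    Cenv := Cenv
    ν_prob := fun j => (Pr.weight _).ν_prob
    K_tendsto := tendsto_atTop_mono (fun j => (hp j).1.1.1) hnat
    B_tendsto := tendsto_atTop_mono (fun j => (hp j).1.1.2.1) hnat
    a_pos := ha0
    moment := ?_
    env := fun j => (hp j).1.2.2
    tiles := ?_
    qsmall := ?_ }⟩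
  · intro V hV η hη
    filter_upwards [hnat.eventually_ge_atTop V,
      (tendsto_order.1 hinv).2 (η / 2) (by positivity),
      (tendsto_add_atTop_nat j₀).eventually (hf.L_lim V hV (η / 2) (by positivity))] with j h1 h2 h3 v hv
    have h4 := (hp j).1.2.1 v ⟨hv.1, hv.2.trans h1⟩
    have h5 := h3 v hv
    rw [hX] at h4
    simp only at h4
    rw [abs_le] at h4 h5 ⊢
    rw [hX]
    simp only
    constructor <;> linarith [h4.1, h4.2, h5.1, h5.2]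
  · intro A hA
    refine ⟨C' ⌈A⌉₊, ?_⟩
    filter_upwards [eventually_ge_atTop ⌈A⌉₊] with j hj l hl
    obtain ⟨⟨⟨p1, p2, p3⟩, p4, p5⟩, p6, p7, p8⟩ := hp j
    obtain ⟨q1, q2⟩ := p6 ⌈A⌉₊ (Finset.mem_range.2 (by omega))
    have hN : 1 ≤ Cenv * Sh.μ (Pr.k (φ (ι j)) - X j) := by
      have : (1 : ℝ) ≤ (j : ℝ) + 1 := by linarith [(Nat.cast_nonneg j : (0:ℝ) ≤ j)]
      nlinarith
    have := hb ⌈A⌉₊ (Pr.k (φ (ι j)) - X j) _ (Pr.k (φ (ι j)) - Pr.sa (φ (ι j))) _ _ hN q2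
      (Pr.weight _) p5 q1 p7 l hl
    exact Sh.s9TileL2_mono_A this (by linarith [Nat.le_ceil A])
  · intro 𝒦 h𝒦 hsub η hη
    have hinv' : Tendsto (fun j : ℕ => ENNReal.ofReal (1 / ((j : ℝ) + 1))) atTop (𝓝 0) := by
      have := ENNReal.tendsto_ofReal hinv
      rwa [ENNReal.ofReal_zero] at this
    refine tendsto_of_tendsto_of_tendsto_of_le_of_le' tendsto_const_nhds
      hinv' (Eventually.of_forall fun _ => zero_le) ?_
    filter_upwards [s9b2_box_exhaust 𝒦 h𝒦 hsub, (tendsto_order.1 hinv).2 η hη] with j h1 h2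
    refine le_trans (measure_mono ?_) (hp j).2.2.2
    rintro x ⟨S, hS, hx⟩
    exact ⟨S, h1 hS, h2.trans hx⟩

end Claimed.Agent.R269
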