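/-
Row 269, UNIT S9b2 (P1 Lemma 9.5, l.581-595), LEAF PACKAGE LF-S9b2-var.   Blueprint: helper149.   No paper reading needed.

THE RANDOM VARIABLES OF THE SELECTION.    `d' = e^{-K}`, `B' = μ K > 0`, `s = x + i Hr + d' S`, `D = -Im S`:  `s9dep s = d' D`,  `Re s - x = d' Re S`,  `Im s = Hr - d' D`,
      `s9b2_N K x S := max ‖s9F K x S‖ √‖s9Q K x S‖ = d' M(s)/B'`        (`s9b2_N_eq`).

`s9b2_var_box`: the region `e^{-A} ≤ D ≤ e^A`, `|Re S| ≤ A D`, `d' D ≤ Hr` is the tile `s9tile A K x`.  If `Z₀` is the majorant of `s9TileL2 ν A K b`, take `Z := Z₀²/ofReal (B'²)`.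
`s9b2_var_cone`: the band `e^h ≤ D ≤ e^{h+1}` (`h : ℕ`) of the cone `|Re S| ≤ A D`, `D ≤ s9db/d'` lies in the tile `s9tile (A+1) (K - h) x`   (`e^{-(K-h)} = d' e^h`;  `K - h ≥ s9k0 + 3` because `e^h ≤ D ≤ s9db/d'`;  `Im s ≥ Hr - s9db ≥ 0`).
   With the majorants `Z_h` of `s9TileL2 ν (A+1) (K-h) (C₀ s9env N₀ β a K (K-h))`, `s9env N₀ β a K (K-h) = N₀ e^{3h/8}`, `N₀ = Cenv B'`:   `d' e^h M(s) ≤ Z_h x`, so `N² D^{9/8} ≤ e^{9/8} e^{(9/8) h} e^{-2h} Z_h²/B'²`.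
   `W := ∑'_{h, K - h ≥ s9k0} ofReal (e^{9/8} e^{(9/8 - 2) h}/B'²) Z_h²` (terms with `K - h < s9k0` are `0`);  `lintegral_tsum`;   `∫ W ≤ e^{9/8} (C₀ Cenv)² ∑_h e^{-h/8} ≤ 30 (C₀ Cenv)²`     (`e^{9/8} ≤ 3.1`, `1/(1 - e^{-1/8}) ≤ 8.6`).
-/
import Claimed.Agent.R269.S9.SecondSeq
import Claimed.Agent.R269.S9.Scale
import Claimed.Agent.R269.S9.GrowthDefs

set_option autoImplicit false

namespace Claimed.Agent.R269

open Complex Filter Topology MeasureTheory Set Metric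
open scoped ENNReal Real

/-- the normalised size `max(|F|, √|Q|)` of the rescaled fields. -/
noncomputable def Shape.s9b2_N (Sh : Shape) (K x : ℝ) (S : ℂ) : ℝ :=
  max ‖Sh.s9F K x S‖ (Real.sqrt ‖Sh.s9Q K x S‖)

theorem Shape.s9b2_N_eq (Sh : Shape) (K x : ℝ) (S : ℂ) (hB : 0 < Sh.μ K) :
    Sh.s9b2_N K x S =
      Real.exp (-K) * Sh.M ((x : ℂ) + I * Sh.Hr + (Real.exp (-K) : ℝ) * S) / Sh.μ K := by
  rw [Shape.s9b2_N, Sh.s9_max_FQ K x S hB]; ring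

theorem Shape.s9b2_pt_re (Sh : Shape) (d x : ℝ) (S : ℂ) :
    ((x : ℂ) + I * Sh.Hr + (d : ℝ) * S).re = x + d * S.re := by
  simp

theorem Shape.s9b2_pt_im (Sh : Shape) (d x : ℝ) (S : ℂ) :
    ((x : ℂ) + I * Sh.Hr + (d : ℝ) * S).im = Sh.Hr + d * S.im := by
  simp

theorem Shape.s9b2_pt_dep (Sh : Shape) (d x : ℝ) (S : ℂ) :
    Sh.s9dep ((x : ℂ) + I * Sh.Hr + (d : ℝ) * S) = d * (-S.im) := by
  unfold Shape.s9dep
  rw [Sh.s9b2_pt_im]; ring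

theorem Shape.s9b2_M_nonneg (Sh : Shape) (s : ℂ) : 0 ≤ Sh.M s :=
  le_max_of_le_left (norm_nonneg _)

theorem Shape.s9b2_var_box (Sh : Shape) (ν : Measure ℝ) (A K b : ℝ) (hB : 0 < Sh.μ K)
    (hT : Sh.s9TileL2 ν A K b) :
    ∃ Z : ℝ → ℝ≥0∞, Measurable Z ∧
      (∀ (x : ℝ) (S : ℂ), Real.exp (-A) ≤ -S.im → -S.im ≤ Real.exp A → |S.re| ≤ A * (-S.im) →
        Real.exp (-K) * (-S.im) ≤ Sh.Hr → ENNReal.ofReal (Sh.s9b2_N K x S ^ 2) ≤ Z x) ∧
      ∫⁻ x, Z x ∂ν ≤ ENNReal.ofReal ((b / Sh.μ K) ^ 2) := by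
  obtain ⟨Z₀, hZ₀, h1, h2⟩ := hT
  have hd := Real.exp_pos (-K)
  refine ⟨fun x => ENNReal.ofReal ((Sh.μ K)⁻¹ ^ 2) * Z₀ x ^ 2, (hZ₀.pow_const 2).const_mul _, ?_, ?_⟩
  · intro x S s1 s2 s3 s4
    have hmem : ((x : ℂ) + I * Sh.Hr + (Real.exp (-K) : ℝ) * S) ∈ Sh.s9tile A K x := by
      refine ⟨?_, ?_, ?_, ?_⟩
      · rw [Sh.s9b2_pt_dep, mul_comm]; gcongr
      · rw [Sh.s9b2_pt_dep, mul_comm]; gcongr
      · rw [Sh.s9b2_pt_dep, Sh.s9b2_pt_re, add_sub_cancel_left, abs_mul, abs_of_pos hd]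
        calc Real.exp (-K) * |S.re| ≤ Real.exp (-K) * (A * (-S.im)) := by gcongr
          _ = A * (Real.exp (-K) * (-S.im)) := by ring
      · rw [Sh.s9b2_pt_im]; linarith
    have h3 := h1 x _ hmem
    rw [Sh.s9b2_N_eq K x S hB]
    have e : (Real.exp (-K) * Sh.M ((x : ℂ) + I * Sh.Hr + (Real.exp (-K) : ℝ) * S) / Sh.μ K) ^ 2 =
        (Sh.μ K)⁻¹ ^ 2 * (Real.exp (-K) * Sh.M ((x : ℂ) + I * Sh.Hr + (Real.exp (-K) : ℝ) * S)) ^ 2 := by
      rw [div_eq_mul_inv]; ring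
    rw [e, ENNReal.ofReal_mul (by positivity), ENNReal.ofReal_pow (mul_nonneg hd.le (Sh.s9b2_M_nonneg _))]
    exact mul_le_mul_right (pow_le_pow_left₀ zero_le h3 2) _
  · rw [lintegral_const_mul _ (hZ₀.pow_const 2)]
    have e : (b / Sh.μ K) ^ 2 = (Sh.μ K)⁻¹ ^ 2 * b ^ 2 := by rw [div_eq_mul_inv]; ring
    rw [e, ENNReal.ofReal_mul (by positivity)]
    gcongr

theorem s9b2_num : Real.exp (9 / 8) * (1 - Real.exp (-(1 / 8)))⁻¹ ≤ 30 := by
  have h1 : Real.exp (-(1 / 8)) ≤ 8 / 9 := by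
    have := Real.add_one_le_exp (1 / 8 : ℝ)
    rw [Real.exp_neg]
    rw [inv_le_comm₀ (Real.exp_pos _) (by norm_num)]
    linarith
  have h2 : Real.exp (1 / 8) ≤ 8 / 7 := by
    have := Real.add_one_le_exp (-(1 / 8) : ℝ)
    rw [Real.exp_neg] at this
    have h3 : (7 / 8 : ℝ) ≤ (Real.exp (1 / 8))⁻¹ := by linarith
    rw [le_inv_comm₀ (by norm_num) (Real.exp_pos _)] at h3
    linarith
  have h3 : Real.exp (9 / 8) ≤ 2.7182818286 * (8 / 7) := by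
    have : (9 / 8 : ℝ) = 1 + 1 / 8 := by norm_num
    rw [this, Real.exp_add]
    have := Real.exp_one_lt_d9
    have := Real.exp_pos (1 / 8)
    have := Real.exp_pos 1
    nlinarith
  have h4 : (1 - Real.exp (-(1 / 8)))⁻¹ ≤ 9 := by
    rw [inv_le_comm₀ (by linarith) (by norm_num)]
    linarith
  have h5 : 0 ≤ (1 - Real.exp (-(1 / 8)))⁻¹ := inv_nonneg.2 (by linarith)
  have := Real.exp_pos (9 / 8)
  nlinarith

theorem Shape.s9b2_var_cone (Sh : Shape) (hH : Sh.H ≠ ⊤) (ν : Measure ℝ) (A K a Cenv C₀ : ℝ) (hA : 0 < A)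
    (hB : 0 < Sh.μ K)
    (hT : ∀ l ≥ Sh.s9k0, Sh.s9TileL2 ν (A + 1) l (C₀ * s9env (Cenv * Sh.μ K) (3 / 8) a K l)) :
    ∃ W : ℝ → ℝ≥0∞, Measurable W ∧
      (∀ (x : ℝ) (S : ℂ), 1 ≤ -S.im → -S.im ≤ Sh.s9db / Real.exp (-K) → |S.re| ≤ A * (-S.im) →
        ENNReal.ofReal (Sh.s9b2_N K x S ^ 2 * (-S.im) ^ (9 / 8 : ℝ)) ≤ W x) ∧
      ∫⁻ x, W x ∂ν ≤ ENNReal.ofReal (30 * (C₀ * Cenv) ^ 2) := by
  have hd := Real.exp_pos (-K)
  have hex : ∀ h : ℕ, ∃ Zh : ℝ → ℝ≥0∞, Measurable Zh ∧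
      (Sh.s9k0 ≤ K - h → ∀ x, ∀ s ∈ Sh.s9tile (A + 1) (K - h) x,
        ENNReal.ofReal (Real.exp (-(K - h)) * Sh.M s) ≤ Zh x) ∧
      ∫⁻ x, Zh x ^ 2 ∂ν ≤ ENNReal.ofReal ((C₀ * (Cenv * Sh.μ K * Real.exp (3 / 8 * h))) ^ 2) := by
    intro h
    by_cases hh : Sh.s9k0 ≤ K - h
    · obtain ⟨Z, hZ, h1, h2⟩ := hT (K - h) hh
      refine ⟨Z, hZ, fun _ => h1, ?_⟩
      have hh0 : (0 : ℝ) ≤ h := Nat.cast_nonneg h
      have e : s9env (Cenv * Sh.μ K) (3 / 8) a K (K - h) = Cenv * Sh.μ K * Real.exp (3 / 8 * h) := by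
        unfold s9env
        have m1 : max (K - (K - h)) 0 = (h : ℝ) := by rw [max_eq_left (by linarith)]; ring
        have m2 : max (K - h - K) 0 = (0 : ℝ) := max_eq_right (by linarith)
        rw [m1, m2, mul_zero, add_zero]
      rwa [e] at h2
    · exact ⟨fun _ => 0, measurable_const, fun h' => absurd h' hh, by simp⟩
  choose Zh hZm hZ1 hZ2 using hex
  obtain ⟨c, hc⟩ : ∃ c : ℕ → ℝ, c = fun h : ℕ =>
    Real.exp (9 / 8) * Real.exp ((9 / 8 - 2) * h) * (Sh.μ K)⁻¹ ^ 2 := ⟨_, rfl⟩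
  have hc0 : ∀ h, 0 ≤ c h := fun h => by rw [hc]; positivity
  refine ⟨fun x => ∑' h : ℕ, ENNReal.ofReal (c h) * Zh h x ^ 2,
    Measurable.tsum fun h => ((hZm h).pow_const 2).const_mul _, ?_, ?_⟩
  · intro x S s1 s2 s3
    obtain ⟨D, hD⟩ : ∃ D, D = -S.im := ⟨_, rfl⟩
    rw [← hD] at s1 s2 s3 ⊢
    have hD0 : 0 < D := by linarith
    obtain ⟨h, hh⟩ : ∃ h : ℕ, h = ⌊Real.log D⌋₊ := ⟨_, rfl⟩
    have hl1 : (h : ℝ) ≤ Real.log D := hh ▸ Nat.floor_le (Real.log_nonneg s1)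
    have hl2 : Real.log D < (h : ℝ) + 1 := hh ▸ Nat.lt_floor_add_one (Real.log D)
    have he1 : Real.exp h ≤ D := by
      calc Real.exp h ≤ Real.exp (Real.log D) := Real.exp_le_exp.2 hl1
        _ = D := Real.exp_log hD0
    have he2 : D ≤ Real.exp ((h : ℝ) + 1) := by
      calc D = Real.exp (Real.log D) := (Real.exp_log hD0).symm
        _ ≤ _ := Real.exp_le_exp.2 hl2.le
    have hdh : Real.exp (-(K - h)) = Real.exp (-K) * Real.exp h := by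
      rw [← Real.exp_add]; congr 1; ring
    have hKh : Sh.s9k0 ≤ K - h := by
      have h1 : Real.exp h ≤ Real.exp (K - (Sh.s9k0 + 3)) := by
        refine he1.trans (s2.trans (le_of_eq ?_))
        unfold Shape.s9db
        rw [← Real.exp_sub]; congr 1; ring
      have := Real.exp_le_exp.1 h1
      linarith
    have hdD : Real.exp (-K) * D ≤ Sh.s9db := by
      rwa [le_div_iff₀ hd, mul_comm] at s2
    have hmem : ((x : ℂ) + I * Sh.Hr + (Real.exp (-K) : ℝ) * S) ∈ Sh.s9tile (A + 1) (K - h) x := by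
      refine ⟨?_, ?_, ?_, ?_⟩
      · rw [Sh.s9b2_pt_dep, ← hD, hdh]
        have : Real.exp (-(A + 1)) ≤ 1 := Real.exp_le_one_iff.2 (by linarith)
        calc Real.exp (-(A + 1)) * (Real.exp (-K) * Real.exp h)
            ≤ 1 * (Real.exp (-K) * Real.exp h) := by gcongr
          _ ≤ Real.exp (-K) * D := by rw [one_mul]; gcongr
      · rw [Sh.s9b2_pt_dep, ← hD, hdh]
        have : Real.exp ((h : ℝ) + 1) ≤ Real.exp (A + 1) * Real.exp h := by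
          rw [← Real.exp_add]; apply Real.exp_le_exp.2; linarith
        calc Real.exp (-K) * D ≤ Real.exp (-K) * (Real.exp (A + 1) * Real.exp h) := by
              gcongr; exact he2.trans this
          _ = _ := by ring
      · rw [Sh.s9b2_pt_dep, ← hD, Sh.s9b2_pt_re, add_sub_cancel_left, abs_mul, abs_of_pos hd]
        calc Real.exp (-K) * |S.re| ≤ Real.exp (-K) * (A * D) := by gcongr
          _ ≤ Real.exp (-K) * ((A + 1) * D) := by gcongr; linarith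
          _ = (A + 1) * (Real.exp (-K) * D) := by ring
      · rw [Sh.s9b2_pt_im]
        have := Sh.s9_db_lt_half hH
        have := Sh.s9_Hr_pos hH
        have e : Real.exp (-K) * S.im = -(Real.exp (-K) * D) := by rw [hD]; ring
        rw [e]; linarith
    have h3 := hZ1 h hKh x _ hmem
    obtain ⟨m, hm⟩ : ∃ m, m = Sh.M ((x : ℂ) + I * Sh.Hr + (Real.exp (-K) : ℝ) * S) := ⟨_, rfl⟩
    have hm0 : 0 ≤ m := hm ▸ Sh.s9b2_M_nonneg _
    rw [Sh.s9b2_N_eq K x S hB, ← hm]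
    rw [← hm] at h3
    have hDp : D ^ (9 / 8 : ℝ) ≤ Real.exp (9 / 8) * Real.exp (9 / 8 * h) := by
      calc D ^ (9 / 8 : ℝ) ≤ (Real.exp ((h : ℝ) + 1)) ^ (9 / 8 : ℝ) :=
            Real.rpow_le_rpow hD0.le he2 (by norm_num)
        _ = Real.exp (((h : ℝ) + 1) * (9 / 8)) := (Real.exp_mul _ _).symm
        _ = _ := by rw [← Real.exp_add]; congr 1; ring
    have hle : (Real.exp (-K) * m / Sh.μ K) ^ 2 * D ^ (9 / 8 : ℝ) ≤
        c h * (Real.exp (-(K - h)) * m) ^ 2 := by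
      calc (Real.exp (-K) * m / Sh.μ K) ^ 2 * D ^ (9 / 8 : ℝ)
          ≤ (Real.exp (-K) * m / Sh.μ K) ^ 2 * (Real.exp (9 / 8) * Real.exp (9 / 8 * h)) := by gcongr
        _ = c h * (Real.exp (-(K - h)) * m) ^ 2 := by
            rw [hc, hdh]
            have e1 : Real.exp (9 / 8 * (h : ℝ)) = Real.exp ((9 / 8 - 2) * h) * Real.exp h ^ 2 := by
              rw [← Real.exp_nat_mul, ← Real.exp_add]; congr 1; push_cast; ring
            rw [e1, div_eq_mul_inv]; ring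
    calc ENNReal.ofReal ((Real.exp (-K) * m / Sh.μ K) ^ 2 * D ^ (9 / 8 : ℝ))
        ≤ ENNReal.ofReal (c h * (Real.exp (-(K - h)) * m) ^ 2) := ENNReal.ofReal_le_ofReal hle
      _ = ENNReal.ofReal (c h) * ENNReal.ofReal (Real.exp (-(K - h)) * m) ^ 2 := by
          rw [ENNReal.ofReal_mul (hc0 h), ENNReal.ofReal_pow (by positivity)]
      _ ≤ ENNReal.ofReal (c h) * Zh h x ^ 2 := by gcongr
      _ ≤ _ := ENNReal.le_tsum h
  · rw [lintegral_tsum fun h => (((hZm h).pow_const 2).const_mul _).aemeasurable]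
    obtain ⟨G, hG⟩ : ∃ G, G = Real.exp (9 / 8) * (C₀ * Cenv) ^ 2 := ⟨_, rfl⟩
    have hG0 : 0 ≤ G := by rw [hG]; positivity
    obtain ⟨r, hr⟩ : ∃ r, r = Real.exp (-(1 / 8)) := ⟨_, rfl⟩
    have hr0 : 0 < r := hr ▸ Real.exp_pos _
    have hr1 : r < 1 := by rw [hr]; exact Real.exp_lt_one_iff.2 (by norm_num)
    have hterm : ∀ h : ℕ, ∫⁻ x, ENNReal.ofReal (c h) * Zh h x ^ 2 ∂ν ≤ ENNReal.ofReal (G * r ^ h) := by
      intro h
      rw [lintegral_const_mul _ ((hZm h).pow_const 2)]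
      calc ENNReal.ofReal (c h) * ∫⁻ x, Zh h x ^ 2 ∂ν
          ≤ ENNReal.ofReal (c h) * ENNReal.ofReal ((C₀ * (Cenv * Sh.μ K * Real.exp (3 / 8 * h))) ^ 2) := by
            gcongr; exact hZ2 h
        _ = ENNReal.ofReal (c h * (C₀ * (Cenv * Sh.μ K * Real.exp (3 / 8 * h))) ^ 2) :=
            (ENNReal.ofReal_mul (hc0 h)).symm
        _ = ENNReal.ofReal (G * r ^ h) := by
            congr 1
            rw [hc, hG, hr]
            have e1 : Real.exp (-(1 / 8)) ^ h = Real.exp ((9 / 8 - 2) * h) * Real.exp (3 / 8 * h) ^ 2 := by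
              rw [← Real.exp_nat_mul, ← Real.exp_nat_mul, ← Real.exp_add]; congr 1; push_cast; ring
            rw [e1]
            field_simp
    have hsum : Summable fun h : ℕ => G * r ^ h := (summable_geometric_of_lt_one hr0.le hr1).mul_left G
    calc ∑' h : ℕ, ∫⁻ x, ENNReal.ofReal (c h) * Zh h x ^ 2 ∂ν
        ≤ ∑' h : ℕ, ENNReal.ofReal (G * r ^ h) := ENNReal.tsum_le_tsum hterm
      _ = ENNReal.ofReal (∑' h : ℕ, G * r ^ h) :=
          (ENNReal.ofReal_tsum_of_nonneg (fun h => by positivity) hsum).symm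
      _ ≤ _ := by
          apply ENNReal.ofReal_le_ofReal
          rw [tsum_mul_left, tsum_geometric_of_lt_one hr0.le hr1, hG, hr]
          have := s9b2_num
          have h0 : 0 ≤ (C₀ * Cenv) ^ 2 := by positivity
          calc Real.exp (9 / 8) * (C₀ * Cenv) ^ 2 * (1 - Real.exp (-(1 / 8)))⁻¹
              = (Real.exp (9 / 8) * (1 - Real.exp (-(1 / 8)))⁻¹) * (C₀ * Cenv) ^ 2 := by ring
            _ ≤ 30 * (C₀ * Cenv) ^ 2 := by gcongr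

end Claimed.Agent.R269
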