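/-
Row 269, UNIT S9b2 (P1 Lemma 9.5, l.581-597), LEAF PACKAGE LF-S9b2-select.   Blueprint: helper149.   No paper reading needed.   ASSEMBLY of `s9_select`, `s9b2_var_box`, `s9b2_var_cone`.

SELECTION OF THE CENTRES `ξ j` UNDER THE MEASURES `ν j`.

PROOF.  `s9_select` with `P j = 𝒮.ν j` and the variables `Z i j` (`i ∈ ℕ`; put `Z i j := 0` for the finitely many `j` at which the needed hypothesis is not yet available; `N i` = the threshold):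
  `i = 3m`  :  `Z` of `s9b2_var_box` with `A = m+1`, `K = 𝒮.K j`, `b = C_m s9env (Cenv B') β a K K = C_m Cenv B'` (`𝒮.tiles (m+1)` at `l = K j ≥ s9k0`);   `a i j = ofReal ((C_m Cenv)²)`;
  `i = 3m+1`:  `W` of `s9b2_var_cone` with `A = m+1` (`𝒮.tiles (m+2)`);   `a i j = ofReal (30 (C_{m+1} Cenv)²)`;
  `i = 3m+2`:  the indicator of `toMeasurable (ν j) {x | ∃ S ∈ s9b2_box m, 1/(m+1) < ‖s9Q (K j) x S‖}`;   `a i j =` its measure `→ 0` (`𝒮.qsmall`, `measure_toMeasurable`).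
 (`μ (K j) > 0`, `K j ≥ s9k0`, `e^{-K j} e^{m+1} ≤ Hr` hold for large `j`.)       The point `ξ j` satisfies `Z i j (ξ j) ≤ 2^{i+2} a i j` for `j ≥ N i`.
 (box): given `A ≥ 1` take `m + 1 ≥ A`: the region for `A` is contained in the region for `m+1`;  `N² ≤ 2^{3m+2} (C_m Cenv)²`.        (cones): given `A > 0` take `m + 1 ≥ A`;   `N² D^{9/8} ≤ 2^{3m+3} 30 (...)²`, so `N ≤ C D^{-9/16}`.
 (q): given `𝒦, η`: `𝒦 ⊆ s9b2_box m`, `1/(m+1) ≤ η` for some `m` (`s9b2_box_exhaust`); for large `j`, `2^{3m+4} a i j < 1`, so the indicator vanishes at `ξ j`, i.e. `‖s9Q (K j) (ξ j) S‖ ≤ 1/(m+1) ≤ η` on `𝒦`.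
-/
import Claimed.Agent.R269.S9.SecondVar
import Claimed.Agent.R269.S9.LibSelect

set_option autoImplicit false

namespace Claimed.Agent.R269

open Complex Filter Topology MeasureTheory Set Metric
open scoped ENNReal Real

/-- three countable families at once. -/
theorem s9_select3 (P : ℕ → Measure ℝ) (hP : ∀ n, IsProbabilityMeasure (P n))
    (Z1 Z2 Z3 : ℕ → ℕ → ℝ → ℝ≥0∞) (hZ1 : ∀ i n, Measurable (Z1 i n)) (hZ2 : ∀ i n, Measurable (Z2 i n))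
    (hZ3 : ∀ i n, Measurable (Z3 i n)) (a1 a2 a3 : ℕ → ℕ → ℝ≥0∞) (N1 N2 N3 : ℕ → ℕ)
    (h1 : ∀ i n, N1 i ≤ n → ∫⁻ x, Z1 i n x ∂(P n) ≤ a1 i n)
    (h2 : ∀ i n, N2 i ≤ n → ∫⁻ x, Z2 i n x ∂(P n) ≤ a2 i n)
    (h3 : ∀ i n, N3 i ≤ n → ∫⁻ x, Z3 i n x ∂(P n) ≤ a3 i n) :
    ∃ x : ℕ → ℝ, ∀ m n, (N1 m ≤ n → Z1 m n (x n) ≤ 2 ^ (3 * m + 2) * a1 m n) ∧
      (N2 m ≤ n → Z2 m n (x n) ≤ 2 ^ (3 * m + 3) * a2 m n) ∧
      (N3 m ≤ n → Z3 m n (x n) ≤ 2 ^ (3 * m + 4) * a3 m n) := by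
  obtain ⟨x, hx⟩ := s9_select P hP
    (fun i n => if i % 3 = 0 then Z1 (i / 3) n else if i % 3 = 1 then Z2 (i / 3) n else Z3 (i / 3) n)
    (by
      intro i n
      split_ifs
      · exact hZ1 _ _
      · exact hZ2 _ _
      · exact hZ3 _ _)
    (fun i n => if i % 3 = 0 then a1 (i / 3) n else if i % 3 = 1 then a2 (i / 3) n else a3 (i / 3) n)
    (fun i => if i % 3 = 0 then N1 (i / 3) else if i % 3 = 1 then N2 (i / 3) else N3 (i / 3))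
    (by
      intro i n hn
      split_ifs at hn ⊢
      · exact h1 _ _ hn
      · exact h2 _ _ hn
      · exact h3 _ _ hn)
  refine ⟨x, fun m n => ⟨fun hn => ?_, fun hn => ?_, fun hn => ?_⟩⟩
  · have e1 : (3 * m) % 3 = 0 := by omega
    have e2 : (3 * m) / 3 = m := by omega
    have := hx (3 * m) n
    simp only [e1, e2, if_true] at this
    exact this hn
  · have e1 : (3 * m + 1) % 3 = 1 := by omega
    have e2 : (3 * m + 1) / 3 = m := by omega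
    have := hx (3 * m + 1) n
    simp only [e1, e2, if_true, one_ne_zero, if_false] at this
    exact this hn
  · have e1 : (3 * m + 2) % 3 = 2 := by omega
    have e2 : (3 * m + 2) / 3 = m := by omega
    have := hx (3 * m + 2) n
    simp only [e1, e2] at this
    norm_num at this
    exact this hn

theorem s9env_self (N₀ β a K : ℝ) : s9env N₀ β a K K = N₀ := by
  unfold s9env
  simp

/-- LEAF: selection of the centres of the second scale. -/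
theorem s9b2_select (Sh : Shape) (hH : Sh.H ≠ ⊤) (L : ℝ → ℝ) (𝒮 : S9b2Seq Sh L) :
    ∃ ξ : ℕ → ℝ,
      (∀ A ≥ (1 : ℝ), ∃ C : ℝ, ∀ᶠ j in atTop, ∀ S : ℂ, Real.exp (-A) ≤ -S.im → -S.im ≤ Real.exp A →
        |S.re| ≤ A * (-S.im) → Sh.s9b2_N (𝒮.K j) (ξ j) S ≤ C) ∧
      (∀ A > (0 : ℝ), ∃ C : ℝ, ∀ᶠ j in atTop, ∀ S : ℂ, 1 ≤ -S.im →
        -S.im ≤ Sh.s9db / Real.exp (-𝒮.K j) → |S.re| ≤ A * (-S.im) →
        Sh.s9b2_N (𝒮.K j) (ξ j) S ≤ C * (-S.im) ^ (-(9 / 16 : ℝ))) ∧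
      (∀ 𝒦 : Set ℂ, IsCompact 𝒦 → 𝒦 ⊆ s9f_LH → ∀ η > (0 : ℝ), ∀ᶠ j in atTop, ∀ S ∈ 𝒦,
        ‖Sh.s9Q (𝒮.K j) (ξ j) S‖ ≤ η) := by
  have hHr := Sh.s9_Hr_pos hH
  have hm1 : ∀ m : ℕ, (1 : ℝ) ≤ (m : ℝ) + 1 := fun m => by linarith [(Nat.cast_nonneg m : (0:ℝ) ≤ m)]
  -- family 1
  choose C1 hC1 using fun m : ℕ => 𝒮.tiles ((m : ℝ) + 1) (hm1 m)
  have ev1 : ∀ m : ℕ, ∀ᶠ j in atTop, (∀ l ≥ Sh.s9k0, Sh.s9TileL2 (𝒮.ν j) ((m : ℝ) + 1) l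
      (C1 m * s9env (𝒮.Cenv * Sh.μ (𝒮.K j)) (3 / 8) 𝒮.a (𝒮.K j) l)) ∧ 0 < Sh.μ (𝒮.K j) ∧
      Sh.s9k0 ≤ 𝒮.K j ∧ Real.exp (-𝒮.K j) * Real.exp ((m : ℝ) + 1) ≤ Sh.Hr := by
    intro m
    filter_upwards [hC1 m, 𝒮.B_tendsto.eventually_gt_atTop 0, 𝒮.K_tendsto.eventually_ge_atTop Sh.s9k0,
      𝒮.K_tendsto.eventually_ge_atTop ((m : ℝ) + 1 - Real.log Sh.Hr)] with j j1 j2 j3 j4
    refine ⟨j1, j2, j3, ?_⟩
    rw [← Real.exp_add]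
    calc Real.exp (-𝒮.K j + ((m : ℝ) + 1)) ≤ Real.exp (Real.log Sh.Hr) := Real.exp_le_exp.2 (by linarith)
      _ = Sh.Hr := Real.exp_log hHr
  choose N1 hN1 using fun m => eventually_atTop.1 (ev1 m)
  have ex1 : ∀ m j : ℕ, ∃ Z : ℝ → ℝ≥0∞, Measurable Z ∧ (N1 m ≤ j →
      (∀ (x : ℝ) (S : ℂ), Real.exp (-((m : ℝ) + 1)) ≤ -S.im → -S.im ≤ Real.exp ((m : ℝ) + 1) →
        |S.re| ≤ ((m : ℝ) + 1) * (-S.im) → Real.exp (-𝒮.K j) * (-S.im) ≤ Sh.Hr →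
        ENNReal.ofReal (Sh.s9b2_N (𝒮.K j) x S ^ 2) ≤ Z x) ∧
      ∫⁻ x, Z x ∂(𝒮.ν j) ≤ ENNReal.ofReal ((C1 m * 𝒮.Cenv) ^ 2)) := by
    intro m j
    by_cases hj : N1 m ≤ j
    · obtain ⟨j1, j2, j3, j4⟩ := hN1 m j hj
      obtain ⟨Z, hZ, z1, z2⟩ := Sh.s9b2_var_box (𝒮.ν j) _ _ _ j2 (j1 _ j3)
      refine ⟨Z, hZ, fun _ => ⟨z1, ?_⟩⟩
      rw [s9env_self] at z2
      have e : C1 m * (𝒮.Cenv * Sh.μ (𝒮.K j)) / Sh.μ (𝒮.K j) = C1 m * 𝒮.Cenv := by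
        field_simp
      rwa [e] at z2
    · exact ⟨fun _ => 0, measurable_const, fun h => absurd h hj⟩
  choose Z1 hZ1m hZ1 using ex1
  -- family 2
  choose C2 hC2 using fun m : ℕ => 𝒮.tiles ((m : ℝ) + 1 + 1) (by linarith [hm1 m])
  have ev2 : ∀ m : ℕ, ∀ᶠ j in atTop, (∀ l ≥ Sh.s9k0, Sh.s9TileL2 (𝒮.ν j) ((m : ℝ) + 1 + 1) l
      (C2 m * s9env (𝒮.Cenv * Sh.μ (𝒮.K j)) (3 / 8) 𝒮.a (𝒮.K j) l)) ∧ 0 < Sh.μ (𝒮.K j) := fun m =>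
    (hC2 m).and (𝒮.B_tendsto.eventually_gt_atTop 0)
  choose N2 hN2 using fun m => eventually_atTop.1 (ev2 m)
  have ex2 : ∀ m j : ℕ, ∃ W : ℝ → ℝ≥0∞, Measurable W ∧ (N2 m ≤ j →
      (∀ (x : ℝ) (S : ℂ), 1 ≤ -S.im → -S.im ≤ Sh.s9db / Real.exp (-𝒮.K j) →
        |S.re| ≤ ((m : ℝ) + 1) * (-S.im) →
        ENNReal.ofReal (Sh.s9b2_N (𝒮.K j) x S ^ 2 * (-S.im) ^ (9 / 8 : ℝ)) ≤ W x) ∧
      ∫⁻ x, W x ∂(𝒮.ν j) ≤ ENNReal.ofReal (30 * (C2 m * 𝒮.Cenv) ^ 2)) := by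
    intro m j
    by_cases hj : N2 m ≤ j
    · obtain ⟨j1, j2⟩ := hN2 m j hj
      obtain ⟨W, hW, z1, z2⟩ := Sh.s9b2_var_cone hH (𝒮.ν j) ((m : ℝ) + 1) (𝒮.K j) 𝒮.a 𝒮.Cenv (C2 m)
        (by linarith [hm1 m]) j2 j1
      exact ⟨W, hW, fun _ => ⟨z1, z2⟩⟩
    · exact ⟨fun _ => 0, measurable_const, fun h => absurd h hj⟩
  choose Z2 hZ2m hZ2 using ex2
  -- family 3
  obtain ⟨E, hE⟩ : ∃ E : ℕ → ℕ → Set ℝ, E = fun m j =>
    {x | ∃ S ∈ s9b2_box m, 1 / ((m : ℝ) + 1) < ‖Sh.s9Q (𝒮.K j) x S‖} := ⟨_, rfl⟩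
  obtain ⟨ξ, hξ⟩ := s9_select3 𝒮.ν 𝒮.ν_prob Z1 Z2
    (fun m j => (toMeasurable (𝒮.ν j) (E m j)).indicator 1) hZ1m hZ2m
    (fun m j => measurable_one.indicator (measurableSet_toMeasurable _ _))
    (fun m _ => ENNReal.ofReal ((C1 m * 𝒮.Cenv) ^ 2))
    (fun m _ => ENNReal.ofReal (30 * (C2 m * 𝒮.Cenv) ^ 2))
    (fun m j => 𝒮.ν j (E m j)) N1 N2 (fun _ => 0)
    (fun m j hj => (hZ1 m j hj).2) (fun m j hj => (hZ2 m j hj).2)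
    (fun m j _ => by
      rw [lintegral_indicator_one (measurableSet_toMeasurable _ _), measure_toMeasurable])
  refine ⟨ξ, ?_, ?_, ?_⟩
  · intro A hA
    obtain ⟨m, hm⟩ : ∃ m : ℕ, m = ⌈A⌉₊ := ⟨_, rfl⟩
    have hAm : A ≤ (m : ℝ) + 1 := by rw [hm]; linarith [Nat.le_ceil A]
    refine ⟨Real.sqrt (2 ^ (3 * m + 2) * (C1 m * 𝒮.Cenv) ^ 2), ?_⟩
    filter_upwards [eventually_ge_atTop (N1 m)] with j hj S s1 s2 s3
    obtain ⟨j1, j2, j3, j4⟩ := hN1 m j hj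
    have hD0 : 0 < -S.im := lt_of_lt_of_le (Real.exp_pos _) s1
    have hD2 : -S.im ≤ Real.exp ((m : ℝ) + 1) := s2.trans (Real.exp_le_exp.2 hAm)
    have h1 := (hZ1 m j hj).1 (ξ j) S ((Real.exp_le_exp.2 (by linarith)).trans s1) hD2
      (s3.trans (by gcongr)) (le_trans (by gcongr) j4)
    have h2 := h1.trans ((hξ m j).1 hj)
    have e : (2 : ℝ≥0∞) ^ (3 * m + 2) = ENNReal.ofReal (2 ^ (3 * m + 2)) := by
      rw [ENNReal.ofReal_pow (by norm_num)]; norm_num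
    rw [e, ← ENNReal.ofReal_mul (by positivity), ENNReal.ofReal_le_ofReal_iff (by positivity)] at h2
    exact Real.le_sqrt_of_sq_le h2
  · intro A hA
    obtain ⟨m, hm⟩ : ∃ m : ℕ, m = ⌈A⌉₊ := ⟨_, rfl⟩
    have hAm : A ≤ (m : ℝ) + 1 := by rw [hm]; linarith [Nat.le_ceil A]
    obtain ⟨R, hR⟩ : ∃ R : ℝ, R = 2 ^ (3 * m + 3) * (30 * (C2 m * 𝒮.Cenv) ^ 2) := ⟨_, rfl⟩
    have hR0 : 0 ≤ R := by rw [hR]; positivity
    refine ⟨Real.sqrt R, ?_⟩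
    filter_upwards [eventually_ge_atTop (N2 m)] with j hj S s1 s2 s3
    have hD0 : 0 < -S.im := by linarith
    have h1 := (hZ2 m j hj).1 (ξ j) S s1 s2 (s3.trans (by gcongr))
    have h2 := h1.trans ((hξ m j).2.1 hj)
    have e : (2 : ℝ≥0∞) ^ (3 * m + 3) = ENNReal.ofReal (2 ^ (3 * m + 3)) := by
      rw [ENNReal.ofReal_pow (by norm_num)]; norm_num
    rw [e, ← ENNReal.ofReal_mul (by positivity), ← hR, ENNReal.ofReal_le_ofReal_iff hR0] at h2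
    obtain ⟨D, hD⟩ : ∃ D, D = -S.im := ⟨_, rfl⟩
    rw [← hD] at h2 hD0 ⊢
    have hN0 : 0 ≤ Sh.s9b2_N (𝒮.K j) (ξ j) S := le_max_of_le_left (norm_nonneg _)
    rw [← pow_le_pow_iff_left₀ hN0 (by positivity) (two_ne_zero), mul_pow, Real.sq_sqrt hR0]
    have e2 : (D ^ (-(9 / 16 : ℝ))) ^ 2 = D ^ (-(9 / 8 : ℝ)) := by
      rw [← Real.rpow_natCast, ← Real.rpow_mul hD0.le]; norm_num
    rw [e2]
    have e3 : D ^ (9 / 8 : ℝ) * D ^ (-(9 / 8 : ℝ)) = 1 := by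
      rw [← Real.rpow_add hD0]; simp
    calc Sh.s9b2_N (𝒮.K j) (ξ j) S ^ 2
        = (Sh.s9b2_N (𝒮.K j) (ξ j) S ^ 2 * D ^ (9 / 8 : ℝ)) * D ^ (-(9 / 8 : ℝ)) := by
          rw [mul_assoc, e3, mul_one]
      _ ≤ R * D ^ (-(9 / 8 : ℝ)) := by gcongr
  · intro 𝒦 h𝒦 hsub η hη
    have hinv : Tendsto (fun j : ℕ => 1 / ((j : ℝ) + 1)) atTop (𝓝 0) :=
      tendsto_one_div_add_atTop_nhds_zero_nat
    obtain ⟨m, hm1, hm2⟩ := ((s9b2_box_exhaust 𝒦 h𝒦 hsub).and ((tendsto_order.1 hinv).2 η hη)).exists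
    have ht := 𝒮.qsmall _ (s9b2_box_compact m) (s9b2_box_sub m) (1 / ((m : ℝ) + 1)) (by positivity)
    have ht2 : Tendsto (fun j => (2 : ℝ≥0∞) ^ (3 * m + 4) * 𝒮.ν j (E m j)) atTop (𝓝 0) := by
      have := ENNReal.Tendsto.const_mul (a := (2 : ℝ≥0∞) ^ (3 * m + 4)) ht
        (Or.inr (ENNReal.pow_ne_top (by norm_num)))
      rw [mul_zero] at this
      rw [hE]
      exact this
    filter_upwards [(tendsto_order.1 ht2).2 1 one_pos] with j hj S hS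
    have h3 := ((hξ m j).2.2 (Nat.zero_le _)).trans_lt hj
    have h4 : ξ j ∉ toMeasurable (𝒮.ν j) (E m j) := by
      intro hmem
      rw [indicator_of_mem hmem] at h3
      exact lt_irrefl _ h3
    have h5 : ξ j ∉ E m j := fun h => h4 (subset_toMeasurable _ _ h)
    rw [hE] at h5
    by_contra hcon
    push Not at hcon
    exact h5 ⟨S, hm1 hS, hm2.trans hcon⟩

end Claimed.Agent.R269
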