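/-
Row 269, UNIT S9b2 (P1 Lemma 9.5, l.596-612), LEAF PACKAGE LF-S9b2-limit.   Blueprint: helper149.   No paper reading needed.   ASSEMBLY.

FROM THE SELECTED CENTRES TO THE SCALE DATA `S9Scale`.

PROOF.  `F j := Sh.s9F (𝒮.K j) (ξ j)`, `Q j := Sh.s9Q (𝒮.K j) (ξ j)`, `d' = e^{-K j}`, `B' = μ (K j)`.
 (1) HOLOMORPHY: for `z ∈ ℍ₋`, `r := -Im z/2`: `S ↦ ξ j + i Hr + d' S` maps `ball z r` into the strip `|Im| < Hr` as soon as `d' (3/2)(-Im z) < 2 Hr`; `Sh.f`, `Sh.q` are holomorphic there (`Shape.s9_pair`).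
 (2) LOCAL BOUNDS: `ball z r` lies in the region `e^{-A} ≤ -Im S ≤ e^A`, `|Re S| ≤ A (-Im S)` for `A` large (depending on `z`); `hbox` bounds `‖F j‖ ≤ s9b2_N ≤ C`.      `s9_montel` on `ℍ₋` (open): `ψ₁`, `F`.
 (3) `Q j → 0` locally uniformly on `ℍ₋`: from `hq` on closed balls (`Metric.tendstoLocallyUniformlyOn_iff`).
 (4) `F ≢ 0` on `ℍ₋`: otherwise `F (ψ₁ j) → 0` (congruence on `ℍ₋`) and `s9b2_nonzero` for `K ∘ ψ₁`, `ξ ∘ ψ₁` gives `False`.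
 (5) `q j S := d'² Sh.q (ξ j + i Hr + d' S)` is holomorphic and `F j'' = q j F j` (chain rule, `S9Pair.ode`).   `s9_ode_limit` on `U = ℍ₋` (convex, hence preconnected) along `ψ₁`: `ψ₂`, `qF`.
 (6) `S9Scale` with `K := 𝒮.K ∘ ψ₁ ∘ ψ₂`, `ξ := ξ ∘ ψ₁ ∘ ψ₂`; every property of `𝒮` and of `ξ` passes to subsequences (`StrictMono.tendsto_atTop`, `Tendsto.eventually`, `TendstoLocallyUniformlyOn.comp`-type lemma for the index: compose the filter map).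
-/
import Claimed.Agent.R269.S9.SecondSelect
import Claimed.Agent.R269.S9.SecondNonzero
import Claimed.Agent.R269.S9.LibOdeLimit

set_option autoImplicit false

namespace Claimed.Agent.R269

open Complex Filter Topology MeasureTheory Set Metric
open scoped ENNReal Real

theorem Shape.s9b2_hol (Sh : Shape) (hH : Sh.H ≠ ⊤) (K ξ : ℝ) (W : Set ℂ) (hW : IsOpen W)
    (hmap : ∀ S ∈ W, |((ξ : ℂ) + I * Sh.Hr + (Real.exp (-K) : ℝ) * S).im| < Sh.Hr) :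
    DifferentiableOn ℂ (Sh.s9F K ξ) W ∧
    DifferentiableOn ℂ (fun S => ((Real.exp (-K)) ^ 2 : ℝ) *
      Sh.q ((ξ : ℂ) + I * Sh.Hr + (Real.exp (-K) : ℝ) * S)) W ∧
    ∀ w ∈ W, deriv (deriv (Sh.s9F K ξ)) w =
      (((Real.exp (-K)) ^ 2 : ℝ) * Sh.q ((ξ : ℂ) + I * Sh.Hr + (Real.exp (-K) : ℝ) * w)) *
        Sh.s9F K ξ w := by
  have P := Sh.s9_pair hH
  have hop := s9_strip_open Sh.Hr
  obtain ⟨d, hd⟩ : ∃ d : ℝ, d = Real.exp (-K) := ⟨_, rfl⟩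
  obtain ⟨c, hc⟩ : ∃ c : ℝ, c = Real.exp (-K) / Sh.μ K := ⟨_, rfl⟩
  rw [← hd] at hmap ⊢
  have hFdef : Sh.s9F K ξ = fun S => (c : ℂ) * Sh.f ((ξ : ℂ) + I * Sh.Hr + (d : ℝ) * S) := by
    funext S; unfold Shape.s9F; rw [hc, hd]
  have hT : ∀ S : ℂ, HasDerivAt (fun S : ℂ => (ξ : ℂ) + I * Sh.Hr + (d : ℝ) * S) (d : ℂ) S := by
    intro S
    have := ((hasDerivAt_id S).const_mul (d : ℂ)).const_add ((ξ : ℂ) + I * Sh.Hr)
    simpa using this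
  have hnh : ∀ w ∈ W, {z : ℂ | |z.im| < Sh.Hr} ∈ 𝓝 ((ξ : ℂ) + I * Sh.Hr + (d : ℝ) * w) :=
    fun w hw => hop.mem_nhds (hmap w hw)
  have h1 : ∀ w ∈ W, HasDerivAt (Sh.s9F K ξ)
      (c * (deriv Sh.f ((ξ : ℂ) + I * Sh.Hr + (d : ℝ) * w) * d)) w := by
    intro w hw
    rw [hFdef]
    have hf := ((P.f_diff _ (hmap w hw)).differentiableAt (hnh w hw)).hasDerivAt
    exact (hf.comp w (hT w)).const_mul (c : ℂ)
  have h2 : ∀ w ∈ W, HasDerivAt (fun w => (c : ℂ) * (deriv Sh.f ((ξ : ℂ) + I * Sh.Hr + (d : ℝ) * w) * d))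
      (c * (deriv (deriv Sh.f) ((ξ : ℂ) + I * Sh.Hr + (d : ℝ) * w) * d * d)) w := by
    intro w hw
    have hf := (((P.f_diff.deriv hop) _ (hmap w hw)).differentiableAt (hnh w hw)).hasDerivAt
    exact ((hf.comp w (hT w)).mul_const (d : ℂ)).const_mul (c : ℂ)
  refine ⟨fun w hw => (h1 w hw).differentiableAt.differentiableWithinAt, ?_, ?_⟩
  · intro w hw
    have hq := ((P.q_diff _ (hmap w hw)).differentiableAt (hnh w hw)).hasDerivAt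
    exact ((hq.comp w (hT w)).const_mul _).differentiableAt.differentiableWithinAt
  · intro w hw
    have he : deriv (Sh.s9F K ξ) =ᶠ[𝓝 w]
        fun w => (c : ℂ) * (deriv Sh.f ((ξ : ℂ) + I * Sh.Hr + (d : ℝ) * w) * d) := by
      filter_upwards [hW.mem_nhds hw] with v hv using (h1 v hv).deriv
    rw [he.deriv_eq, (h2 w hw).deriv, P.ode _ (hmap w hw), hFdef]
    push_cast
    ring

theorem s9_tlu_subseq {F : ℕ → ℂ → ℂ} {G : ℂ → ℂ} {U : Set ℂ}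
    (h : TendstoLocallyUniformlyOn F G atTop U) {ψ : ℕ → ℕ} (hψ : StrictMono ψ) :
    TendstoLocallyUniformlyOn (fun n => F (ψ n)) G atTop U := by
  intro u hu x hx
  obtain ⟨t, ht, h'⟩ := h u hu x hx
  exact ⟨t, ht, hψ.tendsto_atTop.eventually h'⟩

/-- the ball of radius `-Im z/2`. -/
theorem s9b2_ball {z S : ℂ} (hS : S ∈ ball z (-z.im / 2)) :
    -z.im / 2 < -S.im ∧ -S.im < 3 * (-z.im / 2) ∧ |S.re| < |z.re| + -z.im / 2 := by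
  rw [mem_ball, dist_eq_norm] at hS
  have h1 := (Complex.abs_im_le_norm (S - z)).trans_lt hS
  have h2 := (Complex.abs_re_le_norm (S - z)).trans_lt hS
  rw [Complex.sub_im, abs_lt] at h1
  rw [Complex.sub_re] at h2
  refine ⟨by linarith [h1.2], by linarith [h1.1], ?_⟩
  have := abs_sub_abs_le_abs_sub S.re z.re
  linarith

/-- LEAF: Montel limits at the selected centres. -/
theorem s9b2_limit (Sh : Shape) (hH : Sh.H ≠ ⊤) (ho : Sh.order = 1) (L : ℝ → ℝ) (lam : ℝ)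
    (hlam : 1 ≤ lam) (hLc : ContinuousOn L (Ici 0)) (hL0 : L 0 = 0)
    (hLs : ∀ η > (0 : ℝ), ∃ v₀ : ℝ, ∀ v ≥ v₀, |L v - lam * v| ≤ η * v)
    (𝒮 : S9b2Seq Sh L) (ξ : ℕ → ℝ)
    (hbox : ∀ A ≥ (1 : ℝ), ∃ C : ℝ, ∀ᶠ j in atTop, ∀ S : ℂ, Real.exp (-A) ≤ -S.im → -S.im ≤ Real.exp A →
      |S.re| ≤ A * (-S.im) → Sh.s9b2_N (𝒮.K j) (ξ j) S ≤ C)
    (hcone : ∀ A > (0 : ℝ), ∃ C : ℝ, ∀ᶠ j in atTop, ∀ S : ℂ, 1 ≤ -S.im →
      -S.im ≤ Sh.s9db / Real.exp (-𝒮.K j) → |S.re| ≤ A * (-S.im) →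
      Sh.s9b2_N (𝒮.K j) (ξ j) S ≤ C * (-S.im) ^ (-(9 / 16 : ℝ)))
    (hq : ∀ 𝒦 : Set ℂ, IsCompact 𝒦 → 𝒦 ⊆ s9f_LH → ∀ η > (0 : ℝ), ∀ᶠ j in atTop, ∀ S ∈ 𝒦,
      ‖Sh.s9Q (𝒮.K j) (ξ j) S‖ ≤ η) : Nonempty (S9Scale Sh) := by
  have hHr := Sh.s9_Hr_pos hH
  have hopen := s9f_isOpen_LH
  -- (1) holomorphy
  have hmapev : ∀ z ∈ s9f_LH, ∀ᶠ j in atTop, ∀ S ∈ ball z (-z.im / 2),
      |((ξ j : ℂ) + I * Sh.Hr + (Real.exp (-𝒮.K j) : ℝ) * S).im| < Sh.Hr := by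
    intro z hz
    have hz0 : 0 < -z.im := by have : z.im < 0 := hz; linarith
    filter_upwards [𝒮.K_tendsto.eventually_gt_atTop (Real.log (3 * (-z.im / 2) / Sh.Hr))] with j hj S hS
    obtain ⟨s1, s2, -⟩ := s9b2_ball hS
    have hd := Real.exp_pos (-𝒮.K j)
    have h1 : Real.exp (-𝒮.K j) * (3 * (-z.im / 2)) < Sh.Hr := by
      have h2 : 3 * (-z.im / 2) / Sh.Hr < Real.exp (𝒮.K j) := by
        rw [← Real.log_lt_iff_lt_exp (by positivity)]; exact hj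
      rw [div_lt_iff₀ hHr] at h2
      rw [Real.exp_neg, inv_mul_lt_iff₀ (Real.exp_pos _)]
      exact h2
    rw [Sh.s9b2_pt_im, abs_lt]
    have h3 : Real.exp (-𝒮.K j) * (-S.im) < Real.exp (-𝒮.K j) * (3 * (-z.im / 2)) := by gcongr
    have h4 : 0 < Real.exp (-𝒮.K j) * (-S.im) := mul_pos hd (by linarith)
    constructor <;> nlinarith
  -- (2) bounds
  have hM : ∀ z ∈ s9f_LH, ∃ r > 0, ∃ C : ℝ, ∀ᶠ j in atTop,
      DifferentiableOn ℂ (Sh.s9F (𝒮.K j) (ξ j)) (ball z r) ∧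
        ∀ w ∈ ball z r, ‖Sh.s9F (𝒮.K j) (ξ j) w‖ ≤ C := by
    intro z hz
    have hz0 : 0 < -z.im := by have : z.im < 0 := hz; linarith
    obtain ⟨r, hr⟩ : ∃ r, r = -z.im / 2 := ⟨_, rfl⟩
    have hr0 : 0 < r := by rw [hr]; positivity
    obtain ⟨A, hA⟩ : ∃ A, A = max 1 (max (-Real.log r) (max (Real.log (3 * r)) ((|z.re| + r) / r))) :=
      ⟨_, rfl⟩
    have hA1 : 1 ≤ A := hA ▸ le_max_left _ _
    have hA2 : -Real.log r ≤ A := hA ▸ le_max_of_le_right (le_max_left _ _)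
    have hA3 : Real.log (3 * r) ≤ A := hA ▸ le_max_of_le_right (le_max_of_le_right (le_max_left _ _))
    have hA4 : (|z.re| + r) / r ≤ A :=
      hA ▸ le_max_of_le_right (le_max_of_le_right (le_max_right _ _))
    obtain ⟨C, hC⟩ := hbox A hA1
    refine ⟨r, hr0, C, ?_⟩
    filter_upwards [hC, hmapev z hz] with j j1 j2
    rw [← hr] at j2
    refine ⟨(Sh.s9b2_hol hH _ _ _ isOpen_ball j2).1, fun w hw => ?_⟩
    rw [hr] at hw
    obtain ⟨s1, s2, s3⟩ := s9b2_ball hw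
    rw [← hr] at s1 s2 s3
    refine (le_max_left _ _).trans (j1 w ?_ ?_ ?_)
    · refine le_trans ?_ s1.le
      calc Real.exp (-A) ≤ Real.exp (Real.log r) := Real.exp_le_exp.2 (by linarith)
        _ = r := Real.exp_log hr0
    · refine s2.le.trans ?_
      calc 3 * r = Real.exp (Real.log (3 * r)) := (Real.exp_log (by positivity)).symm
        _ ≤ _ := Real.exp_le_exp.2 hA3
    · rw [div_le_iff₀ hr0] at hA4
      refine s3.le.trans (hA4.trans ?_)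
      gcongr
  obtain ⟨ψ₁, G, hψ₁, hGd, hGlim⟩ := s9_montel s9f_LH hopen _ hM
  -- (3)
  have hQ0 : TendstoLocallyUniformlyOn (fun j => Sh.s9Q (𝒮.K j) (ξ j)) (fun _ => 0) atTop s9f_LH := by
    rw [tendstoLocallyUniformlyOn_iff_forall_isCompact hopen]
    intro 𝒦 hsub h𝒦
    rw [Metric.tendstoUniformlyOn_iff]
    intro ε hε
    filter_upwards [hq 𝒦 h𝒦 hsub (ε / 2) (by positivity)] with j hj S hS
    rw [dist_zero_left]
    linarith [hj S hS]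
  -- (4)
  have hne : ∃ z ∈ s9f_LH, G z ≠ 0 := by
    by_contra hcon
    push Not at hcon
    have hG0 : TendstoLocallyUniformlyOn (fun n => Sh.s9F (𝒮.K (ψ₁ n)) (ξ (ψ₁ n))) (fun _ => 0) atTop
        s9f_LH := hGlim.congr_right hcon
    refine s9b2_nonzero Sh hH ho (fun n => 𝒮.K (ψ₁ n)) (fun n => ξ (ψ₁ n)) 𝒮.a 𝒮.Cenv 𝒮.a_pos
      (𝒮.K_tendsto.comp hψ₁.tendsto_atTop) (𝒮.B_tendsto.comp hψ₁.tendsto_atTop)
      (fun n => 𝒮.env (ψ₁ n)) ?_ hG0 (s9_tlu_subseq hQ0 hψ₁)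
    intro A hA
    obtain ⟨C, hC⟩ := hcone A hA
    exact ⟨C, hψ₁.tendsto_atTop.eventually hC⟩
  -- (5)
  obtain ⟨ψ₂, qF, hψ₂, hqd, -, hode⟩ := s9_ode_limit s9f_LH hopen s9f_convex_LH.isPreconnected
    (fun n => Sh.s9F (𝒮.K (ψ₁ n)) (ξ (ψ₁ n)))
    (fun n S => ((Real.exp (-𝒮.K (ψ₁ n))) ^ 2 : ℝ) *
      Sh.q ((ξ (ψ₁ n) : ℂ) + I * Sh.Hr + (Real.exp (-𝒮.K (ψ₁ n)) : ℝ) * S)) G
    (by
      intro z hz
      have hz0 : 0 < -z.im := by have : z.im < 0 := hz; linarith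
      refine ⟨-z.im / 2, by positivity, ?_⟩
      filter_upwards [hψ₁.tendsto_atTop.eventually (hmapev z hz)] with n hn
      exact Sh.s9b2_hol hH _ _ _ isOpen_ball hn)
    hGlim hne
  have hψ : StrictMono (fun n => ψ₁ (ψ₂ n)) := hψ₁.comp hψ₂
  exact ⟨{
    K := fun n => 𝒮.K (ψ₁ (ψ₂ n))
    ξ := fun n => ξ (ψ₁ (ψ₂ n))
    F := G
    qF := qF
    L := L
    lam := lam
    a := 𝒮.a
    Cenv := 𝒮.Cenv
    K_tendsto := 𝒮.K_tendsto.comp hψ.tendsto_atTop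
    B_tendsto := 𝒮.B_tendsto.comp hψ.tendsto_atTop
    mesh := ⟨hGd, hqd, hode, hne⟩
    F_lim := s9_tlu_subseq hGlim hψ₂
    Q_lim := s9_tlu_subseq hQ0 hψ
    lam_ge := hlam
    a_pos := 𝒮.a_pos
    L_cont := hLc
    L_zero := hL0
    L_slope := hLs
    moment := fun V hV η hη => hψ.tendsto_atTop.eventually (𝒮.moment V hV η hη)
    env := fun n => 𝒮.env _
    cones := fun A hA => by
      obtain ⟨C, hC⟩ := hcone A hA
      exact ⟨C, hψ.tendsto_atTop.eventually hC⟩ }⟩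

end Claimed.Agent.R269
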