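/-
Row 269, P1 Section 9.3, UNIT S9b2 (09-model.tex l.471-612): Lemma 9.5, the second scale.   EXPORT (statement by helper149), PROVED from the leaves of `S9/Second*.lean`, `S9/LibOdeLimit.lean`
(`s9b2_seq`: diagonal sequence + weighted bootstrap; `s9b2_select`: centres; `s9b2_limit`: Montel, `F ≢ 0`, `qF`).

ROUTE = the paper.  For each `j` take `n = n_j` (in the subsequence `φ`) so large that, with `K = k_n - x_j`, `B' = μ K`:  `K, B' ≥ j` (`B'/B = e^{x_j} m_n(e^{x_j})`);  `s_n > x_j + 3`;  the moment law is within `1/j` of its limit on `[e^{-j}, e^{j}]`;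
the global envelope (9.21) holds with ONE constant (l.520-545);  ancestor domination (9.24) `≥ 1`;  `ν_n {sup_{𝒦_j} |Q^{new}| > 1/j} ≤ 2^{-j}`.
`Shape.s9i_weighted_bootstrap` with `N = s9env (C B') (3/8) a K`  =>  weighted tile bounds on all levels.
Every compact subset of the lower half plane lies in one tile `{e^{-A} ≤ D ≤ e^{A}, |Re S| ≤ A D}`; the band `e^h ≤ D ≤ e^{h+1}` of the cone of aperture `A` lies in the tile `𝒯_{A+1}(K-h, x)`;
`∑_h e^{2αh} e^{-2h} e^{2βh} < ∞` (`α = 9/16 < 1 - β = 5/8`).  SELECTION of centres `ξ_j` under `ν_{n_j}` (same abstract lemma as in Steep.lean), MONTEL.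
`F ≢ 0`: otherwise `Shape.s9i_no_quiet_cone` (exponent `α' = 17/32 < α`).  `qF`: the functions `B'² Q_j = F_j''/F_j` are locally bounded (circle around a point on which `F ≠ 0`, maximum modulus), Montel again, pass to the limit in `F_j'' = (B'²Q_j) F_j`.
-/
import Claimed.Agent.R269.S9.SecondLimit

set_option autoImplicit false

namespace Claimed.Agent.R269

open Complex Filter Topology MeasureTheory Set
open scoped ENNReal Real

/-- EXPORT S9b2 = P1 Lemma 9.5. -/
theorem s9b_second_scale (Sh : Shape) (hH : Sh.H ≠ ⊤) (ho : Sh.order = 1) (Pr : S9Prohibited Sh)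
    (φ : ℕ → ℕ) (lm : ℝ → ℝ) (hφ : StrictMono φ) (hlaw : S9aLaw lm)
    (hconv : S9aConv Sh (Pr.k ∘ φ) lm) (x : ℕ → ℝ) (L : ℝ → ℝ) (lam C P' : ℝ)
    (hf : S9aFlat lm x L lam C P') : Nonempty (S9Scale Sh) := by
  obtain ⟨𝒮⟩ := s9b2_seq Sh hH ho Pr φ lm hφ hlaw hconv x L lam C P' hf
  obtain ⟨ξ, hbox, hcone, hq⟩ := s9b2_select Sh hH L 𝒮
  exact s9b2_limit Sh hH ho L lam hf.lam_ge hf.L_cont hf.L_zero hf.L_slope 𝒮 ξ hbox hcone hq

end Claimed.Agent.R269
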