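/-
Row 269, UNIT S9b1 (P1 Lemma 9.4, l.320-362), LEAF PACKAGES LF-S9b-transfer (`s9b_transfer`, host-free real variable) and LF-S9b-diag (`s9b_diag`).   Blueprint: helper149.   Proofs: helper175.   No paper reading needed.

`s9b_transfer`: TAIL TRANSFER at one contact `(D₀, P₀)`.   `D = D₀ (1 + v/P₀)`.
  (i) `v ∈ [1/2, 1]`: `D ∈ [D₀, 2D₀]`, `lm D ≤ lm D₀` (`s9a_lm_anti`), and `|g n - lm| ≤ 1/2` on `[D₀, 2D₀]` for large `n`:  `g n D - g n D₀ ≤ 1 ≤ 2 - (5/8) log 2`.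
  (ii) `v ≥ 1`, `D ≤ D_cut`: `|g n - lm| ≤ 1/2` on `[D₀, D_cut]`:  `g n D - g n D₀ ≤ C + 1 - (5/8) log (1+v)`.
  (iii) `D ≥ D_cut ≥ 1`, `eps n ≤ 1/8`: `g n D ≤ -(7/8) log D`, `g n D₀ ≥ lm D₀ - 1`, `1 + v ≤ (1 + P₀/D₀) D`; so `g n D - g n D₀ + (5/8) log (1+v) ≤ -(1/4) log D - lm D₀ + 1 + (5/8) log (1 + P₀/D₀) ≤ 0`
        as soon as `log D_cut ≥ 4 (1 - lm D₀ + (5/8) log (1 + P₀/D₀))`;   `D_cut := max (2 D₀) (max 1 (exp (...)))`.

`s9b_diag`: DIAGONAL CHOICE.  For `i : ℕ` put `k = Pr.k (φ i)`, `d = e^{-k}`, `g i = Sh.s9lm k`.   For each `j` the following hold for all large `i`: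
  (a) `d D j ≤ min (1/(j+1)) (min (Hr/2) (e^{-s9k0}/2))`       (`k → ∞`);
  (b) `μ k · D j · exp (g i (D j))/P j ≥ j`                     (`μ k → ∞`, `g i (D j) → lm (D j)`);
  (c) `|g i - lm| ≤ 1/(j+1)` on `[D j/2, 2 D j]`                (`hconv`);
  (d) the conclusion of `s9b_transfer` for `(D j, P j)`, `T i = e^{k - s9k0}`, `eps = Pr.eps ∘ φ`      (`hnorm` = `s9a_lm_normal`).
 `Filter.extraction_forall_of_eventually` gives `i = ι j`.    `h j := Hr - d D j`, `ℓ j := d D j/P j`, `C' := exp (2 max (C+1) 2)`.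
  `h j → Hr`, `0 < h j`; `ℓ j ≤ d D j → 0`;  `(Hr - h j)/ℓ j = P j → ∞`;   `ℓ j √(s9E (h j)) = μ (k - log (D j))/P j = μ k D j exp (g (D j))/P j ≥ j`   (`Shape.s9_mu_eq`, `Shape.s9lm_mu`).
  Local law: `h j + ℓ j σ = Hr - d D j (1 - σ/P j)`, `Shape.s9lm_E`:  `e^{-2σ} s9E (h j + ℓ j σ)/s9E (h j) = exp (2 (g (D j (1 - σ/P j)) - g (D j) - σ))`; for `|σ| ≤ U ≤ P j/2` the argument lies in `[D j/2, 2 D j]`, so by (c) and the local law of `lm`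
     the exponent is `≤ 2 (η' + 2/(j+1))` in absolute value.
  Tail: `h j - ℓ j v = Hr - d D j (1 + v/P j)`; `ℓ j v ≤ 4 s9db = 4 e^{-3} e^{-s9k0} ≤ e^{-s9k0}/2` and (a) give `d D j (1 + v/P j) ≤ e^{-s9k0}`, i.e. `D j (1+v/P j) ≤ T i`;  `s9E (h j - ℓ j v)/s9E (h j) = exp (2 (...)) ≤ C' (1+v)^{-5/4}`.
-/
import Claimed.Agent.R269.S9.MomentNormal
import Claimed.Agent.R269.S9.MomentDefs

set_option autoImplicit false

namespace Claimed.Agent.R269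

open Complex Filter Topology MeasureTheory Set Metric
open scoped ENNReal Real

/-- LEAF: transfer of the polynomial tail from the limit law to the actual moment laws, at one contact. -/
theorem s9b_transfer (lm : ℝ → ℝ) (hlaw : S9aLaw lm) (g : ℕ → ℝ → ℝ) (T eps : ℕ → ℝ)
    (hconv : ∀ a b : ℝ, 0 < a → a ≤ b → ∀ η > (0 : ℝ), ∀ᶠ n in atTop, ∀ D ∈ Icc a b, |g n D - lm D| ≤ η)
    (heps : Tendsto eps atTop (𝓝 0))
    (hnorm : ∀ n D, 1 ≤ D → D ≤ T n → g n D ≤ -Real.log D + eps n * Real.log D)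
    (D₀ P₀ C : ℝ) (hD₀ : 0 < D₀) (hP₀ : 1 ≤ P₀)
    (htail : ∀ v ≥ (1 : ℝ), lm (D₀ * (1 + v / P₀)) - lm D₀ ≤ C - 5 / 8 * Real.log (1 + v)) :
    ∀ᶠ n in atTop, ∀ v ≥ (1 / 2 : ℝ), D₀ * (1 + v / P₀) ≤ T n →
      g n (D₀ * (1 + v / P₀)) - g n D₀ ≤ max (C + 1) 2 - 5 / 8 * Real.log (1 + v) := by
  have hP0 : 0 < P₀ := by linarith
  obtain ⟨A, hA⟩ : ∃ A : ℝ, A = 4 * (1 - lm D₀ + 5 / 8 * Real.log (1 + P₀ / D₀)) := ⟨_, rfl⟩
  obtain ⟨Dc, hc1, hc2, hc3⟩ : ∃ Dc : ℝ, 2 * D₀ ≤ Dc ∧ 1 ≤ Dc ∧ Real.exp A ≤ Dc :=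
    ⟨max (2 * D₀) (max 1 (Real.exp A)), le_max_left _ _, (le_max_left _ _).trans (le_max_right _ _),
      (le_max_right _ _).trans (le_max_right _ _)⟩
  have hev1 := hconv D₀ Dc hD₀ (by linarith) (1 / 2) (by norm_num)
  have hev2 : ∀ᶠ n in atTop, eps n ≤ 1 / 8 :=
    (heps.eventually (Iio_mem_nhds (show (0 : ℝ) < 1 / 8 by norm_num))).mono fun n hn => le_of_lt hn
  filter_upwards [hev1, hev2] with n hn1 hn2 v hv hT
  obtain ⟨D, hD⟩ : ∃ D : ℝ, D = D₀ * (1 + v / P₀) := ⟨_, rfl⟩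
  rw [← hD] at hT ⊢
  have hvP : 0 ≤ v / P₀ := div_nonneg (by linarith) hP0.le
  have hDD₀ : D₀ ≤ D := by
    rw [hD]; nlinarith
  have hD0 : 0 < D := hD₀.trans_le hDD₀
  have b0 := abs_le.1 (hn1 D₀ ⟨le_rfl, by linarith⟩)
  have hm1 : C + 1 ≤ max (C + 1) 2 := le_max_left _ _
  have hm2 : (2 : ℝ) ≤ max (C + 1) 2 := le_max_right _ _
  rcases le_total D Dc with hDc | hDc
  · have b1 := abs_le.1 (hn1 D ⟨hDD₀, hDc⟩)
    rcases le_total v 1 with hv1 | hv1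
    · have h1 : lm D ≤ lm D₀ := (s9a_lm_anti hlaw).antitoneOn hD₀ hD0 hDD₀
      have h2 : Real.log (1 + v) ≤ v := by
        have := Real.log_le_sub_one_of_pos (show 0 < 1 + v by linarith)
        linarith
      linarith [b0.1, b1.2]
    · have h1 := htail v hv1
      rw [← hD] at h1
      linarith [b0.1, b1.2]
  · have hD1 : 1 ≤ D := hc2.trans hDc
    have hlog0 : 0 ≤ Real.log D := Real.log_nonneg hD1
    have h1 := hnorm n D hD1 hT
    have h2 : eps n * Real.log D ≤ 1 / 8 * Real.log D := mul_le_mul_of_nonneg_right hn2 hlog0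
    have h3 : A ≤ Real.log D := (Real.le_log_iff_exp_le hD0).2 (hc3.trans hDc)
    have hq : 0 < 1 + P₀ / D₀ := by positivity
    have h4 : 1 + v ≤ (1 + P₀ / D₀) * D := by
      have e : (1 + P₀ / D₀) * D = D + P₀ + v := by
        rw [hD]; field_simp; ring
      rw [e]; linarith
    have h5 : Real.log (1 + v) ≤ Real.log (1 + P₀ / D₀) + Real.log D := by
      rw [← Real.log_mul hq.ne' hD0.ne']
      exact Real.log_le_log (by linarith) h4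
    rw [hA] at h3
    linarith [b0.1]

/-- the diagonal choice of the levels. -/
theorem s9bd_levels (Sh : Shape) (hH : Sh.H ≠ ⊤) (Pr : S9Prohibited Sh) (φ : ℕ → ℕ) (lm : ℝ → ℝ)
    (hφ : StrictMono φ) (hlaw : S9aLaw lm) (hconv : S9aConv Sh (Pr.k ∘ φ) lm) (D P : ℕ → ℝ) (C : ℝ)
    (hDP : ∀ j, 0 < D j ∧ 1 ≤ P j)
    (htail : ∀ j, ∀ v ≥ (1 : ℝ),
      lm (D j * (1 + v / P j)) - lm (D j) ≤ C - 5 / 8 * Real.log (1 + v)) :
    ∃ κ : ℕ → ℝ, ∀ j, 0 < Sh.μ (κ j) ∧ Real.exp (-κ j) * D j ≤ 1 / ((j : ℝ) + 1) ∧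
      Real.exp (-κ j) * D j ≤ Sh.Hr / 2 ∧ Real.exp (-κ j) * D j ≤ Real.exp (-Sh.s9k0) / 2 ∧
      (j : ℝ) ≤ Sh.μ (κ j) * D j * Real.exp (Sh.s9lm (κ j) (D j)) / P j ∧
      (∀ X ∈ Icc (D j / 2) (2 * D j), |Sh.s9lm (κ j) X - lm X| ≤ 1 / ((j : ℝ) + 1)) ∧
      ∀ v ≥ (1 / 2 : ℝ), D j * (1 + v / P j) ≤ Real.exp (κ j - Sh.s9k0) →
        Sh.s9lm (κ j) (D j * (1 + v / P j)) - Sh.s9lm (κ j) (D j) ≤
          max (C + 1) 2 - 5 / 8 * Real.log (1 + v) := by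
  have hHr := Sh.s9_Hr_pos hH
  have hkt : Tendsto (fun i => Pr.k (φ i)) atTop atTop := Pr.k_tendsto.comp hφ.tendsto_atTop
  have hBt : Tendsto (fun i => Sh.μ (Pr.k (φ i))) atTop atTop :=
    Pr.B_tendsto.comp hφ.tendsto_atTop
  have heps : Tendsto (fun i => Pr.eps (φ i)) atTop (𝓝 0) :=
    Pr.eps_tendsto.comp hφ.tendsto_atTop
  have hnorm : ∀ n X, 1 ≤ X → X ≤ Real.exp (Pr.k (φ n) - Sh.s9k0) →
      Sh.s9lm (Pr.k (φ n)) X ≤ -Real.log X + Pr.eps (φ n) * Real.log X := by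
    intro n X hX1 hXT
    have hX0 : 0 < X := by linarith
    have h1 : Real.log X ≤ Pr.k (φ n) - Sh.s9k0 := (Real.log_le_iff_le_exp hX0).2 hXT
    have h2 := s9a_lm_normal hH Pr (φ n) X hX0 (by linarith)
    rwa [abs_of_nonneg (Real.log_nonneg hX1)] at h2
  have hQ : ∀ j : ℕ, ∀ᶠ i in atTop, 0 < Sh.μ (Pr.k (φ i)) ∧
      Real.exp (-Pr.k (φ i)) * D j ≤ 1 / ((j : ℝ) + 1) ∧
      Real.exp (-Pr.k (φ i)) * D j ≤ Sh.Hr / 2 ∧
      Real.exp (-Pr.k (φ i)) * D j ≤ Real.exp (-Sh.s9k0) / 2 ∧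
      (j : ℝ) ≤ Sh.μ (Pr.k (φ i)) * D j * Real.exp (Sh.s9lm (Pr.k (φ i)) (D j)) / P j ∧
      (∀ X ∈ Icc (D j / 2) (2 * D j), |Sh.s9lm (Pr.k (φ i)) X - lm X| ≤ 1 / ((j : ℝ) + 1)) ∧
      ∀ v ≥ (1 / 2 : ℝ), D j * (1 + v / P j) ≤ Real.exp (Pr.k (φ i) - Sh.s9k0) →
        Sh.s9lm (Pr.k (φ i)) (D j * (1 + v / P j)) - Sh.s9lm (Pr.k (φ i)) (D j) ≤
          max (C + 1) 2 - 5 / 8 * Real.log (1 + v) := by
    intro j
    obtain ⟨hDj, hPj⟩ := hDP j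
    have hPj0 : 0 < P j := by linarith
    have ha : ∀ m > (0 : ℝ), ∀ᶠ i in atTop, Real.exp (-Pr.k (φ i)) * D j ≤ m := by
      intro m hm
      filter_upwards [hkt.eventually_ge_atTop (-Real.log (m / D j))] with i hi
      have h1 : Real.exp (-Pr.k (φ i)) ≤ Real.exp (Real.log (m / D j)) :=
        Real.exp_le_exp.2 (by linarith)
      rw [Real.exp_log (by positivity)] at h1
      rwa [le_div_iff₀ hDj] at h1
    have hc := hconv (D j / 2) (2 * D j) (by positivity) (by linarith) (1 / ((j : ℝ) + 1))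
      (by positivity)
    have hc1 := hconv (D j) (D j) hDj le_rfl 1 one_pos
    have hd := s9b_transfer lm hlaw (fun i => Sh.s9lm (Pr.k (φ i)))
      (fun i => Real.exp (Pr.k (φ i) - Sh.s9k0)) (fun i => Pr.eps (φ i)) hconv heps hnorm (D j)
      (P j) C hDj hPj (htail j)
    obtain ⟨c, hc0, hce⟩ : ∃ c : ℝ, 0 < c ∧ c = D j * Real.exp (lm (D j) - 1) / P j :=
      ⟨_, by positivity, rfl⟩
    filter_upwards [ha _ (show (0 : ℝ) < 1 / ((j : ℝ) + 1) by positivity),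
      ha _ (show 0 < Sh.Hr / 2 by positivity),
      ha _ (show 0 < Real.exp (-Sh.s9k0) / 2 by positivity), hc, hc1, hd,
      hBt.eventually_ge_atTop ((j : ℝ) / c)] with i h1 h2 h3 h4 h5 h6 h7
    have hμ := Pr.B_pos hH (φ i)
    refine ⟨hμ, h1, h2, h3, ?_, h4, h6⟩
    have e1 : lm (D j) - 1 ≤ Sh.s9lm (Pr.k (φ i)) (D j) := by
      have := (abs_le.1 (h5 (D j) ⟨le_rfl, le_rfl⟩)).1
      simp only [Function.comp] at this
      linarith
    have e2 : Real.exp (lm (D j) - 1) ≤ Real.exp (Sh.s9lm (Pr.k (φ i)) (D j)) :=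
      Real.exp_le_exp.2 e1
    rw [div_le_iff₀ hc0] at h7
    calc (j : ℝ) ≤ Sh.μ (Pr.k (φ i)) * c := h7
      _ = Sh.μ (Pr.k (φ i)) * D j * Real.exp (lm (D j) - 1) / P j := by rw [hce]; ring
      _ ≤ Sh.μ (Pr.k (φ i)) * D j * Real.exp (Sh.s9lm (Pr.k (φ i)) (D j)) / P j := by
          gcongr
  obtain ⟨ι, -, hι⟩ := extraction_forall_of_eventually hQ
  exact ⟨fun j => Pr.k (φ (ι j)), hι⟩

/-- LEAF: the diagonal choice of the physical scales (9.14). -/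
theorem s9b_diag (Sh : Shape) (hH : Sh.H ≠ ⊤) (Pr : S9Prohibited Sh) (φ : ℕ → ℕ) (lm : ℝ → ℝ)
    (hφ : StrictMono φ) (hlaw : S9aLaw lm) (hconv : S9aConv Sh (Pr.k ∘ φ) lm) (hs : S9aSteep lm) :
    ∃ (h ℓ : ℕ → ℝ) (C' : ℝ), 0 ≤ C' ∧ (∀ j, 0 < ℓ j ∧ |h j| < Sh.Hr) ∧ Tendsto h atTop (𝓝 Sh.Hr) ∧
      Tendsto ℓ atTop (𝓝 0) ∧ Tendsto (fun j => (Sh.Hr - h j) / ℓ j) atTop atTop ∧
      Tendsto (fun j => ℓ j * Real.sqrt (s9E Sh.f Sh.q (h j))) atTop atTop ∧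
      (∀ U > (0 : ℝ), ∀ η > (0 : ℝ), ∀ᶠ j in atTop, ∀ σ ∈ Icc (-U) U,
        |Real.exp (-2 * σ) * s9E Sh.f Sh.q (h j + ℓ j * σ) / s9E Sh.f Sh.q (h j) - 1| ≤ η) ∧
      ∀ᶠ j in atTop, ∀ v ≥ (1 / 2 : ℝ), ℓ j * v ≤ 4 * Sh.s9db →
        s9E Sh.f Sh.q (h j - ℓ j * v) ≤ C' * (1 + v) ^ (-(5 / 4) : ℝ) * s9E Sh.f Sh.q (h j) := by
  obtain ⟨D, P, C, hDP, hDt, hPt, hloc, htail⟩ := hs
  obtain ⟨κ, hκ⟩ := s9bd_levels Sh hH Pr φ lm hφ hlaw hconv D P C hDP htail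
  have hHr := Sh.s9_Hr_pos hH
  have hp := Sh.s9_pair hH
  have hD0 : ∀ j, 0 < D j := fun j => (hDP j).1
  have hP1 : ∀ j, 1 ≤ P j := fun j => (hDP j).2
  have hP0 : ∀ j, 0 < P j := fun j => by linarith [hP1 j]
  have hd0 : ∀ j, 0 < Real.exp (-κ j) * D j := fun j => mul_pos (Real.exp_pos _) (hD0 j)
  have hinv : Tendsto (fun j : ℕ => 1 / ((j : ℝ) + 1)) atTop (𝓝 0) :=
    tendsto_one_div_add_atTop_nhds_zero_nat
  have hdt : Tendsto (fun j => Real.exp (-κ j) * D j) atTop (𝓝 0) :=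
    squeeze_zero (fun j => (hd0 j).le) (fun j => (hκ j).2.1) hinv
  have hEpos : ∀ j, 0 < s9E Sh.f Sh.q (Sh.Hr - Real.exp (-κ j) * D j) := by
    intro j
    apply s9E_pos hp
    have := hd0 j
    have := (hκ j).2.2.1
    rw [abs_lt]; constructor <;> linarith
  refine ⟨fun j => Sh.Hr - Real.exp (-κ j) * D j, fun j => Real.exp (-κ j) * D j / P j,
    Real.exp (2 * max (C + 1) 2), (Real.exp_pos _).le, fun j => ⟨div_pos (hd0 j) (hP0 j), ?_⟩,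
    ?_, ?_, ?_, ?_, ?_, ?_⟩
  · have := hd0 j
    have := (hκ j).2.2.1
    rw [abs_lt]; constructor <;> linarith
  · have := (tendsto_const_nhds (x := Sh.Hr)).sub hdt
    simpa using this
  · refine squeeze_zero (fun j => (div_pos (hd0 j) (hP0 j)).le) (fun j => ?_) hdt
    exact div_le_self (hd0 j).le (hP1 j)
  · have e : (fun j => (Sh.Hr - (Sh.Hr - Real.exp (-κ j) * D j)) / (Real.exp (-κ j) * D j / P j)) = P := by
      funext j
      have h1 := (hd0 j).ne'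
      have h2 := (hP0 j).ne'
      rw [sub_sub_cancel, div_div_eq_mul_div, mul_comm, mul_div_assoc, div_self h1, mul_one]
    rw [e]; exact hPt
  · refine tendsto_atTop_mono (fun j => ?_) tendsto_natCast_atTop_atTop
    obtain ⟨hμ, -, h2, -, h4, -, -⟩ := hκ j
    have h5 := Sh.s9_mu_log (κ j) (D j) (hD0 j)
    have hpos : 0 < Sh.μ (κ j - Real.log (D j)) := by
      rw [h5]
      exact mul_pos (hd0 j) (Real.sqrt_pos.2 (hEpos j))
    have h6 := Sh.s9lm_mu (κ j) (D j) (hD0 j) hμ hpos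
    rw [← h6, h5] at h4
    calc (j : ℝ) ≤ _ := h4
      _ = _ := by ring
  · intro U hU η hη
    obtain ⟨m, hm0, hmη, hm1⟩ : ∃ m : ℝ, 0 < m ∧ m ≤ η ∧ m ≤ 1 :=
      ⟨min η 1, lt_min hη one_pos, min_le_left _ _, min_le_right _ _⟩
    filter_upwards [hloc U hU (m / 16) (by positivity), hPt.eventually_ge_atTop (2 * U),
      hinv.eventually (Iio_mem_nhds (show (0 : ℝ) < m / 32 by positivity))] with j h1 h2 h3 σ hσ
    obtain ⟨hμ, -, a2, -, -, a5, -⟩ := hκ j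
    have h3' : 1 / ((j : ℝ) + 1) < m / 32 := h3
    have hσP : |σ / P j| ≤ 1 / 2 := by
      rw [abs_div, abs_of_pos (hP0 j), div_le_iff₀ (hP0 j)]
      have : |σ| ≤ U := abs_le.2 hσ
      linarith
    obtain ⟨s1, s2⟩ := abs_le.1 hσP
    obtain ⟨D', hD'⟩ : ∃ D' : ℝ, D' = D j * (1 - σ / P j) := ⟨_, rfl⟩
    have hD'1 : D j / 2 ≤ D' := by rw [hD']; nlinarith [hD0 j]
    have hD'2 : D' ≤ 2 * D j := by rw [hD']; nlinarith [hD0 j]
    have hD'0 : 0 < D' := lt_of_lt_of_le (by have := hD0 j; positivity) hD'1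
    have e1 : Sh.Hr - Real.exp (-κ j) * D j + Real.exp (-κ j) * D j / P j * σ =
        Sh.Hr - Real.exp (-κ j) * D' := by rw [hD']; ring
    have hdD' : Real.exp (-κ j) * D' < 2 * Sh.Hr := by
      have : Real.exp (-κ j) * D' ≤ Real.exp (-κ j) * (2 * D j) :=
        mul_le_mul_of_nonneg_left hD'2 (Real.exp_pos _).le
      linarith
    have e2 := Sh.s9lm_E hH (κ j) (D j) D' hμ (hD0 j) hD'0 (by linarith) hdD'
    have e3 : Real.exp (-2 * σ) * s9E Sh.f Sh.q (Sh.Hr - Real.exp (-κ j) * D') /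
        s9E Sh.f Sh.q (Sh.Hr - Real.exp (-κ j) * D j) =
        Real.exp (2 * (Sh.s9lm (κ j) D' - Sh.s9lm (κ j) (D j) - σ)) := by
      rw [e2]
      have := (hEpos j).ne'
      have e4 : Real.exp (2 * (Sh.s9lm (κ j) D' - Sh.s9lm (κ j) (D j) - σ)) =
          Real.exp (-2 * σ) * Real.exp (2 * (Sh.s9lm (κ j) D' - Sh.s9lm (κ j) (D j))) := by
        rw [← Real.exp_add]; congr 1; ring
      rw [e4]
      field_simp
    show _ ≤ _
    rw [e1, e3]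
    have b1 := a5 D' ⟨hD'1, hD'2⟩
    have b2 := a5 (D j) ⟨by linarith [hD0 j], by linarith [hD0 j]⟩
    have b3 := h1 σ hσ
    rw [← hD'] at b3
    have hx : |2 * (Sh.s9lm (κ j) D' - Sh.s9lm (κ j) (D j) - σ)| ≤ m / 4 := by
      have e5 : Sh.s9lm (κ j) D' - Sh.s9lm (κ j) (D j) - σ =
          (Sh.s9lm (κ j) D' - lm D') + (lm D' - lm (D j) - σ) - (Sh.s9lm (κ j) (D j) - lm (D j)) := by
        ring
      rw [abs_mul, abs_two, e5]
      have := abs_sub (Sh.s9lm (κ j) D' - lm D' + (lm D' - lm (D j) - σ))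
        (Sh.s9lm (κ j) (D j) - lm (D j))
      have := abs_add_le (Sh.s9lm (κ j) D' - lm D') (lm D' - lm (D j) - σ)
      linarith
    have := Real.abs_exp_sub_one_le (hx.trans (by linarith))
    linarith
  · filter_upwards with j v hv hℓv
    obtain ⟨hμ, -, a2, a3, -, -, a6⟩ := hκ j
    obtain ⟨D', hD'⟩ : ∃ D' : ℝ, D' = D j * (1 + v / P j) := ⟨_, rfl⟩
    have hvP : 0 ≤ v / P j := div_nonneg (by linarith) (hP0 j).le
    have hD'0 : 0 < D' := by rw [hD']; have := hD0 j; positivity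
    have e1 : Sh.Hr - Real.exp (-κ j) * D j - Real.exp (-κ j) * D j / P j * v =
        Sh.Hr - Real.exp (-κ j) * D' := by rw [hD']; ring
    have hdb : 4 * Sh.s9db ≤ Real.exp (-Sh.s9k0) / 2 := by
      unfold Shape.s9db
      rw [neg_add, Real.exp_add]
      have h8 : Real.exp (-3) ≤ 1 / 8 := by
        rw [Real.exp_neg, one_div]
        refine inv_anti₀ (by norm_num) ?_
        have := Real.quadratic_le_exp_of_nonneg (show (0 : ℝ) ≤ 3 by norm_num)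
        linarith
      have := mul_le_mul_of_nonneg_left h8 (Real.exp_pos (-Sh.s9k0)).le
      linarith
    have hdD' : Real.exp (-κ j) * D' ≤ Real.exp (-Sh.s9k0) := by
      have : Real.exp (-κ j) * D' = Real.exp (-κ j) * D j + Real.exp (-κ j) * D j / P j * v := by
        rw [hD']; ring
      rw [this]; linarith
    have hk0 := Sh.s9_k0_row hH Sh.s9k0 le_rfl
    have hT : D' ≤ Real.exp (κ j - Sh.s9k0) := by
      have e : Real.exp (κ j - Sh.s9k0) = Real.exp (κ j) * Real.exp (-Sh.s9k0) := by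
        rw [← Real.exp_add]; congr 1
      have e' : D' = Real.exp (κ j) * (Real.exp (-κ j) * D') := by
        rw [← mul_assoc, ← Real.exp_add]; simp
      rw [e, e']
      exact mul_le_mul_of_nonneg_left hdD' (Real.exp_pos _).le
    have b := a6 v hv (by rw [← hD']; exact hT)
    rw [← hD'] at b
    have e2 := Sh.s9lm_E hH (κ j) (D j) D' hμ (hD0 j) hD'0 (by linarith) (by linarith)
    show _ ≤ _
    rw [e1, e2]
    have h1v : 0 < 1 + v := by linarith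
    have e3 : Real.exp (2 * max (C + 1) 2) * (1 + v) ^ (-(5 / 4) : ℝ) =
        Real.exp (2 * (max (C + 1) 2 - 5 / 8 * Real.log (1 + v))) := by
      rw [Real.rpow_def_of_pos h1v, ← Real.exp_add]; congr 1; ring
    rw [e3, mul_comm]
    exact mul_le_mul_of_nonneg_right (Real.exp_le_exp.2 (by linarith)) (hEpos j).le

end Claimed.Agent.R269
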