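/-
Row 269, UNIT S9b1 (P1 Lemma 9.4), LEAF PACKAGE LF-S9b-const.   Blueprint: helper149.   HOST-FREE (Mathlib only).

Entire functions with equality in the submean inequality on ONE circle are constant.

`s9b_const_sq`:  `circleAverage ‖G - G 0‖² = circleAverage ‖G‖² - 2 Re (conj (G 0) circleAverage G) + ‖G 0‖² = circleAverage ‖G‖² - ‖G 0‖² ≤ 0` (mean value property `DiffContOnCl.circleAverage`).  A continuous nonnegative function with
   average `≤ 0` vanishes on the circle; so `G = G 0` on the unit circle, which has accumulation points: identity theorem (`AnalyticOnNhd.eq_of_frequently_eq` / `eqOn_of_preconnected_of_frequently_eq`).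
`s9b_const_abs`:  if `G 0 = 0`: `circleAverage ‖G‖ ≤ 0`, so `G = 0` on the circle, identity theorem.   Otherwise `a := conj (G 0)/‖G 0‖`, `g := a G`, `g 0 = ‖G 0‖ > 0`:  `circleAverage (‖g‖ - Re g) = circleAverage ‖G‖ - ‖G 0‖ ≤ 0`, integrand `≥ 0`,
   so `Re g = ‖g‖`, i.e. `Im g = 0` on the unit circle.   `E± := exp (± i g)` have modulus `e^{∓ Im g} = 1` on the circle, so `≤ 1` in the disc (maximum modulus, `Complex.norm_le_of_forall_mem_frontier_norm_le`); as `E₊ E₋ = 1`, `‖E₊‖ = 1` in the disc;
   an interior maximum of the modulus: `E₊` is constant on the disc (`Complex.eqOn_of_isPreconnected_of_isMaxOn_norm` or `Complex.eqOn_closedBall_of_isMaxOn_norm`);  differentiate: `i g' E₊ = 0`, so `g' = 0` on the disc, `g` constant there; identity theorem.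
-/
import Mathlib

set_option autoImplicit false

namespace Claimed.Agent.R269

open Complex Filter Topology MeasureTheory Set Metric
open scoped ENNReal Real

/-- a continuous nonnegative function with circle average `≤ 0` vanishes on the circle. -/
theorem s9b_const_avg_zero (g : ℂ → ℝ) (hg : Continuous g) (h0 : ∀ z, 0 ≤ g z)
    (h : Real.circleAverage g 0 1 ≤ 0) : ∀ z ∈ sphere (0 : ℂ) 1, g z = 0 := by
  have h2π : (0 : ℝ) < 2 * π := by positivity
  have hc : Continuous fun θ : ℝ => g (circleMap 0 1 θ) := hg.comp (continuous_circleMap 0 1)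
  have hint : ∫ θ in (0 : ℝ)..(2 * π), g (circleMap 0 1 θ) ≤ 0 := by
    rw [Real.circleAverage_def, smul_eq_mul] at h
    by_contra hcon
    push Not at hcon
    have : 0 < (2 * π)⁻¹ * ∫ θ in (0 : ℝ)..(2 * π), g (circleMap 0 1 θ) := by positivity
    linarith
  intro z hz
  have hz' : z ∈ circleMap 0 1 '' Ioc 0 (2 * π) := by
    rw [image_circleMap_Ioc]; simpa using hz
  obtain ⟨θ, hθ, rfl⟩ := hz'
  by_contra hne
  have hpos : 0 < g (circleMap 0 1 θ) := lt_of_le_of_ne (h0 _) (Ne.symm hne)
  have := intervalIntegral.integral_pos h2π hc.continuousOn (fun x _ => h0 _)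
    ⟨θ, ⟨hθ.1.le, hθ.2⟩, hpos⟩
  linarith

/-- an entire function which is constant on the unit circle is constant. -/
theorem s9b_const_ident (G : ℂ → ℂ) (hG : Differentiable ℂ G) (a : ℂ)
    (h : ∀ z ∈ sphere (0 : ℂ) 1, G z = a) : ∀ z, G z = a := by
  have hd : Differentiable ℂ fun z => G z - a := hG.sub_const a
  have hball : ∀ z ∈ closure (ball (0 : ℂ) 1), ‖G z - a‖ ≤ 0 := by
    intro z hz
    apply Complex.norm_le_of_forall_mem_frontier_norm_le (f := fun z => G z - a) isBounded_ball
      hd.diffContOnCl _ hz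
    intro w hw
    rw [frontier_ball (0 : ℂ) one_ne_zero] at hw
    simp [h w hw]
  have hev : (fun z => G z - a) =ᶠ[𝓝 0] fun _ => 0 := by
    filter_upwards [ball_mem_nhds (0 : ℂ) one_pos] with z hz
    simpa using hball z (subset_closure hz)
  have han : AnalyticOnNhd ℂ (fun z => G z - a) univ := hd.differentiableOn.analyticOnNhd isOpen_univ
  have := han.eq_of_eventuallyEq (analyticOnNhd_const) hev
  intro z
  have h1 := congrFun this z
  simpa [sub_eq_zero] using h1

/-- mean value property for the real part of an entire function. -/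
theorem s9b_const_re_avg (G : ℂ → ℂ) (hG : Differentiable ℂ G) :
    Real.circleAverage (fun z => (G z).re) 0 1 = (G 0).re := by
  have h1 : Real.circleAverage G 0 1 = G 0 := hG.diffContOnCl.circleAverage
  have h2 := Complex.reCLM.circleAverage_comp_comm (f := G) (c := 0) (R := 1)
    (hG.continuous.continuousOn.circleIntegrable (by norm_num))
  rw [h1] at h2
  exact h2

theorem s9b_const_sq (G : ℂ → ℂ) (hG : Differentiable ℂ G)
    (h : Real.circleAverage (fun z => ‖G z‖ ^ 2) 0 1 ≤ ‖G 0‖ ^ 2) : ∀ z, G z = G 0 := by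
  have hGc := hG.continuous
  have hci : ∀ g : ℂ → ℝ, Continuous g → CircleIntegrable g 0 1 :=
    fun g hg => hg.continuousOn.circleIntegrable (by norm_num)
  have hexp : ∀ z, ‖G z - G 0‖ ^ 2 = ‖G z‖ ^ 2 - 2 * ((starRingEnd ℂ (G 0)) * G z).re + ‖G 0‖ ^ 2 := by
    intro z
    rw [← Complex.normSq_eq_norm_sq, ← Complex.normSq_eq_norm_sq, ← Complex.normSq_eq_norm_sq,
      Complex.normSq_sub]
    have : (G z * (starRingEnd ℂ) (G 0)).re = ((starRingEnd ℂ (G 0)) * G z).re := by rw [mul_comm]
    rw [this]; ring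
  have hre : Real.circleAverage (fun z => ((starRingEnd ℂ (G 0)) * G z).re) 0 1 = ‖G 0‖ ^ 2 := by
    rw [s9b_const_re_avg (fun z => (starRingEnd ℂ (G 0)) * G z) (hG.const_mul _)]
    rw [← Complex.normSq_eq_norm_sq]
    simp [Complex.mul_re, Complex.normSq_apply]
  have hc1 : Continuous fun z => ‖G z‖ ^ 2 := hGc.norm.pow 2
  have hc2 : Continuous fun z => ((starRingEnd ℂ (G 0)) * G z).re :=
    Complex.continuous_re.comp (hGc.const_mul _)
  have havg : Real.circleAverage (fun z => ‖G z - G 0‖ ^ 2) 0 1 ≤ 0 := by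
    have e : (fun z => ‖G z - G 0‖ ^ 2) = fun z => (‖G z‖ ^ 2
        - 2 * ((starRingEnd ℂ (G 0)) * G z).re) + ‖G 0‖ ^ 2 := by
      funext z; rw [hexp z]
    have e1 : Real.circleAverage (fun z => (‖G z‖ ^ 2
        - 2 * ((starRingEnd ℂ (G 0)) * G z).re) + ‖G 0‖ ^ 2) 0 1
        = Real.circleAverage (fun z => ‖G z‖ ^ 2 - 2 * ((starRingEnd ℂ (G 0)) * G z).re) 0 1
          + Real.circleAverage (fun _ => ‖G 0‖ ^ 2) 0 1 :=
      Real.circleAverage_fun_add (hci _ (hc1.sub (hc2.const_mul _))) (hci _ continuous_const)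
    have e2 : Real.circleAverage (fun z => ‖G z‖ ^ 2 - 2 * ((starRingEnd ℂ (G 0)) * G z).re) 0 1
        = Real.circleAverage (fun z => ‖G z‖ ^ 2) 0 1
          - Real.circleAverage (fun z => 2 * ((starRingEnd ℂ (G 0)) * G z).re) 0 1 :=
      Real.circleAverage_fun_sub (hci _ hc1) (hci _ (hc2.const_mul _))
    have e3 : Real.circleAverage (fun z => 2 * ((starRingEnd ℂ (G 0)) * G z).re) 0 1
        = 2 * Real.circleAverage (fun z => ((starRingEnd ℂ (G 0)) * G z).re) 0 1 := by
      have := Real.circleAverage_fun_smul (a := (2 : ℝ))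
        (f := fun z => ((starRingEnd ℂ (G 0)) * G z).re) (c := 0) (R := 1)
      simpa using this
    rw [e, e1, e2, e3, hre, Real.circleAverage_const]
    linarith
  have hz := s9b_const_avg_zero (fun z => ‖G z - G 0‖ ^ 2) ((hGc.sub continuous_const).norm.pow 2)
    (fun z => by positivity) havg
  apply s9b_const_ident G hG
  intro z hzs
  have := hz z hzs
  simpa [sub_eq_zero] using this

theorem s9b_const_abs (G : ℂ → ℂ) (hG : Differentiable ℂ G)
    (h : Real.circleAverage (fun z => ‖G z‖) 0 1 ≤ ‖G 0‖) : ∀ z, G z = G 0 := by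
  have hGc := hG.continuous
  have hci : ∀ g : ℂ → ℝ, Continuous g → CircleIntegrable g 0 1 :=
    fun g hg => hg.continuousOn.circleIntegrable (by norm_num)
  by_cases h0 : G 0 = 0
  · rw [h0, norm_zero] at h
    have hz := s9b_const_avg_zero (fun z => ‖G z‖) hGc.norm (fun z => norm_nonneg _) h
    rw [h0]
    apply s9b_const_ident G hG
    intro z hzs
    simpa using hz z hzs
  · have hn : 0 < ‖G 0‖ := norm_pos_iff.2 h0
    obtain ⟨a, ha⟩ : ∃ a : ℂ, a = (starRingEnd ℂ (G 0)) / (‖G 0‖ : ℂ) := ⟨_, rfl⟩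
    have hna : ‖a‖ = 1 := by
      rw [ha, norm_div, RCLike.norm_conj, Complex.norm_real, norm_norm, div_self hn.ne']
    have ha0 : a ≠ 0 := by
      intro hh; rw [hh, norm_zero] at hna; exact zero_ne_one hna
    have hg0 : a * G 0 = (‖G 0‖ : ℂ) := by
      rw [ha, div_mul_eq_mul_div, ← Complex.normSq_eq_conj_mul_self, Complex.normSq_eq_norm_sq]
      have : (‖G 0‖ : ℂ) ≠ 0 := by exact_mod_cast hn.ne'
      push_cast
      field_simp
    have hgd : Differentiable ℂ fun z => a * G z := hG.const_mul a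
    have hgn : ∀ z, ‖a * G z‖ = ‖G z‖ := by intro z; rw [norm_mul, hna, one_mul]
    have hc2 : Continuous fun z => (a * G z).re := Complex.continuous_re.comp hgd.continuous
    have havg : Real.circleAverage (fun z => ‖G z‖ - (a * G z).re) 0 1 ≤ 0 := by
      rw [Real.circleAverage_fun_sub (hci _ hGc.norm) (hci _ hc2), s9b_const_re_avg _ hgd, hg0]
      simp only [Complex.ofReal_re]
      linarith
    have hz := s9b_const_avg_zero (fun z => ‖G z‖ - (a * G z).re) (hGc.norm.sub hc2)
      (fun z => by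
        have := Complex.re_le_norm (a * G z)
        rw [hgn] at this
        linarith) havg
    have hsq : ∀ z ∈ sphere (0 : ℂ) 1, ‖a * G z‖ ^ 2 = ((a * G z) ^ 2).re := by
      intro z hzs
      have h1 : (a * G z).re = ‖a * G z‖ := by
        have := hz z hzs
        rw [hgn]; linarith
      have h2 : ‖a * G z‖ ^ 2 = (a * G z).re ^ 2 + (a * G z).im ^ 2 := by
        rw [← Complex.normSq_eq_norm_sq, Complex.normSq_apply]; ring
      have h3 : ((a * G z) ^ 2).re = (a * G z).re ^ 2 - (a * G z).im ^ 2 := by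
        rw [sq, Complex.mul_re]; ring
      rw [h3, ← h1]
      rw [← h1] at h2
      linarith
    have hfin : Real.circleAverage (fun z => ‖a * G z‖ ^ 2) 0 1 ≤ ‖a * G 0‖ ^ 2 := by
      have e1 : Real.circleAverage (fun z => ‖a * G z‖ ^ 2) 0 1
          = Real.circleAverage (fun z => ((a * G z) ^ 2).re) 0 1 := by
        apply Real.circleAverage_congr_sphere
        intro z hzs
        exact hsq z (by simpa using hzs)
      rw [e1, s9b_const_re_avg (fun z => (a * G z) ^ 2) (hgd.pow 2), hg0]
      apply le_of_eq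
      rw [← Complex.ofReal_pow, Complex.ofReal_re, Complex.norm_real, norm_norm]
    have := s9b_const_sq _ hgd hfin
    intro z
    exact mul_left_cancel₀ ha0 (this z)

end Claimed.Agent.R269
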