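/-
Row 269, UNIT S9b1 (P1 Lemma 9.4), LEAF PACKAGE LF-S9b-limit.   Blueprint: helper149.   HOST-FREE (only `S9Pair`), no paper reading needed.

THE LIMIT PROFILE IS A PURE EXPONENTIAL.      `m j := √(u (c j))`,  `𝓕 j S := f (c j + ℓ j S)/m j`,   `𝓠 j S := q (c j + ℓ j S)/(m j)²`.     `‖𝓕 j S‖² + ‖𝓠 j S‖ = u (c j + ℓ j S)/u (c j)`.

PROOF.  (1) For every `z` and `r = 1`: for large `j` the ball `ball z 1` is mapped by `S ↦ c j + ℓ j S` into the strip (`hwall`), so `𝓕 j`, `𝓠 j` are holomorphic there, and bounded by `hloc` (`A = ‖z‖ + 1`): `‖𝓕 j‖ ≤ √C`, `‖𝓠 j‖ ≤ C`.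
 `s9_montel` on `U = univ`, twice: a subsequence `ψ` with `𝓕 (ψ j) → 𝓕`, `𝓠 (ψ j) → 𝓠` locally uniformly, `𝓕, 𝓠` entire.
 (2) `𝓕 j'' = (ℓ j m j)² 𝓠 j 𝓕 j` (chain rule + `hp.ode`).  `𝓕 (ψ j)'' → 𝓕''` locally uniformly (`ca_montel_deriv` twice), in particular bounded at each point; `ℓ j m j → ∞`; so `𝓠 𝓕 = lim 𝓕 j''/(ℓ j m j)² = 0` pointwise.
     By the identity theorem `𝓕 ≡ 0` or `𝓠 ≡ 0`  (if `𝓕 z₀ ≠ 0` then `𝓠 = 0` near `z₀`).
 (3) `‖𝓕 0‖² + ‖𝓠 0‖ = 1` (exact at every `j`).     `G₁ := e^{iS} 𝓕`, `G₂ := e^{2iS} 𝓠`:   `‖G₁‖² + ‖G₂‖ = lim s9b_U f q (c j) (ℓ j) S/u (c j)` uniformly on the unit circle, so by `hdef`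
     `circleAverage (‖G₁‖² + ‖G₂‖) 0 1 = 1 = ‖G₁ 0‖² + ‖G₂ 0‖`.
 (4) Case `𝓠 ≡ 0`: `circleAverage ‖G₁‖² = ‖G₁ 0‖²`, `s9b_const_sq`: `𝓕 = c₀ e^{-iS}`, `‖c₀‖ = 1`.      Case `𝓕 ≡ 0`: `s9b_const_abs`: `𝓠 = c₂ e^{-2iS}`, `‖c₂‖ = 1`; `c₀ :=` a square root of `c₂` (`c₂ ^ (1/2 : ℂ)`, or `IsAlgClosed.exists_pow_nat_eq`).
 (`TendstoLocallyUniformlyOn _ _ _ univ ↔ TendstoLocallyUniformly`: `tendstoLocallyUniformlyOn_univ`.)
-/
import Claimed.Agent.R269.S9.SteepDefect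
import Claimed.Agent.R269.S9.SteepConst
import Claimed.Agent.R269.S9.LibMontel

set_option autoImplicit false

namespace Claimed.Agent.R269

open Complex Filter Topology MeasureTheory Set Metric
open scoped ENNReal Real

/-- the rescaled first field. -/
noncomputable def s9bl_F (f q : ℂ → ℂ) (c : ℕ → ℂ) (ℓ : ℕ → ℝ) (j : ℕ) (S : ℂ) : ℂ :=
  f (c j + (ℓ j : ℂ) * S) / ((Real.sqrt (s9u f q (c j)) : ℝ) : ℂ)

/-- the rescaled potential. -/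
noncomputable def s9bl_Q (f q : ℂ → ℂ) (c : ℕ → ℂ) (ℓ : ℕ → ℝ) (j : ℕ) (S : ℂ) : ℂ :=
  q (c j + (ℓ j : ℂ) * S) / ((Real.sqrt (s9u f q (c j)) : ℝ) : ℂ) ^ 2

theorem s9bl_im (c : ℂ) (ℓ : ℝ) (S : ℂ) : (c + (ℓ : ℂ) * S).im = c.im + ℓ * S.im := by
  rw [Complex.add_im, Complex.im_ofReal_mul]

theorem s9bl_strip {H : ℝ} (c : ℕ → ℂ) (ℓ : ℕ → ℝ) (hℓ : ∀ j, 0 < ℓ j)
    (hwall : Tendsto (fun j => (H - |(c j).im|) / ℓ j) atTop atTop) (A : ℝ) :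
    ∀ᶠ j in atTop, ∀ S : ℂ, |S.im| ≤ A → |(c j + (ℓ j : ℂ) * S).im| < H := by
  filter_upwards [hwall.eventually_gt_atTop A] with j hj S hS
  rw [lt_div_iff₀ (hℓ j)] at hj
  rw [s9bl_im]
  calc |(c j).im + ℓ j * S.im| ≤ |(c j).im| + |ℓ j * S.im| := abs_add_le _ _
    _ = |(c j).im| + ℓ j * |S.im| := by rw [abs_mul, abs_of_pos (hℓ j)]
    _ ≤ |(c j).im| + ℓ j * A := by
        have := mul_le_mul_of_nonneg_left hS (hℓ j).le
        linarith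
    _ < H := by linarith

theorem s9bl_norm (f q : ℂ → ℂ) (c : ℕ → ℂ) (ℓ : ℕ → ℝ) (j : ℕ) (S : ℂ) (hu : 0 < s9u f q (c j)) :
    ‖s9bl_F f q c ℓ j S‖ ^ 2 + ‖s9bl_Q f q c ℓ j S‖ =
      s9u f q (c j + (ℓ j : ℂ) * S) / s9u f q (c j) := by
  unfold s9bl_F s9bl_Q
  rw [norm_div, norm_div, norm_pow, Complex.norm_real, Real.norm_of_nonneg (Real.sqrt_nonneg _),
    div_pow, Real.sq_sqrt hu.le, ← add_div]
  rfl

theorem s9bl_F_diff {f q : ℂ → ℂ} {H : ℝ} (hp : S9Pair f q H) (c : ℕ → ℂ) (ℓ : ℕ → ℝ) (j : ℕ)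
    (s : Set ℂ) (hs : ∀ S ∈ s, |(c j + (ℓ j : ℂ) * S).im| < H) :
    DifferentiableOn ℂ (s9bl_F f q c ℓ j) s := by
  show DifferentiableOn ℂ (fun S => f (c j + (ℓ j : ℂ) * S) / _) s
  refine DifferentiableOn.div_const ?_ _
  exact hp.f_diff.comp (f := fun S => c j + (ℓ j : ℂ) * S) (by fun_prop) hs

theorem s9bl_Q_diff {f q : ℂ → ℂ} {H : ℝ} (hp : S9Pair f q H) (c : ℕ → ℂ) (ℓ : ℕ → ℝ) (j : ℕ)
    (s : Set ℂ) (hs : ∀ S ∈ s, |(c j + (ℓ j : ℂ) * S).im| < H) :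
    DifferentiableOn ℂ (s9bl_Q f q c ℓ j) s := by
  show DifferentiableOn ℂ (fun S => q (c j + (ℓ j : ℂ) * S) / _) s
  refine DifferentiableOn.div_const ?_ _
  exact hp.q_diff.comp (f := fun S => c j + (ℓ j : ℂ) * S) (by fun_prop) hs

theorem s9bl_local {f q : ℂ → ℂ} {H : ℝ} (c : ℕ → ℂ) (ℓ : ℕ → ℝ)
    (hpos : ∀ j, 0 < ℓ j ∧ |(c j).im| < H ∧ 0 < s9u f q (c j))
    (hwall : Tendsto (fun j => (H - |(c j).im|) / ℓ j) atTop atTop)
    (hloc : ∀ A > (0 : ℝ), ∃ C : ℝ, ∀ᶠ j in atTop, ∀ S : ℂ, |S.re| ≤ A → |S.im| ≤ A →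
      s9u f q (c j + (ℓ j : ℂ) * S) ≤ C * s9u f q (c j)) (z : ℂ) :
    ∃ C : ℝ, ∀ᶠ j in atTop, (∀ w ∈ ball z 1, |(c j + (ℓ j : ℂ) * w).im| < H) ∧
      ∀ w ∈ ball z 1, ‖s9bl_F f q c ℓ j w‖ ≤ C ∧ ‖s9bl_Q f q c ℓ j w‖ ≤ C := by
  obtain ⟨C, hC⟩ := hloc (‖z‖ + 1) (by positivity)
  refine ⟨C + 1, ?_⟩
  filter_upwards [hC, s9bl_strip c ℓ (fun j => (hpos j).1) hwall (‖z‖ + 1)] with j hj hs
  have hw : ∀ w ∈ ball z 1, ‖w‖ ≤ ‖z‖ + 1 := by
    intro w hw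
    have h1 : ‖w - z‖ < 1 := by simpa [dist_eq_norm] using hw
    have h2 : ‖w‖ ≤ ‖z‖ + ‖w - z‖ := by
      have := norm_add_le z (w - z)
      rwa [add_sub_cancel] at this
    linarith
  refine ⟨fun w hw' => hs w ((Complex.abs_im_le_norm w).trans (hw w hw')), fun w hw' => ?_⟩
  have h1 := s9bl_norm f q c ℓ j w (hpos j).2.2
  have h2 : s9u f q (c j + (ℓ j : ℂ) * w) / s9u f q (c j) ≤ C := by
    rw [div_le_iff₀ (hpos j).2.2]
    exact hj w ((Complex.abs_re_le_norm w).trans (hw w hw'))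
      ((Complex.abs_im_le_norm w).trans (hw w hw'))
  have h3 := norm_nonneg (s9bl_F f q c ℓ j w)
  have h4 := norm_nonneg (s9bl_Q f q c ℓ j w)
  constructor <;> nlinarith [sq_nonneg (‖s9bl_F f q c ℓ j w‖ - 1)]

theorem s9bl_extract {f q : ℂ → ℂ} {H : ℝ} (hp : S9Pair f q H) (c : ℕ → ℂ) (ℓ : ℕ → ℝ)
    (hpos : ∀ j, 0 < ℓ j ∧ |(c j).im| < H ∧ 0 < s9u f q (c j))
    (hwall : Tendsto (fun j => (H - |(c j).im|) / ℓ j) atTop atTop)
    (hloc : ∀ A > (0 : ℝ), ∃ C : ℝ, ∀ᶠ j in atTop, ∀ S : ℂ, |S.re| ≤ A → |S.im| ≤ A →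
      s9u f q (c j + (ℓ j : ℂ) * S) ≤ C * s9u f q (c j)) :
    ∃ (ψ : ℕ → ℕ) (F' Q' : ℂ → ℂ), StrictMono ψ ∧ Differentiable ℂ F' ∧ Differentiable ℂ Q' ∧
      TendstoLocallyUniformlyOn (fun j => s9bl_F f q c ℓ (ψ j)) F' atTop univ ∧
      TendstoLocallyUniformlyOn (fun j => s9bl_Q f q c ℓ (ψ j)) Q' atTop univ := by
  have hl := s9bl_local c ℓ hpos hwall hloc
  obtain ⟨φ₁, F', hφ₁, hF', hF⟩ := s9_montel univ isOpen_univ (s9bl_F f q c ℓ) (fun z _ => by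
    obtain ⟨C, hC⟩ := hl z
    exact ⟨1, one_pos, C, hC.mono fun j hj =>
      ⟨s9bl_F_diff hp c ℓ j _ hj.1, fun w hw => (hj.2 w hw).1⟩⟩)
  obtain ⟨φ₂, Q', hφ₂, hQ', hQ⟩ := s9_montel univ isOpen_univ (fun n => s9bl_Q f q c ℓ (φ₁ n))
    (fun z _ => by
      obtain ⟨C, hC⟩ := hl z
      exact ⟨1, one_pos, C, (hφ₁.tendsto_atTop.eventually hC).mono fun j hj =>
        ⟨s9bl_Q_diff hp c ℓ _ _ hj.1, fun w hw => (hj.2 w hw).2⟩⟩)
  refine ⟨φ₁ ∘ φ₂, F', Q', hφ₁.comp hφ₂, differentiableOn_univ.1 hF', differentiableOn_univ.1 hQ',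
    ?_, hQ⟩
  intro u hu x hx
  obtain ⟨t, ht, h⟩ := hF u hu x hx
  exact ⟨t, ht, hφ₂.tendsto_atTop.eventually h⟩

/-- the rescaled equation. -/
theorem s9bl_deriv2 {f q : ℂ → ℂ} {H : ℝ} (hp : S9Pair f q H) (c : ℕ → ℂ) (ℓ : ℕ → ℝ) (j : ℕ)
    (hu : 0 < s9u f q (c j)) (S : ℂ) (hS : |(c j + (ℓ j : ℂ) * S).im| < H) :
    deriv (deriv (s9bl_F f q c ℓ j)) S =
      ((ℓ j * Real.sqrt (s9u f q (c j)) : ℝ) : ℂ) ^ 2 * (s9bl_Q f q c ℓ j S * s9bl_F f q c ℓ j S) := by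
  obtain ⟨m, hm⟩ : ∃ m, m = Real.sqrt (s9u f q (c j)) := ⟨_, rfl⟩
  have hm0 : 0 < m := hm ▸ Real.sqrt_pos.2 hu
  have hmC : (m : ℂ) ≠ 0 := by exact_mod_cast hm0.ne'
  have hopen : IsOpen {S : ℂ | |(c j + (ℓ j : ℂ) * S).im| < H} :=
    (s9_strip_open H).preimage (f := fun S : ℂ => c j + (ℓ j : ℂ) * S) (by fun_prop)
  have haff : ∀ S : ℂ, HasDerivAt (fun S : ℂ => c j + (ℓ j : ℂ) * S) (ℓ j : ℂ) S := by
    intro S
    simpa using ((hasDerivAt_id S).const_mul (ℓ j : ℂ)).const_add (c j)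
  have h1 : ∀ S' ∈ {S : ℂ | |(c j + (ℓ j : ℂ) * S).im| < H},
      HasDerivAt (s9bl_F f q c ℓ j) (deriv f (c j + (ℓ j : ℂ) * S') * (ℓ j : ℂ) / (m : ℂ)) S' := by
    intro S' hS'
    have hf : HasDerivAt f (deriv f (c j + (ℓ j : ℂ) * S')) (c j + (ℓ j : ℂ) * S') :=
      ((hp.f_diff _ hS').differentiableAt ((s9_strip_open H).mem_nhds hS')).hasDerivAt
    have := (hf.comp S' (haff S')).div_const (m : ℂ)
    rw [hm] at this ⊢
    exact this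
  have h2 : deriv (s9bl_F f q c ℓ j) =ᶠ[𝓝 S]
      fun S' => deriv f (c j + (ℓ j : ℂ) * S') * (ℓ j : ℂ) / (m : ℂ) := by
    filter_upwards [hopen.mem_nhds hS] with S' hS'
    exact (h1 S' hS').deriv
  rw [h2.deriv_eq]
  have hf' : HasDerivAt (deriv f) (deriv (deriv f) (c j + (ℓ j : ℂ) * S)) (c j + (ℓ j : ℂ) * S) :=
    (((hp.f_diff.deriv (s9_strip_open H)) _ hS).differentiableAt
      ((s9_strip_open H).mem_nhds hS)).hasDerivAt
  have h3 := (((hf'.comp S (haff S)).mul_const (ℓ j : ℂ)).div_const (m : ℂ)).deriv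
  have h4 : (fun S' => deriv f (c j + (ℓ j : ℂ) * S') * (ℓ j : ℂ) / (m : ℂ)) =
      fun S' => (deriv f ∘ fun S : ℂ => c j + (ℓ j : ℂ) * S) S' * (ℓ j : ℂ) / (m : ℂ) := rfl
  rw [h4, h3, hp.ode _ hS]
  unfold s9bl_F s9bl_Q
  rw [← hm]
  push_cast
  field_simp

theorem s9bl_ball_norm (z w : ℂ) (hw : w ∈ ball z 1) : ‖w‖ ≤ ‖z‖ + 1 := by
  have h1 : ‖w - z‖ < 1 := by simpa [dist_eq_norm] using hw
  have h2 : ‖w‖ ≤ ‖z‖ + ‖w - z‖ := by
    have := norm_add_le z (w - z)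
    rwa [add_sub_cancel] at this
  linarith

theorem s9bl_prod_zero {f q : ℂ → ℂ} {H : ℝ} (hp : S9Pair f q H) (c : ℕ → ℂ) (ℓ : ℕ → ℝ)
    (hpos : ∀ j, 0 < ℓ j ∧ |(c j).im| < H ∧ 0 < s9u f q (c j))
    (hwall : Tendsto (fun j => (H - |(c j).im|) / ℓ j) atTop atTop)
    (hbig : Tendsto (fun j => ℓ j * Real.sqrt (s9u f q (c j))) atTop atTop)
    (ψ : ℕ → ℕ) (hψ : StrictMono ψ) (F' Q' : ℂ → ℂ)
    (hF : TendstoLocallyUniformlyOn (fun j => s9bl_F f q c ℓ (ψ j)) F' atTop univ)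
    (hQ : TendstoLocallyUniformlyOn (fun j => s9bl_Q f q c ℓ (ψ j)) Q' atTop univ) (S : ℂ) :
    Q' S * F' S = 0 := by
  have hstrip : ∀ z : ℂ, ∀ᶠ n in atTop, ∀ w ∈ ball z 1,
      |(c (ψ n) + (ℓ (ψ n) : ℂ) * w).im| < H := by
    intro z
    filter_upwards [hψ.tendsto_atTop.eventually
      (s9bl_strip c ℓ (fun j => (hpos j).1) hwall (‖z‖ + 1))] with n hn w hw
    exact hn w ((Complex.abs_im_le_norm w).trans (s9bl_ball_norm z w hw))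
  have hd1 := ca_montel_deriv isOpen_univ (F := fun j => s9bl_F f q c ℓ (ψ j))
    (fun z _ => ⟨1, one_pos, (hstrip z).mono fun n hn => s9bl_F_diff hp c ℓ _ _ hn⟩) hF
  have hd2 := ca_montel_deriv isOpen_univ (F := fun j => deriv (s9bl_F f q c ℓ (ψ j)))
    (fun z _ => ⟨1, one_pos, (hstrip z).mono fun n hn =>
      (s9bl_F_diff hp c ℓ _ _ hn).deriv isOpen_ball⟩) hd1
  have h1 : Tendsto (fun n => deriv (deriv (s9bl_F f q c ℓ (ψ n))) S) atTop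
      (𝓝 (deriv (deriv F') S)) := hd2.tendsto_at (mem_univ S)
  have h2 : Tendsto (fun n => s9bl_Q f q c ℓ (ψ n) S * s9bl_F f q c ℓ (ψ n) S) atTop
      (𝓝 (Q' S * F' S)) := (hQ.tendsto_at (mem_univ S)).mul (hF.tendsto_at (mem_univ S))
  have hb0 := hbig.comp hψ.tendsto_atTop
  have hb : Tendsto (fun n => (ℓ (ψ n) * Real.sqrt (s9u f q (c (ψ n)))) ^ 2) atTop atTop :=
    (tendsto_pow_atTop two_ne_zero).comp hb0
  have h3 : Tendsto (fun n => ‖deriv (deriv (s9bl_F f q c ℓ (ψ n))) S‖ /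
      (ℓ (ψ n) * Real.sqrt (s9u f q (c (ψ n)))) ^ 2) atTop (𝓝 0) := h1.norm.div_atTop hb
  have h4 : Tendsto (fun n => s9bl_Q f q c ℓ (ψ n) S * s9bl_F f q c ℓ (ψ n) S) atTop (𝓝 0) := by
    rw [tendsto_zero_iff_norm_tendsto_zero]
    refine h3.congr' ?_
    filter_upwards [hstrip S, hb0.eventually_gt_atTop 0] with n hn hbn
    have hbn' : 0 < ℓ (ψ n) * Real.sqrt (s9u f q (c (ψ n))) := hbn
    rw [s9bl_deriv2 hp c ℓ (ψ n) (hpos _).2.2 S (hn S (mem_ball_self one_pos)), norm_mul, norm_pow,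
      Complex.norm_real, Real.norm_of_nonneg hbn'.le]
    exact mul_div_cancel_left₀ _ (pow_pos hbn' 2).ne'
  exact tendsto_nhds_unique h2 h4

theorem s9bl_avg {f q : ℂ → ℂ} {H : ℝ} (hp : S9Pair f q H) (c : ℕ → ℂ) (ℓ : ℕ → ℝ)
    (hpos : ∀ j, 0 < ℓ j ∧ |(c j).im| < H ∧ 0 < s9u f q (c j))
    (hwall : Tendsto (fun j => (H - |(c j).im|) / ℓ j) atTop atTop)
    (hloc : ∀ A > (0 : ℝ), ∃ C : ℝ, ∀ᶠ j in atTop, ∀ S : ℂ, |S.re| ≤ A → |S.im| ≤ A →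
      s9u f q (c j + (ℓ j : ℂ) * S) ≤ C * s9u f q (c j))
    (hdef : Tendsto (fun j => Real.circleAverage (s9b_U f q (c j) (ℓ j)) 0 1 / s9u f q (c j))
      atTop (𝓝 1))
    (ψ : ℕ → ℕ) (hψ : StrictMono ψ) (F' Q' : ℂ → ℂ)
    (hF : TendstoLocallyUniformlyOn (fun j => s9bl_F f q c ℓ (ψ j)) F' atTop univ)
    (hQ : TendstoLocallyUniformlyOn (fun j => s9bl_Q f q c ℓ (ψ j)) Q' atTop univ) :
    Real.circleAverage (fun S => Real.exp (-2 * S.im) * (‖F' S‖ ^ 2 + ‖Q' S‖)) 0 1 = 1 := by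
  have h1 : Tendsto (fun n => Real.circleAverage (s9b_U f q (c (ψ n)) (ℓ (ψ n))) 0 1 /
      s9u f q (c (ψ n))) atTop (𝓝 1) := hdef.comp hψ.tendsto_atTop
  have hcm : ∀ θ : ℝ, ‖circleMap 0 1 θ‖ = 1 := fun θ => by rw [norm_circleMap_zero, abs_one]
  have h2 : Tendsto (fun n => Real.circleAverage (s9b_U f q (c (ψ n)) (ℓ (ψ n))) 0 1 /
      s9u f q (c (ψ n))) atTop
      (𝓝 (Real.circleAverage (fun S => Real.exp (-2 * S.im) * (‖F' S‖ ^ 2 + ‖Q' S‖)) 0 1)) := by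
    have hrw : ∀ n, Real.circleAverage (s9b_U f q (c (ψ n)) (ℓ (ψ n))) 0 1 / s9u f q (c (ψ n)) =
        (2 * π)⁻¹ * ∫ θ in (0 : ℝ)..(2 * π), Real.exp (-2 * (circleMap 0 1 θ).im) *
          (‖s9bl_F f q c ℓ (ψ n) (circleMap 0 1 θ)‖ ^ 2 +
            ‖s9bl_Q f q c ℓ (ψ n) (circleMap 0 1 θ)‖) := by
      intro n
      rw [Real.circleAverage_def, smul_eq_mul, mul_div_assoc, ← intervalIntegral.integral_div]
      congr 1
      apply intervalIntegral.integral_congr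
      intro θ _
      simp only [s9b_U]
      rw [s9bl_norm f q c ℓ (ψ n) _ (hpos _).2.2, mul_div_assoc]
    simp_rw [hrw]
    rw [Real.circleAverage_def, smul_eq_mul]
    apply Tendsto.const_mul
    obtain ⟨C, hC⟩ := hloc 1 one_pos
    apply intervalIntegral.tendsto_integral_filter_of_dominated_convergence
      (fun _ => Real.exp 2 * C)
    · filter_upwards [hψ.tendsto_atTop.eventually
        (s9bl_strip c ℓ (fun j => (hpos j).1) hwall 1)] with n hn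
      apply Continuous.aestronglyMeasurable
      have hmem : ∀ θ : ℝ, circleMap 0 1 θ ∈ {S : ℂ | |S.im| ≤ 1} := fun θ =>
        (Complex.abs_im_le_norm _).trans (hcm θ).le
      have hcF : Continuous fun θ : ℝ => s9bl_F f q c ℓ (ψ n) (circleMap 0 1 θ) :=
        (s9bl_F_diff hp c ℓ (ψ n) {S : ℂ | |S.im| ≤ 1} hn).continuousOn.comp_continuous
          (continuous_circleMap 0 1) hmem
      have hcQ : Continuous fun θ : ℝ => s9bl_Q f q c ℓ (ψ n) (circleMap 0 1 θ) :=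
        (s9bl_Q_diff hp c ℓ (ψ n) {S : ℂ | |S.im| ≤ 1} hn).continuousOn.comp_continuous
          (continuous_circleMap 0 1) hmem
      have hci : Continuous fun θ : ℝ => (circleMap 0 1 θ).im :=
        Complex.continuous_im.comp (continuous_circleMap 0 1)
      exact (Real.continuous_exp.comp (continuous_const.mul hci)).mul
        ((hcF.norm.pow 2).add hcQ.norm)
    · filter_upwards [hψ.tendsto_atTop.eventually hC] with n hn
      refine Eventually.of_forall fun θ _ => ?_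
      have h3 := s9bl_norm f q c ℓ (ψ n) (circleMap 0 1 θ) (hpos _).2.2
      have h4 : s9u f q (c (ψ n) + (ℓ (ψ n) : ℂ) * circleMap 0 1 θ) / s9u f q (c (ψ n)) ≤ C := by
        rw [div_le_iff₀ (hpos _).2.2]
        exact hn _ ((Complex.abs_re_le_norm _).trans (hcm θ).le)
          ((Complex.abs_im_le_norm _).trans (hcm θ).le)
      have h5 : 0 ≤ ‖s9bl_F f q c ℓ (ψ n) (circleMap 0 1 θ)‖ ^ 2 +
          ‖s9bl_Q f q c ℓ (ψ n) (circleMap 0 1 θ)‖ := by positivity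
      rw [Real.norm_of_nonneg (mul_nonneg (Real.exp_pos _).le h5)]
      refine mul_le_mul (Real.exp_le_exp.2 ?_) (h3 ▸ h4) h5 (Real.exp_pos _).le
      have := (abs_le.1 ((Complex.abs_im_le_norm (circleMap 0 1 θ)).trans (hcm θ).le)).1
      linarith
    · exact intervalIntegrable_const
    · refine Eventually.of_forall fun θ _ => ?_
      exact (((hF.tendsto_at (mem_univ _)).norm.pow 2).add
        (hQ.tendsto_at (mem_univ _)).norm).const_mul _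
  exact tendsto_nhds_unique h2 h1

theorem s9bl_zero {f q : ℂ → ℂ} (c : ℕ → ℂ) (ℓ : ℕ → ℝ)
    (hpos : ∀ j, 0 < s9u f q (c j)) (ψ : ℕ → ℕ) (F' Q' : ℂ → ℂ)
    (hF : TendstoLocallyUniformlyOn (fun j => s9bl_F f q c ℓ (ψ j)) F' atTop univ)
    (hQ : TendstoLocallyUniformlyOn (fun j => s9bl_Q f q c ℓ (ψ j)) Q' atTop univ) :
    ‖F' 0‖ ^ 2 + ‖Q' 0‖ = 1 := by
  have h1 : Tendsto (fun n => ‖s9bl_F f q c ℓ (ψ n) 0‖ ^ 2 + ‖s9bl_Q f q c ℓ (ψ n) 0‖) atTop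
      (𝓝 (‖F' 0‖ ^ 2 + ‖Q' 0‖)) :=
    ((hF.tendsto_at (mem_univ _)).norm.pow 2).add (hQ.tendsto_at (mem_univ _)).norm
  have h2 : (fun n => ‖s9bl_F f q c ℓ (ψ n) 0‖ ^ 2 + ‖s9bl_Q f q c ℓ (ψ n) 0‖) = fun _ => 1 := by
    funext n
    rw [s9bl_norm f q c ℓ (ψ n) 0 (hpos _), mul_zero, add_zero, div_self (hpos _).ne']
  rw [h2] at h1
  exact tendsto_nhds_unique h1 tendsto_const_nhds

/-- LEAF: identification of the limit profile. -/
theorem s9b_limit {f q : ℂ → ℂ} {H : ℝ} (hp : S9Pair f q H) (c : ℕ → ℂ) (ℓ : ℕ → ℝ)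
    (hpos : ∀ j, 0 < ℓ j ∧ |(c j).im| < H ∧ 0 < s9u f q (c j))
    (hwall : Tendsto (fun j => (H - |(c j).im|) / ℓ j) atTop atTop)
    (hbig : Tendsto (fun j => ℓ j * Real.sqrt (s9u f q (c j))) atTop atTop)
    (hloc : ∀ A > (0 : ℝ), ∃ C : ℝ, ∀ᶠ j in atTop, ∀ S : ℂ, |S.re| ≤ A → |S.im| ≤ A →
      s9u f q (c j + (ℓ j : ℂ) * S) ≤ C * s9u f q (c j))
    (hdef : Tendsto (fun j => Real.circleAverage (s9b_U f q (c j) (ℓ j)) 0 1 / s9u f q (c j)) atTop (𝓝 1)) :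
    ∃ (ψ : ℕ → ℕ) (c₀ : ℂ), StrictMono ψ ∧ c₀ ≠ 0 ∧
      ((TendstoLocallyUniformly
            (fun j S => f (c (ψ j) + (ℓ (ψ j) : ℂ) * S) / ((Real.sqrt (s9u f q (c (ψ j))) : ℝ) : ℂ))
            (fun S => c₀ * Complex.exp (-(I * S))) atTop ∧
          TendstoLocallyUniformly
            (fun j S => q (c (ψ j) + (ℓ (ψ j) : ℂ) * S) / ((Real.sqrt (s9u f q (c (ψ j))) : ℝ) : ℂ) ^ 2)
            (fun _ => 0) atTop) ∨
        (TendstoLocallyUniformly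
            (fun j S => f (c (ψ j) + (ℓ (ψ j) : ℂ) * S) / ((Real.sqrt (s9u f q (c (ψ j))) : ℝ) : ℂ))
            (fun _ => 0) atTop ∧
          TendstoLocallyUniformly
            (fun j S => q (c (ψ j) + (ℓ (ψ j) : ℂ) * S) / ((Real.sqrt (s9u f q (c (ψ j))) : ℝ) : ℂ) ^ 2)
            (fun S => c₀ ^ 2 * Complex.exp (-(2 * I * S))) atTop)) := by
  obtain ⟨ψ, F', Q', hψ, hF'd, hQ'd, hF, hQ⟩ := s9bl_extract hp c ℓ hpos hwall hloc
  have hprod := s9bl_prod_zero hp c ℓ hpos hwall hbig ψ hψ F' Q' hF hQ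
  have havg := s9bl_avg hp c ℓ hpos hwall hloc hdef ψ hψ F' Q' hF hQ
  have hzero := s9bl_zero c ℓ (fun j => (hpos j).2.2) ψ F' Q' hF hQ
  have hFu : TendstoLocallyUniformly (fun j => s9bl_F f q c ℓ (ψ j)) F' atTop :=
    tendstoLocallyUniformlyOn_univ.1 hF
  have hQu : TendstoLocallyUniformly (fun j => s9bl_Q f q c ℓ (ψ j)) Q' atTop :=
    tendstoLocallyUniformlyOn_univ.1 hQ
  have halt := AnalyticOnNhd.eq_zero_or_eq_zero_of_mul_eq_zero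
    (hQ'd.differentiableOn.analyticOnNhd isOpen_univ) (hF'd.differentiableOn.analyticOnNhd isOpen_univ)
    (fun z _ => hprod z) isPreconnected_univ
  rcases halt with hQ0 | hF0
  · -- the first profile
    have hQ0' : Q' = fun _ => 0 := funext fun z => hQ0 z (mem_univ z)
    have hG : Differentiable ℂ fun S => Complex.exp (I * S) * F' S :=
      ((differentiable_const I).mul differentiable_id).cexp.mul hF'd
    have hn : ∀ S : ℂ, ‖Complex.exp (I * S) * F' S‖ ^ 2 =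
        Real.exp (-2 * S.im) * (‖F' S‖ ^ 2 + ‖Q' S‖) := by
      intro S
      rw [hQ0', norm_mul, Complex.norm_exp, mul_pow, ← Real.exp_nat_mul]
      simp
    have hconst := s9b_const_sq (fun S => Complex.exp (I * S) * F' S) hG (by
      simp_rw [hn]
      rw [havg]
      simp [hzero])
    have hc₀ : F' 0 ≠ 0 := by
      intro h0
      rw [h0, hQ0'] at hzero
      simp at hzero
    refine ⟨ψ, F' 0, hψ, hc₀, Or.inl ⟨?_, ?_⟩⟩
    · have : F' = fun S => F' 0 * Complex.exp (-(I * S)) := by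
        funext S
        have h1 := hconst S
        simp only [mul_zero, Complex.exp_zero, one_mul] at h1
        rw [← h1, Complex.exp_neg]
        field_simp [Complex.exp_ne_zero]
      rw [← this]
      exact hFu
    · rw [← hQ0']
      exact hQu
  · -- the second profile
    have hF0' : F' = fun _ => 0 := funext fun z => hF0 z (mem_univ z)
    have hG : Differentiable ℂ fun S => Complex.exp (2 * I * S) * Q' S :=
      ((differentiable_const (2 * I)).mul differentiable_id).cexp.mul hQ'd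
    have hn : ∀ S : ℂ, ‖Complex.exp (2 * I * S) * Q' S‖ =
        Real.exp (-2 * S.im) * (‖F' S‖ ^ 2 + ‖Q' S‖) := by
      intro S
      rw [hF0', norm_mul, Complex.norm_exp]
      simp [mul_assoc]
    have hconst := s9b_const_abs (fun S => Complex.exp (2 * I * S) * Q' S) hG (by
      simp_rw [hn]
      rw [havg]
      simp [hzero])
    have hc₂ : Q' 0 ≠ 0 := by
      intro h0
      rw [h0, hF0'] at hzero
      simp at hzero
    obtain ⟨c₀, hc₀⟩ := IsAlgClosed.exists_pow_nat_eq (Q' 0) (n := 2) (by norm_num)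
    refine ⟨ψ, c₀, hψ, ?_, Or.inr ⟨?_, ?_⟩⟩
    · intro h0
      rw [h0] at hc₀
      exact hc₂ (by rw [← hc₀]; simp)
    · rw [← hF0']
      exact hFu
    · have : Q' = fun S => c₀ ^ 2 * Complex.exp (-(2 * I * S)) := by
        funext S
        have h1 := hconst S
        simp only [mul_zero, Complex.exp_zero, one_mul] at h1
        rw [hc₀, ← h1, Complex.exp_neg]
        field_simp [Complex.exp_ne_zero]
      rw [← this]
      exact hQu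

end Claimed.Agent.R269
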