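/-
Row 269, UNIT S9b1 (P1 Lemma 9.4), LEAF PACKAGES LF-S9b-tile (`s9_disc_sup`, `s9_tile`) and LF-S9b-cone (`s9b_cone`).   Blueprint: helper149.   HOST-FREE (only `S9Pair`), no paper reading needed.

"Submean estimates applied before taking expectation": the supremum of `u = |f|² + |q|` over a tile translated by `x` has a continuous majorant `Φ x` whose mean over `x` is controlled by the ROW energies.

`s9_disc_sup`: Cauchy formula in Mathlib's form `DiffContOnCl.circleAverage_smul_div`: `g w = circleAverage (fun z => ((z - c)/(z - w)) • g z) c R`; on the circle `‖(z-c)/(z-w)‖ ≤ R/(R - ‖w - c‖)`;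
   norm of an average `≤` average of the norm, monotonicity of `circleAverage` (`circleAverage_mono`).

`s9_tile`, PROOF P (recommended).   `R = 2r`.   For `|Re s| ≤ a`, `|Im s - hc| ≤ r` and `ξ ∈ [Re s - r, Re s + r]`: `‖s - (ξ + i hc)‖ ≤ √2 r`, so by `s9_disc_sup` for `g = f²` and `g = q` (translated by `x`):
      `u (x + s) ≤ κ A(x + ξ)`,  `κ = 2/(2 - √2) ≤ 7/2`,  `A(y) := circleAverage u (y + i hc) (2r)`   (continuous in `y`, `≥ 0`).
   Integrate over `ξ ∈ [Re s - r, Re s + r] ⊆ [-a-r, a+r]`:   `u (x+s) ≤ Φ x := (7/2) (2r)⁻¹ ∫_{-a-r}^{a+r} A (x + ξ) dξ`.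
   Mean over `x`: Fubini twice (continuous integrands on boxes) and `s9E_shift`:  mean of `A (· + ξ)` `= circleAverage (fun z => s9E (Im z)) (i hc) (2r) ≤ E₀`.   So the mean of `Φ` is `≤ (7/2)(a + r)/r · E₀`.
   PROOF A (alternative): area submean inequality by polar coordinates, `Φ x = (π r²)⁻¹ ∫_{[-a-r,a+r] × [hc-2r,hc+2r]} u (x + z) dz`, mean `≤ (8/π)(a/r + 1) E₀`.

`s9b_cone`.  Dyadic bands `2^p ≤ D = -Im S ≤ 2^{p+1}`, `p = 0, ..., p_max`, `2^p ℓ ≤ δ` (no band if `δ < ℓ`: take `Φ = 0`).   `s9_tile` with `hc = h - (3/2) 2^p ℓ`, `r = 2^{p-1} ℓ`, `a = L 2^{p+1} ℓ`:  the rows used have `v ∈ [2^{p-1}, (5/2) 2^p]`, `ℓ v ≤ (5/2) δ`,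
   `E₀ = C' (1 + 2^{p-1})^{-5/4} E₁ ≤ C' 2^{-(5/4)(p-1)} E₁`; majorant `Φ_p`, mean `≤ 8 (4L + 1) C' 2^{-(5/4)(p-1)} E₁`.    `Φ := ∑_p 2^{(9/8)(p+1)} Φ_p`.   In the band `p`: `D^{-9/8} Φ ≥ 2^{-(9/8)(p+1)} Φ ≥ Φ_p`.
   Mean of `Φ` `≤ 8 (4L+1) C' E₁ 2^{19/8} ∑_p 2^{-p/8} ≤ 8 · 5.2 · 12.1 (4L+1) C' E₁ ≤ 2100 (L+1) C' E₁`.
-/
import Claimed.Agent.R269.S9.Pair

set_option autoImplicit false

namespace Claimed.Agent.R269

open Complex Filter Topology MeasureTheory Set Metric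
open scoped ENNReal Real

/-- Fubini for continuous functions on boxes. -/
theorem s9_swap_cont {F : ℝ → ℝ → ℝ} (hF : Continuous (Function.uncurry F)) (a b c d : ℝ) :
    ∫ x in a..b, ∫ y in c..d, F x y = ∫ y in c..d, ∫ x in a..b, F x y := by
  apply MeasureTheory.intervalIntegral_intervalIntegral_swap
  have hK : IsCompact (uIcc a b ×ˢ uIcc c d) := isCompact_uIcc.prod isCompact_uIcc
  exact (hF.continuousOn.integrableOn_compact hK).mono_set
    (prod_mono uIoc_subset_uIcc uIoc_subset_uIcc)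

theorem s9_norm_avg_le (F : ℂ → ℂ) (c : ℂ) (R : ℝ) :
    ‖Real.circleAverage F c R‖ ≤ Real.circleAverage (fun z => ‖F z‖) c R := by
  rw [Real.circleAverage_def, Real.circleAverage_def, norm_smul, smul_eq_mul,
    Real.norm_of_nonneg (by positivity)]
  exact mul_le_mul_of_nonneg_left (intervalIntegral.norm_integral_le_integral_norm (by positivity))
    (by positivity)

theorem s9_circleMap_mk (y hc ρ θ : ℝ) :
    circleMap ⟨y, hc⟩ ρ θ = ⟨y + ρ * Real.cos θ, hc + ρ * Real.sin θ⟩ := by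
  apply Complex.ext
  · simp [circleMap, Complex.exp_ofReal_mul_I_re]
  · simp [circleMap, Complex.exp_ofReal_mul_I_im]

/-- LEAF: interior values are controlled by the circle average of the norm. -/
theorem s9_disc_sup (g : ℂ → ℂ) (c w : ℂ) (R : ℝ) (hR : 0 < R) (hg : DiffContOnCl ℂ g (ball c R))
    (hw : w ∈ ball c R) :
    ‖g w‖ ≤ R / (R - ‖w - c‖) * Real.circleAverage (fun z => ‖g z‖) c R := by
  have habs : |R| = R := abs_of_pos hR
  have hwd : ‖w - c‖ < R := by simpa [dist_eq_norm] using hw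
  have hpos : 0 < R - ‖w - c‖ := by linarith
  have h1 : Real.circleAverage (fun z => ((z - c) / (z - w)) • g z) c R = g w :=
    DiffContOnCl.circleAverage_smul_div (by rwa [habs]) (by rwa [habs])
  have hgc : ContinuousOn g (sphere c R) := by
    have := hg.continuousOn
    rw [closure_ball c hR.ne'] at this
    exact this.mono sphere_subset_closedBall
  have hne : ∀ z ∈ sphere c R, z - w ≠ 0 := by
    intro z hz hzw
    have : z = w := sub_eq_zero.1 hzw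
    rw [this] at hz
    have : ‖w - c‖ = R := by simpa [dist_eq_norm] using hz
    linarith
  have hc1 : ContinuousOn (fun z => ‖((z - c) / (z - w)) • g z‖) (sphere c R) := by
    apply ContinuousOn.norm
    have hd : ContinuousOn (fun z : ℂ => (z - c) / (z - w)) (sphere c R) :=
      ContinuousOn.div (by fun_prop) (by fun_prop) hne
    exact hd.smul hgc
  have hc2 : ContinuousOn (fun z => R / (R - ‖w - c‖) * ‖g z‖) (sphere c R) :=
    hgc.norm.const_mul _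
  rw [← h1]
  refine (s9_norm_avg_le _ c R).trans ?_
  have h2 : Real.circleAverage (fun z => R / (R - ‖w - c‖) * ‖g z‖) c R
      = R / (R - ‖w - c‖) * Real.circleAverage (fun z => ‖g z‖) c R := by
    have := Real.circleAverage_fun_smul (a := R / (R - ‖w - c‖)) (f := fun z => ‖g z‖) (c := c) (R := R)
    simpa using this
  rw [← h2]
  apply Real.circleAverage_mono (hc1.circleIntegrable hR.le) (hc2.circleIntegrable hR.le)
  intro z hz
  rw [habs] at hz
  have hzc : ‖z - c‖ = R := by simpa [dist_eq_norm] using hz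
  have hzw : R - ‖w - c‖ ≤ ‖z - w‖ := by
    have : ‖z - c‖ ≤ ‖z - w‖ + ‖w - c‖ := by
      calc ‖z - c‖ = ‖(z - w) + (w - c)‖ := by ring_nf
        _ ≤ _ := norm_add_le _ _
    linarith
  rw [norm_smul, norm_div, hzc]
  apply mul_le_mul_of_nonneg_right _ (norm_nonneg _)
  exact div_le_div_of_nonneg_left hR.le hpos hzw

/-- continuity of the density along continuous maps into the strip. -/
theorem s9u_comp_cont {f q : ℂ → ℂ} {H : ℝ} (hp : S9Pair f q H) {X : Type*} [TopologicalSpace X]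
    {a b : X → ℝ} (ha : Continuous a) (hb : Continuous b) (hbH : ∀ p, |b p| < H) :
    Continuous fun p : X => s9u f q ⟨a p, b p⟩ := by
  have h1 : Continuous fun p : X => (⟨a p, b p⟩ : ℂ) := s9_mk_cont.comp (ha.prodMk hb)
  exact (s9u_cont hp).comp_continuous h1 (fun p => hbH p)

/-- the mean over `x` of a `θ`-integral of translated densities. -/
theorem s9_mean_swap {f q : ℂ → ℂ} {H : ℝ} (hp : S9Pair f q H) (w a b : ℝ → ℝ) (hw : Continuous w)
    (ha : Continuous a) (hb : Continuous b) (hbH : ∀ θ, |b θ| < H) (c d : ℝ) :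
    (2 * π)⁻¹ * ∫ x in (0 : ℝ)..(2 * π), ∫ θ in c..d, w θ * s9u f q ⟨x + a θ, b θ⟩
      = ∫ θ in c..d, w θ * s9E f q (b θ) := by
  have hF : Continuous (Function.uncurry fun (x θ : ℝ) => w θ * s9u f q ⟨x + a θ, b θ⟩) := by
    have h1 : Continuous fun p : ℝ × ℝ => s9u f q ⟨p.1 + a p.2, b p.2⟩ :=
      s9u_comp_cont hp (continuous_fst.add (ha.comp continuous_snd)) (hb.comp continuous_snd)
        (fun p => hbH p.2)
    exact (hw.comp continuous_snd).mul h1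
  rw [s9_swap_cont hF, ← intervalIntegral.integral_const_mul]
  apply intervalIntegral.integral_congr
  intro θ _
  simp only
  rw [intervalIntegral.integral_const_mul, ← s9E_shift hp (hbH θ) (a θ)]
  ring


theorem s9_row_mem {H hc ρ : ℝ} (hρ : 0 ≤ ρ) (hlo : -H < hc - ρ) (hhi : hc + ρ < H) (θ : ℝ) :
    |hc + ρ * Real.sin θ| < H := by
  have h1 := Real.sin_le_one θ
  have h2 := Real.neg_one_le_sin θ
  have h3 : ρ * Real.sin θ ≤ ρ := by nlinarith
  have h4 : -ρ ≤ ρ * Real.sin θ := by nlinarith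
  rw [abs_lt]; constructor <;> linarith

theorem s9_ball_sub {H ρ : ℝ} {C : ℂ} (hlo : -H < C.im - ρ) (hhi : C.im + ρ < H) :
    closedBall C ρ ⊆ {z : ℂ | |z.im| < H} := by
  intro z hz
  have h1 : ‖z - C‖ ≤ ρ := by simpa [dist_eq_norm] using hz
  have h2 : |(z - C).im| ≤ ρ := (Complex.abs_im_le_norm _).trans h1
  rw [Complex.sub_im, abs_le] at h2
  show |z.im| < H
  rw [abs_lt]; constructor <;> linarith [h2.1, h2.2]

theorem s9_avg_eq (f q : ℂ → ℂ) (y hc ρ : ℝ) :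
    Real.circleAverage (s9u f q) ⟨y, hc⟩ ρ
      = (2 * π)⁻¹ * ∫ θ in (0 : ℝ)..(2 * π), s9u f q ⟨y + ρ * Real.cos θ, hc + ρ * Real.sin θ⟩ := by
  rw [Real.circleAverage_def, smul_eq_mul]
  simp only [s9_circleMap_mk]

theorem s9_avg_cont {f q : ℂ → ℂ} {H : ℝ} (hp : S9Pair f q H) {hc ρ : ℝ} (hρ : 0 ≤ ρ)
    (hlo : -H < hc - ρ) (hhi : hc + ρ < H) :
    Continuous fun y : ℝ => Real.circleAverage (s9u f q) ⟨y, hc⟩ ρ := by
  simp only [s9_avg_eq]
  apply Continuous.const_mul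
  apply intervalIntegral.continuous_parametric_intervalIntegral_of_continuous'
  exact s9u_comp_cont hp (a := fun p : ℝ × ℝ => p.1 + ρ * Real.cos p.2)
    (b := fun p : ℝ × ℝ => hc + ρ * Real.sin p.2) (by fun_prop) (by fun_prop)
    (fun p => s9_row_mem hρ hlo hhi p.2)

theorem s9_avg_nonneg (f q : ℂ → ℂ) (C : ℂ) (ρ : ℝ) : 0 ≤ Real.circleAverage (s9u f q) C ρ :=
  Real.circleAverage_nonneg_of_nonneg (fun z _ => s9u_nonneg f q z)

theorem s9E_comp_cont {f q : ℂ → ℂ} {H : ℝ} (hp : S9Pair f q H) {b : ℝ → ℝ} (hb : Continuous b)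
    (hbH : ∀ θ, |b θ| < H) : Continuous fun θ => s9E f q (b θ) :=
  (s9E_cont hp).comp_continuous hb (fun θ => abs_lt.1 (hbH θ))

theorem s9_avg_mean {f q : ℂ → ℂ} {H : ℝ} (hp : S9Pair f q H) {hc ρ : ℝ} (hρ : 0 ≤ ρ)
    (hlo : -H < hc - ρ) (hhi : hc + ρ < H) (ξ : ℝ) :
    (2 * π)⁻¹ * ∫ x in (0 : ℝ)..(2 * π), Real.circleAverage (s9u f q) ⟨x + ξ, hc⟩ ρ
      = (2 * π)⁻¹ * ∫ θ in (0 : ℝ)..(2 * π), s9E f q (hc + ρ * Real.sin θ) := by
  simp only [s9_avg_eq]
  have := s9_mean_swap hp (fun _ => (2 * π)⁻¹) (fun θ => ξ + ρ * Real.cos θ)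
    (fun θ => hc + ρ * Real.sin θ) continuous_const (by fun_prop) (by fun_prop)
    (fun θ => s9_row_mem hρ hlo hhi θ) 0 (2 * π)
  simp only [intervalIntegral.integral_const_mul, ← add_assoc] at this ⊢
  exact this

/-- interior values of the density are controlled by its circle average. -/
theorem s9u_disc_sup {f q : ℂ → ℂ} {H : ℝ} (hp : S9Pair f q H) (C w : ℂ) (ρ : ℝ) (hρ : 0 < ρ)
    (hlo : -H < C.im - ρ) (hhi : C.im + ρ < H) (hw : w ∈ ball C ρ) :
    s9u f q w ≤ ρ / (ρ - ‖w - C‖) * Real.circleAverage (s9u f q) C ρ := by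
  have hsub := s9_ball_sub hlo hhi
  have hd : ∀ g : ℂ → ℂ, DifferentiableOn ℂ g {z : ℂ | |z.im| < H} → DiffContOnCl ℂ g (ball C ρ) := by
    intro g hg
    refine ⟨hg.mono (ball_subset_closedBall.trans hsub), ?_⟩
    rw [closure_ball C hρ.ne']
    exact hg.continuousOn.mono hsub
  have h1 := s9_disc_sup (fun z => f z ^ 2) C w ρ hρ (hd _ (hp.f_diff.pow 2)) hw
  have h2 := s9_disc_sup q C w ρ hρ (hd _ hp.q_diff) hw
  have hs : sphere C ρ ⊆ {z : ℂ | |z.im| < H} := sphere_subset_closedBall.trans hsub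
  have hi1 : CircleIntegrable (fun z => ‖f z ^ 2‖) C ρ :=
    ((hp.f_diff.continuousOn.mono hs).pow 2).norm.circleIntegrable hρ.le
  have hi2 : CircleIntegrable (fun z => ‖q z‖) C ρ :=
    (hp.q_diff.continuousOn.mono hs).norm.circleIntegrable hρ.le
  have e : s9u f q = fun z => ‖f z ^ 2‖ + ‖q z‖ := by
    funext z; simp [s9u, norm_pow]
  rw [e, Real.circleAverage_fun_add hi1 hi2, mul_add]
  exact add_le_add h1 h2

/-- LEAF: the tile majorant. -/
theorem s9_tile {f q : ℂ → ℂ} {H : ℝ} (hp : S9Pair f q H) (hc r a E₀ : ℝ) (hr : 0 < r) (ha : 0 ≤ a)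
    (hlo : -H < hc - 2 * r) (hhi : hc + 2 * r < H)
    (hE : ∀ η ∈ Icc (hc - 2 * r) (hc + 2 * r), s9E f q η ≤ E₀) :
    ∃ Φ : ℝ → ℝ, Continuous Φ ∧ (∀ x, 0 ≤ Φ x) ∧
      (∀ (x : ℝ) (s : ℂ), |s.re| ≤ a → |s.im - hc| ≤ r → s9u f q ((x : ℂ) + s) ≤ Φ x) ∧
      (2 * π)⁻¹ * ∫ x in (0 : ℝ)..(2 * π), Φ x ≤ 8 * (a / r + 1) * E₀ := by
  have h2r : (0 : ℝ) ≤ 2 * r := by positivity
  have h2π : (0 : ℝ) < 2 * π := by positivity
  obtain ⟨A, hA⟩ : ∃ A : ℝ → ℝ, A = fun y => Real.circleAverage (s9u f q) ⟨y, hc⟩ (2 * r) := ⟨_, rfl⟩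
  have hAc : Continuous A := by rw [hA]; exact s9_avg_cont hp h2r hlo hhi
  have hA0 : ∀ y, 0 ≤ A y := by intro y; rw [hA]; exact s9_avg_nonneg _ _ _ _
  have hAmean : ∀ ξ, (2 * π)⁻¹ * ∫ x in (0 : ℝ)..(2 * π), A (x + ξ) ≤ E₀ := by
    intro ξ
    rw [hA]
    simp only
    rw [s9_avg_mean hp h2r hlo hhi ξ]
    have hcE : Continuous fun θ => s9E f q (hc + 2 * r * Real.sin θ) :=
      s9E_comp_cont hp (by fun_prop) (fun θ => s9_row_mem h2r hlo hhi θ)
    have h1 : ∫ θ in (0 : ℝ)..(2 * π), s9E f q (hc + 2 * r * Real.sin θ)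
        ≤ ∫ θ in (0 : ℝ)..(2 * π), E₀ := by
      apply intervalIntegral.integral_mono_on h2π.le (hcE.intervalIntegrable _ _)
        (continuous_const.intervalIntegrable _ _)
      intro θ _
      apply hE
      have h1 := Real.sin_le_one θ
      have h2 := Real.neg_one_le_sin θ
      constructor <;> nlinarith
    rw [intervalIntegral.integral_const, sub_zero, smul_eq_mul] at h1
    calc (2 * π)⁻¹ * ∫ θ in (0 : ℝ)..(2 * π), s9E f q (hc + 2 * r * Real.sin θ)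
        ≤ (2 * π)⁻¹ * (2 * π * E₀) := mul_le_mul_of_nonneg_left h1 (by positivity)
      _ = E₀ := by field_simp
  have hE0 : 0 ≤ E₀ := by
    have h1 : |hc| < H := by rw [abs_lt]; constructor <;> linarith
    exact (s9E_pos hp h1).le.trans (hE hc ⟨by linarith, by linarith⟩)
  have hF : Continuous (Function.uncurry fun (x ξ : ℝ) => A (x + ξ)) :=
    hAc.comp (continuous_fst.add continuous_snd)
  have har : -a - r ≤ a + r := by linarith
  refine ⟨fun x => 7 / 2 * (2 * r)⁻¹ * ∫ ξ in (-a - r)..(a + r), A (x + ξ), ?_, ?_, ?_, ?_⟩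
  · apply Continuous.const_mul
    exact intervalIntegral.continuous_parametric_intervalIntegral_of_continuous' hF _ _
  · intro x
    have : 0 ≤ ∫ ξ in (-a - r)..(a + r), A (x + ξ) :=
      intervalIntegral.integral_nonneg har (fun ξ _ => hA0 (x + ξ))
    positivity
  · intro x s hs1 hs2
    have hpt : ∀ ξ ∈ Icc (s.re - r) (s.re + r), s9u f q ((x : ℂ) + s) ≤ 7 / 2 * A (x + ξ) := by
      intro ξ hξ
      have hd : ‖(x : ℂ) + s - ⟨x + ξ, hc⟩‖ ≤ 10 / 7 * r := by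
        have e : (x : ℂ) + s - ⟨x + ξ, hc⟩ = ⟨s.re - ξ, s.im - hc⟩ := by
          apply Complex.ext <;> simp
        rw [e]
        have h1 : ‖(⟨s.re - ξ, s.im - hc⟩ : ℂ)‖ ^ 2 = (s.re - ξ) ^ 2 + (s.im - hc) ^ 2 := by
          rw [← Complex.normSq_eq_norm_sq, Complex.normSq_apply]; ring
        have h2 : (s.re - ξ) ^ 2 ≤ r ^ 2 := by
          apply sq_le_sq'  <;> linarith [hξ.1, hξ.2]
        have h3 : (s.im - hc) ^ 2 ≤ r ^ 2 := by
          rw [abs_le] at hs2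
          apply sq_le_sq' <;> linarith [hs2.1, hs2.2]
        apply (sq_le_sq₀ (norm_nonneg _) (by positivity)).1
        nlinarith
      have hw : (x : ℂ) + s ∈ ball (⟨x + ξ, hc⟩ : ℂ) (2 * r) := by
        rw [mem_ball, dist_eq_norm]; linarith
      have h1 := s9u_disc_sup hp ⟨x + ξ, hc⟩ ((x : ℂ) + s) (2 * r) (by positivity) hlo hhi hw
      have h2 : 2 * r / (2 * r - ‖(x : ℂ) + s - ⟨x + ξ, hc⟩‖) ≤ 7 / 2 := by
        rw [div_le_iff₀ (by linarith)]
        linarith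
      refine h1.trans ?_
      rw [hA]
      exact mul_le_mul_of_nonneg_right h2 (s9_avg_nonneg _ _ _ _)
    have hcx : Continuous fun ξ => A (x + ξ) := hAc.comp (continuous_const.add continuous_id)
    have h1 : ∫ ξ in (s.re - r)..(s.re + r), s9u f q ((x : ℂ) + s)
        ≤ ∫ ξ in (s.re - r)..(s.re + r), 7 / 2 * A (x + ξ) :=
      intervalIntegral.integral_mono_on (by linarith) (continuous_const.intervalIntegrable _ _)
        ((hcx.const_mul _).intervalIntegrable _ _) hpt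
    rw [intervalIntegral.integral_const, intervalIntegral.integral_const_mul, smul_eq_mul] at h1
    rw [abs_le] at hs1
    have h2 : ∫ ξ in (s.re - r)..(s.re + r), A (x + ξ) ≤ ∫ ξ in (-a - r)..(a + r), A (x + ξ) := by
      apply intervalIntegral.integral_mono_interval (by linarith [hs1.1]) (by linarith)
        (by linarith [hs1.2]) _ (hcx.intervalIntegrable _ _)
      exact Filter.Eventually.of_forall (fun ξ => hA0 (x + ξ))
    have h3 : s.re + r - (s.re - r) = 2 * r := by ring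
    rw [h3] at h1
    calc s9u f q ((x : ℂ) + s) = (2 * r)⁻¹ * (2 * r * s9u f q ((x : ℂ) + s)) := by field_simp
      _ ≤ (2 * r)⁻¹ * (7 / 2 * ∫ ξ in (-a - r)..(a + r), A (x + ξ)) := by
          apply mul_le_mul_of_nonneg_left _ (by positivity)
          linarith
      _ = _ := by ring
  · rw [intervalIntegral.integral_const_mul, s9_swap_cont hF]
    have h1 : ∫ ξ in (-a - r)..(a + r), ∫ x in (0 : ℝ)..(2 * π), A (x + ξ)
        ≤ ∫ ξ in (-a - r)..(a + r), 2 * π * E₀ := by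
      apply intervalIntegral.integral_mono_on har _ (continuous_const.intervalIntegrable _ _)
      · intro ξ _
        have := hAmean ξ
        rw [inv_mul_le_iff₀ h2π] at this
        exact this
      · apply Continuous.intervalIntegrable
        apply intervalIntegral.continuous_parametric_intervalIntegral_of_continuous'
        exact hAc.comp (continuous_snd.add continuous_fst)
    rw [intervalIntegral.integral_const, smul_eq_mul] at h1
    calc (2 * π)⁻¹ * (7 / 2 * (2 * r)⁻¹ * ∫ ξ in (-a - r)..(a + r), ∫ x in (0 : ℝ)..(2 * π), A (x + ξ))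
        ≤ (2 * π)⁻¹ * (7 / 2 * (2 * r)⁻¹ * ((a + r - (-a - r)) * (2 * π * E₀))) := by
          apply mul_le_mul_of_nonneg_left _ (by positivity)
          exact mul_le_mul_of_nonneg_left h1 (by positivity)
      _ = 7 / 2 * (a / r + 1) * E₀ := by field_simp; ring
      _ ≤ 8 * (a / r + 1) * E₀ := by
          apply mul_le_mul_of_nonneg_right _ hE0
          apply mul_le_mul_of_nonneg_right (by norm_num) (by positivity)

/-- `ρ = 2^{-1/8}`. -/
noncomputable def s9b_rho : ℝ := (2 : ℝ) ^ (-(1 / 8) : ℝ)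

theorem s9b_rho_pos : 0 < s9b_rho := Real.rpow_pos_of_pos two_pos _

theorem s9b_rho_pow (n : ℕ) : s9b_rho ^ n = (2 : ℝ) ^ (-(n : ℝ) / 8) := by
  unfold s9b_rho
  rw [← Real.rpow_natCast, ← Real.rpow_mul two_pos.le]
  congr 1; ring

theorem s9b_rho_inv_pow (n : ℕ) : (s9b_rho⁻¹) ^ n = (2 : ℝ) ^ ((n : ℝ) / 8) := by
  rw [inv_pow, s9b_rho_pow, ← Real.rpow_neg two_pos.le]
  congr 1; ring

theorem s9b_rho_pow8 : s9b_rho ^ 8 = 1 / 2 := by
  rw [s9b_rho_pow]
  norm_num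

theorem s9b_rho_le : s9b_rho ≤ 12 / 13 := by
  by_contra hcon
  push Not at hcon
  have := pow_lt_pow_left₀ hcon (by norm_num) (n := 8) (by norm_num)
  rw [s9b_rho_pow8] at this
  norm_num at this

theorem s9b_rho_ge : 10 / 11 ≤ s9b_rho := by
  by_contra hcon
  push Not at hcon
  have := pow_lt_pow_left₀ hcon s9b_rho_pos.le (n := 8) (by norm_num)
  rw [s9b_rho_pow8] at this
  norm_num at this

theorem s9b_rho_A (p : ℕ) : ((2 : ℝ) ^ p / 2) ^ (-(5 / 4) : ℝ) = s9b_rho ^ (10 * p) * (s9b_rho⁻¹) ^ 10 := by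
  rw [s9b_rho_pow, s9b_rho_inv_pow, ← Real.rpow_add two_pos]
  have : (2 : ℝ) ^ p / 2 = (2 : ℝ) ^ ((p : ℝ) - 1) := by
    rw [Real.rpow_sub two_pos, Real.rpow_natCast, Real.rpow_one]
  rw [this, ← Real.rpow_mul two_pos.le]
  congr 1; push_cast; ring

theorem s9b_rho_B (p : ℕ) : ((2 : ℝ) ^ (p + 1)) ^ (-(9 / 8) : ℝ) = s9b_rho ^ (9 * (p + 1)) := by
  rw [s9b_rho_pow, ← Real.rpow_natCast, ← Real.rpow_mul two_pos.le]
  congr 1; push_cast; ring

theorem s9b_rho_sum (N : ℕ) : ∑ p ∈ Finset.range N, s9b_rho ^ p ≤ 13 := by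
  have h1 : s9b_rho < 1 := lt_of_le_of_lt s9b_rho_le (by norm_num)
  have h2 := geom_sum_Ico_le_of_lt_one (m := 0) (n := N) s9b_rho_pos.le h1
  rw [Finset.range_eq_Ico]
  refine h2.trans ?_
  rw [pow_zero, div_le_iff₀ (by linarith)]
  have := s9b_rho_le
  linarith

/-- LEAF: the cone majorant (weighted sum over dyadic bands). -/
theorem s9b_cone {f q : ℂ → ℂ} {H : ℝ} (hp : S9Pair f q H) (h ℓ δ C' L E₁ : ℝ) (hℓ : 0 < ℓ) (hδ : 0 < δ)
    (hL : 0 ≤ L) (hC' : 0 ≤ C') (hE₁ : 0 ≤ E₁) (hlo : -H < h - 4 * δ) (hhi : h < H)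
    (htail : ∀ v ≥ (1 / 2 : ℝ), ℓ * v ≤ 4 * δ → s9E f q (h - ℓ * v) ≤ C' * (1 + v) ^ (-(5 / 4) : ℝ) * E₁) :
    ∃ Φ : ℝ → ℝ, Continuous Φ ∧ (∀ x, 0 ≤ Φ x) ∧
      (∀ (x : ℝ) (S : ℂ), 1 ≤ -S.im → ℓ * (-S.im) ≤ δ → |S.re| ≤ L * (-S.im) →
        s9u f q (⟨x, h⟩ + (ℓ : ℂ) * S) ≤ (-S.im) ^ (-(9 / 8) : ℝ) * Φ x) ∧
      (2 * π)⁻¹ * ∫ x in (0 : ℝ)..(2 * π), Φ x ≤ 10000 * (L + 1) * C' * E₁ := by
  have hρ := s9b_rho_pos
  have hσ : 0 < s9b_rho⁻¹ := inv_pos.2 hρ
  have hband : ∀ p : ℕ, ∃ Φ : ℝ → ℝ, Continuous Φ ∧ (∀ x, 0 ≤ Φ x) ∧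
      ((2 : ℝ) ^ p * ℓ ≤ δ → ∀ (x : ℝ) (s : ℂ), |s.re| ≤ L * 2 ^ (p + 1) * ℓ →
        |s.im - (h - 3 / 2 * (2 ^ p * ℓ))| ≤ 2 ^ p * ℓ / 2 → s9u f q ((x : ℂ) + s) ≤ Φ x) ∧
      (2 * π)⁻¹ * ∫ x in (0 : ℝ)..(2 * π), Φ x
        ≤ 8 * (4 * L + 1) * (C' * (s9b_rho ^ (10 * p) * (s9b_rho⁻¹) ^ 10) * E₁) := by
    intro p
    have h2p : (0 : ℝ) < 2 ^ p := by positivity
    have h2p1 : (1 : ℝ) ≤ 2 ^ p := one_le_pow₀ (by norm_num)
    by_cases hv : (2 : ℝ) ^ p * ℓ ≤ δ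
    · have hT : 0 < (2 : ℝ) ^ p * ℓ := by positivity
      obtain ⟨Φ, h1, h2, h3, h4⟩ := s9_tile hp (h - 3 / 2 * (2 ^ p * ℓ)) (2 ^ p * ℓ / 2)
        (L * 2 ^ (p + 1) * ℓ) (C' * (s9b_rho ^ (10 * p) * (s9b_rho⁻¹) ^ 10) * E₁)
        (by positivity) (by positivity) (by linarith) (by linarith) (by
          intro η hη
          obtain ⟨v, hvdef⟩ : ∃ v, v = (h - η) / ℓ := ⟨_, rfl⟩
          have hℓv : ℓ * v = h - η := by rw [hvdef]; field_simp
          have hv1 : (2 : ℝ) ^ p / 2 ≤ v := by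
            rw [hvdef, le_div_iff₀ hℓ]
            linarith [hη.2]
          have hη' : η = h - ℓ * v := by linarith
          rw [hη']
          refine (htail v (by linarith) (by rw [hℓv]; linarith [hη.1])).trans ?_
          apply mul_le_mul_of_nonneg_right _ hE₁
          apply mul_le_mul_of_nonneg_left _ hC'
          rw [← s9b_rho_A]
          exact Real.rpow_le_rpow_of_nonpos (by positivity) (by linarith) (by norm_num))
      refine ⟨Φ, h1, h2, fun _ => h3, ?_⟩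
      have e : L * 2 ^ (p + 1) * ℓ / (2 ^ p * ℓ / 2) = 4 * L := by
        rw [pow_succ]; field_simp; ring
      rw [e] at h4
      exact h4
    · refine ⟨fun _ => 0, continuous_const, fun _ => le_rfl, fun hv' => absurd hv' hv, ?_⟩
      simp only [intervalIntegral.integral_zero, mul_zero]
      positivity
  choose Φp hΦc hΦ0 hΦb hΦm using hband
  obtain ⟨N, hN⟩ := pow_unbounded_of_one_lt (δ / ℓ) (one_lt_two : (1 : ℝ) < 2)
  refine ⟨fun x => ∑ p ∈ Finset.range N, (s9b_rho⁻¹) ^ (9 * (p + 1)) * Φp p x, ?_, ?_, ?_, ?_⟩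
  · exact continuous_finsetSum _ (fun p _ => (hΦc p).const_mul _)
  · intro x
    exact Finset.sum_nonneg (fun p _ => mul_nonneg (by positivity) (hΦ0 p x))
  · intro x S hS1 hS2 hS3
    obtain ⟨D, hD⟩ : ∃ D, D = -S.im := ⟨_, rfl⟩
    rw [← hD] at hS1 hS2 hS3 ⊢
    have hD0 : 0 < D := by linarith
    obtain ⟨p, hp1, hp2⟩ := exists_nat_pow_near hS1 (one_lt_two : (1 : ℝ) < 2)
    have hv : (2 : ℝ) ^ p * ℓ ≤ δ := by
      calc (2 : ℝ) ^ p * ℓ ≤ D * ℓ := mul_le_mul_of_nonneg_right hp1 hℓ.le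
        _ = ℓ * D := mul_comm _ _
        _ ≤ δ := hS2
    have hpN : p < N := by
      have : (2 : ℝ) ^ p < 2 ^ N := by
        refine lt_of_le_of_lt ?_ hN
        rw [le_div_iff₀ hℓ]; exact hv
      exact (pow_lt_pow_iff_right₀ (one_lt_two : (1 : ℝ) < 2)).1 this
    have e : (⟨x, h⟩ + (ℓ : ℂ) * S : ℂ) = (x : ℂ) + ⟨ℓ * S.re, h + ℓ * S.im⟩ := by
      apply Complex.ext <;> simp
    have hSim : S.im = -D := by rw [hD]; ring
    have h1 : s9u f q (⟨x, h⟩ + (ℓ : ℂ) * S) ≤ Φp p x := by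
      rw [e]
      apply hΦb p hv x
      · simp only
        rw [abs_mul, abs_of_pos hℓ]
        calc ℓ * |S.re| ≤ ℓ * (L * D) := mul_le_mul_of_nonneg_left hS3 hℓ.le
          _ ≤ ℓ * (L * 2 ^ (p + 1)) := by
              apply mul_le_mul_of_nonneg_left _ hℓ.le
              exact mul_le_mul_of_nonneg_left hp2.le hL
          _ = _ := by ring
      · simp only
        rw [hSim, abs_le]
        rw [pow_succ] at hp2
        constructor <;> nlinarith
    have h2 : 1 ≤ D ^ (-(9 / 8) : ℝ) * (s9b_rho⁻¹) ^ (9 * (p + 1)) := by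
      have h3 : s9b_rho ^ (9 * (p + 1)) ≤ D ^ (-(9 / 8) : ℝ) := by
        rw [← s9b_rho_B]
        exact Real.rpow_le_rpow_of_nonpos hD0 hp2.le (by norm_num)
      calc (1 : ℝ) = s9b_rho ^ (9 * (p + 1)) * (s9b_rho⁻¹) ^ (9 * (p + 1)) := by
            rw [← mul_pow, mul_inv_cancel₀ hρ.ne', one_pow]
        _ ≤ _ := mul_le_mul_of_nonneg_right h3 (by positivity)
    have h4 : (s9b_rho⁻¹) ^ (9 * (p + 1)) * Φp p x
        ≤ ∑ p ∈ Finset.range N, (s9b_rho⁻¹) ^ (9 * (p + 1)) * Φp p x :=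
      Finset.single_le_sum (f := fun p => (s9b_rho⁻¹) ^ (9 * (p + 1)) * Φp p x)
        (fun p _ => mul_nonneg (by positivity) (hΦ0 p x)) (Finset.mem_range.2 hpN)
    calc s9u f q (⟨x, h⟩ + (ℓ : ℂ) * S) ≤ Φp p x := h1
      _ = 1 * Φp p x := (one_mul _).symm
      _ ≤ D ^ (-(9 / 8) : ℝ) * (s9b_rho⁻¹) ^ (9 * (p + 1)) * Φp p x :=
          mul_le_mul_of_nonneg_right h2 (hΦ0 p x)
      _ = D ^ (-(9 / 8) : ℝ) * ((s9b_rho⁻¹) ^ (9 * (p + 1)) * Φp p x) := by ring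
      _ ≤ _ := mul_le_mul_of_nonneg_left h4 (Real.rpow_nonneg hD0.le _)
  · rw [intervalIntegral.integral_finsetSum
      (fun p _ => ((hΦc p).const_mul _).intervalIntegrable _ _), Finset.mul_sum]
    have hσ19 : (s9b_rho⁻¹) ^ 19 ≤ 7 := by
      have h1 : s9b_rho⁻¹ ≤ 11 / 10 := by
        rw [inv_le_comm₀ hρ (by norm_num)]
        have := s9b_rho_ge
        norm_num
        linarith
      calc (s9b_rho⁻¹) ^ 19 ≤ (11 / 10 : ℝ) ^ 19 := pow_le_pow_left₀ hσ.le h1 19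
        _ ≤ 7 := by norm_num
    calc ∑ p ∈ Finset.range N, (2 * π)⁻¹ * ∫ x in (0 : ℝ)..(2 * π), (s9b_rho⁻¹) ^ (9 * (p + 1)) * Φp p x
        ≤ ∑ p ∈ Finset.range N, 8 * (4 * L + 1) * C' * E₁ * (s9b_rho⁻¹) ^ 19 * s9b_rho ^ p := by
          apply Finset.sum_le_sum
          intro p _
          rw [intervalIntegral.integral_const_mul]
          calc (2 * π)⁻¹ * ((s9b_rho⁻¹) ^ (9 * (p + 1)) * ∫ x in (0 : ℝ)..(2 * π), Φp p x)
              = (s9b_rho⁻¹) ^ (9 * (p + 1)) * ((2 * π)⁻¹ * ∫ x in (0 : ℝ)..(2 * π), Φp p x) := by ring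
            _ ≤ (s9b_rho⁻¹) ^ (9 * (p + 1)) *
                (8 * (4 * L + 1) * (C' * (s9b_rho ^ (10 * p) * (s9b_rho⁻¹) ^ 10) * E₁)) :=
                mul_le_mul_of_nonneg_left (hΦm p) (by positivity)
            _ = 8 * (4 * L + 1) * C' * E₁ * (s9b_rho⁻¹) ^ 19 * s9b_rho ^ p := by
                have e1 : (s9b_rho⁻¹) ^ (9 * (p + 1)) = (s9b_rho⁻¹) ^ (9 * p) * (s9b_rho⁻¹) ^ 9 := by
                  rw [← pow_add]; congr 1
                have e2 : s9b_rho ^ (10 * p) = s9b_rho ^ (9 * p) * s9b_rho ^ p := by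
                  rw [← pow_add]; congr 1; ring
                have e3 : (s9b_rho⁻¹) ^ (9 * p) * s9b_rho ^ (9 * p) = 1 := by
                  rw [← mul_pow, inv_mul_cancel₀ hρ.ne', one_pow]
                have e4 : (s9b_rho⁻¹) ^ 19 = (s9b_rho⁻¹) ^ 9 * (s9b_rho⁻¹) ^ 10 := by
                  rw [← pow_add]
                rw [e1, e2, e4]
                calc _ = ((s9b_rho⁻¹) ^ (9 * p) * s9b_rho ^ (9 * p)) * (8 * (4 * L + 1) * C' * E₁ *
                      ((s9b_rho⁻¹) ^ 9 * (s9b_rho⁻¹) ^ 10) * s9b_rho ^ p) := by ring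
                  _ = _ := by rw [e3, one_mul]
      _ = 8 * (4 * L + 1) * C' * E₁ * (s9b_rho⁻¹) ^ 19 * ∑ p ∈ Finset.range N, s9b_rho ^ p := by
          rw [Finset.mul_sum]
      _ ≤ 8 * (4 * L + 1) * C' * E₁ * 7 * 13 := by
          have hK : 0 ≤ 8 * (4 * L + 1) * C' * E₁ := by positivity
          apply mul_le_mul (mul_le_mul_of_nonneg_left hσ19 hK) (s9b_rho_sum N)
            (Finset.sum_nonneg (fun p _ => by positivity)) (by positivity)
      _ ≤ 10000 * (L + 1) * C' * E₁ := by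
          have hCE : 0 ≤ C' * E₁ := by positivity
          have : 8 * (4 * L + 1) * 7 * 13 ≤ 10000 * (L + 1) := by linarith
          calc 8 * (4 * L + 1) * C' * E₁ * 7 * 13 = (8 * (4 * L + 1) * 7 * 13) * (C' * E₁) := by ring
            _ ≤ (10000 * (L + 1)) * (C' * E₁) := mul_le_mul_of_nonneg_right this hCE
            _ = _ := by ring

end Claimed.Agent.R269
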