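/-
Row 269, UNIT S9b1 (P1 Lemma 9.4), LEAF PACKAGE LF-S9b-defect.   Blueprint: helper149.   HOST-FREE (only `S9Pair`), no paper reading needed.

INSTEAD OF RIESZ MASSES: ONE circle-mean defect.   `U(S) = |e^{iS} f(c + ℓS)|² + |e^{2iS} q(c + ℓS)| = e^{-2 Im S} u(c + ℓ S)`.

PROOFS.  `s9b_U_sub`: `G₁(S) = (e^{iS} f(c + ℓS))²` and `G₂(S) = e^{2iS} q(c+ℓS)` are holomorphic near the closed unit disc (`|Im c| + ℓ < H`), `‖G₁‖ + ‖G₂‖ = U`, `‖G(0)‖ = ‖circleAverage G‖ ≤ circleAverage ‖G‖`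
   (`DiffContOnCl.circleAverage`, norm of the integral).
`s9b_U_cont`: parametric integral of a continuous function of `(x, θ)`.
`s9b_U_mean`: Fubini in `(x, θ) ∈ [0,2π]²` and `s9E_shift`: the mean over `x` of `u (x + ih + ℓ e^{iθ})` is `s9E (h + ℓ sin θ)`.
-/
import Claimed.Agent.R269.S9.Pair
import Claimed.Agent.R269.S9.SteepTile

set_option autoImplicit false

namespace Claimed.Agent.R269

open Complex Filter Topology MeasureTheory Set Metric
open scoped ENNReal Real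

/-- `U(S) = e^{-2 Im S} (|f|² + |q|)(c + ℓ S)`. -/
noncomputable def s9b_U (f q : ℂ → ℂ) (c : ℂ) (ℓ : ℝ) (S : ℂ) : ℝ :=
  Real.exp (-2 * S.im) * s9u f q (c + (ℓ : ℂ) * S)

theorem s9b_U_sub {f q : ℂ → ℂ} {H : ℝ} (hp : S9Pair f q H) (c : ℂ) (ℓ : ℝ) (hℓ : 0 < ℓ) (hc : |c.im| + ℓ < H) :
    s9u f q c ≤ Real.circleAverage (s9b_U f q c ℓ) 0 1 := by
  have hmaps : MapsTo (fun S : ℂ => c + (ℓ : ℂ) * S) (closedBall 0 1) {z : ℂ | |z.im| < H} := by
    intro S hS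
    have h1 : ‖S‖ ≤ 1 := by simpa using hS
    have h2 : |S.im| ≤ 1 := (Complex.abs_im_le_norm _).trans h1
    show |(c + (ℓ : ℂ) * S).im| < H
    have e : (c + (ℓ : ℂ) * S).im = c.im + ℓ * S.im := by simp
    rw [e]
    calc |c.im + ℓ * S.im| ≤ |c.im| + |ℓ * S.im| := abs_add_le _ _
      _ = |c.im| + ℓ * |S.im| := by rw [abs_mul, abs_of_pos hℓ]
      _ ≤ |c.im| + ℓ * 1 := by gcongr
      _ < H := by linarith
  have hopen : IsOpen ((fun S : ℂ => c + (ℓ : ℂ) * S) ⁻¹' {z : ℂ | |z.im| < H}) :=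
    (s9_strip_open H).preimage (by fun_prop)
  have hcomp : ∀ g : ℂ → ℂ, DifferentiableOn ℂ g {z : ℂ | |z.im| < H} →
      DifferentiableOn ℂ (fun S : ℂ => g (c + (ℓ : ℂ) * S))
        ((fun S : ℂ => c + (ℓ : ℂ) * S) ⁻¹' {z : ℂ | |z.im| < H}) := by
    intro g hg
    exact hg.comp (by fun_prop) (fun S hS => hS)
  have hd1 : DiffContOnCl ℂ (fun S : ℂ => (exp (I * S) * f (c + (ℓ : ℂ) * S)) ^ 2) (ball 0 1) := by
    apply DifferentiableOn.diffContOnCl_ball (U := (fun S : ℂ => c + (ℓ : ℂ) * S) ⁻¹' {z : ℂ | |z.im| < H})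
    · exact (DifferentiableOn.mul (by fun_prop) (hcomp f hp.f_diff)).pow 2
    · exact hmaps
  have hd2 : DiffContOnCl ℂ (fun S : ℂ => exp (2 * I * S) * q (c + (ℓ : ℂ) * S)) (ball 0 1) := by
    apply DifferentiableOn.diffContOnCl_ball (U := (fun S : ℂ => c + (ℓ : ℂ) * S) ⁻¹' {z : ℂ | |z.im| < H})
    · exact DifferentiableOn.mul (by fun_prop) (hcomp q hp.q_diff)
    · exact hmaps
  have h1 := s9_disc_sup _ 0 0 1 one_pos hd1 (mem_ball_self one_pos)
  have h2 := s9_disc_sup _ 0 0 1 one_pos hd2 (mem_ball_self one_pos)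
  simp only [sub_self, norm_zero, sub_zero, div_one, one_mul, mul_zero, Complex.exp_zero, add_zero,
    norm_pow] at h1 h2
  have hsph : ∀ g : ℂ → ℂ, DiffContOnCl ℂ g (ball 0 1) → CircleIntegrable (fun z => ‖g z‖) 0 1 := by
    intro g hg
    have := hg.continuousOn
    rw [closure_ball (0 : ℂ) one_ne_zero] at this
    exact (this.mono sphere_subset_closedBall).norm.circleIntegrable zero_le_one
  have e : s9b_U f q c ℓ = fun S => ‖(exp (I * S) * f (c + (ℓ : ℂ) * S)) ^ 2‖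
      + ‖exp (2 * I * S) * q (c + (ℓ : ℂ) * S)‖ := by
    funext S
    have e1 : ‖exp (I * S)‖ ^ 2 = Real.exp (-2 * S.im) := by
      rw [Complex.norm_exp, ← Real.exp_nat_mul]
      congr 1
      simp
    have e2 : ‖exp (2 * I * S)‖ = Real.exp (-2 * S.im) := by
      rw [Complex.norm_exp]
      congr 1
      simp
    rw [norm_pow, norm_mul, norm_mul, mul_pow, e1, e2]
    simp only [s9b_U, s9u]
    ring
  rw [e, Real.circleAverage_fun_add (hsph _ hd1) (hsph _ hd2)]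
  simp only [norm_pow]
  unfold s9u
  exact add_le_add h1 h2

theorem s9b_U_avg_eq (f q : ℂ → ℂ) (x h ℓ : ℝ) :
    Real.circleAverage (s9b_U f q ⟨x, h⟩ ℓ) 0 1 = (2 * π)⁻¹ * ∫ θ in (0 : ℝ)..(2 * π),
      Real.exp (-2 * Real.sin θ) * s9u f q ⟨x + ℓ * Real.cos θ, h + ℓ * Real.sin θ⟩ := by
  rw [Real.circleAverage_def, smul_eq_mul]
  congr 1
  apply intervalIntegral.integral_congr
  intro θ _
  simp only [s9b_U]
  have e1 : (circleMap 0 1 θ).im = Real.sin θ := by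
    simp [circleMap, Complex.exp_ofReal_mul_I_im]
  have e2 : (⟨x, h⟩ + (ℓ : ℂ) * circleMap 0 1 θ : ℂ) = ⟨x + ℓ * Real.cos θ, h + ℓ * Real.sin θ⟩ := by
    apply Complex.ext
    · simp [circleMap, Complex.exp_ofReal_mul_I_re]
    · simp [circleMap, Complex.exp_ofReal_mul_I_im]
  rw [e1, e2]

theorem s9b_U_cont {f q : ℂ → ℂ} {H : ℝ} (hp : S9Pair f q H) (h ℓ : ℝ) (hℓ : 0 < ℓ) (hc : |h| + ℓ < H) :
    Continuous fun x : ℝ => Real.circleAverage (s9b_U f q ⟨x, h⟩ ℓ) 0 1 := by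
  have hlo : -H < h - ℓ := by linarith [neg_abs_le h]
  have hhi : h + ℓ < H := by linarith [le_abs_self h]
  simp only [s9b_U_avg_eq]
  apply Continuous.const_mul
  apply intervalIntegral.continuous_parametric_intervalIntegral_of_continuous'
  have h1 : Continuous fun p : ℝ × ℝ => s9u f q ⟨p.1 + ℓ * Real.cos p.2, h + ℓ * Real.sin p.2⟩ :=
    s9u_comp_cont hp (a := fun p : ℝ × ℝ => p.1 + ℓ * Real.cos p.2)
      (b := fun p : ℝ × ℝ => h + ℓ * Real.sin p.2) (by fun_prop) (by fun_prop)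
      (fun p => s9_row_mem hℓ.le hlo hhi p.2)
  have h2 : Continuous fun p : ℝ × ℝ => Real.exp (-2 * Real.sin p.2) := by fun_prop
  exact h2.mul h1

theorem s9b_U_mean {f q : ℂ → ℂ} {H : ℝ} (hp : S9Pair f q H) (h ℓ : ℝ) (hℓ : 0 < ℓ) (hc : |h| + ℓ < H) :
    (2 * π)⁻¹ * ∫ x in (0 : ℝ)..(2 * π), Real.circleAverage (s9b_U f q ⟨x, h⟩ ℓ) 0 1 =
      Real.circleAverage (fun S => Real.exp (-2 * S.im) * s9E f q (h + ℓ * S.im)) 0 1 := by
  have hlo : -H < h - ℓ := by linarith [neg_abs_le h]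
  have hhi : h + ℓ < H := by linarith [le_abs_self h]
  simp only [s9b_U_avg_eq]
  have := s9_mean_swap hp (fun θ => (2 * π)⁻¹ * Real.exp (-2 * Real.sin θ)) (fun θ => ℓ * Real.cos θ)
    (fun θ => h + ℓ * Real.sin θ) (by fun_prop) (by fun_prop) (by fun_prop)
    (fun θ => s9_row_mem hℓ.le hlo hhi θ) 0 (2 * π)
  simp only [mul_assoc, intervalIntegral.integral_const_mul] at this ⊢
  rw [this, Real.circleAverage_def, smul_eq_mul]
  congr 1
  apply intervalIntegral.integral_congr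
  intro θ _
  have e1 : (circleMap 0 1 θ).im = Real.sin θ := by
    simp [circleMap, Complex.exp_ofReal_mul_I_im]
  simp only [e1]

end Claimed.Agent.R269
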