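/-
Row 269, UNIT S9b1 (P1 Lemma 9.4), LEAF PACKAGE LF-S9b-sample.   Blueprint: helper149.   HOST-FREE (only `S9Pair`), no paper reading needed.   ASSEMBLY of `s9_tile`, `s9b_cone`, `s9b_U_*`, `s9b_pick`.

FROM ROW ENERGIES TO DETERMINISTIC CENTRES.     `u = s9u f q`, `𝓔 = s9E f q`, `m₀² = 𝓔 (h j)`, `c j = x j + i h j`.

PROOF.  Fix `j`.  `Hf x := u ⟨x, h j⟩/m₀²` is continuous with mean `1`.   Variables `Φ i` (`i ∈ ℕ`), all continuous and `≥ 0`; a variable whose geometric side condition fails at this `j` is replaced by `0`: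
  `Φ 0 x     := (circleAverage (s9b_U f q ⟨x, h j⟩ (ℓ j)) 0 1 - u ⟨x, h j⟩)/m₀²`           side condition `|h j| + ℓ j < H`;   mean `= circleAverage (e^{-2 Im S} 𝓔 (h j + ℓ j Im S)/m₀²) - 1`   (`s9b_U_mean`);
  `Φ (2m+1)  :=` majorant of `s9_tile` with `hc = h j`, `r = a = A ℓ j`, `A = m+1`, divided by `m₀²`;   side condition `|h j| + 2 A ℓ j < H` and `𝓔 ≤ E₀ := 2 e^{4A} m₀²` on the rows `h j + ℓ j σ`, `|σ| ≤ 2A`;   mean `≤ 32 e^{4A}`;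
  `Φ (2m+2)  :=` majorant of `s9b_cone` with `L = m+1`, `E₁ = m₀²`, divided by `m₀²`;   side condition: the tail hypothesis at `j`, `-H < h j - 4δ`;   mean `≤ 10000 (m+2) C'`.
 `s9b_pick` with `J = 2j+2`, `ε = 1/(j+1)` gives `x j` with `Hf (x j) ≥ 1/4` (this is (a)) and `Φ i (x j) ≤ 2^{i+2} (mean + 1/(j+1)) Hf (x j)` for `i ≤ 2j+2`.
 For fixed `i` all side conditions hold for large `j`: `h j → H > 0`, `(H - h j)/ℓ j → ∞`, `ℓ j → 0`, `4δ < H`, `hloc` with `U = 2A`, `η = 1`.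
 (b): given `A` take `m+1 ≥ A`;   `u (c j + ℓ j S) ≤ m₀² Φ (2m+1) (x j) ≤ 2^{2m+3} (32 e^{4(m+1)} + 1) u (c j)`.     (c): the same with `Φ (2m+2)`, `m + 1 ≥ L`.
 (d): `0 ≤ circleAverage U/u (c j) - 1 = Φ 0 (x j)/Hf (x j) ≤ 4 (mean Φ 0 + 1/(j+1)) → 0`, because by `hloc` (`U = 1`) `|e^{-2σ} 𝓔 (h j + ℓ j σ)/m₀² - 1| ≤ η` uniformly on the unit circle (`σ = Im S ∈ [-1,1]`).
-/
import Claimed.Agent.R269.S9.SteepTile
import Claimed.Agent.R269.S9.SteepPick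
import Claimed.Agent.R269.S9.SteepDefect

set_option autoImplicit false

namespace Claimed.Agent.R269

open Complex Filter Topology MeasureTheory Set Metric
open scoped ENNReal Real

/-- the tile variable (zero if its side conditions fail). -/
theorem s9bs_tile {f q : ℂ → ℂ} {H : ℝ} (hp : S9Pair f q H) (h ℓ A : ℝ) (hℓ : 0 < ℓ) (hh : |h| < H)
    (hA : 0 < A) :
    ∃ Φ : ℝ → ℝ, Continuous Φ ∧ (∀ x, 0 ≤ Φ x) ∧
      (|h| + 2 * A * ℓ < H →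
        (∀ σ ∈ Icc (-(2 * A)) (2 * A), s9E f q (h + ℓ * σ) ≤ 2 * Real.exp (4 * A) * s9E f q h) →
        (∀ (x : ℝ) (S : ℂ), |S.re| ≤ A → |S.im| ≤ A →
          s9u f q (⟨x, h⟩ + (ℓ : ℂ) * S) ≤ s9E f q h * Φ x) ∧
        (2 * π)⁻¹ * ∫ x in (0 : ℝ)..(2 * π), Φ x ≤ 32 * Real.exp (4 * A)) := by
  have hE0 : 0 < s9E f q h := s9E_pos hp hh
  by_cases hside : |h| + 2 * A * ℓ < H ∧
      ∀ σ ∈ Icc (-(2 * A)) (2 * A), s9E f q (h + ℓ * σ) ≤ 2 * Real.exp (4 * A) * s9E f q h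
  · obtain ⟨hs1, hs2⟩ := hside
    have hAℓ : 0 < A * ℓ := mul_pos hA hℓ
    obtain ⟨Φ, hc, h0, hmaj, hmean⟩ := s9_tile hp h (A * ℓ) (A * ℓ)
      (2 * Real.exp (4 * A) * s9E f q h) hAℓ hAℓ.le (by linarith [neg_abs_le h])
      (by linarith [le_abs_self h]) (by
        intro η hη
        have h1 : η = h + ℓ * ((η - h) / ℓ) := by field_simp; ring
        rw [h1]
        apply hs2
        constructor
        · rw [le_div_iff₀ hℓ]; linarith [hη.1]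
        · rw [div_le_iff₀ hℓ]; linarith [hη.2])
    refine ⟨fun x => Φ x / s9E f q h, hc.div_const _, fun x => div_nonneg (h0 x) hE0.le,
      fun _ _ => ⟨?_, ?_⟩⟩
    · intro x S h1 h2
      have heq : (⟨x, h⟩ : ℂ) + (ℓ : ℂ) * S = (x : ℂ) + ⟨ℓ * S.re, h + ℓ * S.im⟩ := by
        apply Complex.ext <;> simp
      have h3 := hmaj x ⟨ℓ * S.re, h + ℓ * S.im⟩
        (by
          show |ℓ * S.re| ≤ A * ℓ
          rw [abs_mul, abs_of_pos hℓ, mul_comm]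
          exact mul_le_mul_of_nonneg_right h1 hℓ.le)
        (by
          show |h + ℓ * S.im - h| ≤ A * ℓ
          rw [add_sub_cancel_left, abs_mul, abs_of_pos hℓ, mul_comm]
          exact mul_le_mul_of_nonneg_right h2 hℓ.le)
      rw [heq, mul_div_cancel₀ _ hE0.ne']
      exact h3
    · rw [intervalIntegral.integral_div, ← mul_div_assoc, div_le_iff₀ hE0]
      refine hmean.trans (le_of_eq ?_)
      rw [div_self hAℓ.ne']
      ring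
  · exact ⟨fun _ => 0, continuous_const, fun _ => le_rfl, fun h1 h2 => absurd ⟨h1, h2⟩ hside⟩

/-- the cone variable (zero if its side conditions fail). -/
theorem s9bs_cone {f q : ℂ → ℂ} {H : ℝ} (hp : S9Pair f q H) (h ℓ δ C' L : ℝ) (hℓ : 0 < ℓ)
    (hh : |h| < H) (hδ : 0 < δ) (hC' : 0 ≤ C') (hL : 0 ≤ L) :
    ∃ Φ : ℝ → ℝ, Continuous Φ ∧ (∀ x, 0 ≤ Φ x) ∧
      (-H < h - 4 * δ →
        (∀ v ≥ (1 / 2 : ℝ), ℓ * v ≤ 4 * δ →
          s9E f q (h - ℓ * v) ≤ C' * (1 + v) ^ (-(5 / 4) : ℝ) * s9E f q h) →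
        (∀ (x : ℝ) (S : ℂ), 1 ≤ -S.im → ℓ * (-S.im) ≤ δ → |S.re| ≤ L * (-S.im) →
          s9u f q (⟨x, h⟩ + (ℓ : ℂ) * S) ≤ (-S.im) ^ (-(9 / 8) : ℝ) * (s9E f q h * Φ x)) ∧
        (2 * π)⁻¹ * ∫ x in (0 : ℝ)..(2 * π), Φ x ≤ 10000 * (L + 1) * C') := by
  have hE0 : 0 < s9E f q h := s9E_pos hp hh
  by_cases hside : -H < h - 4 * δ ∧ ∀ v ≥ (1 / 2 : ℝ), ℓ * v ≤ 4 * δ →
      s9E f q (h - ℓ * v) ≤ C' * (1 + v) ^ (-(5 / 4) : ℝ) * s9E f q h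
  · obtain ⟨hs1, hs2⟩ := hside
    obtain ⟨Φ, hc, h0, hmaj, hmean⟩ := s9b_cone hp h ℓ δ C' L (s9E f q h) hℓ hδ hL hC' hE0.le hs1
      (lt_of_le_of_lt (le_abs_self h) hh) hs2
    refine ⟨fun x => Φ x / s9E f q h, hc.div_const _, fun x => div_nonneg (h0 x) hE0.le,
      fun _ _ => ⟨?_, ?_⟩⟩
    · intro x S h1 h2 h3
      rw [mul_div_cancel₀ _ hE0.ne']
      exact hmaj x S h1 h2 h3
    · rw [intervalIntegral.integral_div, ← mul_div_assoc, div_le_iff₀ hE0]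
      exact hmean
  · exact ⟨fun _ => 0, continuous_const, fun _ => le_rfl, fun h1 h2 => absurd ⟨h1, h2⟩ hside⟩

/-- the defect variable (zero if its side condition fails). -/
theorem s9bs_defect {f q : ℂ → ℂ} {H : ℝ} (hp : S9Pair f q H) (h ℓ : ℝ) (hℓ : 0 < ℓ) (hh : |h| < H) :
    ∃ Φ : ℝ → ℝ, Continuous Φ ∧ (∀ x, 0 ≤ Φ x) ∧
      (|h| + ℓ < H →
        (∀ x : ℝ, Real.circleAverage (s9b_U f q ⟨x, h⟩ ℓ) 0 1 - s9u f q ⟨x, h⟩ = s9E f q h * Φ x) ∧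
        ∀ η : ℝ, (∀ σ ∈ Icc (-1 : ℝ) 1,
            |Real.exp (-2 * σ) * s9E f q (h + ℓ * σ) / s9E f q h - 1| ≤ η) →
          (2 * π)⁻¹ * ∫ x in (0 : ℝ)..(2 * π), Φ x ≤ η) := by
  have hE0 : 0 < s9E f q h := s9E_pos hp hh
  by_cases hside : |h| + ℓ < H
  · have hc1 := s9b_U_cont hp h ℓ hℓ hside
    have hc2 := s9u_row_cont hp hh
    refine ⟨fun x => (Real.circleAverage (s9b_U f q ⟨x, h⟩ ℓ) 0 1 - s9u f q ⟨x, h⟩) / s9E f q h,
      (hc1.sub hc2).div_const _, fun x => div_nonneg ?_ hE0.le, fun _ => ⟨fun x => ?_, ?_⟩⟩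
    · have := s9b_U_sub hp ⟨x, h⟩ ℓ hℓ hside
      linarith
    · rw [mul_div_cancel₀ _ hE0.ne']
    · intro η hη
      have hη0 : 0 ≤ η := (abs_nonneg _).trans (hη 0 ⟨by norm_num, by norm_num⟩)
      rw [intervalIntegral.integral_div, intervalIntegral.integral_sub (hc1.intervalIntegrable _ _)
        (hc2.intervalIntegrable _ _), ← mul_div_assoc, mul_sub, s9b_U_mean hp h ℓ hℓ hside,
        div_le_iff₀ hE0]
      have hE : (2 * π)⁻¹ * ∫ x in (0 : ℝ)..(2 * π), s9u f q ⟨x, h⟩ = s9E f q h := rfl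
      rw [hE]
      have hb : Real.circleAverage (fun S => Real.exp (-2 * S.im) * s9E f q (h + ℓ * S.im)) 0 1 ≤
          (1 + η) * s9E f q h := by
        by_cases hi : CircleIntegrable (fun S : ℂ => Real.exp (-2 * S.im) * s9E f q (h + ℓ * S.im)) 0 1
        · apply Real.circleAverage_mono_on_of_le_circle hi
          intro S hS
          have hS1 : ‖S‖ = 1 := by simpa using hS
          have h1 := abs_le.1 ((Complex.abs_im_le_norm S).trans hS1.le)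
          have h2 := (abs_le.1 (hη S.im ⟨h1.1, h1.2⟩)).2
          have h3 : Real.exp (-2 * S.im) * s9E f q (h + ℓ * S.im) / s9E f q h ≤ 1 + η := by linarith
          rwa [div_le_iff₀ hE0] at h3
        · rw [Real.circleAverage.integral_undef hi]
          positivity
      linarith
  · exact ⟨fun _ => 0, continuous_const, fun _ => le_rfl, fun h1 => absurd h1 hside⟩

/-- the selection at one index. -/
theorem s9bs_pick {f q : ℂ → ℂ} {H : ℝ} (hp : S9Pair f q H) (h ℓ δ C' : ℝ) (hℓ : 0 < ℓ) (hh : |h| < H)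
    (hδ : 0 < δ) (hC' : 0 ≤ C') (j : ℕ) :
    ∃ x : ℝ, s9E f q h ≤ 4 * s9u f q ⟨x, h⟩ ∧
      (∀ m ≤ j, |h| + 2 * ((m : ℝ) + 1) * ℓ < H →
        (∀ σ ∈ Icc (-(2 * ((m : ℝ) + 1))) (2 * ((m : ℝ) + 1)),
          s9E f q (h + ℓ * σ) ≤ 2 * Real.exp (4 * ((m : ℝ) + 1)) * s9E f q h) →
        ∀ S : ℂ, |S.re| ≤ (m : ℝ) + 1 → |S.im| ≤ (m : ℝ) + 1 →
          s9u f q (⟨x, h⟩ + (ℓ : ℂ) * S) ≤
            2 ^ (3 * m + 2) * (32 * Real.exp (4 * ((m : ℝ) + 1)) + 1) * s9u f q ⟨x, h⟩) ∧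
      (∀ m ≤ j, -H < h - 4 * δ →
        (∀ v ≥ (1 / 2 : ℝ), ℓ * v ≤ 4 * δ →
          s9E f q (h - ℓ * v) ≤ C' * (1 + v) ^ (-(5 / 4) : ℝ) * s9E f q h) →
        ∀ S : ℂ, 1 ≤ -S.im → ℓ * (-S.im) ≤ δ → |S.re| ≤ ((m : ℝ) + 1) * (-S.im) →
          s9u f q (⟨x, h⟩ + (ℓ : ℂ) * S) ≤
            2 ^ (3 * m + 3) * (10000 * ((m : ℝ) + 2) * C' + 1) * (-S.im) ^ (-(9 / 8) : ℝ) *
              s9u f q ⟨x, h⟩) ∧
      (|h| + ℓ < H → ∀ η : ℝ, (∀ σ ∈ Icc (-1 : ℝ) 1,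
          |Real.exp (-2 * σ) * s9E f q (h + ℓ * σ) / s9E f q h - 1| ≤ η) →
        0 ≤ Real.circleAverage (s9b_U f q ⟨x, h⟩ ℓ) 0 1 - s9u f q ⟨x, h⟩ ∧
        Real.circleAverage (s9b_U f q ⟨x, h⟩ ℓ) 0 1 - s9u f q ⟨x, h⟩ ≤
          16 * (η + 1 / ((j : ℝ) + 1)) * s9u f q ⟨x, h⟩) := by
  have hE0 : 0 < s9E f q h := s9E_pos hp hh
  choose T hTc hT0 hT using fun m : ℕ => s9bs_tile hp h ℓ ((m : ℝ) + 1) hℓ hh (by positivity)
  choose Cn hCc hC0 hC using fun m : ℕ =>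
    s9bs_cone hp h ℓ δ C' ((m : ℝ) + 1) hℓ hh hδ hC' (by positivity)
  obtain ⟨D, hDc, hD0, hD⟩ := s9bs_defect hp h ℓ hℓ hh
  obtain ⟨Φ, hΦ⟩ : ∃ Φ : ℕ → ℝ → ℝ, Φ = fun i =>
      if i % 3 = 0 then T (i / 3) else if i % 3 = 1 then Cn (i / 3) else D := ⟨_, rfl⟩
  have hΦT : ∀ m, Φ (3 * m) = T m := by
    intro m
    have h1 : (3 * m) % 3 = 0 := by omega
    have h2 : (3 * m) / 3 = m := by omega
    rw [hΦ]
    simp only [h1, h2, if_true]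
  have hΦC : ∀ m, Φ (3 * m + 1) = Cn m := by
    intro m
    have h1 : (3 * m + 1) % 3 = 1 := by omega
    have h2 : (3 * m + 1) / 3 = m := by omega
    rw [hΦ]
    simp only [h1, h2, if_true, one_ne_zero, if_false]
  have hΦD : Φ 2 = D := by
    rw [hΦ]
    norm_num
  have hΦc : ∀ i, Continuous (Φ i) := by
    intro i
    rw [hΦ]
    dsimp only
    split_ifs
    exacts [hTc _, hCc _, hDc]
  have hΦ0 : ∀ i x, 0 ≤ Φ i x := by
    intro i x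
    rw [hΦ]
    dsimp only
    split_ifs
    exacts [hT0 _ x, hC0 _ x, hD0 x]
  have hε : 0 < 1 / ((j : ℝ) + 1) := by positivity
  have hε1 : 1 / ((j : ℝ) + 1) ≤ 1 := by
    rw [div_le_one (by positivity)]
    have : (0 : ℝ) ≤ j := Nat.cast_nonneg j
    linarith
  obtain ⟨x, -, hx1, hx2⟩ := s9b_pick (fun x => s9u f q ⟨x, h⟩ / s9E f q h) Φ (3 * j + 2)
    (1 / ((j : ℝ) + 1)) hε ((s9u_row_cont hp hh).div_const _) hΦc hΦ0 (by
      rw [intervalIntegral.integral_div, ← mul_div_assoc]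
      exact div_self hE0.ne')
  obtain ⟨u, hu⟩ : ∃ u, u = s9u f q ⟨x, h⟩ := ⟨_, rfl⟩
  obtain ⟨E, hE⟩ : ∃ E, E = s9E f q h := ⟨_, rfl⟩
  rw [← hu, ← hE] at hx1
  rw [← hE] at hE0
  simp only [← hu, ← hE] at hx2 hT hC hD ⊢
  have hu0 : 0 ≤ u := hu ▸ s9u_nonneg f q _
  have hH0 : 0 ≤ u / E := div_nonneg hu0 hE0.le
  have hEH : ∀ a : ℝ, E * (a * (u / E)) = a * u := by intro a; field_simp
  refine ⟨x, ?_, ?_, ?_, ?_⟩ <;> simp only [← hu]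
  · rw [le_div_iff₀ hE0] at hx1
    linarith
  · intro m hm h1 h2 S hS1 hS2
    obtain ⟨hmaj, hmean⟩ := hT m h1 h2
    have h3 := hx2 (3 * m) (by omega)
    rw [hΦT] at h3
    calc s9u f q (⟨x, h⟩ + (ℓ : ℂ) * S) ≤ E * T m x := hmaj x S hS1 hS2
      _ ≤ E * (2 ^ (3 * m + 2) * (32 * Real.exp (4 * ((m : ℝ) + 1)) + 1) * (u / E)) := by
          refine mul_le_mul_of_nonneg_left (h3.trans ?_) hE0.le
          gcongr
      _ = _ := hEH _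
  · intro m hm h1 h2 S hS1 hS2 hS3
    obtain ⟨hmaj, hmean⟩ := hC m h1 h2
    have h3 := hx2 (3 * m + 1) (by omega)
    rw [hΦC] at h3
    have h4 : (m : ℝ) + 1 + 1 = (m : ℝ) + 2 := by ring
    rw [h4] at hmean
    have hr : 0 ≤ (-S.im) ^ (-(9 / 8) : ℝ) := Real.rpow_nonneg (by linarith) _
    calc s9u f q (⟨x, h⟩ + (ℓ : ℂ) * S) ≤ (-S.im) ^ (-(9 / 8) : ℝ) * (E * Cn m x) :=
          hmaj x S hS1 hS2 hS3
      _ ≤ (-S.im) ^ (-(9 / 8) : ℝ) *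
            (E * (2 ^ (3 * m + 3) * (10000 * ((m : ℝ) + 2) * C' + 1) * (u / E))) := by
          refine mul_le_mul_of_nonneg_left (mul_le_mul_of_nonneg_left (h3.trans ?_) hE0.le) hr
          have h5 : 3 * m + 1 + 2 = 3 * m + 3 := by ring
          rw [h5]
          gcongr
      _ = _ := by rw [hEH]; ring
  · intro hs η hη
    obtain ⟨hid, hmean⟩ := hD hs
    have h3 := hx2 2 (by omega)
    rw [hΦD] at h3
    have hidx := hid x
    rw [← hu] at hidx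
    rw [hidx]
    refine ⟨mul_nonneg hE0.le (hD0 x), ?_⟩
    calc E * D x ≤ E * (16 * (η + 1 / ((j : ℝ) + 1)) * (u / E)) := by
          refine mul_le_mul_of_nonneg_left (h3.trans ?_) hE0.le
          have h6 := hmean η hη
          have h7 : (2 : ℝ) ^ (2 + 2) = 16 := by norm_num
          rw [h7]
          gcongr
      _ = _ := hEH _

/-- LEAF: selection of the centres. -/
theorem s9b_sample {f q : ℂ → ℂ} {H : ℝ} (hp : S9Pair f q H) (h ℓ : ℕ → ℝ) (δ C' : ℝ) (hδ : 0 < δ)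
    (hδ' : 4 * δ < H) (hC' : 0 ≤ C') (hpos : ∀ j, 0 < ℓ j ∧ |h j| < H) (hh : Tendsto h atTop (𝓝 H))
    (hℓ : Tendsto ℓ atTop (𝓝 0)) (hex : Tendsto (fun j => (H - h j) / ℓ j) atTop atTop)
    (hloc : ∀ U > (0 : ℝ), ∀ η > (0 : ℝ), ∀ᶠ j in atTop, ∀ σ ∈ Icc (-U) U,
      |Real.exp (-2 * σ) * s9E f q (h j + ℓ j * σ) / s9E f q (h j) - 1| ≤ η)
    (htail : ∀ᶠ j in atTop, ∀ v ≥ (1 / 2 : ℝ), ℓ j * v ≤ 4 * δ →
      s9E f q (h j - ℓ j * v) ≤ C' * (1 + v) ^ (-(5 / 4) : ℝ) * s9E f q (h j)) :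
    ∃ x : ℕ → ℝ,
      (∀ j, s9E f q (h j) ≤ 4 * s9u f q ⟨x j, h j⟩) ∧
      (∀ A > (0 : ℝ), ∃ C : ℝ, ∀ᶠ j in atTop, ∀ S : ℂ, |S.re| ≤ A → |S.im| ≤ A →
        s9u f q (⟨x j, h j⟩ + (ℓ j : ℂ) * S) ≤ C * s9u f q ⟨x j, h j⟩) ∧
      (∀ L > (0 : ℝ), ∃ C : ℝ, ∀ᶠ j in atTop, ∀ S : ℂ, 1 ≤ -S.im → ℓ j * (-S.im) ≤ δ →
        |S.re| ≤ L * (-S.im) →
        s9u f q (⟨x j, h j⟩ + (ℓ j : ℂ) * S) ≤ C * (-S.im) ^ (-(9 / 8) : ℝ) * s9u f q ⟨x j, h j⟩) ∧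
      Tendsto (fun j => Real.circleAverage (s9b_U f q ⟨x j, h j⟩ (ℓ j)) 0 1 / s9u f q ⟨x j, h j⟩)
        atTop (𝓝 1) := by
  have hH : 0 < H := hp.H_pos
  choose x hxa hxb hxc hxd using fun j : ℕ =>
    s9bs_pick hp (h j) (ℓ j) δ C' (hpos j).1 (hpos j).2 hδ hC' j
  have hh0 : ∀ᶠ j in atTop, 0 < h j := hh.eventually (lt_mem_nhds hH)
  have hside : ∀ A : ℝ, ∀ᶠ j in atTop, |h j| + A * ℓ j < H := by
    intro A
    filter_upwards [hh0, hex.eventually_gt_atTop A] with j h1 h2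
    rw [lt_div_iff₀ (hpos j).1] at h2
    rw [abs_of_pos h1]
    linarith
  refine ⟨x, hxa, ?_, ?_, ?_⟩
  · intro A hA
    obtain ⟨m, hm⟩ := exists_nat_ge A
    refine ⟨2 ^ (3 * m + 2) * (32 * Real.exp (4 * ((m : ℝ) + 1)) + 1), ?_⟩
    filter_upwards [eventually_ge_atTop m, hside (2 * ((m : ℝ) + 1)),
      hloc (2 * ((m : ℝ) + 1)) (by positivity) 1 one_pos] with j hj h1 h2 S hS1 hS2
    refine hxb j m hj h1 ?_ S (by linarith) (by linarith)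
    intro σ hσ
    have hE0 := s9E_pos hp (hpos j).2
    have h3 := (abs_le.1 (h2 σ hσ)).2
    have h4 : Real.exp (-2 * σ) * s9E f q (h j + ℓ j * σ) / s9E f q (h j) ≤ 2 := by linarith
    rw [div_le_iff₀ hE0] at h4
    have h5 : Real.exp (2 * σ) * Real.exp (-2 * σ) = 1 := by
      rw [← Real.exp_add]
      have : 2 * σ + -2 * σ = 0 := by ring
      rw [this, Real.exp_zero]
    calc s9E f q (h j + ℓ j * σ)
        = Real.exp (2 * σ) * (Real.exp (-2 * σ) * s9E f q (h j + ℓ j * σ)) := by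
          rw [← mul_assoc, h5, one_mul]
      _ ≤ Real.exp (2 * σ) * (2 * s9E f q (h j)) := by gcongr
      _ ≤ Real.exp (4 * ((m : ℝ) + 1)) * (2 * s9E f q (h j)) :=
          mul_le_mul_of_nonneg_right (Real.exp_le_exp.2 (by linarith [hσ.2])) (by positivity)
      _ = 2 * Real.exp (4 * ((m : ℝ) + 1)) * s9E f q (h j) := by ring
  · intro L hL
    obtain ⟨m, hm⟩ := exists_nat_ge L
    refine ⟨2 ^ (3 * m + 3) * (10000 * ((m : ℝ) + 2) * C' + 1), ?_⟩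
    have hlo : ∀ᶠ j in atTop, -H < h j - 4 * δ := by
      filter_upwards [hh.eventually (lt_mem_nhds (show 4 * δ - H < H by linarith))] with j hj
      linarith
    filter_upwards [eventually_ge_atTop m, hlo, htail] with j hj h1 h2 S hS1 hS2 hS3
    refine hxc j m hj h1 h2 S hS1 hS2 (hS3.trans ?_)
    exact mul_le_mul_of_nonneg_right (by linarith) (by linarith)
  · rw [Metric.tendsto_nhds]
    intro ε hε
    have hj : ∀ᶠ j : ℕ in atTop, 1 / ((j : ℝ) + 1) < ε / 64 :=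
      (tendsto_one_div_add_atTop_nhds_zero_nat (𝕜 := ℝ)).eventually
        (gt_mem_nhds (by positivity : (0 : ℝ) < ε / 64))
    filter_upwards [hside 1, hloc 1 one_pos (ε / 64) (by positivity), hj] with j h1 h2 h3
    have hu : 0 < s9u f q ⟨x j, h j⟩ := by
      have := hxa j
      have := s9E_pos hp (hpos j).2
      linarith
    rw [one_mul] at h1
    obtain ⟨h4, h5⟩ := hxd j h1 (ε / 64) h2
    have h6 : Real.circleAverage (s9b_U f q ⟨x j, h j⟩ (ℓ j)) 0 1 / s9u f q ⟨x j, h j⟩ - 1 =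
        (Real.circleAverage (s9b_U f q ⟨x j, h j⟩ (ℓ j)) 0 1 - s9u f q ⟨x j, h j⟩) /
          s9u f q ⟨x j, h j⟩ := by
      field_simp
    rw [Real.dist_eq, h6, abs_of_nonneg (div_nonneg h4 hu.le), div_lt_iff₀ hu]
    refine lt_of_le_of_lt h5 ?_
    apply mul_lt_mul_of_pos_right _ hu
    linarith

end Claimed.Agent.R269
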