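/-
Row 269, P1 Section 9.2, UNIT S9b1 (09-model.tex l.313-470): Lemma 9.4, the steep alternative is impossible.   EXPORT (statement by helper149), PROVED from the leaves of `S9/Steep*.lean`.

ROUTE.  `s9b_diag` (diagonal choice `n = n_j`; `h = H - d D_j`, `ℓ = d D_j/P_j`; row energies `→ e^{2σ}` locally uniformly, tail `≤ C (1+v)^{-5/4}` down to the depth `4 δ_b`);
`s9b_sample` (deterministic form of the size-biased sampling: centres `x_j` with `H_x ≥ 1/4`, local bounds, cone bounds with exponent `9/16 < 5/8`, and ONE circle-mean defect `→ 0` instead of Riesz masses);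
`s9b_limit` (Montel; `F_x'' = (m_x ℓ)² Q_x F_x` gives `F Q = 0`; equality in the submean inequality on one circle gives constants);  `Shape.s9i_exp_obstruction`.
-/
import Claimed.Agent.R269.S9.Imports
import Claimed.Agent.R269.S9.SteepDiag
import Claimed.Agent.R269.S9.SteepSample
import Claimed.Agent.R269.S9.SteepLimit

set_option autoImplicit false

namespace Claimed.Agent.R269

open Complex Filter Topology MeasureTheory Set
open scoped ENNReal Real

theorem Shape.s9_M_le (Sh : Shape) (s : ℂ) : Sh.M s ≤ Real.sqrt (s9u Sh.f Sh.q s) := by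
  unfold Shape.M s9u
  apply max_le
  · apply Real.le_sqrt_of_sq_le
    have := norm_nonneg (Sh.q s)
    linarith
  · apply Real.sqrt_le_sqrt
    have := sq_nonneg ‖Sh.f s‖
    linarith

theorem Shape.s9_db_lt (Sh : Shape) (hH : Sh.H ≠ ⊤) : 4 * Sh.s9db < Sh.Hr / 2 := by
  have h1 := Sh.s9_k0_row hH Sh.s9k0 le_rfl
  have h2 : Sh.s9db ≤ Real.exp (-Sh.s9k0) := by
    unfold Shape.s9db
    apply Real.exp_le_exp.2
    linarith
  have h3 : 0 < Real.exp (-Sh.s9k0) := Real.exp_pos _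
  linarith

/-- EXPORT S9b1 = P1 Lemma 9.4. -/
theorem s9b_steep_false (Sh : Shape) (hH : Sh.H ≠ ⊤) (ho : Sh.order = 1) (Pr : S9Prohibited Sh)
    (φ : ℕ → ℕ) (lm : ℝ → ℝ) (hφ : StrictMono φ) (hlaw : S9aLaw lm)
    (hconv : S9aConv Sh (Pr.k ∘ φ) lm) (hs : S9aSteep lm) : False := by
  have hp := Sh.s9_pair hH
  obtain ⟨h, ℓ, C', hC', hpos, hh, hℓ, hex, hbig, hloc, htail⟩ :=
    s9b_diag Sh hH Pr φ lm hφ hlaw hconv hs
  have hdb : 0 < Sh.s9db := Real.exp_pos _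
  have hdb4 := Sh.s9_db_lt hH
  have hHr := hp.H_pos
  obtain ⟨x, ha, hb, hc, hd⟩ :=
    s9b_sample hp h ℓ Sh.s9db C' hdb (by linarith) hC' hpos hh hℓ hex hloc htail
  set c : ℕ → ℂ := fun j => ⟨x j, h j⟩ with hcdef
  have hupos : ∀ j, 0 < s9u Sh.f Sh.q (c j) := fun j => by
    have := s9E_pos hp (hpos j).2
    have := ha j
    simp only [hcdef]
    linarith
  have hwall : Tendsto (fun j => (Sh.Hr - |(c j).im|) / ℓ j) atTop atTop := by
    refine hex.congr' ?_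
    have : ∀ᶠ j in atTop, 0 < h j := hh.eventually (lt_mem_nhds hHr)
    filter_upwards [this] with j hj
    simp only [hcdef, abs_of_pos hj]
  have hbig' : Tendsto (fun j => ℓ j * Real.sqrt (s9u Sh.f Sh.q (c j))) atTop atTop := by
    have h2 : Tendsto (fun j => (1 / 2 : ℝ) * (ℓ j * Real.sqrt (s9E Sh.f Sh.q (h j)))) atTop atTop :=
      hbig.const_mul_atTop (by norm_num)
    refine tendsto_atTop_mono (fun j => ?_) h2
    have h3 : Real.sqrt (s9E Sh.f Sh.q (h j)) ≤ 2 * Real.sqrt (s9u Sh.f Sh.q (c j)) := by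
      have h4 : Real.sqrt (4 * s9u Sh.f Sh.q (c j)) = 2 * Real.sqrt (s9u Sh.f Sh.q (c j)) := by
        rw [Real.sqrt_mul (by norm_num)]
        congr 1
        rw [show (4 : ℝ) = 2 ^ 2 by norm_num]
        exact Real.sqrt_sq (by norm_num)
      rw [← h4]
      exact Real.sqrt_le_sqrt (ha j)
    have := (hpos j).1
    nlinarith
  obtain ⟨ψ, c₀, hψ, hc₀, hlim⟩ :=
    s9b_limit hp c ℓ (fun j => ⟨(hpos j).1, (hpos j).2, hupos j⟩) hwall hbig' hb hd
  have hψt := hψ.tendsto_atTop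
  refine Sh.s9i_exp_obstruction hH (x ∘ ψ) (h ∘ ψ) (ℓ ∘ ψ)
    (fun j => Real.sqrt (s9u Sh.f Sh.q (c (ψ j)))) c₀ hc₀ (9 / 16) Sh.s9db
    (fun n => ⟨(hpos _).1, Real.sqrt_pos.2 (hupos _), (hpos _).2⟩) (hbig'.comp hψt) (hh.comp hψt)
    (hℓ.comp hψt) (hex.comp hψt) hlim (by norm_num) (by norm_num) hdb (by linarith) ?_
  intro L
  obtain ⟨C₁, hC₁⟩ := hc (max L 1) (by positivity)
  refine ⟨Real.sqrt (max C₁ 0), (hψt.eventually hC₁).mono fun n hn s hs1 hs2 hs3 => ?_⟩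
  simp only [Function.comp] at hs1 hs2 hs3 ⊢
  have hℓn := (hpos (ψ n)).1
  set D : ℝ := (h (ψ n) - s.im) / ℓ (ψ n) with hD
  have hD1 : 1 ≤ D := by rw [hD, le_div_iff₀ hℓn]; linarith
  have hD0 : 0 < D := by linarith
  set S : ℂ := (s - c (ψ n)) / (ℓ (ψ n) : ℂ) with hS
  have hℓc : (ℓ (ψ n) : ℂ) ≠ 0 := by exact_mod_cast hℓn.ne'
  have hSs : c (ψ n) + (ℓ (ψ n) : ℂ) * S = s := by
    rw [hS]; field_simp; ring
  have hSim : -S.im = D := by
    rw [hS, hD, Complex.div_ofReal_im]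
    simp only [hcdef, Complex.sub_im]
    ring
  have hSre : S.re = (s.re - x (ψ n)) / ℓ (ψ n) := by
    rw [hS, Complex.div_ofReal_re]
    simp only [hcdef, Complex.sub_re]
  have h1 := hn S (by rw [hSim]; exact hD1)
    (by rw [hSim, hD]; field_simp; linarith)
    (by
      rw [hSim, hSre, abs_div, abs_of_pos hℓn, hD, div_le_iff₀ hℓn]
      have h5 : L * (h (ψ n) - s.im) ≤ max L 1 * (h (ψ n) - s.im) :=
        mul_le_mul_of_nonneg_right (le_max_left _ _) (by linarith)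
      calc |s.re - x (ψ n)| ≤ L * (h (ψ n) - s.im) := hs3
        _ ≤ max L 1 * (h (ψ n) - s.im) := h5
        _ = max L 1 * ((h (ψ n) - s.im) / ℓ (ψ n)) * ℓ (ψ n) := by field_simp)
  rw [show (⟨x (ψ n), h (ψ n)⟩ : ℂ) = c (ψ n) from rfl, hSs, hSim] at h1
  have hu0 := (hupos (ψ n)).le
  have hDp : 0 ≤ D ^ (-(9 / 8) : ℝ) := Real.rpow_nonneg hD0.le _
  have h2 : s9u Sh.f Sh.q s ≤ max C₁ 0 * D ^ (-(9 / 8) : ℝ) * s9u Sh.f Sh.q (c (ψ n)) := by
    refine h1.trans ?_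
    gcongr
    exact le_max_left _ _
  have h3 : (ℓ (ψ n) / (h (ψ n) - s.im)) ^ (9 / 16 : ℝ) = Real.sqrt (D ^ (-(9 / 8) : ℝ)) := by
    have h6 : ℓ (ψ n) / (h (ψ n) - s.im) = D⁻¹ := by rw [hD, inv_div]
    rw [h6, Real.sqrt_eq_rpow, ← Real.rpow_mul hD0.le, Real.inv_rpow hD0.le, ← Real.rpow_neg hD0.le]
    norm_num
  calc Sh.M s ≤ Real.sqrt (s9u Sh.f Sh.q s) := Sh.s9_M_le s
    _ ≤ Real.sqrt (max C₁ 0 * D ^ (-(9 / 8) : ℝ) * s9u Sh.f Sh.q (c (ψ n))) := Real.sqrt_le_sqrt h2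
    _ = Real.sqrt (max C₁ 0) * Real.sqrt (s9u Sh.f Sh.q (c (ψ n))) *
          (ℓ (ψ n) / (h (ψ n) - s.im)) ^ (9 / 16 : ℝ) := by
        rw [h3, Real.sqrt_mul (by positivity), Real.sqrt_mul (by positivity)]
        ring

end Claimed.Agent.R269
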