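/-
Row 269, UNIT S9e, LEAF PACKAGE LF-S9e-epoch (P1 Lemma 9.9).   Blueprint: helper149.   Proof: helper175.   HOST-FREE (pure real variable).

PROOF.  Let `w` be large.  `u₀ ∈ [0,w]` maximises the continuous function `L v - c₁ v` on `[0,w]`.  For every `η > 0`, eventually `w - u₀ ≤ η w`: for `v ≤ (1-η) w`,
`L v - c₁ v ≤ (λ - c₁)(1-η) w + η' w + C < (λ - c₁) w - η' w ≤ L w - c₁ w` if `η'` is small (`|L v - λ v| ≤ η' v + C` for all `v ≥ 0`, by `hslope` and boundedness on a compact interval).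
`u ≥ u₀` maximises `L v - P₁ v` on `[u₀, ∞)` (it tends to `-∞`, continuous); similarly `u - u₀ ≤ η u₀` eventually.
Future bound at `u`: maximality.   Past bound: for `v ≤ u₀`: `L v - c₁ v ≤ L u₀ - c₁ u₀` and `L u - L u₀ ≥ P₁ (u - u₀) ≥ c₁ (u - u₀)`; for `u₀ ≤ v ≤ u`: `L v - L u ≤ P₁ (v - u) ≤ c₁ (v - u)`.
-/
import Mathlib

set_option autoImplicit false

namespace Claimed.Agent.R269

open Complex Filter Topology MeasureTheory Set Metric
open scoped ENNReal Real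

/-- the set of common normal epochs (P1 (9.40)), `L` on `[0,∞)`. -/
def s9e_E (L : ℝ → ℝ) (c₁ P₁ : ℝ) : Set ℝ :=
  {u | 0 < u ∧ (∀ v ∈ Icc 0 u, L v - L u ≤ c₁ * (v - u)) ∧ ∀ v ≥ u, L v - L u ≤ P₁ * (v - u)}

/-- global form of the slope hypothesis. -/
theorem s9ep_bound (L : ℝ → ℝ) (lam : ℝ) (hL : ContinuousOn L (Ici 0))
    (hslope : ∀ η > (0 : ℝ), ∃ v₀ : ℝ, ∀ v ≥ v₀, |L v - lam * v| ≤ η * v) (η : ℝ) (hη : 0 < η) :
    ∃ C : ℝ, 0 ≤ C ∧ ∀ v ≥ 0, |L v - lam * v| ≤ η * v + C := by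
  obtain ⟨v₀, hv₀⟩ := hslope η hη
  have hcont : ContinuousOn (fun v => L v - lam * v) (Icc 0 (max v₀ 0)) :=
    (hL.mono fun v hv => hv.1).sub (continuous_const.mul continuous_id).continuousOn
  obtain ⟨C, hC⟩ := isCompact_Icc.exists_bound_of_continuousOn hcont
  refine ⟨max C 0, le_max_right _ _, fun v hv => ?_⟩
  have h0 : 0 ≤ η * v := mul_nonneg hη.le hv
  rcases le_total v (max v₀ 0) with h | h
  · have := hC v ⟨hv, h⟩
    rw [Real.norm_eq_abs] at this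
    linarith [le_max_left C 0]
  · have := hv₀ v ((le_max_left _ _).trans h)
    linarith [le_max_right C 0]

/-- LEAF: the epochs are relatively dense. -/
theorem s9e_epochs (L : ℝ → ℝ) (lam c₁ P₁ : ℝ) (hL : ContinuousOn L (Ici 0))
    (hslope : ∀ η > (0 : ℝ), ∃ v₀ : ℝ, ∀ v ≥ v₀, |L v - lam * v| ≤ η * v) (hc₁ : c₁ < lam)
    (hP₁ : lam < P₁) :
    ∀ ε > (0 : ℝ), ∃ v₀ : ℝ, ∀ v ≥ v₀, ∃ u ∈ s9e_E L c₁ P₁, |u - v| ≤ ε * v := by
  intro ε hε
  obtain ⟨η, hη0, hηε, hη2⟩ : ∃ η : ℝ, 0 < η ∧ η ≤ ε ∧ η ≤ 1 / 2 :=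
    ⟨min ε (1 / 2), lt_min hε (by norm_num), min_le_left _ _, min_le_right _ _⟩
  obtain ⟨a, ha⟩ : ∃ a : ℝ, a = lam - c₁ := ⟨_, rfl⟩
  obtain ⟨D, hD⟩ : ∃ D : ℝ, D = P₁ - lam := ⟨_, rfl⟩
  have ha0 : 0 < a := by rw [ha]; linarith
  have hD0 : 0 < D := by rw [hD]; linarith
  obtain ⟨η', hη'0, hη'a, hη'D⟩ : ∃ η' : ℝ, 0 < η' ∧ η' ≤ a * η / 4 ∧ η' ≤ D * η / 8 :=
    ⟨min (a * η / 4) (D * η / 8), lt_min (by positivity) (by positivity), min_le_left _ _,
      min_le_right _ _⟩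
  have hη'D2 : η' ≤ D / 2 := by nlinarith
  obtain ⟨C, hC0, hC⟩ := s9ep_bound L lam hL hslope η' hη'0
  refine ⟨max 1 (max (4 * C / (a * η) + 1) (8 * C / (D * η))), fun w hw => ?_⟩
  have hw1 : 1 ≤ w := (le_max_left _ _).trans hw
  have hw2 : 4 * C / (a * η) + 1 ≤ w := ((le_max_left _ _).trans (le_max_right _ _)).trans hw
  have hw3 : 8 * C / (D * η) ≤ w := ((le_max_right _ _).trans (le_max_right _ _)).trans hw
  have hw0 : 0 ≤ w := by linarith
  have hw2' : 4 * C < a * η * w := by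
    have h1 : 4 * C / (a * η) ≤ w - 1 := by linarith
    rw [div_le_iff₀ (by positivity)] at h1
    have : 0 < a * η := by positivity
    nlinarith
  have hw3' : 8 * C ≤ D * η * w := by
    rw [div_le_iff₀ (by positivity)] at hw3
    linarith
  -- the record `u₀`
  have hcφ : ContinuousOn (fun v => L v - c₁ * v) (Icc 0 w) :=
    (hL.mono fun v hv => hv.1).sub (continuous_const.mul continuous_id).continuousOn
  obtain ⟨u₀, hu₀, hmax₀⟩ := isCompact_Icc.exists_isMaxOn (nonempty_Icc.2 hw0) hcφ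
  have hφ : ∀ v ∈ Icc 0 w, L v - c₁ * v ≤ L u₀ - c₁ * u₀ := fun v hv => hmax₀ hv
  have hu₀w : (1 - η) * w ≤ u₀ := by
    by_contra hcon
    push Not at hcon
    have h1 := (abs_le.1 (hC u₀ hu₀.1)).2
    have h2 := (abs_le.1 (hC w hw0)).1
    have h3 := hφ w ⟨hw0, le_refl _⟩
    have h4 : (a + η') * u₀ ≤ (a + η') * ((1 - η) * w) :=
      mul_le_mul_of_nonneg_left hcon.le (by linarith)
    have h5 : η' * w ≤ a * η / 4 * w := mul_le_mul_of_nonneg_right hη'a hw0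
    have h6 : 0 ≤ η' * η * w := by positivity
    rw [ha] at h4 h5 hw2'
    nlinarith
  have hu₀pos : 0 < u₀ := by
    have : 0 < (1 - η) * w := by
      have : (0 : ℝ) < 1 - η := by linarith
      positivity
    linarith
  -- the maximiser `u`
  obtain ⟨M, hM⟩ : ∃ M : ℝ, M = max u₀ (2 * (C - (L u₀ - P₁ * u₀)) / D) := ⟨_, rfl⟩
  have hMu : u₀ ≤ M := by rw [hM]; exact le_max_left _ _
  have hcψ : ContinuousOn (fun v => L v - P₁ * v) (Icc u₀ M) :=
    (hL.mono fun v hv => hu₀.1.trans hv.1).sub (continuous_const.mul continuous_id).continuousOn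
  obtain ⟨u, hu, hmax⟩ := isCompact_Icc.exists_isMaxOn (nonempty_Icc.2 hMu) hcψ
  have hψ0 : ∀ v ∈ Icc u₀ M, L v - P₁ * v ≤ L u - P₁ * u := fun v hv => hmax hv
  have hψ : ∀ v ≥ u₀, L v - P₁ * v ≤ L u - P₁ * u := by
    intro v hv
    rcases le_total v M with h | h
    · exact hψ0 v ⟨hv, h⟩
    · have hv0 : 0 ≤ v := hu₀.1.trans hv
      have h1 := (abs_le.1 (hC v hv0)).2
      have h2 : 2 * (C - (L u₀ - P₁ * u₀)) / D ≤ v := by
        refine le_trans ?_ h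
        rw [hM]; exact le_max_right _ _
      rw [div_le_iff₀ hD0] at h2
      have h3 : η' * v ≤ D / 2 * v := mul_le_mul_of_nonneg_right hη'D2 hv0
      have h4 := hψ0 u₀ ⟨le_refl _, hMu⟩
      rw [hD] at h2 h3
      nlinarith
  have huu₀ : u - u₀ ≤ η * w := by
    have hu0 : 0 ≤ u := hu₀.1.trans hu.1
    have h1 := (abs_le.1 (hC u hu0)).2
    have h2 := (abs_le.1 (hC u₀ hu₀.1)).1
    have h3 := hψ u₀ (le_refl _)
    have h4 : η' * (u - u₀) ≤ D / 2 * (u - u₀) :=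
      mul_le_mul_of_nonneg_right hη'D2 (by linarith [hu.1])
    have h5 : η' * u₀ ≤ η' * w := mul_le_mul_of_nonneg_left hu₀.2 hη'0.le
    have h6 : η' * w ≤ D * η / 8 * w := mul_le_mul_of_nonneg_right hη'D hw0
    have h7 : D / 2 * (u - u₀) ≤ D / 2 * (η * w) := by
      have e : D * (u - u₀) ≤ η' * (u - u₀) + 2 * (η' * u₀) + 2 * C := by
        rw [hD]; nlinarith
      nlinarith
    exact le_of_mul_le_mul_left h7 (by positivity)
  refine ⟨u, ⟨hu₀pos.trans_le hu.1, ?_, ?_⟩, ?_⟩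
  · intro v hv
    rcases le_total v u₀ with h | h
    · have h1 := hφ v ⟨hv.1, h.trans hu₀.2⟩
      have h2 := hψ u₀ (le_refl _)
      have h3 : c₁ * (u - u₀) ≤ P₁ * (u - u₀) :=
        mul_le_mul_of_nonneg_right (by linarith) (by linarith [hu.1])
      nlinarith
    · have h1 := hψ v h
      have h3 : c₁ * (u - v) ≤ P₁ * (u - v) :=
        mul_le_mul_of_nonneg_right (by linarith) (by linarith [hv.2])
      nlinarith
  · intro v hv
    have h1 := hψ v (hu.1.trans hv)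
    linarith
  · have h1 : η * w ≤ ε * w := mul_le_mul_of_nonneg_right hηε hw0
    rw [abs_le]
    constructor
    · nlinarith [hu.1]
    · nlinarith [hu₀.2]

end Claimed.Agent.R269
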