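/-
Row 269, UNIT S9e, LEAF PACKAGE LF-S9e-env (P1 l.1135-1175).   Blueprint: helper149.   No paper reading needed.

THE UNIFORM ENVELOPE AT THE RESCALED LEVELS `K'' = K_n + u`, `u` an epoch.
Constants: `c₁ = 19/32`, `c₂ = 9/16`, `P₁ = s9e_P1 𝒮 = max λ (1+a) + 1`, `P₂ = P₁ + 1`; new coarse exponent `1 - c₂ = 7/16`, new fine exponent `P₂ - 1 = P₁`.

PROOF.  `M_n v := e^v μ(K_n + v)/μ(K_n)`.  With `l = K_n + v`, `B'' = μ(K_n+u)`:  `μ l/B'' = e^{u-v} M_n v/M_n u`; the claim is  `M_n v/M_n u ≤ C e^{c₂ (v-u)}` (`v ≤ u`), `≤ C e^{P₂ (v-u)}` (`v ≥ u`).   `C = 2 max 1 Cenv`, `C₀ = P₂`.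
Take `n` so large that `|log M_n v - L v| ≤ (log 2)/2` on `[0, C₀ u]` (`𝒮.moment`).  `u₁`: `L u ≥ c₂ u` for `u ≥ u₁` (`λ ≥ 1 > c₂`), `u₁ ≥ 0`.
 (a) `0 ≤ v ≤ u`: `≤ 2 e^{L v - L u} ≤ 2 e^{c₁ (v-u)} ≤ 2 e^{c₂ (v-u)}`.     (b) `u ≤ v ≤ C₀ u`: `≤ 2 e^{P₁ (v-u)}`.
 (c) `v ≤ 0`: `𝒮.env` gives `M_n v ≤ Cenv e^{(5/8) v}`; `M_n u ≥ e^{L u}/√2 ≥ e^{c₂ u}/√2`; `e^{(5/8) v} ≤ e^{c₂ v}`.
 (d) `v ≥ C₀ u`: `𝒮.env` gives `M_n v ≤ Cenv e^{(1+a) v}`; `(1+a) v ≤ P₂ (v - u)` because `(P₂ - 1 - a) v ≥ v ≥ P₂ u`; `M_n u ≥ 1/√2`.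
-/
import Claimed.Agent.R269.S9.Units
import Claimed.Agent.R269.S9.WitnessEpoch

set_option autoImplicit false

namespace Claimed.Agent.R269

open Complex Filter Topology MeasureTheory Set Metric
open scoped ENNReal Real

/-- the fine exponent `P₁`. -/
noncomputable def s9e_P1 {Sh : Shape} (𝒮 : S9Scale Sh) : ℝ := max 𝒮.lam (1 + 𝒮.a) + 1

/-- upper bound from a bound of the logarithm. -/
theorem s9e_le_of_log {x a η : ℝ} (hx : 0 ≤ x) (h : |Real.log x - a| ≤ η) : x ≤ Real.exp (a + η) := by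
  rcases hx.eq_or_lt with h0 | h0
  · rw [← h0]; exact (Real.exp_pos _).le
  · calc x = Real.exp (Real.log x) := (Real.exp_log h0).symm
      _ ≤ Real.exp (a + η) := Real.exp_le_exp.2 (by linarith [(abs_le.1 h).2])

/-- lower bound from a bound of the logarithm. -/
theorem s9e_ge_of_log {x a η : ℝ} (hx : 0 ≤ x) (h : |Real.log x - a| ≤ η) (ha : η < a) :
    Real.exp (a - η) ≤ x := by
  rcases hx.eq_or_lt with h0 | h0
  · rw [← h0, Real.log_zero] at h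
    have := (abs_le.1 h).1
    linarith
  · calc Real.exp (a - η) ≤ Real.exp (Real.log x) := Real.exp_le_exp.2 (by linarith [(abs_le.1 h).1])
      _ = x := Real.exp_log h0

/-- LEAF: the envelope at the level `K n + u`. -/
theorem s9e_envelope (Sh : Shape) (𝒮 : S9Scale Sh) :
    ∃ C u₁ : ℝ, 0 < C ∧ ∀ u ∈ s9e_E 𝒮.L (19 / 32) (s9e_P1 𝒮), u₁ ≤ u → ∀ᶠ n in atTop,
      ∀ l ≥ Sh.s9k0, Sh.μ l ≤ s9env (C * Sh.μ (𝒮.K n + u)) (7 / 16) (s9e_P1 𝒮) (𝒮.K n + u) l := by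
  have hμ0 : ∀ k, 0 ≤ Sh.μ k := fun k => by unfold Shape.μ; positivity
  obtain ⟨v₀, hv₀⟩ := 𝒮.L_slope (𝒮.lam - 9 / 16) (by linarith [𝒮.lam_ge])
  refine ⟨2 * max 1 𝒮.Cenv, max v₀ 1, by positivity, fun u hu hu₁ => ?_⟩
  obtain ⟨hu0, hpast, hfut⟩ := hu
  obtain ⟨P₁, hP₁⟩ : ∃ P₁, P₁ = s9e_P1 𝒮 := ⟨_, rfl⟩
  rw [← hP₁] at hfut ⊢
  have hP₁a : 𝒮.a + 2 ≤ P₁ := by
    rw [hP₁, s9e_P1]; linarith [le_max_right 𝒮.lam (1 + 𝒮.a)]
  have ha := 𝒮.a_pos
  have hu1 : 1 ≤ u := (le_max_right _ _).trans hu₁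
  have hLu : 9 / 16 * u ≤ 𝒮.L u := by
    have := (abs_le.1 (hv₀ u ((le_max_left _ _).trans hu₁))).1
    linarith
  have hV : 0 < (P₁ + 1) * u := by nlinarith
  have hl2 : 0 < Real.log 2 := Real.log_pos (by norm_num)
  have hl2' := Real.log_two_lt_d9
  filter_upwards [𝒮.moment ((P₁ + 1) * u) hV (Real.log 2 / 2) (by positivity),
    𝒮.B_tendsto.eventually_gt_atTop 0] with n hn hB l hl
  have henv := 𝒮.env n l hl
  obtain ⟨B, hBdef⟩ : ∃ B, B = Sh.μ (𝒮.K n) := ⟨_, rfl⟩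
  obtain ⟨K, hK⟩ : ∃ K, K = 𝒮.K n := ⟨_, rfl⟩
  obtain ⟨L, hL⟩ : ∃ L, L = 𝒮.L := ⟨_, rfl⟩
  obtain ⟨Ce, hCe⟩ : ∃ Ce, Ce = max 1 𝒮.Cenv := ⟨_, rfl⟩
  have hCe1 : 1 ≤ Ce := hCe ▸ le_max_left _ _
  have hCe2 : 𝒮.Cenv ≤ Ce := hCe ▸ le_max_right _ _
  rw [← hBdef, ← hK] at henv hn
  rw [← hBdef] at hB
  rw [← hL] at hn hLu hpast hfut
  rw [← hK, ← hCe]
  obtain ⟨v, hv⟩ : ∃ v, l = K + v := ⟨l - K, by ring⟩
  -- the two bounds from `moment`
  have hconv : ∀ w, Sh.μ (K + w) = (Real.exp w * Sh.μ (K + w) / B) * (B * Real.exp (-w)) := by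
    intro w
    have : Real.exp w * Real.exp (-w) = 1 := by rw [← Real.exp_add]; simp
    field_simp
    linear_combination (-(Sh.μ (K + w))) * this
  have hx0 : ∀ w, 0 ≤ Real.exp w * Sh.μ (K + w) / B := fun w => by
    have := hμ0 (K + w); positivity
  have hup : ∀ w ∈ Icc 0 ((P₁ + 1) * u), Sh.μ (K + w) ≤ B * Real.exp (L w + Real.log 2 / 2 - w) := by
    intro w hw
    rw [hconv w]
    calc Real.exp w * Sh.μ (K + w) / B * (B * Real.exp (-w))
        ≤ Real.exp (L w + Real.log 2 / 2) * (B * Real.exp (-w)) :=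
          mul_le_mul_of_nonneg_right (s9e_le_of_log (hx0 w) (hn w hw)) (by positivity)
      _ = B * Real.exp (L w + Real.log 2 / 2 - w) := by
          rw [sub_eq_add_neg (L w + Real.log 2 / 2) w, Real.exp_add (L w + Real.log 2 / 2) (-w)]; ring
  have hlow : B * Real.exp (L u - Real.log 2 / 2 - u) ≤ Sh.μ (K + u) := by
    rw [hconv u]
    calc B * Real.exp (L u - Real.log 2 / 2 - u)
        = Real.exp (L u - Real.log 2 / 2) * (B * Real.exp (-u)) := by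
          rw [sub_eq_add_neg (L u - Real.log 2 / 2) u, Real.exp_add (L u - Real.log 2 / 2) (-u)]; ring
      _ ≤ Real.exp u * Sh.μ (K + u) / B * (B * Real.exp (-u)) :=
          mul_le_mul_of_nonneg_right
            (s9e_ge_of_log (hx0 u) (hn u ⟨hu0.le, by nlinarith⟩) (by linarith)) (by positivity)
  -- reduction: it suffices to bound `μ l` by `Ce B exp (e)` with a suitable exponent
  have key : ∀ e : ℝ, Sh.μ l ≤ Ce * (B * Real.exp e) →
      e + Real.log 2 / 2 + u - L u ≤ Real.log 2 + (7 / 16 * max (K + u - l) 0 + P₁ * max (l - (K + u)) 0) →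
      Sh.μ l ≤ s9env (2 * Ce * Sh.μ (K + u)) (7 / 16) P₁ (K + u) l := by
    intro e h1 h2
    unfold s9env
    calc Sh.μ l ≤ Ce * (B * Real.exp e) := h1
      _ ≤ Ce * (B * Real.exp ((L u - Real.log 2 / 2 - u) + (Real.log 2 +
            (7 / 16 * max (K + u - l) 0 + P₁ * max (l - (K + u)) 0)))) := by
          gcongr
          linarith
      _ = 2 * Ce * (B * Real.exp (L u - Real.log 2 / 2 - u)) *
            Real.exp (7 / 16 * max (K + u - l) 0 + P₁ * max (l - (K + u)) 0) := by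
          rw [Real.exp_add, Real.exp_add (Real.log 2), Real.exp_log (by norm_num : (0 : ℝ) < 2)]; ring
      _ ≤ 2 * Ce * Sh.μ (K + u) *
            Real.exp (7 / 16 * max (K + u - l) 0 + P₁ * max (l - (K + u)) 0) := by
          gcongr
  have hone : ∀ e : ℝ, Sh.μ l ≤ B * Real.exp e → Sh.μ l ≤ Ce * (B * Real.exp e) := by
    intro e h
    have : 0 ≤ B * Real.exp e := by positivity
    nlinarith
  rcases le_total v 0 with hv0 | hv0
  · -- (c)
    have hm1 : max (K - l) 0 = -v := by rw [hv, max_eq_left (by linarith)]; ring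
    have hm2 : max (l - K) 0 = 0 := by rw [hv, max_eq_right (by linarith)]
    have hm3 : max (K + u - l) 0 = u - v := by rw [hv, max_eq_left (by linarith)]; ring
    have hm4 : max (l - (K + u)) 0 = 0 := by rw [hv, max_eq_right (by linarith)]
    refine key (3 / 8 * -v) ?_ ?_
    · unfold s9env at henv
      rw [hm1, hm2] at henv
      calc Sh.μ l ≤ 𝒮.Cenv * B * Real.exp (3 / 8 * -v + 𝒮.a * 0) := henv
        _ = 𝒮.Cenv * (B * Real.exp (3 / 8 * -v)) := by rw [mul_zero, add_zero]; ring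
        _ ≤ Ce * (B * Real.exp (3 / 8 * -v)) := by gcongr
    · rw [hm3, hm4]; linarith
  rcases le_total v u with hvu | hvu
  · -- (a)
    have hm3 : max (K + u - l) 0 = u - v := by rw [hv, max_eq_left (by linarith)]; ring
    have hm4 : max (l - (K + u)) 0 = 0 := by rw [hv, max_eq_right (by linarith)]
    refine key _ (hone _ (hv ▸ hup v ⟨hv0, by nlinarith⟩)) ?_
    rw [hm3, hm4]
    have := hpast v ⟨hv0, hvu⟩
    linarith
  rcases le_total v ((P₁ + 1) * u) with hvV | hvV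
  · -- (b)
    have hm3 : max (K + u - l) 0 = 0 := by rw [hv, max_eq_right (by linarith)]
    have hm4 : max (l - (K + u)) 0 = v - u := by rw [hv, max_eq_left (by linarith)]; ring
    refine key _ (hone _ (hv ▸ hup v ⟨hv0, hvV⟩)) ?_
    rw [hm3, hm4]
    have := hfut v hvu
    linarith
  · -- (d)
    have hm1 : max (K - l) 0 = 0 := by rw [hv, max_eq_right (by linarith)]
    have hm2 : max (l - K) 0 = v := by rw [hv, max_eq_left (by linarith)]; ring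
    have hm3 : max (K + u - l) 0 = 0 := by rw [hv, max_eq_right (by linarith)]
    have hm4 : max (l - (K + u)) 0 = v - u := by rw [hv, max_eq_left (by linarith)]; ring
    refine key (𝒮.a * v) ?_ ?_
    · unfold s9env at henv
      rw [hm1, hm2] at henv
      calc Sh.μ l ≤ 𝒮.Cenv * B * Real.exp (3 / 8 * 0 + 𝒮.a * v) := henv
        _ = 𝒮.Cenv * (B * Real.exp (𝒮.a * v)) := by rw [mul_zero, zero_add]; ring
        _ ≤ Ce * (B * Real.exp (𝒮.a * v)) := by gcongr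
    · rw [hm3, hm4]
      have h1 : (𝒮.a + 2) * v ≤ P₁ * v := mul_le_mul_of_nonneg_right hP₁a hv0
      nlinarith

end Claimed.Agent.R269
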