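/-
Row 269, P1 Section 9.6, UNIT S9e (09-model.tex l.1036-1282): common normal epochs (Lemma 9.9) and witnesses (Prop 9.10).   EXPORT (statement by helper149).

THE UNIT IS CUT: WitnessEpoch.lean (`s9e_E`, `s9e_epochs`), WitnessEnv.lean (`s9e_envelope`), WitnessQuiet.lean (`s9e_quiet`).
THIS FILE = LEAF PACKAGE LF-S9e-glue.   PROOF.
`E = s9e_E 𝒮.L (19/32) (s9e_P1 𝒮)`; density = `s9e_epochs` (`19/32 < 1 ≤ λ < P₁`).
`(C, u₁)` from `s9e_envelope`;  `L₀` from `Shape.s9i_no_quiet_cone` with `α = 17/32`, `β = 7/16`, `a = s9e_P1 𝒮`, `C`, `δb = Sh.s9db` (`0 < s9db < H/2`).   `A := L₀` for every `R`.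
Suppose the claim fails for some `R` (WLOG `R ≥ 0`) and `ε` (WLOG `ε < 1`: a witness for `min ε (1/2)` is a witness for `ε`, as `u > 0`).  Then for every `j` there are `u_j ∈ E` and `x_j ∈ [-R,R]` with `S9eFail 𝒮.F λ L₀ ε u_j x_j`,
`u_j ≥ max u₁ (max (j/ε) (u₂ (1/(j+1))))`, where `u₂ η` is given by `s9e_quiet`.  Choose `n_j` in the (eventual) sets of `s9e_envelope` at `u_j`, of `s9e_quiet` at `(η, u, J, x) = (1/(j+1), u_j, j, x_j)`, and with `K_{n_j} ≥ j`,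
`μ(K_{n_j} + u_j) ≥ j`   [for fixed `u`, `μ(K_n + u) ≥ μ(K_n) e^{-u + L u - 1} → ∞` by `moment` and `B_tendsto`].
`k j = K_{n_j} + u_j`, centres `ξ_{n_j} + e^{-K_{n_j}} x_j`.  For `c, η > 0` and `j ≥ max (-log c) (1/η)` the cone from `c e^{-k j}` is contained in the cone from `e^{-j} e^{-k j}`.   Contradiction with `s9i_no_quiet_cone`.
-/
import Claimed.Agent.R269.S9.Imports
import Claimed.Agent.R269.S9.WitnessEnv
import Claimed.Agent.R269.S9.WitnessQuiet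
import Claimed.Agent.R269.S9.GrowthDefs

set_option autoImplicit false

namespace Claimed.Agent.R269

open Complex Filter Topology MeasureTheory Set
open scoped ENNReal Real

/-- for a fixed large epoch `u` the moments at the levels `K n + u` tend to infinity. -/
theorem s9e_mu_tendsto (Sh : Shape) (𝒮 : S9Scale Sh) (u : ℝ) (hu : 0 < u) (hL : 1 < 𝒮.L u) :
    Tendsto (fun n => Sh.μ (𝒮.K n + u)) atTop atTop := by
  have hμ0 : ∀ k, 0 ≤ Sh.μ k := fun k => by unfold Shape.μ; positivity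
  have h1 : Tendsto (fun n => Sh.μ (𝒮.K n) * Real.exp (𝒮.L u - 1 - u)) atTop atTop :=
    𝒮.B_tendsto.atTop_mul_const (Real.exp_pos _)
  refine tendsto_atTop_mono' _ ?_ h1
  filter_upwards [𝒮.moment u hu 1 one_pos, 𝒮.B_tendsto.eventually_gt_atTop 0] with n hmom hB
  have hx0 : 0 ≤ Real.exp u * Sh.μ (𝒮.K n + u) / Sh.μ (𝒮.K n) := by
    have := hμ0 (𝒮.K n + u); positivity
  have h1 := s9e_ge_of_log hx0 (hmom u ⟨hu.le, le_rfl⟩) hL
  rw [le_div_iff₀ hB] at h1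
  have h2 : Real.exp (𝒮.L u - 1 - u) = Real.exp (𝒮.L u - 1) * Real.exp (-u) := by
    rw [← Real.exp_add]; congr 1
  have h3 : Real.exp u * Real.exp (-u) = 1 := by rw [← Real.exp_add]; simp
  calc Sh.μ (𝒮.K n) * Real.exp (𝒮.L u - 1 - u)
      = (Real.exp (𝒮.L u - 1) * Sh.μ (𝒮.K n)) * Real.exp (-u) := by rw [h2]; ring
    _ ≤ (Real.exp u * Sh.μ (𝒮.K n + u)) * Real.exp (-u) := by gcongr
    _ = Sh.μ (𝒮.K n + u) * (Real.exp u * Real.exp (-u)) := by ring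
    _ = Sh.μ (𝒮.K n + u) := by rw [h3, mul_one]

/-- EXPORT S9e = P1 Lemma 9.9 + Proposition 9.10, in the form (ii), (iii) of Theorem 9.11. -/
theorem s9e_witnesses (Sh : Shape) (hH : Sh.H ≠ ⊤) (ho : Sh.order = 1) (𝒮 : S9Scale Sh)
    (hg : ∀ R : ℝ, ∀ ε > 0, ∃ v₀ : ℝ, ∀ v ≥ v₀, ∀ x ∈ Icc (-R) R,
      ‖𝒮.F (s9f_pt x (Real.exp (-v)))‖ ≤ Real.exp ((𝒮.lam + ε) * v)) :
    ∃ E : Set ℝ, (∀ ε > 0, ∃ v₀ : ℝ, ∀ v ≥ v₀, ∃ u ∈ E, |u - v| ≤ ε * v) ∧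
      ∀ R : ℝ, ∃ A : ℝ, ∀ ε > 0, ∃ u₀ : ℝ, ∀ u ∈ E, u₀ ≤ u → ∀ x ∈ Icc (-R) R,
        ∃ p δ : ℝ, 0 < δ ∧ |p - x| ≤ A * δ ∧ |-Real.log δ - u| ≤ ε * u ∧
          Real.exp ((𝒮.lam - ε) * u) ≤ ‖𝒮.F (s9f_pt p δ)‖ := by
  have hlam := 𝒮.lam_ge
  have hP₁ : 𝒮.lam < s9e_P1 𝒮 := by unfold s9e_P1; linarith [le_max_left 𝒮.lam (1 + 𝒮.a)]
  have hP₁0 : 0 < s9e_P1 𝒮 := by linarith
  obtain ⟨C, u₁, hC, henv⟩ := s9e_envelope Sh 𝒮
  obtain ⟨L₀, hL₀, hnq⟩ := Sh.s9i_no_quiet_cone hH ho (17 / 32) (7 / 16) (s9e_P1 𝒮) C Sh.s9db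
    (by norm_num) (by norm_num) (by norm_num) (by norm_num) hP₁0 Sh.s9_db_pos (Sh.s9_db_lt_half hH)
  refine ⟨s9e_E 𝒮.L (19 / 32) (s9e_P1 𝒮), s9e_epochs 𝒮.L 𝒮.lam (19 / 32) (s9e_P1 𝒮) 𝒮.L_cont
    𝒮.L_slope (by linarith) hP₁, fun R => ⟨L₀, fun ε hε => ?_⟩⟩
  by_contra hcon
  have hcon' : ∀ u₀ : ℝ, ∃ u ∈ s9e_E 𝒮.L (19 / 32) (s9e_P1 𝒮), u₀ ≤ u ∧ ∃ x ∈ Icc (-R) R,
      ∀ p δ : ℝ, 0 < δ → |p - x| ≤ L₀ * δ → |-Real.log δ - u| ≤ ε * u →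
        ‖𝒮.F (s9f_pt p δ)‖ < Real.exp ((𝒮.lam - ε) * u) := by
    intro u₀
    by_contra h
    apply hcon
    refine ⟨u₀, fun u hu hu₀ x hx => ?_⟩
    by_contra h'
    apply h
    refine ⟨u, hu, hu₀, x, hx, fun p δ hδ h1 h2 => ?_⟩
    by_contra h3
    exact h' ⟨p, δ, hδ, h1, h2, not_lt.1 h3⟩
  obtain ⟨ε', hε'def⟩ : ∃ ε', ε' = min ε (1 / 2) := ⟨_, rfl⟩
  have hε'0 : 0 < ε' := hε'def ▸ lt_min hε (by norm_num)
  have hε'1 : ε' < 1 := lt_of_le_of_lt (hε'def ▸ min_le_right _ _) (by norm_num)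
  have hε'ε : ε' ≤ ε := hε'def ▸ min_le_left _ _
  obtain ⟨R', hR'def⟩ : ∃ R', R' = max R 0 := ⟨_, rfl⟩
  have hR'0 : 0 ≤ R' := hR'def ▸ le_max_right _ _
  have hR'R : R ≤ R' := hR'def ▸ le_max_left _ _
  obtain ⟨v₀, hv₀⟩ := 𝒮.L_slope (𝒮.lam - 9 / 16) (by linarith)
  have hq := fun j : ℕ => s9e_quiet Sh 𝒮 hg L₀ R' ε' hL₀ hR'0 hε'0 hε'1 (1 / ((j : ℝ) + 1))
    (by positivity)
  choose u₂ hu₂ using hq
  have hsel := fun j : ℕ => hcon' (max (max u₁ (max v₀ 2)) (max ((j : ℝ) / ε') (u₂ j)))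
  choose u huE hub x hx hfail using hsel
  have hu1 : ∀ j, u₁ ≤ u j := fun j =>
    ((le_max_left _ _).trans (le_max_left _ _)).trans (hub j)
  have huv : ∀ j, v₀ ≤ u j := fun j =>
    (((le_max_left _ _).trans (le_max_right _ _)).trans (le_max_left _ _)).trans (hub j)
  have hu2 : ∀ j, 2 ≤ u j := fun j =>
    (((le_max_right _ _).trans (le_max_right _ _)).trans (le_max_left _ _)).trans (hub j)
  have huj : ∀ j : ℕ, (j : ℝ) ≤ ε' * u j := fun j => by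
    have := ((le_max_left _ _).trans (le_max_right _ _)).trans (hub j)
    rw [div_le_iff₀ hε'0] at this
    linarith
  have huq : ∀ j, u₂ j ≤ u j := fun j =>
    ((le_max_right _ _).trans (le_max_right _ _)).trans (hub j)
  have hLu : ∀ j, 1 < 𝒮.L (u j) := fun j => by
    have := (abs_le.1 (hv₀ (u j) (huv j))).1
    have := hu2 j
    linarith
  have hF : ∀ j, S9eFail 𝒮.F 𝒮.lam L₀ ε' (u j) (x j) := by
    intro j p δ hδ h1 h2
    have hu0 : 0 ≤ u j := by linarith [hu2 j]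
    have h3 : ε' * u j ≤ ε * u j := mul_le_mul_of_nonneg_right hε'ε hu0
    refine lt_of_lt_of_le (hfail j p δ hδ h1 (h2.trans h3)) (Real.exp_le_exp.2 ?_)
    linarith
  have hx' : ∀ j, x j ∈ Icc (-R') R' := fun j => ⟨by linarith [(hx j).1], by linarith [(hx j).2]⟩
  have hn := fun j : ℕ => ((henv (u j) (huE j) (hu1 j)).and
    ((hu₂ j (u j) (huq j) (j : ℝ) ⟨Nat.cast_nonneg j, huj j⟩ (x j) (hx' j) (hF j)).and
      ((𝒮.K_tendsto.eventually_ge_atTop (j : ℝ)).and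
        ((s9e_mu_tendsto Sh 𝒮 (u j) (by linarith [hu2 j]) (hLu j)).eventually_ge_atTop
          (j : ℝ))))).exists
  choose n hn1 hn2 hn3 hn4 using hn
  refine hnq (fun j => 𝒮.K (n j) + u j) (fun j => 𝒮.ξ (n j) + Real.exp (-𝒮.K (n j)) * x j) ?_ ?_
    (Eventually.of_forall hn1) ?_
  · refine tendsto_atTop_mono (fun j => ?_) tendsto_natCast_atTop_atTop
    linarith [hn3 j, hu2 j]
  · exact tendsto_atTop_mono hn4 tendsto_natCast_atTop_atTop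
  · intro c hc η hη
    filter_upwards [eventually_ge_atTop ⌈max (-Real.log c) (1 / η)⌉₊] with j hj s hs
    have hj' : max (-Real.log c) (1 / η) ≤ (j : ℝ) := (Nat.le_ceil _).trans (Nat.cast_le.2 hj)
    have hj1 : -Real.log c ≤ (j : ℝ) := (le_max_left _ _).trans hj'
    have hj2 : 1 / η ≤ (j : ℝ) := (le_max_right _ _).trans hj'
    have hc' : Real.exp (-(j : ℝ)) ≤ c := by
      calc Real.exp (-(j : ℝ)) ≤ Real.exp (Real.log c) := Real.exp_le_exp.2 (by linarith)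
        _ = c := Real.exp_log hc
    refine (hn2 j s ⟨?_, hs.2.1, hs.2.2⟩).trans ?_
    · refine le_trans ?_ hs.1
      gcongr
    · rw [div_le_iff₀ hη] at hj2
      rw [div_le_iff₀ (by positivity)]
      nlinarith

end Claimed.Agent.R269
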