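/-
Row 269, P1 Section 9: SECTION EXPORT  `s9_no_prohibited` = Theorem 9.1 (there is no prohibited sequence), PROVED from the unit exports.
Owner: helper149 (sub-captain of Section 9).
-/
import Claimed.Agent.R269.S9.Moment
import Claimed.Agent.R269.S9.Steep
import Claimed.Agent.R269.S9.Second
import Claimed.Agent.R269.S9.Growth
import Claimed.Agent.R269.S9.Witness
import Claimed.Agent.R269.S9.MeshMain

set_option autoImplicit false

namespace Claimed.Agent.R269

open Complex Filter Topology MeasureTheory Set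
open scoped ENNReal Real

/-- **P1 Theorem 9.1**: in the critical case there is no prohibited sequence (Definition 8.7). -/
theorem s9_no_prohibited (Sh : Shape) (hH : Sh.H ≠ ⊤) (ho : Sh.order = 1) : IsEmpty (S9Prohibited Sh) := by
  refine ⟨fun Pr => ?_⟩
  obtain ⟨φ, lm, hφ, hlaw, hconv⟩ := s9a_compact Sh hH ho Pr
  rcases s9a_dichotomy lm hlaw with hs | ⟨x, L, lam, C, P', hf⟩
  · exact s9b_steep_false Sh hH ho Pr φ lm hφ hlaw hconv hs
  · obtain ⟨𝒮⟩ := s9b_second_scale Sh hH ho Pr φ lm hφ hlaw hconv x L lam C P' hf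
    have hg := s9c_growth Sh hH ho 𝒮
    obtain ⟨E, hden, hwit⟩ := s9e_witnesses Sh hH ho 𝒮 hg
    exact s9g_mesh_contradiction 𝒮.mesh 𝒮.lam_ge E hg hden hwit

end Claimed.Agent.R269
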