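/-
Row 269, mesh package (P1 Thm 9.11).  LEAF FILE `LF-S9f-chain`.   Blueprint: helper149.

Two small combinatorial facts.
(1) `s9f_chain_of_reachable`: take a walk, `SimpleGraph.Walk.toPath`, `τ i = p.getVert i`, `n = p.length`; `SimpleGraph.Walk.adj_getVert_succ`; injectivity from
    `IsPath` (`SimpleGraph.Walk.IsPath.getVert_injOn`).  If the path has length `0` use `hT`.
(2) `s9f_sum_rho_le`: the image `τ '' {0..n}` is a finite set of `n+1` distinct tiles; group by layers.  In the layer `k` the tiles with `x₀ ≤ lo`, `hi ≤ x₁` have pairwise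
    distinct indices `a` with `x₀/ρ ≤ a ≤ x₁/ρ - 1`, so there are at most `(x₁ - x₀)/ρ` of them [if there is at least one, then `x₁ - x₀ ≥ ρ`; number of integers in `[s,t]` is `≤ t - s + 1`],
    and they contribute `≤ x₁ - x₀`.  There are `Lz - La + 1` layers.
-/
import Claimed.Agent.R269.S9.MeshDefs

set_option autoImplicit false

namespace Claimed.Agent.R269

open Set Metric

/-- LEAF: reachability gives an injective chain. -/
theorem s9f_chain_of_reachable (P : S9fTile → Prop) (T T' : S9fTile) (hT : P T)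
    (h : (s9f_graph P).Reachable T T') : ∃ (n : ℕ) (τ : ℕ → S9fTile), S9fChain P T T' n τ := by
  classical
  obtain ⟨p, hp⟩ := h.exists_isPath
  refine ⟨p.length, p.getVert, p.getVert_zero, p.getVert_length, ?_, ?_, ?_⟩
  · intro i hi
    exact (p.adj_getVert_succ hi).2.2.2
  · intro i hi
    rcases Nat.lt_or_ge i p.length with h1 | h1
    · exact (p.adj_getVert_succ h1).2.1
    · have hi' : i = p.length := le_antisymm hi h1
      rcases Nat.eq_zero_or_pos p.length with h0 | h0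
      · rw [hi', h0, p.getVert_zero]; exact hT
      · have := (p.adj_getVert_succ (i := p.length - 1) (by omega)).2.2.1
        rw [show p.length - 1 + 1 = p.length by omega] at this
        rw [hi']; exact this
  · exact hp.getVert_injOn

/-- LEAF: total side length of distinct tiles in a box of the grid. -/
theorem s9f_sum_rho_le (La Lz : ℤ) (x₀ x₁ : ℝ) (n : ℕ) (τ : ℕ → S9fTile)
    (hinj : Set.InjOn τ (Set.Iic n))
    (hbox : ∀ i ≤ n, La ≤ (τ i).1 ∧ (τ i).1 ≤ Lz ∧ x₀ ≤ s9f_lo (τ i) ∧ s9f_hi (τ i) ≤ x₁) :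
    ∑ i ∈ Finset.range (n + 1), s9f_rho (τ i).1 ≤ (x₁ - x₀) * ((Lz - La + 1 : ℤ) : ℝ) := by
  classical
  have h0 := hbox 0 (Nat.zero_le _)
  have hx : x₀ ≤ x₁ := h0.2.2.1.trans ((s9f_lo_le_hi _).trans h0.2.2.2)
  have hLL : La ≤ Lz := h0.1.trans h0.2.1
  have hle : ∀ i ∈ Finset.range (n + 1), i ≤ n := fun i hi =>
    Nat.lt_succ_iff.mp (Finset.mem_range.mp hi)
  have hmaps : ∀ i ∈ Finset.range (n + 1), (τ i).1 ∈ Finset.Icc La Lz := by
    intro i hi
    have := hbox i (hle i hi)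
    exact Finset.mem_Icc.mpr ⟨this.1, this.2.1⟩
  rw [← Finset.sum_fiberwise_of_maps_to hmaps]
  have hfib : ∀ k ∈ Finset.Icc La Lz,
      ∑ i ∈ Finset.range (n + 1) with (τ i).1 = k, s9f_rho (τ i).1 ≤ x₁ - x₀ := by
    intro k _
    have hρ := s9f_rho_pos k
    have e1 : ∑ i ∈ Finset.range (n + 1) with (τ i).1 = k, s9f_rho (τ i).1 =
        (Finset.card (Finset.filter (fun i => (τ i).1 = k) (Finset.range (n + 1))) : ℝ) *
          s9f_rho k := by
      rw [Finset.sum_congr rfl (g := fun _ => s9f_rho k)]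
      · simp
      · intro i hi; rw [(Finset.mem_filter.mp hi).2]
    rw [e1]
    have hcard : (Finset.filter (fun i => (τ i).1 = k) (Finset.range (n + 1))).card ≤
        (Finset.Icc ⌈x₀ / s9f_rho k⌉ (⌊x₁ / s9f_rho k⌋ - 1)).card := by
      apply Finset.card_le_card_of_injOn (fun i => (τ i).2)
      · intro i hi
        have hi' := Finset.mem_filter.mp (Finset.mem_coe.mp hi)
        have hb := hbox i (hle i hi'.1)
        have hlo := hb.2.2.1
        have hhi := hb.2.2.2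
        simp only [s9f_lo, s9f_hi, hi'.2] at hlo hhi
        simp only [Finset.coe_Icc, Set.mem_Icc]
        constructor
        · rw [Int.ceil_le, div_le_iff₀ hρ]; exact hlo
        · have : (τ i).2 + 1 ≤ ⌊x₁ / s9f_rho k⌋ := by
            rw [Int.le_floor, le_div_iff₀ hρ]; push_cast; exact hhi
          omega
      · intro i hi j hj hij
        have hi' := Finset.mem_filter.mp (Finset.mem_coe.mp hi)
        have hj' := Finset.mem_filter.mp (Finset.mem_coe.mp hj)
        exact hinj (hle i hi'.1) (hle j hj'.1) (Prod.ext (hi'.2.trans hj'.2.symm) hij)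
    rw [Int.card_Icc] at hcard
    have hcard' : ((Finset.filter (fun i => (τ i).1 = k) (Finset.range (n + 1))).card : ℝ) ≤
        ((⌊x₁ / s9f_rho k⌋ - 1 + 1 - ⌈x₀ / s9f_rho k⌉).toNat : ℝ) := by exact_mod_cast hcard
    refine (mul_le_mul_of_nonneg_right hcard' hρ.le).trans ?_
    rcases le_total 0 (⌊x₁ / s9f_rho k⌋ - 1 + 1 - ⌈x₀ / s9f_rho k⌉) with hs | hs
    · have e2 : ((⌊x₁ / s9f_rho k⌋ - 1 + 1 - ⌈x₀ / s9f_rho k⌉).toNat : ℝ) =
          (⌊x₁ / s9f_rho k⌋ : ℝ) - (⌈x₀ / s9f_rho k⌉ : ℝ) := by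
        have : ((⌊x₁ / s9f_rho k⌋ - 1 + 1 - ⌈x₀ / s9f_rho k⌉).toNat : ℤ) =
            ⌊x₁ / s9f_rho k⌋ - 1 + 1 - ⌈x₀ / s9f_rho k⌉ := Int.toNat_of_nonneg hs
        have h2 : (((⌊x₁ / s9f_rho k⌋ - 1 + 1 - ⌈x₀ / s9f_rho k⌉).toNat : ℤ) : ℝ) =
            ((⌊x₁ / s9f_rho k⌋ - 1 + 1 - ⌈x₀ / s9f_rho k⌉ : ℤ) : ℝ) := by rw [this]
        push_cast at h2
        linarith
      rw [e2]
      have f1 := Int.floor_le (x₁ / s9f_rho k)
      have f2 := Int.le_ceil (x₀ / s9f_rho k)
      calc ((⌊x₁ / s9f_rho k⌋ : ℝ) - (⌈x₀ / s9f_rho k⌉ : ℝ)) * s9f_rho k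
          ≤ (x₁ / s9f_rho k - x₀ / s9f_rho k) * s9f_rho k := by gcongr
        _ = x₁ - x₀ := by field_simp
    · rw [Int.toNat_of_nonpos hs]
      simp only [Nat.cast_zero, zero_mul]
      linarith
  refine (Finset.sum_le_card_nsmul _ _ _ hfib).trans (le_of_eq ?_)
  rw [Int.card_Icc, nsmul_eq_mul, mul_comm]
  congr 1
  have : ((Lz + 1 - La).toNat : ℤ) = Lz + 1 - La := Int.toNat_of_nonneg (by omega)
  have h2 : (((Lz + 1 - La).toNat : ℤ) : ℝ) = ((Lz + 1 - La : ℤ) : ℝ) := by rw [this]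
  push_cast at h2 ⊢
  linarith

end Claimed.Agent.R269
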