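/-
Row 269, mesh package (P1 Thm 9.11).  LEAF FILE `LF-S9f-perf`.   Blueprint: helper149.   Proof: helper175.

Maximum principle on a rectangle with finitely many discs removed.

PROOF SKETCH.  `Ω = {ζ : |Re ζ - p| < a, τ < -Im ζ < b, ∀ i ∈ s, r i < dist ζ (c i)}` is bounded and is a finite intersection of sets given by strict inequalities between continuous
functions; `closure Ω ⊆ K :=` the same set with `≤`; a point of `frontier Ω = closure Ω \ Ω` satisfies one of the equalities.  `DiffContOnCl` from `hd`.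
`Complex.norm_le_of_forall_mem_frontier_norm_le`.
-/
import Claimed.Agent.R269.S9.MeshDefs

set_option autoImplicit false

namespace Claimed.Agent.R269

open Set Metric

/-- LEAF: maximum principle on a perforated rectangle. -/
theorem s9f_perforated_max {ι : Type} (s : Finset ι) (c : ι → ℂ) (r : ι → ℝ) (Ψ : ℂ → ℂ)
    (p a τ b C : ℝ)
    (hd : ∀ ζ : ℂ, |ζ.re - p| ≤ a → τ ≤ -ζ.im → -ζ.im ≤ b → (∀ i ∈ s, r i ≤ dist ζ (c i)) →
      DifferentiableAt ℂ Ψ ζ)
    (hbd : ∀ ζ : ℂ, |ζ.re - p| ≤ a → τ ≤ -ζ.im → -ζ.im ≤ b → (∀ i ∈ s, r i ≤ dist ζ (c i)) →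
      (|ζ.re - p| = a ∨ -ζ.im = τ ∨ -ζ.im = b ∨ ∃ i ∈ s, dist ζ (c i) = r i) → ‖Ψ ζ‖ ≤ C)
    (w : ℂ) (hw1 : |w.re - p| < a) (hw2 : τ < -w.im) (hw3 : -w.im < b)
    (hw4 : ∀ i ∈ s, r i < dist w (c i)) : ‖Ψ w‖ ≤ C := by
  set Ω : Set ℂ := {ζ | |ζ.re - p| < a ∧ τ < -ζ.im ∧ -ζ.im < b ∧ ∀ i ∈ s, r i < dist ζ (c i)} with hΩ
  set K : Set ℂ := {ζ | |ζ.re - p| ≤ a ∧ τ ≤ -ζ.im ∧ -ζ.im ≤ b ∧ ∀ i ∈ s, r i ≤ dist ζ (c i)} with hK
  have c1 : Continuous fun ζ : ℂ => |ζ.re - p| := (Complex.continuous_re.sub continuous_const).abs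
  have c2 : Continuous fun ζ : ℂ => -ζ.im := Complex.continuous_im.neg
  have c3 : ∀ i, Continuous fun ζ : ℂ => dist ζ (c i) := fun i => continuous_id.dist continuous_const
  have hopen : IsOpen Ω := by
    have e : Ω = {ζ | |ζ.re - p| < a} ∩ ({ζ | τ < -ζ.im} ∩ ({ζ | -ζ.im < b} ∩ ⋂ i ∈ s, {ζ | r i < dist ζ (c i)})) := by
      ext ζ
      simp [hΩ]
    rw [e]
    exact (isOpen_lt c1 continuous_const).inter ((isOpen_lt continuous_const c2).inter
      ((isOpen_lt c2 continuous_const).inter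
        (isOpen_biInter_finset fun i _ => isOpen_lt continuous_const (c3 i))))
  have hclosed : IsClosed K := by
    have e : K = {ζ | |ζ.re - p| ≤ a} ∩ ({ζ | τ ≤ -ζ.im} ∩ ({ζ | -ζ.im ≤ b} ∩ ⋂ i ∈ s, {ζ | r i ≤ dist ζ (c i)})) := by
      ext ζ
      simp [hK]
    rw [e]
    exact (isClosed_le c1 continuous_const).inter ((isClosed_le continuous_const c2).inter
      ((isClosed_le c2 continuous_const).inter
        (isClosed_biInter fun i _ => isClosed_le continuous_const (c3 i))))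
  have hsub : closure Ω ⊆ K :=
    closure_minimal (fun ζ hζ => ⟨hζ.1.le, hζ.2.1.le, hζ.2.2.1.le, fun i hi => (hζ.2.2.2 i hi).le⟩) hclosed
  have hbdd : Bornology.IsBounded Ω := by
    rw [isBounded_iff_forall_norm_le]
    refine ⟨(|p| + a) + (|τ| + |b|), fun ζ hζ => ?_⟩
    have h1 := Complex.norm_le_abs_re_add_abs_im ζ
    have h2 : |ζ.re| ≤ |p| + a := by
      have := abs_add_le (ζ.re - p) p
      rw [sub_add_cancel] at this
      linarith [hζ.1]
    have h3 : |ζ.im| ≤ |τ| + |b| := by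
      rw [abs_le]
      constructor
      · have := le_abs_self b
        have := abs_nonneg τ
        linarith [hζ.2.2.1]
      · have := neg_abs_le τ
        have := abs_nonneg b
        linarith [hζ.2.1]
    linarith
  have hdiff : DiffContOnCl ℂ Ψ Ω :=
    DifferentiableOn.diffContOnCl fun ζ hζ =>
      (hd ζ (hsub hζ).1 (hsub hζ).2.1 (hsub hζ).2.2.1 (hsub hζ).2.2.2).differentiableWithinAt
  refine Complex.norm_le_of_forall_mem_frontier_norm_le hbdd hdiff (fun z hz => ?_)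
    (subset_closure (show w ∈ Ω from ⟨hw1, hw2, hw3, hw4⟩))
  rw [frontier, hopen.interior_eq] at hz
  obtain ⟨hzc, hzn⟩ := hz
  obtain ⟨k1, k2, k3, k4⟩ := hsub hzc
  refine hbd z k1 k2 k3 k4 ?_
  by_contra hcon
  push Not at hcon
  obtain ⟨n1, n2, n3, n4⟩ := hcon
  exact hzn ⟨lt_of_le_of_ne k1 n1, lt_of_le_of_ne k2 (Ne.symm n2), lt_of_le_of_ne k3 n3,
    fun i hi => lt_of_le_of_ne (k4 i hi) (Ne.symm (n4 i hi))⟩

end Claimed.Agent.R269
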