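/-
Row 269, mesh package (P1 Thm 9.11).  LEAF FILE `LF-S9f-shsum`.   Blueprint: helper149.   Proof: helper175.

Real-variable estimate for the shadow lemma: the Green potentials of the OTHER tiles of a family with disjoint projections are bounded at the points of a tile.

PROOF SKETCH.  Write `ζ = x - iδ` (`δ > 0`), `c' = s9f_ctr T' = x' - i d'`, `ρ' = ρ T'.1`, `d' = 400.5 ρ'`, `D = ‖ζ - c'‖`.
`x ∈ [lo T, hi T]`, which is disjoint from `[lo T', hi T']`, so `|x - x'| > ρ'/2`; hence `D > ρ'/2 = d'/801`.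
If `d' ≥ δ/2` then `D > δ/1602`; if `d' < δ/2` then `D ≥ δ - d' > δ/2`.  So `δ ≤ 1602 D`.
For `t ∈ [lo T', hi T']`: `|x - t| ≤ |x - x'| + ρ'/2 ≤ 2 |x - x'| ≤ 2D`.  Hence `(x-t)² + δ² ≤ (4 + 1602²) D²` and
  `δ d' / D² ≤ 400.5 (4 + 1602²) ∫_{lo T'}^{hi T'} δ / ((x-t)² + δ²) dt`.
The intervals are pairwise disjoint, so the sum of the integrals is at most `∫_ℝ δ/((x-t)²+δ²) dt = π`
(`integral_univ_inv_one_add_sq`, change of variables; `MeasureTheory.integral_biUnion_finset` or `setIntegral` monotonicity; alternatively use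
`arctan` differences).  `400.5 · (4 + 1602²) · π < 4·10⁹`.
(In the formal proof the intervals are rescaled, `J T' = [(lo T' - x)/δ, (hi T' - x)/δ]`, instead of the integrand.)
-/
import Claimed.Agent.R269.S9.MeshDefs

set_option autoImplicit false

namespace Claimed.Agent.R269

open Set Metric MeasureTheory

/-- the scalar inequality behind one term: lower bound of the Poisson kernel on the rescaled projection -/
theorem s9fs_kernel (x δ x' ρ' s : ℝ) (hδ : 0 < δ) (hρ : 0 < ρ') (hx : ρ' / 2 < |x - x'|)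
    (hs1 : (x' - ρ' / 2 - x) / δ ≤ s) (hs2 : s ≤ (x' + ρ' / 2 - x) / δ) :
    δ ^ 2 / ((4 + 1602 ^ 2) * ((x - x') ^ 2 + (-δ + (400 * ρ' + ρ' / 2)) ^ 2)) ≤ (1 + s ^ 2)⁻¹ := by
  set Dsq : ℝ := (x - x') ^ 2 + (-δ + (400 * ρ' + ρ' / 2)) ^ 2 with hD
  have hxx : (ρ' / 2) ^ 2 < (x - x') ^ 2 := by
    rw [← sq_abs (x - x')]
    exact pow_lt_pow_left₀ hx (by positivity) (by norm_num)
  have hDpos : 0 < Dsq := by
    have : 0 ≤ (-δ + (400 * ρ' + ρ' / 2)) ^ 2 := sq_nonneg _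
    have : 0 < (ρ' / 2) ^ 2 := by positivity
    rw [hD]
    linarith
  -- `δ ≤ 1602 D`
  have h3 : δ ^ 2 ≤ 1602 ^ 2 * Dsq := by
    rcases le_or_gt (δ / 2) (400 * ρ' + ρ' / 2) with hc | hc
    · have h1 : δ ^ 2 ≤ (1602 * (ρ' / 2)) ^ 2 := pow_le_pow_left₀ hδ.le (by linarith) 2
      have h2 : 0 ≤ (-δ + (400 * ρ' + ρ' / 2)) ^ 2 := sq_nonneg _
      rw [hD]
      nlinarith
    · have h1 : (δ / 2) ^ 2 ≤ (δ - (400 * ρ' + ρ' / 2)) ^ 2 := pow_le_pow_left₀ (by positivity) (by linarith) 2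
      have h2 : 0 ≤ (x - x') ^ 2 := sq_nonneg _
      rw [hD]
      nlinarith
  -- `|δ s| ≤ 2 |x - x'|`
  rw [div_le_iff₀ hδ] at hs1
  rw [le_div_iff₀ hδ] at hs2
  have h4 : (s * δ) ^ 2 ≤ 4 * (x - x') ^ 2 := by
    have h5 : |s * δ| ≤ 2 * |x - x'| := by
      have e : s * δ = (s * δ + (x - x')) + -(x - x') := by ring
      have h6 : |s * δ + (x - x')| ≤ ρ' / 2 := abs_le.2 ⟨by linarith, by linarith⟩
      have h7 := abs_add_le (s * δ + (x - x')) (-(x - x'))
      rw [← e, abs_neg] at h7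
      linarith
    have h8 := pow_le_pow_left₀ (abs_nonneg _) h5 2
    have e1 : |s * δ| ^ 2 = (s * δ) ^ 2 := sq_abs _
    have e2 : (2 * |x - x'|) ^ 2 = 4 * (x - x') ^ 2 := by
      rw [mul_pow, sq_abs]
      norm_num
    rw [e1, e2] at h8
    exact h8
  have h9 : δ ^ 2 * (1 + s ^ 2) ≤ (4 + 1602 ^ 2) * Dsq := by
    have : 0 ≤ (-δ + (400 * ρ' + ρ' / 2)) ^ 2 := sq_nonneg _
    have e : δ ^ 2 * (1 + s ^ 2) = δ ^ 2 + (s * δ) ^ 2 := by ring
    rw [e]
    have : (x - x') ^ 2 ≤ Dsq := by rw [hD]; linarith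
    linarith
  rw [div_le_iff₀ (by positivity), ← div_eq_inv_mul, le_div_iff₀ (by positivity)]
  exact h9

/-- LEAF: Poisson-type sum over tiles with disjoint projections. -/
theorem s9f_shadow_sum (𝒯 : Finset S9fTile)
    (hdisj : (𝒯 : Set S9fTile).PairwiseDisjoint (fun T => Icc (s9f_lo T) (s9f_hi T)))
    (T : S9fTile) (hT : T ∈ 𝒯) (ζ : ℂ) (hζ : ζ ∈ s9f_sq T) :
    ∑ T' ∈ 𝒯.erase T, (-ζ.im) * (-(s9f_ctr T').im) / ‖ζ - s9f_ctr T'‖ ^ 2 ≤ 4 * 10 ^ 9 := by
  set x : ℝ := ζ.re with hx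
  set δ : ℝ := -ζ.im with hδdef
  have hδ : 0 < δ := lt_of_lt_of_le (s9f_d_pos _) hζ.2.1
  set g : ℝ → ℝ := fun s => (1 + s ^ 2)⁻¹ with hg
  set J : S9fTile → Set ℝ := fun T' => Icc ((s9f_lo T' - x) / δ) ((s9f_hi T' - x) / δ) with hJ
  have hgint : Integrable g := integrable_inv_one_add_sq
  have hg0 : ∀ s, 0 ≤ g s := fun s => by
    simp only [hg]
    positivity
  -- the rescaled projections are pairwise disjoint
  have hJdisj : ((𝒯.erase T : Finset S9fTile) : Set S9fTile).Pairwise (Function.onFun Disjoint J) := by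
    intro T1 h1 T2 h2 hne
    have h1' : T1 ∈ (𝒯 : Set S9fTile) := Finset.mem_of_mem_erase h1
    have h2' : T2 ∈ (𝒯 : Set S9fTile) := Finset.mem_of_mem_erase h2
    have hd := hdisj h1' h2' hne
    refine Set.disjoint_left.2 fun s hs1 hs2 => ?_
    have hd' : ∀ t : ℝ, t ∈ Icc (s9f_lo T1) (s9f_hi T1) → t ∉ Icc (s9f_lo T2) (s9f_hi T2) :=
      fun t ht => Set.disjoint_left.1 hd ht
    refine hd' (s * δ + x) ?_ ?_
    · have a1 := hs1.1
      have a2 := hs1.2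
      rw [div_le_iff₀ hδ] at a1
      rw [le_div_iff₀ hδ] at a2
      exact ⟨by linarith, by linarith⟩
    · have a1 := hs2.1
      have a2 := hs2.2
      rw [div_le_iff₀ hδ] at a1
      rw [le_div_iff₀ hδ] at a2
      exact ⟨by linarith, by linarith⟩
  -- one term
  have hterm : ∀ T' ∈ 𝒯.erase T, δ * (-(s9f_ctr T').im) / ‖ζ - s9f_ctr T'‖ ^ 2 ≤
      (801 / 2 * (4 + 1602 ^ 2)) * ∫ s in J T', g s := by
    intro T' hT'
    have hne : T ≠ T' := (Finset.ne_of_mem_erase hT').symm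
    have hT'm : T' ∈ (𝒯 : Set S9fTile) := Finset.mem_of_mem_erase hT'
    set ρ' : ℝ := s9f_rho T'.1 with hρ'
    have hρ : 0 < ρ' := s9f_rho_pos _
    set x' : ℝ := ((T'.2 : ℝ) + 1 / 2) * ρ' with hx'
    have elo : s9f_lo T' = x' - ρ' / 2 := by
      unfold s9f_lo
      rw [hx']
      ring
    have ehi : s9f_hi T' = x' + ρ' / 2 := by
      unfold s9f_hi
      rw [hx']
      ring
    have ere : (s9f_ctr T').re = x' := rfl
    have eim : (s9f_ctr T').im = -(400 * ρ' + ρ' / 2) := by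
      have : (s9f_ctr T').im = -(s9f_d (T'.1 + 1) + s9f_rho T'.1 / 2) := rfl
      rw [this, s9f_d_succ_eq]
    have hxn : x ∉ Icc (s9f_lo T') (s9f_hi T') :=
      Set.disjoint_left.1 (hdisj (show T ∈ (𝒯 : Set S9fTile) from hT) hT'm hne) hζ.1
    have hxx : ρ' / 2 < |x - x'| := by
      by_contra hcon
      rw [not_lt, abs_le] at hcon
      exact hxn ⟨by rw [elo]; linarith [hcon.1], by rw [ehi]; linarith [hcon.2]⟩
    have enorm : ‖ζ - s9f_ctr T'‖ ^ 2 = (x - x') ^ 2 + (-δ + (400 * ρ' + ρ' / 2)) ^ 2 := by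
      rw [Complex.sq_norm, Complex.normSq_apply, Complex.sub_re, Complex.sub_im, ere, eim]
      ring
    set Dsq : ℝ := (x - x') ^ 2 + (-δ + (400 * ρ' + ρ' / 2)) ^ 2 with hD
    have hDpos : 0 < Dsq := by
      have h1 : 0 ≤ (-δ + (400 * ρ' + ρ' / 2)) ^ 2 := sq_nonneg _
      have h2 : 0 < (x - x') ^ 2 := by
        rw [← sq_abs]
        have : 0 < |x - x'| := by linarith
        positivity
      rw [hD]
      linarith
    have hle : (s9f_lo T' - x) / δ ≤ (s9f_hi T' - x) / δ :=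
      div_le_div_of_nonneg_right (by rw [elo, ehi]; linarith) hδ.le
    have hint := setIntegral_ge_of_const_le (μ := volume) (f := g) (s := J T')
      (c := δ ^ 2 / ((4 + 1602 ^ 2) * Dsq)) measurableSet_Icc (by simp [hJ])
      (fun s hs => s9fs_kernel x δ x' ρ' s hδ hρ hxx (by rw [← elo]; exact hs.1) (by rw [← ehi]; exact hs.2))
      hgint.integrableOn
    have hvol : volume.real (J T') = ρ' / δ := by
      simp only [hJ]
      rw [Real.volume_real_Icc_of_le hle, elo, ehi]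
      field_simp
      ring
    rw [hvol, smul_eq_mul] at hint
    rw [enorm, eim, neg_neg]
    calc δ * (400 * ρ' + ρ' / 2) / Dsq
        = (801 / 2 * (4 + 1602 ^ 2)) * (ρ' / δ * (δ ^ 2 / ((4 + 1602 ^ 2) * Dsq))) := by
          field_simp
          ring
      _ ≤ (801 / 2 * (4 + 1602 ^ 2)) * ∫ s in J T', g s :=
          mul_le_mul_of_nonneg_left hint (by norm_num)
  have hsum : ∑ T' ∈ 𝒯.erase T, ∫ s in J T', g s ≤ Real.pi := by
    rw [← integral_biUnion_finset (𝒯.erase T) (fun _ _ => measurableSet_Icc) hJdisj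
      (fun _ _ => hgint.integrableOn), ← integral_univ_inv_one_add_sq]
    exact setIntegral_le_integral hgint (Filter.Eventually.of_forall hg0)
  calc ∑ T' ∈ 𝒯.erase T, δ * (-(s9f_ctr T').im) / ‖ζ - s9f_ctr T'‖ ^ 2
      ≤ ∑ T' ∈ 𝒯.erase T, (801 / 2 * (4 + 1602 ^ 2)) * ∫ s in J T', g s := Finset.sum_le_sum hterm
    _ = (801 / 2 * (4 + 1602 ^ 2)) * ∑ T' ∈ 𝒯.erase T, ∫ s in J T', g s := by rw [Finset.mul_sum]
    _ ≤ (801 / 2 * (4 + 1602 ^ 2)) * Real.pi := mul_le_mul_of_nonneg_left hsum (by norm_num)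
    _ ≤ 4 * 10 ^ 9 := by
        have := Real.pi_lt_d2
        norm_num at this ⊢
        linarith

end Claimed.Agent.R269
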