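/-
Row 269, mesh package (P1 Thm 9.11).  LEAF FILE `LF-S9f-shadow`.   Blueprint: helper149.

The shadow lemma (P1 Lemma 9.12) in holomorphic form: no harmonic measure, only the maximum modulus principle for `F` times a product of
"Green factors".

NOTATION.  `w = p - iδ` the witness.  For a tile `T`: `c_T = s9f_ctr T = x_T - i d_T`, `ρ_T`, `d_T = 400.5 ρ_T`.  Reflection in the line of depth `τ`:
`c_T^* = x_T - i (2τ - d_T)`.  `b_T ζ = (ζ - c_T^*)/(ζ - c_T)`.  For `ζ = x - i y`: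
   (★)  `‖ζ - c_T^*‖² = ‖ζ - c_T‖² + 4 (y - τ)(d_T - τ)`.
CONSTANTS.  `C_B = 4·10⁹` (`s9f_shadow_sum`), `C₃ = 9 + 2 C_B`, `H₀ = C₃`, `M₁ = 112 (K² + 1) + 2K + 2`, `Cs = 28 (K²+1) C₃` (anything larger is fine).
`n = ⌊H / C₃⌋₊ ≥ 1`, `n ≥ H/(2 C₃)`.   `Ψ = F · ∏_{T ∈ 𝒯} (b_T)^n`.
Apply `s9f_perforated_max` with `a = b = M₁ δ`, discs `closedBall c_T (ρ_T/8)` and `C = e^M · exp (n ∑_T κ_T)`, `κ_T = (8/M₁)(d_T/δ)`: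
 * depth `= τ`: by (★) `‖b_T‖ = 1`, so `‖Ψ‖ = ‖F‖ ≤ e^M`.
 * sphere of `T`: it lies in `s9f_sq T`, so `‖F‖ ≤ e^{M-H}`; `‖b_T ζ‖ ≤ (2 d_T + ρ_T/8)/(ρ_T/8) ≤ 6410 ≤ e^9`; for `T' ≠ T` by (★) and `1 + t ≤ e^t`:
   `‖b_{T'} ζ‖ ≤ exp (2 y d_{T'} / ‖ζ - c_{T'}‖²)`, product `≤ e^{2 C_B}`.  So `‖Ψ ζ‖ ≤ e^{M - H + n C₃} ≤ e^M`.
 * sides `|x - p| = M₁ δ` (`τ ≤ y ≤ M₁ δ`): `‖ζ - c_T‖ ≥ (M₁ - K) δ ≥ M₁ δ/2`, so `‖b_T ζ‖ ≤ exp (2 y d_T/‖ζ - c_T‖²) ≤ exp (8 d_T/(M₁ δ)) = e^{κ_T}`.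
 * depth `= M₁ δ`: `‖ζ - c_T‖ ≥ M₁ δ - δ/2 ≥ M₁ δ/2`, same bound.
 * `w` is in the perforated rectangle: `dist w c_T ≥ δ - d_T ≥ δ/2 - ...> ρ_T/8`;  `τ < δ` since `4τ ≤ d (T.1+1) ≤ δ/2` (if `𝒯 = ∅` the claim is `0 ≤ Cs δ U/H`, and `U ≥ 0` needs `τ ≤ δ`:
   THEREFORE the hypothesis `hτδ : τ < δ` is included).
 At `w`: `t_T := 4 (δ - τ)(d_T - τ)/‖w - c_T‖²`, `‖w - c_T‖² ≤ (K² + 1) δ²`, `≥ δ²/4`; `δ - τ ≥ 7δ/8`, `d_T - τ ≥ 3 d_T/4`; so `21 d_T/(8 (K²+1) δ) ≤ t_T ≤ 8`, and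
 `‖b_T w‖² = 1 + t_T ≥ exp (t_T/9)`, i.e. `‖b_T w‖ ≥ exp (t_T/18) ≥ exp (d_T/(7 (K²+1) δ)) ≥ exp (2 κ_T)`.
 Conclusion: `e^{M-U} exp (n ∑ d_T/(7(K²+1)δ)) ≤ ‖Ψ w‖ ≤ e^M exp (n ∑ d_T/(14 (K²+1) δ))`, so `n ∑ d_T ≤ 14 (K²+1) δ U`, and `ρ_T ≤ d_T`, `n ≥ H/(2C₃)`.
-/
import Claimed.Agent.R269.S9.MeshShadowSum
import Claimed.Agent.R269.S9.MeshPerf

set_option autoImplicit false

namespace Claimed.Agent.R269

open Set Metric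

/-- reflection of `c` in the horizontal line of depth `τ`. -/
def s9f_refl (τ : ℝ) (c : ℂ) : ℂ := ⟨c.re, -(2 * τ) - c.im⟩

/-- the Green factor. -/
noncomputable def s9f_green (τ : ℝ) (c ζ : ℂ) : ℂ := (ζ - s9f_refl τ c) / (ζ - c)

theorem s9f_green_star (τ : ℝ) (c ζ : ℂ) :
    ‖ζ - s9f_refl τ c‖ ^ 2 = ‖ζ - c‖ ^ 2 + 4 * (-ζ.im - τ) * (-c.im - τ) := by
  rw [Complex.sq_norm, Complex.sq_norm, Complex.normSq_apply, Complex.normSq_apply]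
  simp only [Complex.sub_re, Complex.sub_im, s9f_refl]
  ring

theorem s9f_green_norm_sq (τ : ℝ) {c ζ : ℂ} (h : ζ ≠ c) :
    ‖s9f_green τ c ζ‖ ^ 2 = 1 + 4 * (-ζ.im - τ) * (-c.im - τ) / ‖ζ - c‖ ^ 2 := by
  have h0 : ‖ζ - c‖ ^ 2 ≠ 0 := pow_ne_zero _ (norm_ne_zero_iff.mpr (sub_ne_zero.mpr h))
  unfold s9f_green
  rw [norm_div, div_pow, s9f_green_star, add_div, div_self h0]

theorem s9f_green_le_exp {τ : ℝ} {c ζ : ℂ} (hτ : 0 ≤ τ) (h1 : τ ≤ -ζ.im) (h2 : τ ≤ -c.im)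
    (h : ζ ≠ c) :
    ‖s9f_green τ c ζ‖ ≤ Real.exp (2 * ((-ζ.im) * (-c.im) / ‖ζ - c‖ ^ 2)) := by
  have h0 : 0 < ‖ζ - c‖ ^ 2 := pow_pos (norm_pos_iff.mpr (sub_ne_zero.mpr h)) _
  have hsq := s9f_green_norm_sq τ h
  have hle : (-ζ.im - τ) * (-c.im - τ) ≤ (-ζ.im) * (-c.im) :=
    mul_le_mul (by linarith) (by linarith) (by linarith) (by linarith)
  have h3 : ‖s9f_green τ c ζ‖ ^ 2 ≤ Real.exp (2 * ((-ζ.im) * (-c.im) / ‖ζ - c‖ ^ 2)) ^ 2 := by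
    rw [hsq, ← Real.exp_nat_mul]
    have : 4 * (-ζ.im - τ) * (-c.im - τ) / ‖ζ - c‖ ^ 2 ≤
        ((2 : ℕ) : ℝ) * (2 * ((-ζ.im) * (-c.im) / ‖ζ - c‖ ^ 2)) := by
      rw [div_le_iff₀ h0]
      have e0 : (-ζ.im) * (-c.im) / ‖ζ - c‖ ^ 2 * ‖ζ - c‖ ^ 2 = (-ζ.im) * (-c.im) :=
        div_mul_cancel₀ _ h0.ne'
      have e : ((2 : ℕ) : ℝ) * (2 * ((-ζ.im) * (-c.im) / ‖ζ - c‖ ^ 2)) * ‖ζ - c‖ ^ 2 =
          4 * ((-ζ.im) * (-c.im)) := by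
        push_cast; linear_combination 4 * e0
      rw [e]; linarith
    have h4 := Real.add_one_le_exp (((2 : ℕ) : ℝ) * (2 * ((-ζ.im) * (-c.im) / ‖ζ - c‖ ^ 2)))
    linarith
  exact (pow_le_pow_iff_left₀ (norm_nonneg _) (Real.exp_pos _).le (by norm_num)).mp h3

theorem s9f_green_eq_one {τ : ℝ} {c ζ : ℂ} (h1 : -ζ.im = τ) (h : ζ ≠ c) :
    ‖s9f_green τ c ζ‖ = 1 := by
  have hsq := s9f_green_norm_sq τ h
  rw [h1, sub_self, mul_zero, zero_mul, zero_div, add_zero] at hsq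
  have := (pow_eq_one_iff_of_nonneg (norm_nonneg _) (by norm_num : (2 : ℕ) ≠ 0)).mp hsq
  exact this

theorem s9f_exp_div_nine_le {t : ℝ} (h0 : 0 ≤ t) (h8 : t ≤ 8) : Real.exp (t / 9) ≤ 1 + t := by
  have h1 : 1 - t / 9 ≤ Real.exp (-(t / 9)) := by
    have := Real.add_one_le_exp (-(t / 9)); linarith
  have hpos : 0 < 1 - t / 9 := by linarith
  have h2 : Real.exp (t / 9) * Real.exp (-(t / 9)) = 1 := by rw [← Real.exp_add]; simp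
  have h3 : Real.exp (t / 9) * (1 - t / 9) ≤ 1 :=
    le_trans (mul_le_mul_of_nonneg_left h1 (Real.exp_pos _).le) h2.le
  have h4 : 1 ≤ (1 + t) * (1 - t / 9) := by nlinarith
  by_contra hcon
  rw [not_le] at hcon
  have := mul_lt_mul_of_pos_right hcon hpos
  linarith

theorem s9f_green_ge_exp {τ : ℝ} {c ζ : ℂ} (h : ζ ≠ c) {t : ℝ}
    (ht : t ≤ 4 * (-ζ.im - τ) * (-c.im - τ) / ‖ζ - c‖ ^ 2) (h0 : 0 ≤ t) (h8 : t ≤ 8) :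
    Real.exp (t / 18) ≤ ‖s9f_green τ c ζ‖ := by
  have hsq := s9f_green_norm_sq τ h
  have h3 : Real.exp (t / 18) ^ 2 ≤ ‖s9f_green τ c ζ‖ ^ 2 := by
    rw [hsq, ← Real.exp_nat_mul]
    have e : ((2 : ℕ) : ℝ) * (t / 18) = t / 9 := by push_cast; ring
    rw [e]
    have := s9f_exp_div_nine_le h0 h8
    linarith
  exact (pow_le_pow_iff_left₀ (Real.exp_pos _).le (norm_nonneg _) (by norm_num)).mp h3

theorem s9f_exp_nine : (6409 : ℝ) ≤ Real.exp 9 := by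
  have h1 := Real.exp_one_gt_d9
  have h2 : Real.exp 9 = Real.exp 1 ^ 9 := by
    rw [← Real.exp_nat_mul]; norm_num
  rw [h2]
  calc (6409 : ℝ) ≤ (2.7 : ℝ) ^ 9 := by norm_num
    _ ≤ Real.exp 1 ^ 9 := by
      apply pow_le_pow_left₀ (by norm_num)
      linarith

/-- the Green factor of a tile on its own small circle. -/
theorem s9f_green_own {τ ρ : ℝ} {c ζ : ℂ} (hρ : 0 < ρ) (hτ : 0 ≤ τ) (h2 : τ ≤ -c.im)
    (hc : -c.im = 400 * ρ + ρ / 2) (hζ : dist ζ c = ρ / 8) :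
    ‖s9f_green τ c ζ‖ ≤ Real.exp 9 := by
  rw [dist_eq_norm] at hζ
  unfold s9f_green
  rw [norm_div, hζ, div_le_iff₀ (by positivity)]
  have h1 : ‖ζ - s9f_refl τ c‖ ≤ ‖ζ - c‖ + ‖c - s9f_refl τ c‖ := by
    refine le_trans (le_of_eq ?_) (norm_add_le _ _)
    congr 1; ring
  have h3 : ‖c - s9f_refl τ c‖ ≤ 2 * (-c.im) := by
    refine (Complex.norm_le_abs_re_add_abs_im _).trans ?_
    simp only [Complex.sub_re, Complex.sub_im, s9f_refl, sub_self, abs_zero, zero_add]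
    rw [abs_le]; constructor <;> linarith
  have h4 := s9f_exp_nine
  nlinarith

/-- the Green factor far from the tile. -/
theorem s9f_green_far {τ R : ℝ} {c ζ : ℂ} (hR : 0 < R) (hτ : 0 ≤ τ) (h1 : τ ≤ -ζ.im)
    (h2 : τ ≤ -c.im) (hy : -ζ.im ≤ R) (hfar : R / 2 ≤ ‖ζ - c‖) :
    ‖s9f_green τ c ζ‖ ≤ Real.exp (8 * (-c.im) / R) := by
  have hne : ζ ≠ c := by
    intro h
    rw [h, sub_self, norm_zero] at hfar
    linarith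
  refine (s9f_green_le_exp hτ h1 h2 hne).trans (Real.exp_le_exp.mpr ?_)
  have h0 : 0 < ‖ζ - c‖ ^ 2 := pow_pos (norm_pos_iff.mpr (sub_ne_zero.mpr hne)) _
  have hsq : (R / 2) ^ 2 ≤ ‖ζ - c‖ ^ 2 := pow_le_pow_left₀ (by positivity) hfar 2
  have hd : 0 ≤ -c.im := by linarith
  rw [← mul_div_assoc, div_le_div_iff₀ h0 hR]
  have e1 : 2 * (-ζ.im * -c.im) * R ≤ 2 * (R * -c.im) * R := by gcongr
  have e2 : 8 * -c.im * (R / 2) ^ 2 ≤ 8 * -c.im * ‖ζ - c‖ ^ 2 := by gcongr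
  nlinarith

theorem s9f_prod_pow_le_exp (𝒯 : Finset S9fTile) (β e : S9fTile → ℝ) (n : ℕ)
    (h0 : ∀ T ∈ 𝒯, 0 ≤ β T) (h : ∀ T ∈ 𝒯, β T ≤ Real.exp (e T)) :
    ∏ T ∈ 𝒯, β T ^ n ≤ Real.exp (n * ∑ T ∈ 𝒯, e T) := by
  rw [Finset.mul_sum, Real.exp_sum]
  apply Finset.prod_le_prod (fun T hT => pow_nonneg (h0 T hT) n)
  intro T hT
  rw [Real.exp_nat_mul]
  exact pow_le_pow_left₀ (h0 T hT) (h T hT) n

theorem s9f_exp_le_prod_pow (𝒯 : Finset S9fTile) (β e : S9fTile → ℝ) (n : ℕ)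
    (h : ∀ T ∈ 𝒯, Real.exp (e T) ≤ β T) :
    Real.exp (n * ∑ T ∈ 𝒯, e T) ≤ ∏ T ∈ 𝒯, β T ^ n := by
  rw [Finset.mul_sum, Real.exp_sum]
  apply Finset.prod_le_prod (fun T _ => (Real.exp_pos _).le)
  intro T hT
  rw [Real.exp_nat_mul]
  exact pow_le_pow_left₀ (Real.exp_pos _).le (h T hT) n

theorem s9f_tile_side {K M₁ τ p δ : ℝ} {c ζ : ℂ} (hδ : 0 < δ) (hτ : 0 ≤ τ) (hKM : 2 * K ≤ M₁)
    (hM : 0 < M₁) (hc3 : |c.re - p| ≤ K * δ) (h2 : τ ≤ -c.im) (hz1 : |ζ.re - p| = M₁ * δ)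
    (hz2 : τ ≤ -ζ.im) (hz3 : -ζ.im ≤ M₁ * δ) :
    ‖s9f_green τ c ζ‖ ≤ Real.exp (8 * (-c.im) / (M₁ * δ)) := by
  apply s9f_green_far (by positivity) hτ hz2 h2 hz3
  have h1 := Complex.abs_re_le_norm (ζ - c)
  rw [Complex.sub_re] at h1
  have h3 : |ζ.re - p| ≤ |ζ.re - c.re| + |c.re - p| := by
    have := abs_add_le (ζ.re - c.re) (c.re - p)
    rwa [sub_add_sub_cancel] at this
  have h4 : K * δ ≤ M₁ * δ / 2 := by nlinarith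
  linarith

theorem s9f_tile_top {M₁ τ δ : ℝ} {c ζ : ℂ} (hδ : 0 < δ) (hτ : 0 ≤ τ) (hM : 1 ≤ M₁)
    (hcd : -c.im ≤ δ / 2) (h2 : τ ≤ -c.im) (hz : -ζ.im = M₁ * δ) (hz2 : τ ≤ -ζ.im) :
    ‖s9f_green τ c ζ‖ ≤ Real.exp (8 * (-c.im) / (M₁ * δ)) := by
  apply s9f_green_far (by positivity) hτ hz2 h2 hz.le
  have h1 := Complex.abs_im_le_norm (ζ - c)
  rw [Complex.sub_im] at h1
  have h3 := neg_abs_le (ζ.im - c.im)
  have h4 : δ ≤ M₁ * δ := le_mul_of_one_le_left hδ.le hM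
  linarith

theorem s9f_tile_wit {K τ p δ : ℝ} {c : ℂ} (hδ : 0 < δ) (hτ : 0 ≤ τ) (hc3 : |c.re - p| ≤ K * δ)
    (hcd : -c.im ≤ δ / 2) (hτc : 4 * τ ≤ -c.im) :
    Real.exp (7 / 48 * (-c.im) / ((K ^ 2 + 1) * δ)) ≤ ‖s9f_green τ c (s9f_pt p δ)‖ := by
  have hd0 : 0 ≤ -c.im := by linarith
  have hQ : 0 < (K ^ 2 + 1) * δ := by positivity
  have hwim : (s9f_pt p δ).im = -δ := rfl
  have hwre : (s9f_pt p δ).re = p := rfl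
  have hne : s9f_pt p δ ≠ c := by
    intro h
    have : (s9f_pt p δ).im = c.im := by rw [h]
    rw [hwim] at this
    linarith
  have hN0 : 0 < ‖s9f_pt p δ - c‖ ^ 2 := pow_pos (norm_pos_iff.mpr (sub_ne_zero.mpr hne)) _
  have hN : ‖s9f_pt p δ - c‖ ^ 2 ≤ (K ^ 2 + 1) * δ ^ 2 := by
    rw [Complex.sq_norm, Complex.normSq_apply, Complex.sub_re, Complex.sub_im, hwim, hwre]
    have a1 : (p - c.re) * (p - c.re) ≤ (K * δ) ^ 2 := by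
      have := sq_le_sq' (abs_le.mp hc3).1 (abs_le.mp hc3).2
      nlinarith
    have a2 : (-δ - c.im) * (-δ - c.im) ≤ δ ^ 2 := by nlinarith
    nlinarith
  have e : 7 / 48 * (-c.im) / ((K ^ 2 + 1) * δ) = (21 / 8 * (-c.im) / ((K ^ 2 + 1) * δ)) / 18 := by
    ring
  rw [e]
  apply s9f_green_ge_exp hne
  · rw [hwim, neg_neg, div_le_div_iff₀ hQ hN0]
    have b1 : 21 / 8 * (δ * -c.im) ≤ 4 * (δ - τ) * (-c.im - τ) := by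
      have c1 : 7 / 8 * δ ≤ δ - τ := by linarith
      have c2 : 3 / 4 * -c.im ≤ -c.im - τ := by linarith
      have := mul_le_mul c1 c2 (by positivity) (by linarith)
      nlinarith
    have b2 : 21 / 8 * -c.im * ‖s9f_pt p δ - c‖ ^ 2 ≤ 21 / 8 * -c.im * ((K ^ 2 + 1) * δ ^ 2) := by
      gcongr
    have b3 : 21 / 8 * (δ * -c.im) * ((K ^ 2 + 1) * δ) ≤
        4 * (δ - τ) * (-c.im - τ) * ((K ^ 2 + 1) * δ) := by gcongr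
    nlinarith
  · positivity
  · rw [div_le_iff₀ hQ]
    nlinarith [sq_nonneg K]

theorem s9f_shadow_ctr_im (T : S9fTile) :
    -(s9f_ctr T).im = 400 * s9f_rho T.1 + s9f_rho T.1 / 2 := by
  rw [← s9f_d_succ_eq]
  show -(-(s9f_d (T.1 + 1) + s9f_rho T.1 / 2)) = _
  ring

theorem s9f_mem_sq_of_dist {T : S9fTile} {ζ : ℂ} (h : dist ζ (s9f_ctr T) = s9f_rho T.1 / 8) :
    ζ ∈ s9f_sq T := by
  have hρ := s9f_rho_pos T.1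
  rw [dist_eq_norm] at h
  have a1 := abs_le.mp ((Complex.abs_re_le_norm (ζ - s9f_ctr T)).trans h.le)
  have a2 := abs_le.mp ((Complex.abs_im_le_norm (ζ - s9f_ctr T)).trans h.le)
  rw [Complex.sub_re] at a1
  rw [Complex.sub_im] at a2
  have c1 : (s9f_ctr T).re = ((T.2 : ℝ) + 1 / 2) * s9f_rho T.1 := rfl
  have c2 := s9f_shadow_ctr_im T
  have e1 : s9f_d (T.1 + 1) = 400 * s9f_rho T.1 := s9f_d_succ_eq _
  have e2 : s9f_d T.1 = 401 * s9f_rho T.1 := by unfold s9f_rho; ring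
  refine ⟨⟨?_, ?_⟩, ?_, ?_⟩
  · show (T.2 : ℝ) * s9f_rho T.1 ≤ ζ.re
    nlinarith [a1.1]
  · show ζ.re ≤ ((T.2 : ℝ) + 1) * s9f_rho T.1
    nlinarith [a1.2]
  · rw [e1]; linarith [a2.2]
  · rw [e2]; linarith [a2.1]

/-- LEAF: small shadows of a high-deficit family of tiles. -/
theorem s9f_shadow (K : ℝ) (hK : 0 ≤ K) : ∃ Cs M₁ H₀ : ℝ, 1 ≤ Cs ∧ 1 ≤ M₁ ∧ 1 ≤ H₀ ∧
    ∀ (F : ℂ → ℂ), DifferentiableOn ℂ F s9f_LH → ∀ (M H U τ p δ : ℝ) (𝒯 : Finset S9fTile),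
    0 < τ → τ < δ → H₀ ≤ H →
    (∀ x' δ' : ℝ, |x' - p| ≤ M₁ * δ → τ ≤ δ' → δ' ≤ M₁ * δ → ‖F (s9f_pt x' δ')‖ ≤ Real.exp M) →
    Real.exp (M - U) ≤ ‖F (s9f_pt p δ)‖ →
    (∀ T ∈ 𝒯, s9f_d T.1 ≤ δ / 2 ∧ 4 * τ ≤ s9f_d (T.1 + 1) ∧ |(s9f_ctr T).re - p| ≤ K * δ ∧
      ∀ ζ ∈ s9f_sq T, ‖F ζ‖ ≤ Real.exp (M - H)) →
    (𝒯 : Set S9fTile).PairwiseDisjoint (fun T => Icc (s9f_lo T) (s9f_hi T)) →
    ∑ T ∈ 𝒯, s9f_rho T.1 ≤ Cs * δ * U / H := by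
  obtain ⟨C₃, hC₃⟩ : ∃ C₃ : ℝ, C₃ = 9 + 2 * (4 * 10 ^ 9) := ⟨_, rfl⟩
  obtain ⟨Q, hQ⟩ : ∃ Q : ℝ, Q = K ^ 2 + 1 := ⟨_, rfl⟩
  obtain ⟨M₁, hM₁def⟩ : ∃ M₁ : ℝ, M₁ = 112 * Q + 2 * K + 2 := ⟨_, rfl⟩
  have hQ1 : 1 ≤ Q := by rw [hQ]; nlinarith [sq_nonneg K]
  have hC₃1 : 1 ≤ C₃ := by rw [hC₃]; norm_num
  have hM1 : 1 ≤ M₁ := by rw [hM₁def]; linarith
  have hM1' : 1 < M₁ := by rw [hM₁def]; linarith
  have hMK : 2 * K ≤ M₁ := by rw [hM₁def]; linarith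
  have hMQ : 112 * Q ≤ M₁ := by rw [hM₁def]; linarith
  refine ⟨28 * Q * C₃, M₁, C₃, by nlinarith, hM1, hC₃1, ?_⟩
  intro F hF M H U τ p δ 𝒯 hτ hτδ hH hbox hwit h𝒯 hdisj
  have hδ : 0 < δ := hτ.trans hτδ
  have hHpos : 0 < H := by linarith
  have hC₃pos : 0 < C₃ := by linarith
  have hMδ : 0 < M₁ * δ := by positivity
  -- the exponent `n`
  obtain ⟨n, hndef⟩ : ∃ n : ℕ, n = ⌊H / C₃⌋₊ := ⟨_, rfl⟩
  have ht1 : 1 ≤ H / C₃ := by rw [le_div_iff₀ hC₃pos]; linarith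
  have hn1 : (n : ℝ) ≤ H / C₃ := by rw [hndef]; exact Nat.floor_le (by linarith)
  have hn0 : 1 ≤ n := by rw [hndef]; exact Nat.le_floor (by exact_mod_cast ht1)
  have hn2 : H / C₃ < n + 1 := by rw [hndef]; exact Nat.lt_floor_add_one _
  have hn0' : (1 : ℝ) ≤ n := by exact_mod_cast hn0
  have hnC : (n : ℝ) * C₃ ≤ H := by rwa [le_div_iff₀ hC₃pos] at hn1
  have hHn : H ≤ 2 * C₃ * n := by
    rw [div_lt_iff₀ hC₃pos] at hn2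
    nlinarith
  -- facts on the tiles
  have tile : ∀ T ∈ 𝒯, 0 < s9f_rho T.1 ∧ -(s9f_ctr T).im ≤ δ / 2 ∧ 4 * τ ≤ -(s9f_ctr T).im ∧
      s9f_rho T.1 ≤ -(s9f_ctr T).im ∧ |(s9f_ctr T).re - p| ≤ K * δ := by
    intro T hT
    obtain ⟨g1, g2, g3, _⟩ := h𝒯 T hT
    have hρ := s9f_rho_pos T.1
    have e1 : s9f_d (T.1 + 1) = 400 * s9f_rho T.1 := s9f_d_succ_eq _
    have e2 : s9f_d T.1 = 401 * s9f_rho T.1 := by unfold s9f_rho; ring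
    rw [s9f_shadow_ctr_im]
    exact ⟨hρ, by linarith, by linarith, by linarith, g3⟩
  have tileτ : ∀ T ∈ 𝒯, τ ≤ -(s9f_ctr T).im := fun T hT => by
    have := (tile T hT).2.2.1
    linarith
  obtain ⟨Ψ, hΨdef⟩ : ∃ Ψ : ℂ → ℂ,
      Ψ = fun ζ => F ζ * ∏ T ∈ 𝒯, (s9f_green τ (s9f_ctr T) ζ) ^ n := ⟨_, rfl⟩
  have hΨn : ∀ ζ, ‖Ψ ζ‖ = ‖F ζ‖ * ∏ T ∈ 𝒯, ‖s9f_green τ (s9f_ctr T) ζ‖ ^ n := by
    intro ζ; rw [hΨdef]; simp only [norm_mul, norm_prod, norm_pow]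
  obtain ⟨D, hD⟩ : ∃ D : ℝ, D = ∑ T ∈ 𝒯, -(s9f_ctr T).im := ⟨_, rfl⟩
  have hD0 : 0 ≤ D := by
    rw [hD]
    exact Finset.sum_nonneg (fun T hT => by have := tileτ T hT; linarith)
  have hκsum : ∑ T ∈ 𝒯, 8 * (-(s9f_ctr T).im) / (M₁ * δ) = 8 * D / (M₁ * δ) := by
    rw [hD, Finset.mul_sum, Finset.sum_div]
  have hκ0 : 0 ≤ (n : ℝ) * (8 * D / (M₁ * δ)) := by positivity
  have hFle : ∀ ζ : ℂ, |ζ.re - p| ≤ M₁ * δ → τ ≤ -ζ.im → -ζ.im ≤ M₁ * δ →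
      ‖F ζ‖ ≤ Real.exp M := by
    intro ζ h1 h2 h3
    have e : ζ = s9f_pt ζ.re (-ζ.im) := by apply Complex.ext <;> simp [s9f_pt]
    rw [e]; exact hbox _ _ h1 h2 h3
  have hne : ∀ ζ : ℂ, (∀ T ∈ 𝒯, s9f_rho T.1 / 8 ≤ dist ζ (s9f_ctr T)) →
      ∀ T ∈ 𝒯, ζ ≠ s9f_ctr T := by
    intro ζ h T hT he
    have h1 := h T hT
    rw [he, dist_self] at h1
    have := (tile T hT).1
    linarith
  have hd : ∀ ζ : ℂ, |ζ.re - p| ≤ M₁ * δ → τ ≤ -ζ.im → -ζ.im ≤ M₁ * δ →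
      (∀ T ∈ 𝒯, s9f_rho T.1 / 8 ≤ dist ζ (s9f_ctr T)) → DifferentiableAt ℂ Ψ ζ := by
    intro ζ _ h2 _ h4
    have hζ : ζ ∈ s9f_LH := by show ζ.im < 0; linarith
    rw [hΨdef]
    apply (hF.differentiableAt (s9f_isOpen_LH.mem_nhds hζ)).mul
    apply DifferentiableAt.fun_finsetProd
    intro T hT
    apply DifferentiableAt.pow
    unfold s9f_green
    exact (differentiableAt_id.sub_const _).div (differentiableAt_id.sub_const _)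
      (sub_ne_zero.mpr (hne ζ h4 T hT))
  have hfarC : ∀ ζ : ℂ, ‖F ζ‖ ≤ Real.exp M →
      (∀ T ∈ 𝒯, ‖s9f_green τ (s9f_ctr T) ζ‖ ≤ Real.exp (8 * (-(s9f_ctr T).im) / (M₁ * δ))) →
      ‖Ψ ζ‖ ≤ Real.exp (M + n * (8 * D / (M₁ * δ))) := by
    intro ζ h1 h2
    rw [hΨn, Real.exp_add, ← hκsum]
    exact mul_le_mul h1 (s9f_prod_pow_le_exp 𝒯 _ _ n (fun _ _ => norm_nonneg _) h2)
      (Finset.prod_nonneg (fun _ _ => pow_nonneg (norm_nonneg _) _)) (Real.exp_pos _).le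
  have hbd : ∀ ζ : ℂ, |ζ.re - p| ≤ M₁ * δ → τ ≤ -ζ.im → -ζ.im ≤ M₁ * δ →
      (∀ T ∈ 𝒯, s9f_rho T.1 / 8 ≤ dist ζ (s9f_ctr T)) →
      (|ζ.re - p| = M₁ * δ ∨ -ζ.im = τ ∨ -ζ.im = M₁ * δ ∨
        ∃ T ∈ 𝒯, dist ζ (s9f_ctr T) = s9f_rho T.1 / 8) →
      ‖Ψ ζ‖ ≤ Real.exp (M + n * (8 * D / (M₁ * δ))) := by
    intro ζ h1 h2 h3 h4 hcase
    rcases hcase with hc | hc | hc | ⟨T₀, hT₀, hdist⟩
    · exact hfarC ζ (hFle ζ h1 h2 h3) (fun T hT =>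
        s9f_tile_side hδ hτ.le hMK (by linarith) (tile T hT).2.2.2.2 (tileτ T hT) hc h2 h3)
    · rw [hΨn, Finset.prod_eq_one (fun T hT => by
        rw [s9f_green_eq_one hc (hne ζ h4 T hT), one_pow]), mul_one]
      exact (hFle ζ h1 h2 h3).trans (Real.exp_le_exp.mpr (by linarith))
    · exact hfarC ζ (hFle ζ h1 h2 h3) (fun T hT =>
        s9f_tile_top hδ hτ.le hM1 (tile T hT).2.1 (tileτ T hT) hc h2)
    · have hsq := s9f_mem_sq_of_dist hdist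
      have hF1 : ‖F ζ‖ ≤ Real.exp (M - H) := (h𝒯 T₀ hT₀).2.2.2 ζ hsq
      have hown : ‖s9f_green τ (s9f_ctr T₀) ζ‖ ≤ Real.exp 9 :=
        s9f_green_own (tile T₀ hT₀).1 hτ.le (tileτ T₀ hT₀) (s9f_shadow_ctr_im T₀) hdist
      have hoth : ∏ T ∈ 𝒯.erase T₀, ‖s9f_green τ (s9f_ctr T) ζ‖ ^ n ≤
          Real.exp (n * ∑ T ∈ 𝒯.erase T₀,
            2 * ((-ζ.im) * (-(s9f_ctr T).im) / ‖ζ - s9f_ctr T‖ ^ 2)) :=
        s9f_prod_pow_le_exp _ _ _ n (fun _ _ => norm_nonneg _) (fun T hT =>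
          s9f_green_le_exp hτ.le h2 (tileτ T (Finset.mem_of_mem_erase hT))
            (hne ζ h4 T (Finset.mem_of_mem_erase hT)))
      have hsum := s9f_shadow_sum 𝒯 hdisj T₀ hT₀ ζ hsq
      rw [← Finset.mul_sum] at hoth
      have hoth' : ∏ T ∈ 𝒯.erase T₀, ‖s9f_green τ (s9f_ctr T) ζ‖ ^ n ≤
          Real.exp (n * (2 * (4 * 10 ^ 9))) :=
        hoth.trans (Real.exp_le_exp.mpr (by gcongr))
      rw [hΨn, ← Finset.mul_prod_erase 𝒯 _ hT₀]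
      calc ‖F ζ‖ * (‖s9f_green τ (s9f_ctr T₀) ζ‖ ^ n *
            ∏ T ∈ 𝒯.erase T₀, ‖s9f_green τ (s9f_ctr T) ζ‖ ^ n)
          ≤ Real.exp (M - H) * (Real.exp 9 ^ n * Real.exp (n * (2 * (4 * 10 ^ 9)))) := by
            apply mul_le_mul hF1 _ (by positivity) (Real.exp_pos _).le
            exact mul_le_mul (pow_le_pow_left₀ (norm_nonneg _) hown n) hoth'
              (Finset.prod_nonneg (fun _ _ => pow_nonneg (norm_nonneg _) _)) (by positivity)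
        _ = Real.exp (M - H + n * C₃) := by
            rw [← Real.exp_nat_mul, ← Real.exp_add, ← Real.exp_add]
            congr 1; rw [hC₃]; ring
        _ ≤ Real.exp (M + n * (8 * D / (M₁ * δ))) := Real.exp_le_exp.mpr (by linarith)
  have hwim : (s9f_pt p δ).im = -δ := rfl
  have hwre : (s9f_pt p δ).re = p := rfl
  have hmax := s9f_perforated_max 𝒯 s9f_ctr (fun T => s9f_rho T.1 / 8) Ψ p (M₁ * δ) τ (M₁ * δ)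
    (Real.exp (M + n * (8 * D / (M₁ * δ)))) hd hbd (s9f_pt p δ)
    (by rw [hwre, sub_self, abs_zero]; exact hMδ) (by rw [hwim, neg_neg]; exact hτδ)
    (by rw [hwim, neg_neg]; exact lt_mul_of_one_lt_left hδ hM1')
    (by
      intro T hT
      obtain ⟨g1, g2, g3, g4, _⟩ := tile T hT
      have h1 := Complex.abs_im_le_norm (s9f_pt p δ - s9f_ctr T)
      rw [Complex.sub_im, hwim] at h1
      have h3 := neg_abs_le (-δ - (s9f_ctr T).im)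
      rw [dist_eq_norm]
      show s9f_rho T.1 / 8 < _
      linarith)
  have hlow : Real.exp (M - U) * Real.exp (n * ∑ T ∈ 𝒯,
      7 / 48 * (-(s9f_ctr T).im) / ((K ^ 2 + 1) * δ)) ≤ ‖Ψ (s9f_pt p δ)‖ := by
    rw [hΨn]
    exact mul_le_mul hwit (s9f_exp_le_prod_pow 𝒯 _ _ n (fun T hT =>
      s9f_tile_wit hδ hτ.le (tile T hT).2.2.2.2 (tile T hT).2.1 (tile T hT).2.2.1))
      (Real.exp_pos _).le (norm_nonneg _)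
  have hesum : ∑ T ∈ 𝒯, 7 / 48 * (-(s9f_ctr T).im) / ((K ^ 2 + 1) * δ) =
      7 / 48 * D / (Q * δ) := by
    rw [hD, hQ, Finset.mul_sum, Finset.sum_div]
  rw [hesum, ← Real.exp_add] at hlow
  have hineq := Real.exp_le_exp.mp (hlow.trans hmax)
  -- arithmetic
  have hQδ : 0 < Q * δ := by positivity
  obtain ⟨X, hX⟩ : ∃ X : ℝ, X = D / (Q * δ) := ⟨_, rfl⟩
  have hX0 : 0 ≤ X := by rw [hX]; positivity
  have hDX : D = X * (Q * δ) := by rw [hX, div_mul_cancel₀ _ hQδ.ne']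
  have k1 : 8 * D / (M₁ * δ) ≤ X / 14 := by
    rw [div_le_iff₀ hMδ]
    calc 8 * D = X / 14 * (112 * Q * δ) := by rw [hDX]; ring
      _ ≤ X / 14 * (M₁ * δ) := by gcongr
  have k2 : 7 / 48 * D / (Q * δ) = 7 / 48 * X := by rw [hX]; ring
  rw [k2] at hineq
  have k3 : (n : ℝ) * (8 * D / (M₁ * δ)) ≤ n * (X / 14) := by gcongr
  have hnX : 0 ≤ (n : ℝ) * X := by positivity
  have k4 : (n : ℝ) * X ≤ 14 * U := by nlinarith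
  have k5 : (n : ℝ) * D ≤ 14 * Q * δ * U := by
    calc (n : ℝ) * D = (n * X) * (Q * δ) := by rw [hDX]; ring
      _ ≤ (14 * U) * (Q * δ) := by gcongr
      _ = 14 * Q * δ * U := by ring
  have hρD : ∑ T ∈ 𝒯, s9f_rho T.1 ≤ D := by
    rw [hD]; exact Finset.sum_le_sum (fun T hT => (tile T hT).2.2.2.1)
  rw [le_div_iff₀ hHpos]
  calc (∑ T ∈ 𝒯, s9f_rho T.1) * H ≤ D * (2 * C₃ * n) := by
        apply mul_le_mul hρD hHn hHpos.le hD0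
    _ = 2 * C₃ * (n * D) := by ring
    _ ≤ 2 * C₃ * (14 * Q * δ * U) := by gcongr
    _ = 28 * Q * C₃ * δ * U := by ring

end Claimed.Agent.R269
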