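/-
Row 269, mesh package (P1 Thm 9.11).  LEAF FILE `LF-S9f-loc`.   Blueprint: helper149.

What one cone witness gives (paper: "no bad barriers" near a witness): a good row and many good columns.

PROOF SKETCH.  `K = A + 3`; `(Cs, M₁, H₀)` from `s9f_shadow K`; `C₁ = max H₀ (1700 Cs)`.   `U/H ≤ 1/C₁`.  `τ < δ` because `4τ ≤ d (k₁+1) ≤ d ℓ ≤ δ/2`.
A tile that is not good satisfies `‖F‖ < e^{M-H}` on its whole square.
All tiles `T` below have layer in `[ℓ, k₁]` (so `d T.1 ≤ d ℓ ≤ δ/2`, `4τ ≤ d (k₁+1) ≤ d (T.1+1)`) and projection meeting `[x - 4 d ℓ, x + 4 d ℓ] ⊆ [x - 2δ, x + 2δ]`, so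
`|Re ctr - p| ≤ Aδ + 2δ + ρ ≤ Kδ`.
ROW.  If `(ℓ,a)` were bad: `s9f_shadow` for `𝒯 = {(ℓ,a)}` gives `δ/1604 ≤ d ℓ/401 = ρ ℓ ≤ Cs δ U/H ≤ Cs δ/C₁ < δ/1604`.
COLUMNS.  Let `J = [y, y + 2 d ℓ]`, `|J| ≥ δ/2`.  If every `c ∈ J` had a bad tile `s9f_over k c`, `ℓ ≤ k ≤ k₁`, then the FINITE family `𝒯₀` of the bad tiles of the layers `[ℓ,k₁]` whose projection
meets `J` covers `J`.  `Vitali.exists_disjoint_subfamily_covering_enlargement` (`B T = Icc (lo T) (hi T)`, size `ρ`, factor `2`) gives `𝒯 ⊆ 𝒯₀` with disjoint projections such that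
`J ⊆ ⋃_{T ∈ 𝒯} [lo T - 2ρ_T, hi T + 2ρ_T]`; so `δ/2 ≤ |J| ≤ 5 ∑_{𝒯} ρ_T ≤ 5 Cs δ/C₁ < δ/2`.
-/
import Claimed.Agent.R269.S9.MeshShadow

set_option autoImplicit false

namespace Claimed.Agent.R269

open Set Metric

/-- an interval covered by finitely many intervals is not longer than their total length. -/
theorem s9f_length_le_of_cover (y z : ℝ) (𝒯 : Finset S9fTile) (a b : S9fTile → ℝ)
    (hab : ∀ T ∈ 𝒯, a T ≤ b T) (hcov : Icc y z ⊆ ⋃ T ∈ 𝒯, Icc (a T) (b T)) :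
    z - y ≤ ∑ T ∈ 𝒯, (b T - a T) := by
  have hvol : MeasureTheory.volume (Icc y z) ≤ ∑ T ∈ 𝒯, MeasureTheory.volume (Icc (a T) (b T)) :=
    (MeasureTheory.measure_mono hcov).trans (MeasureTheory.measure_biUnion_finset_le _ _)
  simp only [Real.volume_Icc] at hvol
  rw [← ENNReal.ofReal_sum_of_nonneg (fun T hT => sub_nonneg.mpr (hab T hT))] at hvol
  exact (ENNReal.ofReal_le_ofReal_iff
    (Finset.sum_nonneg (fun T hT => sub_nonneg.mpr (hab T hT)))).mp hvol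

/-- LEAF: local data from one witness `p - iδ`, `|p - x| ≤ A δ`, of deficit `U`. -/
theorem s9f_loc_of_witness (A : ℝ) (hA : 0 ≤ A) : ∃ C₁ M₁ : ℝ, 1 ≤ C₁ ∧ 1 ≤ M₁ ∧
    ∀ (F : ℂ → ℂ), DifferentiableOn ℂ F s9f_LH → ∀ (M H U τ x p δ : ℝ) (k₁ ℓ : ℤ),
    0 < τ → 0 < δ → |p - x| ≤ A * δ →
    (∀ x' δ' : ℝ, |x' - p| ≤ M₁ * δ → τ ≤ δ' → δ' ≤ M₁ * δ → ‖F (s9f_pt x' δ')‖ ≤ Real.exp M) →
    Real.exp (M - U) ≤ ‖F (s9f_pt p δ)‖ → C₁ ≤ H → C₁ * U ≤ H →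
    4 * τ ≤ s9f_d (k₁ + 1) → ℓ ≤ k₁ → δ / 4 ≤ s9f_d ℓ → s9f_d ℓ ≤ δ / 2 →
    S9fLoc (S9fGood F (Real.exp (M - H))) k₁ x ℓ := by
  obtain ⟨Cs, M₁, H₀, hCs, hM₁, hH₀, hsh⟩ := s9f_shadow (A + 3) (by linarith)
  refine ⟨max H₀ (1700 * Cs), M₁, le_trans hH₀ (le_max_left _ _), hM₁, ?_⟩
  intro F hF M H U τ x p δ k₁ ℓ hτ hδ hp hbox hwit hH hHU hτk hℓk hℓ1 hℓ2
  have hH0 : H₀ ≤ H := le_trans (le_max_left _ _) hH
  have hHpos : 0 < H := by linarith
  have hC : 1700 * Cs ≤ max H₀ (1700 * Cs) := le_max_right _ _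
  have hτδ : τ < δ := by
    have := s9f_d_anti (show ℓ ≤ k₁ + 1 by omega)
    linarith
  have hU : 1700 * Cs * U ≤ H := by
    rcases le_total 0 U with h | h
    · exact le_trans (mul_le_mul_of_nonneg_right hC h) hHU
    · have : 1700 * Cs * U ≤ 0 := mul_nonpos_of_nonneg_of_nonpos (by positivity) h
      linarith
  have hp' := abs_le.mp hp
  -- a disjoint family of bad tiles near `x` has a small shadow
  have key : ∀ 𝒯 : Finset S9fTile,
      (∀ T ∈ 𝒯, ℓ ≤ T.1 ∧ T.1 ≤ k₁ ∧ x - 4 * s9f_d ℓ ≤ s9f_hi T ∧ s9f_lo T ≤ x + 4 * s9f_d ℓ ∧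
        ¬ S9fGood F (Real.exp (M - H)) T) →
      (𝒯 : Set S9fTile).PairwiseDisjoint (fun T => Icc (s9f_lo T) (s9f_hi T)) →
      ∑ T ∈ 𝒯, s9f_rho T.1 ≤ δ / 1700 := by
    intro 𝒯 h𝒯 hdisj
    have h := hsh F hF M H U τ p δ 𝒯 hτ hτδ hH0 hbox hwit (fun T hT => by
      obtain ⟨g1, g2, g3, g4, g5⟩ := h𝒯 T hT
      refine ⟨(s9f_d_anti g1).trans hℓ2, hτk.trans (s9f_d_anti (by omega)), ?_, ?_⟩
      · have hr : s9f_rho T.1 ≤ s9f_rho ℓ := s9f_rho_anti g1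
        have hrℓ : s9f_rho ℓ = s9f_d ℓ / 401 := rfl
        have hρ := s9f_rho_pos T.1
        have c1 : (s9f_ctr T).re = s9f_lo T + s9f_rho T.1 / 2 := by
          show ((T.2 : ℝ) + 1 / 2) * s9f_rho T.1 = _
          unfold s9f_lo; ring
        have c2 : (s9f_ctr T).re = s9f_hi T - s9f_rho T.1 / 2 := by
          show ((T.2 : ℝ) + 1 / 2) * s9f_rho T.1 = _
          unfold s9f_hi; ring
        rw [abs_le]
        constructor
        · rw [c2]; linarith [hp'.1, hp'.2]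
        · rw [c1]; linarith [hp'.1, hp'.2]
      · intro ζ hζ
        by_contra hcon
        exact g5 ⟨ζ, hζ, (not_le.mp hcon).le⟩) hdisj
    refine h.trans ?_
    rw [div_le_iff₀ hHpos]
    calc Cs * δ * U = δ / 1700 * (1700 * Cs * U) := by ring
      _ ≤ δ / 1700 * H := by gcongr
  constructor
  · -- the row
    intro a ha1 ha2
    by_contra hbad
    have h := key {((ℓ, a) : S9fTile)} (by
      intro T hT
      rw [Finset.mem_singleton] at hT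
      subst hT
      exact ⟨le_rfl, hℓk, ha1, ha2, hbad⟩) (by simp)
    rw [Finset.sum_singleton] at h
    have hrℓ : s9f_rho ℓ = s9f_d ℓ / 401 := rfl
    have h' : s9f_rho ℓ ≤ δ / 1700 := h
    linarith
  · -- the columns
    intro y hy1 hy2
    by_contra hcon
    have hcon' : ∀ c ∈ Icc y (y + 2 * s9f_d ℓ), ∃ k : ℤ, ℓ ≤ k ∧ k ≤ k₁ ∧
        ¬ S9fGood F (Real.exp (M - H)) (s9f_over k c) := by
      intro c hc
      by_contra hno
      apply hcon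
      refine ⟨c, hc, fun k hk1 hk2 => ?_⟩
      by_contra hb
      exact hno ⟨k, hk1, hk2, hb⟩
    set S : Set S9fTile := {T | ℓ ≤ T.1 ∧ T.1 ≤ k₁ ∧ ⌊y / s9f_rho T.1⌋ ≤ T.2 ∧
      T.2 ≤ ⌊(y + 2 * s9f_d ℓ) / s9f_rho T.1⌋ ∧ ¬ S9fGood F (Real.exp (M - H)) T} with hS
    have hfin : S.Finite := by
      refine Set.Finite.subset (Set.Finite.biUnion (Set.finite_Icc ℓ k₁) (fun k _ =>
        (Set.finite_Icc ⌊y / s9f_rho k⌋ ⌊(y + 2 * s9f_d ℓ) / s9f_rho k⌋).image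
          (fun a => ((k, a) : S9fTile)))) ?_
      rintro ⟨k, a⟩ ⟨g1, g2, g3, g4, _⟩
      simp only [mem_iUnion]
      exact ⟨k, ⟨g1, g2⟩, a, ⟨g3, g4⟩, rfl⟩
    obtain ⟨u, huS, hudisj, hucov⟩ := Vitali.exists_disjoint_subfamily_covering_enlargement
      (fun T : S9fTile => Icc (s9f_lo T) (s9f_hi T)) S (fun T => s9f_rho T.1) 2 (by norm_num)
      (fun T _ => (s9f_rho_pos _).le) (s9f_rho ℓ) (fun T hT => s9f_rho_anti hT.1)
      (fun T _ => ⟨s9f_lo T, left_mem_Icc.mpr (s9f_lo_le_hi T)⟩)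
    have hufin : u.Finite := hfin.subset huS
    have hcover : Icc y (y + 2 * s9f_d ℓ) ⊆ ⋃ T ∈ hufin.toFinset,
        Icc (s9f_lo T - 2 * s9f_rho T.1) (s9f_hi T + 2 * s9f_rho T.1) := by
      intro c hc
      obtain ⟨k, hk1, hk2, hbad⟩ := hcon' c hc
      have hρk := s9f_rho_pos k
      have hTS : s9f_over k c ∈ S :=
        ⟨hk1, hk2, Int.floor_le_floor (div_le_div_of_nonneg_right hc.1 hρk.le),
          Int.floor_le_floor (div_le_div_of_nonneg_right hc.2 hρk.le), hbad⟩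
      obtain ⟨T', hT'u, ⟨e, he1, he2⟩, hsize⟩ := hucov _ hTS
      simp only [mem_iUnion]
      refine ⟨T', hufin.mem_toFinset.mpr hT'u, ?_⟩
      have hw := s9f_hi_sub_lo (s9f_over k c)
      have hcm := s9f_over_mem k c
      have a1 := he1.1
      have a2 := he1.2
      have b1 := he2.1
      have b2 := he2.2
      have hsize' : s9f_rho (s9f_over k c).1 ≤ 2 * s9f_rho T'.1 := hsize
      constructor
      · linarith [hcm.1]
      · linarith [hcm.2]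
    have hlen := s9f_length_le_of_cover _ _ _ _ _ (fun T _ => by
      have := s9f_lo_le_hi T
      have := s9f_rho_pos T.1
      linarith) hcover
    have hsum : ∑ T ∈ hufin.toFinset,
        (s9f_hi T + 2 * s9f_rho T.1 - (s9f_lo T - 2 * s9f_rho T.1)) =
        5 * ∑ T ∈ hufin.toFinset, s9f_rho T.1 := by
      rw [Finset.mul_sum]
      refine Finset.sum_congr rfl (fun T _ => ?_)
      have := s9f_hi_sub_lo T
      linarith
    rw [hsum] at hlen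
    have hk := key hufin.toFinset (by
      intro T hT
      obtain ⟨g1, g2, g3, g4, g5⟩ := huS (hufin.mem_toFinset.mp hT)
      have hρ := s9f_rho_pos T.1
      refine ⟨g1, g2, ?_, ?_, g5⟩
      · have f1 : y / s9f_rho T.1 < (T.2 : ℝ) + 1 := by
          have := Int.lt_floor_add_one (y / s9f_rho T.1)
          have g3' : (⌊y / s9f_rho T.1⌋ : ℝ) ≤ (T.2 : ℝ) := by exact_mod_cast g3
          linarith
        rw [div_lt_iff₀ hρ] at f1
        have : s9f_hi T = ((T.2 : ℝ) + 1) * s9f_rho T.1 := rfl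
        linarith
      · have f1 : (T.2 : ℝ) ≤ (y + 2 * s9f_d ℓ) / s9f_rho T.1 := by
          have := Int.floor_le ((y + 2 * s9f_d ℓ) / s9f_rho T.1)
          have g4' : (T.2 : ℝ) ≤ (⌊(y + 2 * s9f_d ℓ) / s9f_rho T.1⌋ : ℝ) := by exact_mod_cast g4
          linarith
        rw [le_div_iff₀ hρ] at f1
        have : s9f_lo T = (T.2 : ℝ) * s9f_rho T.1 := rfl
        linarith) (by rw [hufin.coe_toFinset]; exact hudisj)
    linarith

end Claimed.Agent.R269
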