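/-
Row 269, UNIT S9a, LEAF PACKAGE LF-S9a-cvx.   Blueprint: helper149.   Proof: helper175 (steps (3), (4) replaced: limit along a free ultrafilter, finite nets, then extraction of a subsequence).   HOST-FREE.

COMPACTNESS OF CONVEX FUNCTIONS on `(0,∞)` (domains `(0, b n)`, `b n → ∞`) vanishing at `1` and locally uniformly bounded above.

PROOF.  (1) Lower bound on `[a,b]`: for `D < 1 < D₊` convexity at `1` gives `0 = g 1 ≤ (1-s) g D + s g D₊`, so `g D ≥ -s/(1-s) · C`; similarly for `D > 1` with a point `D₋ < 1`.  So `|g n| ≤ C'` on `[a/2, 2b]` eventually.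
(2) A convex function bounded by `C'` on `[a/2, 2b]` is Lipschitz on `[a,b]` with constant `4C'/a` (slopes are monotone: `ConvexOn.slope_mono_adjacent`...).
(3) Diagonal subsequence converging at all positive rationals (bounded real sequences: `tendsto_subseq_of_bounded`, iterate; or compactness of a countable product of intervals).
(4) Equi-Lipschitz + convergence on a dense set => uniformly Cauchy on `[a,b]`; `g∞ D := lim`.  Convexity passes to the pointwise limit.
-/
import Mathlib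

set_option autoImplicit false

namespace Claimed.Agent.R269

open Complex Filter Topology MeasureTheory Set Metric
open scoped ENNReal Real

/-- the three point inequality of a convex function. -/
theorem s9ac_three {s : Set ℝ} {g : ℝ → ℝ} (hg : ConvexOn ℝ s g) {x y z : ℝ} (hx : x ∈ s)
    (hz : z ∈ s) (hxy : x ≤ y) (hyz : y ≤ z) : (z - x) * g y ≤ (z - y) * g x + (y - x) * g z := by
  rcases eq_or_lt_of_le (hxy.trans hyz) with h | h
  · have h1 : y = x := le_antisymm (by linarith) hxy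
    rw [← h, h1]; simp
  · have hzx : 0 < z - x := by linarith
    have := hg.2 hx hz
      (show 0 ≤ (z - y) / (z - x) from div_nonneg (by linarith) hzx.le)
      (show 0 ≤ (y - x) / (z - x) from div_nonneg (by linarith) hzx.le)
      (by field_simp; ring)
    have e : ((z - y) / (z - x)) • x + ((y - x) / (z - x)) • z = y := by
      simp only [smul_eq_mul]; field_simp; ring
    rw [e] at this
    simp only [smul_eq_mul] at this
    have h2 := mul_le_mul_of_nonneg_left this hzx.le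
    have e2 : (z - x) * ((z - y) / (z - x) * g x + (y - x) / (z - x) * g z) =
        (z - y) * g x + (y - x) * g z := by field_simp
    rwa [e2] at h2

/-- an upper bound and the value `0` at `1` give a two sided bound. -/
theorem s9ac_bound (g : ℝ → ℝ) (β a c C : ℝ) (hconv : ConvexOn ℝ (Ioo 0 β) g) (hone : g 1 = 0)
    (ha : 0 < a) (ha' : a ≤ 1 / 2) (hc : 2 ≤ c) (hcβ : c < β) (hC : 0 ≤ C)
    (hup : ∀ D ∈ Icc a c, g D ≤ C) : ∀ D ∈ Icc a c, |g D| ≤ (1 + 2 * c) * C := by
  intro D hD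
  have hcC : 0 ≤ c * C := mul_nonneg (by linarith) hC
  have hD0 : 0 < D := ha.trans_le hD.1
  rw [abs_le]
  refine ⟨?_, by have := hup D hD; nlinarith⟩
  rcases le_total D 1 with h1 | h1
  · rcases eq_or_lt_of_le h1 with h | h
    · rw [h, hone]; nlinarith
    · have t := s9ac_three hconv (x := D) (y := 1) (z := 2 - D) ⟨hD0, by linarith [hD.2]⟩
        ⟨by linarith, by linarith⟩ h1 (by linarith)
      rw [hone] at t
      have h2 := hup (2 - D) ⟨by linarith, by linarith⟩
      have h3 : 0 ≤ (1 - D) * (g D + g (2 - D)) := by nlinarith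
      have h4 : 0 ≤ g D + g (2 - D) := nonneg_of_mul_nonneg_right h3 (by linarith)
      nlinarith
  · have t := s9ac_three hconv (x := a) (y := 1) (z := D) ⟨ha, by linarith⟩
      ⟨hD0, by linarith [hD.2]⟩ (by linarith) h1
    rw [hone] at t
    have h2 := hup a ⟨le_rfl, by linarith⟩
    have h3 : (D - 1) * g a ≤ (c - 1) * C := by
      calc (D - 1) * g a ≤ (D - 1) * C := mul_le_mul_of_nonneg_left h2 (by linarith)
        _ ≤ (c - 1) * C := mul_le_mul_of_nonneg_right (by linarith [hD.2]) hC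
    by_contra hcon
    push Not at hcon
    have h4 : (1 - a) * g D ≤ (1 - a) * (-((1 + 2 * c) * C)) :=
      mul_le_mul_of_nonneg_left hcon.le (by linarith)
    have h5 : (1 - a) * ((1 + 2 * c) * C) ≥ 1 / 2 * ((1 + 2 * c) * C) :=
      mul_le_mul_of_nonneg_right (by linarith) (by nlinarith)
    have h6 : g D < 0 := lt_of_lt_of_le hcon (by nlinarith)
    rcases eq_or_lt_of_le hC with h0 | h0
    · rw [← h0] at h3 hcon
      have : 0 ≤ (1 - a) * g D := by nlinarith
      have := nonneg_of_mul_nonneg_right this (by linarith)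
      linarith
    · nlinarith

/-- a bounded convex function is Lipschitz on a smaller interval. -/
theorem s9ac_lip (g : ℝ → ℝ) (β a c C : ℝ) (hconv : ConvexOn ℝ (Ioo 0 β) g) (ha : 0 < a)
    (hac : a ≤ c) (hcβ : 2 * c < β) (hb : ∀ D ∈ Icc (a / 2) (2 * c), |g D| ≤ C) :
    ∀ x ∈ Icc a c, ∀ y ∈ Icc a c, |g x - g y| ≤ 4 * C / a * |x - y| := by
  have hC : 0 ≤ C := (abs_nonneg _).trans (hb a ⟨by linarith, by linarith⟩)
  have key : ∀ x ∈ Icc a c, ∀ y ∈ Icc a c, x ≤ y → |g x - g y| ≤ 4 * C / a * (y - x) := by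
    intro x hx y hy hxy
    have hmem : ∀ D ∈ Icc (a / 2) (2 * c), D ∈ Ioo 0 β := fun D hD =>
      ⟨by linarith [hD.1], by linarith [hD.2]⟩
    have bx := abs_le.1 (hb x ⟨by linarith [hx.1], by linarith [hx.2]⟩)
    have by' := abs_le.1 (hb y ⟨by linarith [hy.1], by linarith [hy.2]⟩)
    have bl := abs_le.1 (hb (a / 2) ⟨le_rfl, by linarith⟩)
    have br := abs_le.1 (hb (2 * c) ⟨by linarith, le_rfl⟩)
    have t1 := s9ac_three hconv (x := x) (y := y) (z := 2 * c)
      (hmem x ⟨by linarith [hx.1], by linarith [hx.2]⟩) (hmem _ ⟨by linarith, le_rfl⟩) hxy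
      (by linarith [hy.2])
    have t2 := s9ac_three hconv (x := a / 2) (y := x) (z := y) (hmem _ ⟨le_rfl, by linarith⟩)
      (hmem y ⟨by linarith [hy.1], by linarith [hy.2]⟩) (by linarith [hx.1]) hxy
    have hyx : 0 ≤ y - x := by linarith
    have e : 4 * C / a * (y - x) = 4 * C * (y - x) / a := by ring
    have hCyx : 0 ≤ C * (y - x) := mul_nonneg hC hyx
    have hup : a * (g y - g x) ≤ 4 * C * (y - x) := by
      have h1 : (2 * c - x) * (g y - g x) ≤ (y - x) * (2 * C) := by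
        have : (y - x) * (g (2 * c) - g x) ≤ (y - x) * (2 * C) :=
          mul_le_mul_of_nonneg_left (by linarith [br.2, bx.1]) hyx
        nlinarith
      rcases le_total (g y - g x) 0 with h0 | h0
      · nlinarith
      · have h2 : a * (g y - g x) ≤ (2 * c - x) * (g y - g x) :=
          mul_le_mul_of_nonneg_right (by linarith [hx.2]) h0
        nlinarith
    have hdn : a * (g x - g y) ≤ 4 * C * (y - x) := by
      have h1 : (y - a / 2) * (g x - g y) ≤ (y - x) * (2 * C) := by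
        have : (y - x) * (g (a / 2) - g y) ≤ (y - x) * (2 * C) :=
          mul_le_mul_of_nonneg_left (by linarith [bl.2, by'.1]) hyx
        nlinarith
      rcases le_total (g x - g y) 0 with h0 | h0
      · nlinarith
      · have h2 : a / 2 * (g x - g y) ≤ (y - a / 2) * (g x - g y) :=
          mul_le_mul_of_nonneg_right (by linarith [hy.1]) h0
        nlinarith
    rw [e, le_div_iff₀ ha]
    rcases abs_cases (g x - g y) with ⟨h0, _⟩ | ⟨h0, _⟩ <;> rw [h0] <;> nlinarith
  intro x hx y hy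
  rcases le_total x y with h | h
  · rw [abs_sub_comm x y, abs_of_nonneg (by linarith : 0 ≤ y - x)]
    exact key x hx y hy h
  · rw [abs_sub_comm (g x) (g y), abs_of_nonneg (by linarith : 0 ≤ x - y)]
    exact key y hy x hx h


/-- LEAF: selection principle for convex functions. -/
theorem s9a_convex_compact (g : ℕ → ℝ → ℝ) (b : ℕ → ℝ) (hb : Tendsto b atTop atTop)
    (hconv : ∀ n, ConvexOn ℝ (Ioo 0 (b n)) (g n)) (hone : ∀ n, g n 1 = 0)
    (hup : ∀ a c : ℝ, 0 < a → a ≤ c → ∃ C : ℝ, ∀ᶠ n in atTop, ∀ D ∈ Icc a c, g n D ≤ C) :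
    ∃ (φ : ℕ → ℕ) (g' : ℝ → ℝ), StrictMono φ ∧ ConvexOn ℝ (Ioi 0) g' ∧
      ∀ a c : ℝ, 0 < a → a ≤ c → ∀ η > (0 : ℝ), ∀ᶠ n in atTop, ∀ D ∈ Icc a c, |g (φ n) D - g' D| ≤ η := by
  -- two sided bounds
  have hbd : ∀ a c : ℝ, 0 < a → a ≤ c →
      ∃ C : ℝ, ∀ᶠ n in atTop, c < b n ∧ ∀ D ∈ Icc a c, |g n D| ≤ C := by
    intro a c ha hac
    have ha' : 0 < min a (1 / 2) := lt_min ha (by norm_num)
    obtain ⟨C₀, hC₀⟩ := hup (min a (1 / 2)) (max c 2) ha'
      (le_trans (min_le_left _ _) (hac.trans (le_max_left _ _)))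
    refine ⟨(1 + 2 * max c 2) * max C₀ 0, ?_⟩
    filter_upwards [hC₀, hb.eventually_gt_atTop (max c 2)] with n hn hbn
    refine ⟨lt_of_le_of_lt (le_max_left _ _) hbn, fun D hD => ?_⟩
    exact s9ac_bound (g n) (b n) (min a (1 / 2)) (max c 2) (max C₀ 0) (hconv n) (hone n) ha'
      (min_le_right _ _) (le_max_right _ _) hbn (le_max_right _ _)
      (fun D hD => (hn D hD).trans (le_max_left _ _)) D
      ⟨(min_le_left _ _).trans hD.1, hD.2.trans (le_max_left _ _)⟩
  -- equi-Lipschitz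
  have hlip : ∀ a c : ℝ, 0 < a → a ≤ c → ∃ L : ℝ, 0 ≤ L ∧
      ∀ᶠ n in atTop, ∀ x ∈ Icc a c, ∀ y ∈ Icc a c, |g n x - g n y| ≤ L * |x - y| := by
    intro a c ha hac
    obtain ⟨C, hC⟩ := hbd (a / 2) (2 * c) (by positivity) (by linarith)
    refine ⟨4 * max C 0 / a, by positivity, ?_⟩
    filter_upwards [hC] with n hn
    exact s9ac_lip (g n) (b n) a c (max C 0) (hconv n) ha hac hn.1
      (fun D hD => (hn.2 D hD).trans (le_max_left _ _))
  -- limit along a free ultrafilter
  obtain ⟨𝒰, h𝒰⟩ : ∃ 𝒰 : Ultrafilter ℕ, (𝒰 : Filter ℕ) ≤ atTop :=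
    ⟨hyperfilter ℕ, Nat.hyperfilter_le_atTop⟩
  have hlim : ∀ D : ℝ, ∃ l : ℝ, 0 < D → Tendsto (fun n => g n D) 𝒰 (𝓝 l) := by
    intro D
    by_cases hD : 0 < D
    · obtain ⟨C, hC⟩ := hbd D D hD le_rfl
      have hmem : Icc (-C) C ∈ 𝒰.map (fun n => g n D) := by
        have : ∀ᶠ n in (𝒰 : Filter ℕ), g n D ∈ Icc (-C) C :=
          (hC.filter_mono h𝒰).mono fun n hn => abs_le.1 (hn.2 D ⟨le_rfl, le_rfl⟩)
        exact this
      obtain ⟨l, -, hl⟩ := isCompact_Icc.ultrafilter_le_nhds' _ hmem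
      exact ⟨l, fun _ => hl⟩
    · exact ⟨0, fun h => absurd h hD⟩
  choose g' hg' using hlim
  have hconv' : ConvexOn ℝ (Ioi 0) g' := by
    refine ⟨convex_Ioi 0, fun x hx y hy α β hα hβ hαβ => ?_⟩
    have hz : 0 < α • x + β • y := (convex_Ioi (0 : ℝ)) hx hy hα hβ hαβ
    have h1 := hg' _ hz
    have h2 := ((hg' x hx).const_smul α).add ((hg' y hy).const_smul β)
    refine le_of_tendsto_of_tendsto h1 h2 ?_
    have : ∀ᶠ n in atTop, max x y < b n := hb.eventually_gt_atTop _
    filter_upwards [this.filter_mono h𝒰] with n hn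
    exact (hconv n).2 ⟨hx, lt_of_le_of_lt (le_max_left _ _) hn⟩
      ⟨hy, lt_of_le_of_lt (le_max_right _ _) hn⟩ hα hβ hαβ
  have hlip' : ∀ a c L : ℝ, 0 < a →
      (∀ᶠ n in atTop, ∀ x ∈ Icc a c, ∀ y ∈ Icc a c, |g n x - g n y| ≤ L * |x - y|) →
      ∀ x ∈ Icc a c, ∀ y ∈ Icc a c, |g' x - g' y| ≤ L * |x - y| := by
    intro a c L ha hL x hx y hy
    have h1 : Tendsto (fun n => |g n x - g n y|) 𝒰 (𝓝 |g' x - g' y|) :=
      ((hg' x (ha.trans_le hx.1)).sub (hg' y (ha.trans_le hy.1))).abs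
    exact le_of_tendsto h1 ((hL.filter_mono h𝒰).mono fun n hn => hn x hx y hy)
  -- uniform convergence along the ultrafilter
  have hunif : ∀ a c : ℝ, 0 < a → a ≤ c → ∀ η > (0 : ℝ),
      ∀ᶠ n in (𝒰 : Filter ℕ), ∀ D ∈ Icc a c, |g n D - g' D| ≤ η := by
    intro a c ha hac η hη
    obtain ⟨L, hL0, hL⟩ := hlip a c ha hac
    have hL' := hlip' a c L ha hL
    obtain ⟨h, hh⟩ : ∃ h : ℝ, h = η / (3 * (L + 1)) := ⟨_, rfl⟩
    have hh0 : 0 < h := by rw [hh]; positivity
    have hLh : L * h ≤ η / 3 := by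
      have e : (L + 1) * h = η / 3 := by rw [hh]; field_simp
      nlinarith
    obtain ⟨M, hM⟩ : ∃ M : ℕ, M = ⌈(c - a) / h⌉₊ := ⟨_, rfl⟩
    have hnet : ∀ᶠ n in (𝒰 : Filter ℕ), ∀ i ∈ Finset.range (M + 1),
        |g n (a + i * h) - g' (a + i * h)| ≤ η / 3 := by
      rw [eventually_all_finset]
      intro i _
      have hpos : 0 < a + i * h := by positivity
      have h2 := (Metric.tendsto_nhds.1 (hg' _ hpos)) (η / 3) (by positivity)
      exact h2.mono fun n hn => by
        rw [Real.dist_eq] at hn; exact hn.le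
    filter_upwards [hnet, hL.filter_mono h𝒰] with n hn1 hn2 D hD
    obtain ⟨i, hi⟩ : ∃ i : ℕ, i = ⌊(D - a) / h⌋₊ := ⟨_, rfl⟩
    have hDa : 0 ≤ (D - a) / h := div_nonneg (by linarith [hD.1]) hh0.le
    have hi1 : a + i * h ≤ D := by
      have : (i : ℝ) ≤ (D - a) / h := by rw [hi]; exact Nat.floor_le hDa
      rw [le_div_iff₀ hh0] at this
      linarith
    have hi2 : D < a + ((i : ℝ) + 1) * h := by
      have : (D - a) / h < (i : ℝ) + 1 := by rw [hi]; exact Nat.lt_floor_add_one _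
      rw [div_lt_iff₀ hh0] at this
      linarith
    have hiM : i ∈ Finset.range (M + 1) := by
      rw [Finset.mem_range, Nat.lt_succ_iff, hi, hM]
      refine (Nat.floor_le_floor ?_).trans (Nat.floor_le_ceil _)
      exact div_le_div_of_nonneg_right (by linarith [hD.2]) hh0.le
    have hih : 0 ≤ (i : ℝ) * h := by positivity
    have ht : a + i * h ∈ Icc a c := ⟨by linarith, hi1.trans hD.2⟩
    have e1 := hn2 D hD _ ht
    have e2 := hn1 i hiM
    have e3 := hL' _ ht D hD
    have hd : |D - (a + i * h)| ≤ h := by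
      rw [abs_of_nonneg (by linarith)]; linarith
    have hd' : |a + i * h - D| ≤ h := by rw [abs_sub_comm]; exact hd
    have f1 : L * |D - (a + i * h)| ≤ η / 3 := (mul_le_mul_of_nonneg_left hd hL0).trans hLh
    have f3 : L * |a + i * h - D| ≤ η / 3 := (mul_le_mul_of_nonneg_left hd' hL0).trans hLh
    calc |g n D - g' D| = |(g n D - g n (a + i * h)) + (g n (a + i * h) - g' (a + i * h)) +
          (g' (a + i * h) - g' D)| := by congr 1; ring
      _ ≤ |g n D - g n (a + i * h)| + |g n (a + i * h) - g' (a + i * h)| +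
          |g' (a + i * h) - g' D| := abs_add_three _ _ _
      _ ≤ η := by linarith
  -- extraction of a subsequence
  have hfreq : ∀ k : ℕ, ∃ᶠ n in atTop, ∀ D ∈ Icc (1 / ((k : ℝ) + 1)) ((k : ℝ) + 1),
      |g n D - g' D| ≤ 1 / ((k : ℝ) + 1) := by
    intro k
    have hk : (0 : ℝ) < (k : ℝ) + 1 := by positivity
    have h1 : 1 / ((k : ℝ) + 1) ≤ (k : ℝ) + 1 := by
      rw [div_le_iff₀ hk]; nlinarith
    exact ((hunif _ _ (by positivity) h1 _ (by positivity)).frequently).filter_mono h𝒰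
  obtain ⟨φ, hφ, hφp⟩ := extraction_forall_of_frequently hfreq
  refine ⟨φ, g', hφ, hconv', fun a c ha hac η hη => ?_⟩
  filter_upwards [eventually_ge_atTop ⌈1 / a⌉₊, eventually_ge_atTop ⌈c⌉₊,
    eventually_ge_atTop ⌈1 / η⌉₊] with k hk1 hk2 hk3 D hD
  have hk1' : 1 / a ≤ (k : ℝ) := (Nat.le_ceil _).trans (by exact_mod_cast hk1)
  have hk2' : c ≤ (k : ℝ) := (Nat.le_ceil _).trans (by exact_mod_cast hk2)
  have hk3' : 1 / η ≤ (k : ℝ) := (Nat.le_ceil _).trans (by exact_mod_cast hk3)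
  have hk : (0 : ℝ) < (k : ℝ) + 1 := by positivity
  have g1 : 1 / ((k : ℝ) + 1) ≤ a := by
    rw [div_le_iff₀ hk]
    rw [div_le_iff₀ ha] at hk1'
    nlinarith
  have g3 : 1 / ((k : ℝ) + 1) ≤ η := by
    rw [div_le_iff₀ hk]
    rw [div_le_iff₀ hη] at hk3'
    nlinarith
  exact (hφp k D ⟨g1.trans hD.1, by linarith [hD.2]⟩).trans g3

end Claimed.Agent.R269
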