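/-
Row 269, UNIT S9b1 (P1 Lemma 9.4), LEAF PACKAGE LF-S9b-pick.   Blueprint: helper149.   HOST-FREE (Mathlib only).

SIZE-BIASED SELECTION WITHOUT PROBABILITY.   The paper samples `x` with density `Hf` and uses Markov's inequality for the variables `Φ i / Hf`.  Equivalent deterministic statement:
`Ψ := ∑_{i ≤ J} 2^{-(i+2)} Φ i/(m i + ε)`, `m i` = mean of `Φ i`;  the mean of `Ψ` is `≤ ∑ 2^{-(i+2)} ≤ 1/2`.   If `Hf x < 1/4 + Ψ x` for all `x ∈ [0,2π]`, then (integrate) `1 ≤ 1/4 + 1/2`.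
So there is `x` with `Hf x ≥ 1/4 + Ψ x`; every term of `Ψ x` is `≤ Ψ x ≤ Hf x`.
-/
import Mathlib

set_option autoImplicit false

namespace Claimed.Agent.R269

open Complex Filter Topology MeasureTheory Set Metric
open scoped ENNReal Real

theorem s9b_pick_geom (n : ℕ) : ∑ i ∈ Finset.range n, ((2 : ℝ) ^ (i + 2))⁻¹ = 1 / 2 - (2 ^ (n + 1))⁻¹ := by
  induction n with
  | zero => norm_num
  | succ n ih =>
    rw [Finset.sum_range_succ, ih]
    have : (2 : ℝ) ^ (n + 1 + 1) = 2 * 2 ^ (n + 1) := by ring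
    rw [this]
    have : (0 : ℝ) < 2 ^ (n + 1) := by positivity
    field_simp
    ring

/-- LEAF: deterministic size-biased selection. -/
theorem s9b_pick (Hf : ℝ → ℝ) (Φ : ℕ → ℝ → ℝ) (J : ℕ) (ε : ℝ) (hε : 0 < ε) (hH : Continuous Hf)
    (hΦ : ∀ i, Continuous (Φ i)) (hΦ0 : ∀ i x, 0 ≤ Φ i x)
    (hmean : (2 * π)⁻¹ * ∫ x in (0 : ℝ)..(2 * π), Hf x = 1) :
    ∃ x ∈ Icc (0 : ℝ) (2 * π), 1 / 4 ≤ Hf x ∧
      ∀ i ≤ J, Φ i x ≤ 2 ^ (i + 2) * ((2 * π)⁻¹ * (∫ y in (0 : ℝ)..(2 * π), Φ i y) + ε) * Hf x := by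
  have h2π : (0 : ℝ) < 2 * π := by positivity
  obtain ⟨m, hm⟩ : ∃ m : ℕ → ℝ, m = fun i => (2 * π)⁻¹ * (∫ y in (0 : ℝ)..(2 * π), Φ i y) := ⟨_, rfl⟩
  have hm0 : ∀ i, 0 ≤ m i := by
    intro i
    rw [hm]
    exact mul_nonneg (by positivity) (intervalIntegral.integral_nonneg h2π.le (fun x _ => hΦ0 i x))
  have hmi : ∀ i, (∫ y in (0 : ℝ)..(2 * π), Φ i y) = 2 * π * m i := by
    intro i; rw [hm]; field_simp
  obtain ⟨Ψ, hΨ⟩ : ∃ Ψ : ℝ → ℝ, Ψ = fun x => ∑ i ∈ Finset.range (J + 1),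
      ((2 : ℝ) ^ (i + 2))⁻¹ * (m i + ε)⁻¹ * Φ i x := ⟨_, rfl⟩
  have hΨc : Continuous Ψ := by
    rw [hΨ]
    exact continuous_finsetSum _ (fun i _ => (hΦ i).const_mul _)
  have hterm : ∀ i x, 0 ≤ ((2 : ℝ) ^ (i + 2))⁻¹ * (m i + ε)⁻¹ * Φ i x := by
    intro i x
    have := hm0 i
    have := hΦ0 i x
    positivity
  have hΨint : ∫ x in (0 : ℝ)..(2 * π), Ψ x ≤ 2 * π * (1 / 2) := by
    rw [hΨ, intervalIntegral.integral_finsetSum
      (fun i _ => ((hΦ i).const_mul _).intervalIntegrable _ _)]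
    calc ∑ i ∈ Finset.range (J + 1), ∫ x in (0 : ℝ)..(2 * π), ((2 : ℝ) ^ (i + 2))⁻¹ * (m i + ε)⁻¹ * Φ i x
        ≤ ∑ i ∈ Finset.range (J + 1), 2 * π * ((2 : ℝ) ^ (i + 2))⁻¹ := by
          apply Finset.sum_le_sum
          intro i _
          rw [intervalIntegral.integral_const_mul, hmi]
          have h1 := hm0 i
          have h2 : (m i + ε)⁻¹ * m i ≤ 1 := by
            rw [inv_mul_le_iff₀ (by linarith)]; linarith
          calc ((2 : ℝ) ^ (i + 2))⁻¹ * (m i + ε)⁻¹ * (2 * π * m i)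
              = 2 * π * ((2 : ℝ) ^ (i + 2))⁻¹ * ((m i + ε)⁻¹ * m i) := by ring
            _ ≤ 2 * π * ((2 : ℝ) ^ (i + 2))⁻¹ * 1 := mul_le_mul_of_nonneg_left h2 (by positivity)
            _ = _ := mul_one _
      _ = 2 * π * (1 / 2 - (2 ^ (J + 1 + 1))⁻¹) := by rw [← Finset.mul_sum, s9b_pick_geom]
      _ ≤ 2 * π * (1 / 2) := by
          apply mul_le_mul_of_nonneg_left _ h2π.le
          have : (0 : ℝ) < (2 ^ (J + 1 + 1))⁻¹ := by positivity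
          linarith
  have hex : ∃ x ∈ Icc (0 : ℝ) (2 * π), 1 / 4 + Ψ x ≤ Hf x := by
    by_contra hcon
    push Not at hcon
    have h1 : ∫ x in (0 : ℝ)..(2 * π), Hf x ≤ ∫ x in (0 : ℝ)..(2 * π), (1 / 4 + Ψ x) :=
      intervalIntegral.integral_mono_on h2π.le (hH.intervalIntegrable _ _)
        ((continuous_const.add hΨc).intervalIntegrable _ _) (fun x hx => (hcon x hx).le)
    rw [intervalIntegral.integral_add (continuous_const.intervalIntegrable _ _)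
      (hΨc.intervalIntegrable _ _), intervalIntegral.integral_const] at h1
    have h2 : ∫ x in (0 : ℝ)..(2 * π), Hf x = 2 * π := by
      field_simp at hmean
      linarith
    rw [h2] at h1
    simp only [sub_zero, smul_eq_mul] at h1
    nlinarith
  obtain ⟨x, hx, hxx⟩ := hex
  have hΨ0 : 0 ≤ Ψ x := by
    rw [hΨ]; exact Finset.sum_nonneg (fun i _ => hterm i x)
  refine ⟨x, hx, by linarith, ?_⟩
  intro i hi
  have h1 : ((2 : ℝ) ^ (i + 2))⁻¹ * (m i + ε)⁻¹ * Φ i x ≤ Ψ x := by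
    rw [hΨ]
    exact Finset.single_le_sum (f := fun i => ((2 : ℝ) ^ (i + 2))⁻¹ * (m i + ε)⁻¹ * Φ i x)
      (fun i _ => hterm i x) (Finset.mem_range.2 (by omega))
  have h2 : ((2 : ℝ) ^ (i + 2))⁻¹ * (m i + ε)⁻¹ * Φ i x ≤ Hf x := by linarith
  have h3 : 0 < m i + ε := by linarith [hm0 i]
  have h4 : (2 * π)⁻¹ * (∫ y in (0 : ℝ)..(2 * π), Φ i y) = m i := by rw [hm]
  rw [h4]
  have h5 : (0 : ℝ) < 2 ^ (i + 2) := by positivity
  calc Φ i x = 2 ^ (i + 2) * (m i + ε) * (((2 : ℝ) ^ (i + 2))⁻¹ * (m i + ε)⁻¹ * Φ i x) := by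
        field_simp
    _ ≤ 2 ^ (i + 2) * (m i + ε) * Hf x := mul_le_mul_of_nonneg_left h2 (by positivity)

end Claimed.Agent.R269
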